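import Vale.Agent.P140.MathlibUsed2

set_option linter.all false

section

/-!
Definitions for P140: renormalized entropy solutions of the periodic hard-sphere Boltzmann equation.
-/

open MeasureTheory Set Filter
open scoped ENNReal Topology

noncomputable section

namespace Vale.Agent.P140

/-- velocity space `ℝ³` -/
abbrev V := EuclideanSpace ℝ (Fin 3)

/-- the torus `ℝ³ / ℤ³`, with its Haar measure of total mass one -/
abbrev T3 := UnitAddTorus (Fin 3)

/-- the unit sphere of `ℝ³` -/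
abbrev S2 := Metric.sphere (0 : V) 1

/-- surface measure on the unit sphere -/
def surf : Measure S2 := (volume : Measure V).toSphere

/-- the projection `ℝ³ → ℝ³ / ℤ³` -/
def toTorus (x : V) : T3 := fun i => ((x i : ℝ) : UnitAddCircle)

/-- `a = (v - w) ⬝ ω` -/
def relA (v w : V) (ω : S2) : ℝ := inner ℝ (v - w) (ω : V)

/-- post-collisional velocity `v' = v - a ω` -/
def post (v w : V) (ω : S2) : V := v - relA v w ω • (ω : V)

/-- post-collisional velocity `w' = w + a ω` -/
def postStar (v w : V) (ω : S2) : V := w + relA v w ω • (ω : V)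

/-- gain term `Q⁺(g,g)(v)`, a value in `[0,∞]` -/
def gain (g : V → ℝ) (v : V) : ℝ≥0∞ :=
  ∫⁻ w : V, ∫⁻ ω : S2, ENNReal.ofReal (|relA v w ω| * (g (post v w ω) * g (postStar v w ω))) ∂surf

/-- loss term `Q⁻(g,g)(v)`, a value in `[0,∞]` -/
def loss (g : V → ℝ) (v : V) : ℝ≥0∞ :=
  ∫⁻ w : V, ∫⁻ ω : S2, ENNReal.ofReal (|relA v w ω| * (g v * g w)) ∂surf

/-- collision term `Q(g,g)(v) = Q⁺(g,g)(v) - Q⁻(g,g)(v)` (used where both are finite) -/
def coll (g : V → ℝ) (v : V) : ℝ := (gain g v).toReal - (loss g v).toReal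

/-- the normalized Maxwellian `M(v) = (2π)^(-3/2) exp(-|v|²/2)` -/
def Maxw (v : V) : ℝ := (2 * Real.pi) ^ (-(3 / 2) : ℝ) * Real.exp (-(‖v‖ ^ 2 / 2))

/-- relative entropy `∫_Ω (F log (F/M) - F + M)`; the integrand is nonnegative -/
def relEntropy (f : T3 → V → ℝ) : ℝ≥0∞ :=
  ∫⁻ x : T3, ∫⁻ v : V, ENNReal.ofReal (f x v * Real.log (f x v / Maxw v) - f x v + Maxw v)

/-- `(p - q) log (p / q)` for `p, q > 0`, extended by lower semicontinuity to `p, q ≥ 0`:
`0` at `p = q = 0` and `∞` when exactly one of `p, q` vanishes -/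
def dissDensity (p q : ℝ) : ℝ≥0∞ :=
  if 0 < p ∧ 0 < q then ENNReal.ofReal ((p - q) * Real.log (p / q)) else if p = q then 0 else ⊤

/-- entropy dissipation `D(F)` -/
def dissipation (f : T3 → V → ℝ) : ℝ≥0∞ :=
  (1 / 4) * ∫⁻ x : T3, ∫⁻ v : V, ∫⁻ w : V, ∫⁻ ω : S2,
    ENNReal.ofReal |relA v w ω| *
      dissDensity (f x (post v w ω) * f x (postStar v w ω)) (f x v * f x w) ∂surf

/-- a datum: `F₀ ≥ 0` measurable with `∫_Ω F₀ (1 + |v|² + |log F₀|) < ∞`
(`Real.log 0 = 0`, so `0 |log 0| = 0`) -/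
structure IsDatum (F0 : T3 → V → ℝ) : Prop where
  measurable : Measurable fun p : T3 × V => F0 p.1 p.2
  nonneg : ∀ x v, 0 ≤ F0 x v
  finite : ∫⁻ p : T3 × V, ENNReal.ofReal
    (F0 p.1 p.2 * (1 + ‖p.2‖ ^ 2 + |Real.log (F0 p.1 p.2)|)) < ⊤

/-- test functions on `ℝ × T3 × V`: smooth with compact support
(smoothness is that of the lift to `ℝ × ℝ³ × ℝ³`); their restrictions to `t ≥ 0` are the test
functions on `[0,∞) × T3 × V` -/
structure IsTest (φ : ℝ → T3 → V → ℝ) : Prop where
  smooth : ContDiff ℝ (⊤ : ℕ∞) fun p : ℝ × V × V => φ p.1 (toTorus p.2.1) p.2.2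
  compact : ∃ R : ℝ, ∀ t x v, R < |t| ∨ R < ‖v‖ → φ t x v = 0

/-- test functions on `ℝ × T3` -/
structure IsTestX (φ : ℝ → T3 → ℝ) : Prop where
  smooth : ContDiff ℝ (⊤ : ℕ∞) fun p : ℝ × V => φ p.1 (toTorus p.2)
  compact : ∃ R : ℝ, ∀ t x, R < |t| → φ t x = 0

/-- the transport derivative `(∂ₜ + v ⬝ ∇ₓ) φ` of a test function, i.e. its derivative along
`s ↦ (t + s, x + s v)` at `s = 0` -/
def transport (φ : ℝ → T3 → ℝ) (t : ℝ) (x : T3) (v : V) : ℝ :=
  deriv (fun s : ℝ => φ (t + s) (x + toTorus (s • v))) 0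

/-- `(∂ₜ + v ⬝ ∇ₓ) U = R` in distributions on `[0,∞) × T3 × V` with initial value `U0` -/
def WeakTransport (U R : ℝ → T3 → V → ℝ) (U0 : T3 → V → ℝ) : Prop :=
  ∀ φ : ℝ → T3 → V → ℝ, IsTest φ →
    (∫ p : ℝ × T3 × V in Ioi 0 ×ˢ univ,
      (U p.1 p.2.1 p.2.2 * transport (fun t x => φ t x p.2.2) p.1 p.2.1 p.2.2
        + R p.1 p.2.1 p.2.2 * φ p.1 p.2.1 p.2.2))
      + ∫ p : T3 × V, U0 p.1 p.2 * φ 0 p.1 p.2 = 0

/-- renormalized entropy solution with datum `F0` -/
structure IsRenormEntropySol (F0 : T3 → V → ℝ) (F : ℝ → T3 → V → ℝ) : Prop where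
  datum : IsDatum F0
  measurable : Measurable fun p : ℝ × T3 × V => F p.1 p.2.1 p.2.2
  nonneg : ∀ t x v, 0 ≤ F t x v
  /-- (i) weak continuity into `L¹(Ω)`, initial value, and local boundedness of
  `∫_Ω F (1 + |v|² + |log F|)` -/
  integrable : ∀ t, 0 ≤ t → Integrable fun p : T3 × V => F t p.1 p.2
  weak_cont : ∀ θ : T3 × V → ℝ, Measurable θ → (∃ C, ∀ p, |θ p| ≤ C) →
    ContinuousOn (fun t => ∫ p : T3 × V, F t p.1 p.2 * θ p) (Ici 0)
  initial : ∀ᵐ p : T3 × V, F 0 p.1 p.2 = F0 p.1 p.2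
  bounded : ∀ T : ℝ, ∃ C : ℝ≥0∞, C < ⊤ ∧ ∀ t ∈ Icc 0 T, ∫⁻ p : T3 × V, ENNReal.ofReal
    (F t p.1 p.2 * (1 + ‖p.2‖ ^ 2 + |Real.log (F t p.1 p.2)|)) ≤ C
  /-- (ii) `Q^± / (1 + G) ∈ L¹([0,T] × Ω)` with `G = F / M`, and the renormalized equation -/
  gain_int : ∀ T : ℝ, ∫⁻ p : ℝ × T3 × V in Icc 0 T ×ˢ univ,
    gain (F p.1 p.2.1) p.2.2 / ENNReal.ofReal (1 + F p.1 p.2.1 p.2.2 / Maxw p.2.2) < ⊤
  loss_int : ∀ T : ℝ, ∫⁻ p : ℝ × T3 × V in Icc 0 T ×ˢ univ,
    loss (F p.1 p.2.1) p.2.2 / ENNReal.ofReal (1 + F p.1 p.2.1 p.2.2 / Maxw p.2.2) < ⊤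
  renorm : ∀ β : ℝ → ℝ, ContDiffOn ℝ 1 β (Ici 0) → β 0 = 0 →
    (∃ C, ∀ z, 0 ≤ z → |derivWithin β (Ici 0) z| ≤ C / (1 + z)) →
    WeakTransport (fun t x v => Maxw v * β (F t x v / Maxw v))
      (fun t x v => derivWithin β (Ici 0) (F t x v / Maxw v) * coll (F t x) v)
      (fun x v => Maxw v * β (F0 x v / Maxw v))
  /-- (iii) local conservation of mass, global conservation of momentum, energy inequality and
  entropy inequality -/
  mass : ∀ φ : ℝ → T3 → ℝ, IsTestX φ →
    (∫ p : ℝ × T3 × V in Ioi 0 ×ˢ univ, F p.1 p.2.1 p.2.2 * transport φ p.1 p.2.1 p.2.2)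
      + ∫ p : T3 × V, F0 p.1 p.2 * φ 0 p.1 = 0
  momentum : ∀ t, 0 ≤ t → ∫ p : T3 × V, F t p.1 p.2 • p.2 = ∫ p : T3 × V, F 0 p.1 p.2 • p.2
  energy : ∀ t, 0 ≤ t → ∫⁻ p : T3 × V, ENNReal.ofReal (‖p.2‖ ^ 2 * F t p.1 p.2)
    ≤ ∫⁻ p : T3 × V, ENNReal.ofReal (‖p.2‖ ^ 2 * F0 p.1 p.2)
  entropy : ∀ t, 0 ≤ t → relEntropy (F t) + ∫⁻ s in Ioc 0 t, dissipation (F s) ≤ relEntropy F0

end Vale.Agent.P140
end
end

section

open MeasureTheory Set

namespace Vale.Agent.P140

instance : IsFiniteMeasure surf := by unfold surf; infer_instance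

theorem norm_o (o : S2) : ‖(o : V)‖ = 1 := by
  simp

theorem inner_oo (o : S2) : inner ℝ (o : V) (o : V) = (1 : ℝ) := by
  rw [real_inner_self_eq_norm_sq, norm_o]; norm_num

theorem relA_post (v w : V) (o : S2) : relA (post v w o) (postStar v w o) o = - relA v w o := by
  unfold post postStar
  have : v - relA v w o • (o : V) - (w + relA v w o • (o : V)) = (v - w) - (2 * relA v w o) • (o : V) := by
    module
  unfold relA at *
  rw [this, inner_sub_left, inner_smul_left, inner_oo]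
  simp
  ring

theorem relA_swap (v w : V) (o : S2) : relA w v o = - relA v w o := by
  unfold relA
  rw [← neg_sub v w, inner_neg_left]

theorem post_swap (v w : V) (o : S2) : post w v o = postStar v w o := by
  unfold post postStar
  rw [relA_swap]; module

theorem postStar_swap (v w : V) (o : S2) : postStar w v o = post v w o := by
  unfold post postStar
  rw [relA_swap]; module

theorem post_post (v w : V) (o : S2) : post (post v w o) (postStar v w o) o = v := by
  have h := relA_post v w o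
  have h2 : post (post v w o) (postStar v w o) o
      = post v w o - relA (post v w o) (postStar v w o) o • (o : V) := rfl
  rw [h2, h]
  unfold post
  module

theorem postStar_post (v w : V) (o : S2) : postStar (post v w o) (postStar v w o) o = w := by
  have h := relA_post v w o
  have h2 : postStar (post v w o) (postStar v w o) o
      = postStar v w o + relA (post v w o) (postStar v w o) o • (o : V) := rfl
  rw [h2, h]
  unfold postStar
  module

theorem energy_post (v w : V) (o : S2) :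
    ‖post v w o‖ ^ 2 + ‖postStar v w o‖ ^ 2 = ‖v‖ ^ 2 + ‖w‖ ^ 2 := by
  unfold post postStar
  rw [@norm_sub_sq_real, @norm_add_sq_real, norm_smul, norm_o, inner_smul_right, inner_smul_right]
  have : relA v w o = inner ℝ v (o : V) - inner ℝ w (o : V) := by
    unfold relA; rw [inner_sub_left]
  simp only [mul_one, Real.norm_eq_abs, sq_abs]
  rw [this]; ring

theorem momentum_post (v w : V) (o : S2) : post v w o + postStar v w o = v + w := by
  unfold post postStar; module

theorem abs_relA_le (v w : V) (o : S2) : |relA v w o| ≤ ‖v‖ + ‖w‖ := by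
  unfold relA
  calc |inner ℝ (v - w) (o : V)| ≤ ‖v - w‖ * ‖(o : V)‖ := abs_real_inner_le_norm _ _
    _ = ‖v - w‖ := by rw [norm_o, mul_one]
    _ ≤ ‖v‖ + ‖w‖ := norm_sub_le _ _

theorem measurable_relA : Measurable fun p : V × V × S2 => relA p.1 p.2.1 p.2.2 := by
  unfold relA
  apply Continuous.measurable
  fun_prop

theorem continuous_post : Continuous fun p : V × V × S2 => post p.1 p.2.1 p.2.2 := by
  unfold post relA
  fun_prop

theorem continuous_postStar : Continuous fun p : V × V × S2 => postStar p.1 p.2.1 p.2.2 := by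
  unfold postStar relA
  fun_prop

theorem measurable_post : Measurable fun p : V × V × S2 => post p.1 p.2.1 p.2.2 :=
  continuous_post.measurable

theorem measurable_postStar : Measurable fun p : V × V × S2 => postStar p.1 p.2.1 p.2.2 :=
  continuous_postStar.measurable

/-- the collision map for a fixed direction, as a linear map -/
noncomputable def collLin (o : S2) : (V × V) →ₗ[ℝ] (V × V) where
  toFun p := (post p.1 p.2 o, postStar p.1 p.2 o)
  map_add' p q := by
    unfold post postStar relA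
    ext1
    · simp only [Prod.fst_add, Prod.snd_add]
      rw [show p.1 + q.1 - (p.2 + q.2) = (p.1 - p.2) + (q.1 - q.2) by abel, inner_add_left]
      module
    · simp only [Prod.fst_add, Prod.snd_add]
      rw [show p.1 + q.1 - (p.2 + q.2) = (p.1 - p.2) + (q.1 - q.2) by abel, inner_add_left]
      module
  map_smul' c p := by
    unfold post postStar relA
    ext1
    · simp only [Prod.smul_fst, Prod.smul_snd, RingHom.id_apply]
      rw [← smul_sub, inner_smul_left]
      simp only [conj_trivial]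
      module
    · simp only [Prod.smul_fst, Prod.smul_snd, RingHom.id_apply]
      rw [← smul_sub, inner_smul_left]
      simp only [conj_trivial]
      module

theorem collLin_apply (o : S2) (p : V × V) :
    collLin o p = (post p.1 p.2 o, postStar p.1 p.2 o) := rfl

theorem collLin_sq (o : S2) : collLin o * collLin o = 1 := by
  ext1 <;> ext1 p
  all_goals
    simp only [LinearMap.coe_comp, Function.comp_apply, Module.End.mul_apply, collLin_apply,
      post_post, postStar_post, Module.End.one_apply]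

theorem det_collLin (o : S2) : |LinearMap.det (collLin o)| = 1 := by
  have h := congrArg LinearMap.det (collLin_sq o)
  rw [map_mul, map_one] at h
  have h2 : |LinearMap.det (collLin o)| * |LinearMap.det (collLin o)| = 1 := by
    rw [← abs_mul, h, abs_one]
  nlinarith [abs_nonneg (LinearMap.det (collLin o))]

theorem measurePreserving_coll (o : S2) :
    MeasurePreserving (fun p : V × V => (post p.1 p.2 o, postStar p.1 p.2 o))
      (volume.prod volume) (volume.prod volume) := by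
  have hd := det_collLin o
  have hne : LinearMap.det (collLin o) ≠ 0 := by
    intro h; rw [h] at hd; simp at hd
  refine ⟨?_, ?_⟩
  · exact ((collLin o).continuous_of_finiteDimensional).measurable
  · have h := Measure.map_linearMap_addHaar_eq_smul_addHaar
      ((volume : Measure V).prod (volume : Measure V)) hne
    rw [abs_inv, hd] at h
    simp only [inv_one, ENNReal.ofReal_one, one_smul] at h
    exact h

/-- change of variables (v,w,o) -> (v',w',o) -/
theorem lintegral_coll {H : V × V × S2 → ENNReal} (hH : Measurable H) :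
    ∫⁻ v, ∫⁻ w, ∫⁻ o, H (post v w o, postStar v w o, o) ∂surf =
      ∫⁻ v, ∫⁻ w, ∫⁻ o, H (v, w, o) ∂surf := by
  have hpost : Measurable fun p : V × V × S2 =>
      H (post p.1 p.2.1 p.2.2, postStar p.1 p.2.1 p.2.2, p.2.2) := by
    apply hH.comp
    exact measurable_post.prodMk (measurable_postStar.prodMk (measurable_snd.comp measurable_snd))
  have key : ∀ K : V × V × S2 → ENNReal, Measurable K →
      ∫⁻ v, ∫⁻ w, ∫⁻ o, K (v, w, o) ∂surf =
        ∫⁻ o, ∫⁻ p : V × V, K (p.1, p.2, o) ∂(volume.prod volume) ∂surf := by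
    intro K hK
    have hK' : Measurable fun q : (V × V) × S2 => K (q.1.1, q.1.2, q.2) := by
      apply hK.comp
      fun_prop
    rw [← lintegral_lintegral_swap (f := fun (p : V × V) (o : S2) => K (p.1, p.2, o))
      hK'.aemeasurable]
    rw [lintegral_prod (fun p : V × V => ∫⁻ o, K (p.1, p.2, o) ∂surf)
      (Measurable.lintegral_prod_right' (f := fun q : (V × V) × S2 => K (q.1.1, q.1.2, q.2)) hK').aemeasurable]
  rw [key H hH, key (fun p => H (post p.1 p.2.1 p.2.2, postStar p.1 p.2.1 p.2.2, p.2.2)) hpost]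
  apply lintegral_congr
  intro o
  have hHo : Measurable fun p : V × V => H (p.1, p.2, o) := by
    apply hH.comp
    fun_prop
  exact (measurePreserving_coll o).lintegral_comp hHo

/-- swap of the two colliding particles -/
theorem lintegral_swap {H : V × V × S2 → ENNReal} (hH : Measurable H) :
    ∫⁻ v, ∫⁻ w, ∫⁻ o, H (w, v, o) ∂surf =
      ∫⁻ v, ∫⁻ w, ∫⁻ o, H (v, w, o) ∂surf := by
  have hH' : Measurable fun q : (V × V) × S2 => H (q.1.1, q.1.2, q.2) := by
    apply hH.comp
    fun_prop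
  rw [lintegral_lintegral_swap (f := fun (v w : V) => ∫⁻ o, H (v, w, o) ∂surf)
    (Measurable.lintegral_prod_right' (f := fun q : (V × V) × S2 => H (q.1.1, q.1.2, q.2)) hH').aemeasurable]

/-- the kernel `|a|` as an extended nonnegative number -/
noncomputable def kk (v w : V) (o : S2) : ENNReal := ENNReal.ofReal |relA v w o|

theorem measurable_kk : Measurable fun p : V × V × S2 => kk p.1 p.2.1 p.2.2 := by
  unfold kk
  exact ENNReal.measurable_ofReal.comp (measurable_relA.abs)

theorem kk_post (v w : V) (o : S2) : kk (post v w o) (postStar v w o) o = kk v w o := by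
  unfold kk; rw [relA_post, abs_neg]

/-- change of variables with kernel -/
theorem lintegral_kk_post {P : V × V × V × V → ENNReal} (hP : Measurable P) :
    ∫⁻ v, ∫⁻ w, ∫⁻ o, kk v w o * P (v, w, post v w o, postStar v w o) ∂surf =
      ∫⁻ v, ∫⁻ w, ∫⁻ o, kk v w o * P (post v w o, postStar v w o, v, w) ∂surf := by
  have hm : Measurable fun q : V × V × S2 =>
      kk q.1 q.2.1 q.2.2 * P (q.1, q.2.1, post q.1 q.2.1 q.2.2, postStar q.1 q.2.1 q.2.2) := by
    apply measurable_kk.mul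
    apply hP.comp
    exact measurable_fst.prodMk ((measurable_fst.comp measurable_snd).prodMk
      (measurable_post.prodMk measurable_postStar))
  have h := lintegral_coll hm
  simp only [kk_post, post_post, postStar_post] at h
  exact h.symm

end Vale.Agent.P140
end

section

open MeasureTheory Set Filter
open scoped ENNReal Topology NNReal

noncomputable section

namespace Vale.Agent.P140

theorem continuous_toTorus : Continuous toTorus := by
  apply continuous_pi
  intro i
  exact (AddCircle.continuous_mk' (p := (1 : ℝ))).comp (by fun_prop)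

theorem measurable_toTorus : Measurable toTorus := continuous_toTorus.measurable

theorem toTorus_add (x y : V) : toTorus (x + y) = toTorus x + toTorus y := by
  ext i
  simp [toTorus]

theorem toTorus_zero : toTorus 0 = 0 := by
  ext i
  simp [toTorus]

theorem toTorus_neg (x : V) : toTorus (-x) = -toTorus x := by
  have := toTorus_add x (-x)
  rw [add_neg_cancel, toTorus_zero] at this
  exact (neg_eq_of_add_eq_zero_right this.symm).symm

theorem surjective_toTorus : Function.Surjective toTorus := by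
  intro x
  choose f hf using fun i => QuotientAddGroup.mk_surjective (x i)
  refine ⟨WithLp.toLp 2 f, ?_⟩
  ext i
  exact hf i

/-- free streaming -/
def flow (t : ℝ) (p : T3 × V) : T3 × V := (p.1 + toTorus (t • p.2), p.2)

theorem measurable_flow_uncurry : Measurable fun q : ℝ × T3 × V => flow q.1 q.2 := by
  unfold flow
  apply Measurable.prodMk
  · apply Measurable.add
    · fun_prop
    · exact measurable_toTorus.comp (by fun_prop)
  · fun_prop

theorem measurable_flow (t : ℝ) : Measurable (flow t) :=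
  (measurable_flow_uncurry.comp (measurable_const.prodMk measurable_id) :)

theorem flow_flow_neg (t : ℝ) (p : T3 × V) : flow t (flow (-t) p) = p := by
  unfold flow
  ext1
  · simp [toTorus_neg, neg_smul]
  · rfl

theorem flow_neg_flow (t : ℝ) (p : T3 × V) : flow (-t) (flow t p) = p := by
  unfold flow
  ext1
  · simp [toTorus_neg, neg_smul]
  · rfl

theorem lintegral_flow (t : ℝ) {f : T3 × V → ℝ≥0∞} (hf : Measurable f) :
    ∫⁻ p, f (flow t p) = ∫⁻ p, f p := by
  rw [Measure.volume_eq_prod,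
    lintegral_prod_symm (fun p => f (flow t p)) (hf.comp (measurable_flow t)).aemeasurable,
    lintegral_prod_symm f hf.aemeasurable]
  congr 1
  ext v
  unfold flow
  exact lintegral_add_right_eq_self (fun x => f (x, v)) (toTorus (t • v))

theorem measurePreserving_flow (t : ℝ) : MeasurePreserving (flow t) := by
  refine ⟨measurable_flow t, ?_⟩
  ext s hs
  rw [Measure.map_apply (measurable_flow t) hs, ← lintegral_indicator_one hs,
    ← lintegral_indicator_one ((measurable_flow t) hs)]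
  exact lintegral_flow t (measurable_one.indicator hs)

/-- the streaming map on space-time -/
def stFlow (q : ℝ × T3 × V) : ℝ × T3 × V := (q.1, flow q.1 q.2)

theorem measurable_stFlow : Measurable stFlow :=
  measurable_fst.prodMk measurable_flow_uncurry

theorem measurePreserving_stFlow (μ : Measure ℝ) [SFinite μ] :
    MeasurePreserving stFlow (μ.prod volume) (μ.prod volume) := by
  exact (MeasurePreserving.id μ).skew_product measurable_flow_uncurry
    (Eventually.of_forall fun t => (measurePreserving_flow t).map_eq)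

/-- the streaming map on space-time as a measurable equivalence -/
def stFlowEquiv : (ℝ × T3 × V) ≃ᵐ (ℝ × T3 × V) where
  toFun := stFlow
  invFun := fun q => (q.1, flow (-q.1) q.2)
  left_inv := by
    intro q
    simp [stFlow, flow_neg_flow]
  right_inv := by
    intro q
    simp [stFlow, flow_flow_neg]
  measurable_toFun := measurable_stFlow
  measurable_invFun := by
    apply measurable_fst.prodMk
    exact (measurable_flow_uncurry.comp (measurable_fst.neg.prodMk measurable_snd) :)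

theorem measurableEmbedding_stFlow : MeasurableEmbedding stFlow :=
  stFlowEquiv.measurableEmbedding

/-- the streaming map at fixed time as a measurable equivalence -/
def flowEquiv (t : ℝ) : (T3 × V) ≃ᵐ (T3 × V) where
  toFun := flow t
  invFun := flow (-t)
  left_inv := flow_neg_flow t
  right_inv := flow_flow_neg t
  measurable_toFun := measurable_flow t
  measurable_invFun := measurable_flow (-t)

theorem measurableEmbedding_flow (t : ℝ) : MeasurableEmbedding (flow t) :=
  (flowEquiv t).measurableEmbedding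

theorem measurePreserving_stFlow_restrict (s : Set ℝ) :
    MeasurePreserving stFlow (volume.restrict (s ×ˢ univ)) (volume.restrict (s ×ˢ univ)) := by
  have := measurePreserving_stFlow (volume.restrict s)
  rwa [show ((volume.restrict s).prod volume : Measure (ℝ × T3 × V))
      = volume.restrict (s ×ˢ univ) by
    rw [Measure.volume_eq_prod ℝ (T3 × V), ← Measure.prod_restrict, Measure.restrict_univ]] at this

theorem restrict_prod_univ (s : Set ℝ) :
    (volume : Measure (ℝ × T3 × V)).restrict (s ×ˢ univ)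
      = (volume.restrict s).prod (volume : Measure (T3 × V)) := by
  rw [Measure.volume_eq_prod ℝ (T3 × V), ← Measure.prod_restrict, Measure.restrict_univ]

end Vale.Agent.P140
end
end

section

open MeasureTheory Set Filter
open scoped ENNReal Topology NNReal Convolution

noncomputable section

namespace Vale.Agent.P140

variable {P : Type*} [NormedAddCommGroup P] [NormedSpace ℝ P]

end Vale.Agent.P140
end
end

section

open MeasureTheory Set Filter
open scoped ENNReal Topology NNReal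

noncomputable section

namespace Vale.Agent.P140

theorem mFourier_toTorus (n : Fin 3 → ℤ) (x : V) :
    UnitAddTorus.mFourier n (toTorus x)
      = Complex.exp (2 * Real.pi * Complex.I * ∑ j, (n j : ℂ) * (x j : ℂ)) := by
  change ∏ i : Fin 3, fourier (n i) (((x i : ℝ)) : AddCircle (1 : ℝ)) = _
  rw [Finset.mul_sum, Complex.exp_sum]
  apply Finset.prod_congr rfl
  intro i _
  rw [fourier_coe_apply]
  congr 1
  push_cast
  ring

end Vale.Agent.P140
end
end

section

open MeasureTheory Set Filter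
open scoped ENNReal Topology NNReal

noncomputable section

namespace Vale.Agent.P140

instance instFiniteT3 : IsFiniteMeasure (volume : Measure T3) := inferInstance

end Vale.Agent.P140
end
end

section

open MeasureTheory Set Filter
open scoped ENNReal Topology NNReal

noncomputable section

namespace Vale.Agent.P140

theorem ac_comp {f φ : ℝ → ℝ} {a b : ℝ} (hf : AbsolutelyContinuousOnInterval f a b)
    {K : ℝ≥0} (hφ : LipschitzOnWith K φ (f '' uIcc a b)) :
    AbsolutelyContinuousOnInterval (fun x => φ (f x)) a b := by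
  rw [absolutelyContinuousOnInterval_iff] at hf ⊢
  intro ε hε
  obtain ⟨δ, hδ, H⟩ := hf (ε / (K + 1)) (by positivity)
  refine ⟨δ, hδ, fun E hE hlen => ?_⟩
  have h1 := H E hE hlen
  calc ∑ i ∈ Finset.range E.1, dist (φ (f (E.2 i).1)) (φ (f (E.2 i).2))
      ≤ ∑ i ∈ Finset.range E.1, (K + 1) * dist (f (E.2 i).1) (f (E.2 i).2) := by
        apply Finset.sum_le_sum
        intro i hi
        have h2 := hE.1 i hi
        have h3 := hφ.dist_le_mul _ (mem_image_of_mem f h2.1) _ (mem_image_of_mem f h2.2)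
        linarith only [dist_nonneg (x := f (E.2 i).1) (y := f (E.2 i).2), h3]
    _ = (K + 1) * ∑ i ∈ Finset.range E.1, dist (f (E.2 i).1) (f (E.2 i).2) := by
        rw [Finset.mul_sum]
    _ < (K + 1) * (ε / (K + 1)) := by
        apply mul_lt_mul_of_pos_left h1
        positivity
    _ = ε := by field_simp

theorem ac_const (c a b : ℝ) : AbsolutelyContinuousOnInterval (fun _ => c) a b :=
  (contDiffOn_const (n := 1) (c := c) (s := uIcc a b)).absolutelyContinuousOnInterval

theorem ac_primitive {r : ℝ → ℝ} {a b : ℝ} (hr : IntervalIntegrable r volume a b) (c : ℝ) :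
    AbsolutelyContinuousOnInterval (fun t => c + ∫ s in a..t, r s) a b :=
  (ac_const c a b).add (hr.absolutelyContinuousOnInterval_intervalIntegral (by simp))

theorem ae_hasDerivAt_primitive {r : ℝ → ℝ} {a b : ℝ} (hr : IntervalIntegrable r volume a b) (c : ℝ) :
    ∀ᵐ t, t ∈ uIcc a b → HasDerivAt (fun t => c + ∫ s in a..t, r s) (r t) t := by
  filter_upwards [hr.ae_hasDerivAt_integral] with t ht hmem
  exact (ht hmem a (by simp)).const_add c

/-- integration by parts against a test function vanishing at the right end -/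
theorem ibp_primitive {r z θ : ℝ → ℝ} {b : ℝ} (hb : 0 ≤ b) (hr : IntervalIntegrable r volume 0 b)
    (hz : ContDiffOn ℝ 1 z (Icc 0 b)) (hd : ∀ t ∈ Icc 0 b, HasDerivAt z (θ t) t) (hzb : z b = 0)
    (c : ℝ) :
    (∫ t in (0:ℝ)..b, r t * z t) + c * z 0 = -∫ t in (0:ℝ)..b, θ t * (c + ∫ s in (0:ℝ)..t, r s) := by
  have hu : uIcc 0 b = Icc 0 b := uIcc_of_le hb
  have hzac : AbsolutelyContinuousOnInterval z 0 b := by
    apply ContDiffOn.absolutelyContinuousOnInterval
    rwa [hu]
  have h := (ac_primitive hr c).integral_mul_deriv_eq_deriv_mul hzac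
  have h1 : ∫ x in (0:ℝ)..b, (c + ∫ s in (0:ℝ)..x, r s) * deriv z x
      = ∫ t in (0:ℝ)..b, θ t * (c + ∫ s in (0:ℝ)..t, r s) := by
    apply intervalIntegral.integral_congr
    intro t ht
    simp only
    rw [hu] at ht
    rw [(hd t ht).deriv, mul_comm]
  have h2 : ∫ x in (0:ℝ)..b, deriv (fun t => c + ∫ s in (0:ℝ)..t, r s) x * z x
      = ∫ t in (0:ℝ)..b, r t * z t := by
    apply intervalIntegral.integral_congr_ae
    filter_upwards [ae_hasDerivAt_primitive hr c] with t ht hmem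
    rw [(ht (uIoc_subset_uIcc hmem)).deriv]
  rw [h1, h2, hzb] at h
  simp only [mul_zero, intervalIntegral.integral_same, add_zero] at h
  linarith

end Vale.Agent.P140
end
end

section

open MeasureTheory Set Filter
open scoped ENNReal Topology NNReal

noncomputable section

namespace Vale.Agent.P140

end Vale.Agent.P140
end
end

section

open MeasureTheory Set Filter
open scoped ENNReal Topology NNReal

noncomputable section

namespace Vale.Agent.P140

/-- a function evaluated along the free flow -/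
def along (U : ℝ → T3 → V → ℝ) (q : ℝ × T3 × V) : ℝ := U q.1 (q.2.1 + toTorus (q.1 • q.2.2)) q.2.2

theorem along_eq (U : ℝ → T3 → V → ℝ) (q : ℝ × T3 × V) :
    along U q = (fun z : ℝ × T3 × V => U z.1 z.2.1 z.2.2) (stFlow q) := rfl

theorem measurable_along {U : ℝ → T3 → V → ℝ} (hU : Measurable fun q : ℝ × T3 × V => U q.1 q.2.1 q.2.2) :
    Measurable (along U) := hU.comp measurable_stFlow

theorem integrable_along {U : ℝ → T3 → V → ℝ} {μ : Measure ℝ} [SFinite μ]
    (hU : Integrable (fun q : ℝ × T3 × V => U q.1 q.2.1 q.2.2) (μ.prod volume)) :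
    Integrable (along U) (μ.prod volume) :=
  (measurePreserving_stFlow μ).integrable_comp_emb measurableEmbedding_stFlow |>.mpr hU

end Vale.Agent.P140
end
end

section

open MeasureTheory Set Filter
open scoped ENNReal Topology NNReal

noncomputable section

namespace Vale.Agent.P140

theorem measurable_primitive {α : Type*} [MeasurableSpace α] {r : ℝ × α → ℝ} (hr : Measurable r) :
    Measurable (fun q : ℝ × α => ∫ s in Ioc 0 q.1, r (s, q.2)) := by
  have h1 : Measurable fun z : (ℝ × α) × ℝ => (Ioc 0 z.1.1).indicator (fun s => r (s, z.1.2)) z.2 := by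
    have h2 : (fun z : (ℝ × α) × ℝ => (Ioc 0 z.1.1).indicator (fun s => r (s, z.1.2)) z.2)
        = ({z : (ℝ × α) × ℝ | 0 < z.2 ∧ z.2 ≤ z.1.1}).indicator (fun z => r (z.2, z.1.2)) := by
      ext z
      by_cases hz : 0 < z.2 ∧ z.2 ≤ z.1.1
      · rw [Set.indicator_of_mem (show z.2 ∈ Ioc 0 z.1.1 from hz), Set.indicator_of_mem (by exact hz)]
      · rw [Set.indicator_of_notMem (show z.2 ∉ Ioc 0 z.1.1 from hz),
          Set.indicator_of_notMem (by exact hz)]
    rw [h2]
    apply Measurable.indicator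
    · exact hr.comp (by fun_prop)
    · apply MeasurableSet.inter
      · exact measurableSet_lt measurable_const measurable_snd
      · exact measurableSet_le measurable_snd (measurable_fst.comp measurable_fst)
  have h3 : StronglyMeasurable fun q : ℝ × α => ∫ s, (Ioc 0 q.1).indicator (fun s => r (s, q.2)) s :=
    h1.stronglyMeasurable.integral_prod_right
  have h4 : (fun q : ℝ × α => ∫ s in Ioc 0 q.1, r (s, q.2))
      = fun q : ℝ × α => ∫ s, (Ioc 0 q.1).indicator (fun s => r (s, q.2)) s := by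
    ext q
    rw [integral_indicator measurableSet_Ioc]
  rw [h4]
  exact h3.measurable

end Vale.Agent.P140
end
end

section

open MeasureTheory Set Filter
open scoped ENNReal Topology NNReal

noncomputable section

namespace Vale.Agent.P140

section measurability

variable {α : Type*} [MeasurableSpace α]

theorem measurable_gain {f : α → V → ℝ} (hf : Measurable fun q : α × V => f q.1 q.2) :
    Measurable fun q : α × V => gain (f q.1) q.2 := by
  unfold gain
  have h : Measurable fun z : ((α × V) × V) × S2 =>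
      ENNReal.ofReal (|relA z.1.1.2 z.1.2 z.2| * (f z.1.1.1 (post z.1.1.2 z.1.2 z.2)
        * f z.1.1.1 (postStar z.1.1.2 z.1.2 z.2))) := by
    apply ENNReal.measurable_ofReal.comp
    apply Measurable.mul
    · exact (measurable_relA.comp (by fun_prop :
        Measurable fun z : ((α × V) × V) × S2 => (z.1.1.2, z.1.2, z.2))).abs
    · apply Measurable.mul
      · exact hf.comp ((by fun_prop : Measurable fun z : ((α × V) × V) × S2 => z.1.1.1).prodMk
          (measurable_post.comp (by fun_prop :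
            Measurable fun z : ((α × V) × V) × S2 => (z.1.1.2, z.1.2, z.2))))
      · exact hf.comp ((by fun_prop : Measurable fun z : ((α × V) × V) × S2 => z.1.1.1).prodMk
          (measurable_postStar.comp (by fun_prop :
            Measurable fun z : ((α × V) × V) × S2 => (z.1.1.2, z.1.2, z.2))))
  exact (h.lintegral_prod_right' (ν := surf)).lintegral_prod_right'

theorem measurable_loss {f : α → V → ℝ} (hf : Measurable fun q : α × V => f q.1 q.2) :
    Measurable fun q : α × V => loss (f q.1) q.2 := by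
  unfold loss
  have h : Measurable fun z : ((α × V) × V) × S2 =>
      ENNReal.ofReal (|relA z.1.1.2 z.1.2 z.2| * (f z.1.1.1 z.1.1.2 * f z.1.1.1 z.1.2)) := by
    apply ENNReal.measurable_ofReal.comp
    apply Measurable.mul
    · exact (measurable_relA.comp (by fun_prop :
        Measurable fun z : ((α × V) × V) × S2 => (z.1.1.2, z.1.2, z.2))).abs
    · apply Measurable.mul
      · exact hf.comp (by fun_prop : Measurable fun z : ((α × V) × V) × S2 => (z.1.1.1, z.1.1.2))
      · exact hf.comp (by fun_prop : Measurable fun z : ((α × V) × V) × S2 => (z.1.1.1, z.1.2))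
  exact (h.lintegral_prod_right' (ν := surf)).lintegral_prod_right'

end measurability

theorem Maxw_pos (v : V) : 0 < Maxw v := by
  unfold Maxw
  positivity

theorem measurable_Maxw : Measurable Maxw := by
  unfold Maxw
  fun_prop

theorem measurable_gain_st {F : ℝ → T3 → V → ℝ}
    (hF : Measurable fun p : ℝ × T3 × V => F p.1 p.2.1 p.2.2) :
    Measurable fun p : ℝ × T3 × V => gain (F p.1 p.2.1) p.2.2 := by
  have h0 : Measurable fun q : (ℝ × T3) × V => F q.1.1 q.1.2 q.2 :=
    hF.comp (measurable_fst.fst.prodMk (measurable_fst.snd.prodMk measurable_snd))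
  have h : Measurable fun q : (ℝ × T3) × V => gain (F q.1.1 q.1.2) q.2 :=
    measurable_gain (α := ℝ × T3) (f := fun a => F a.1 a.2) h0
  have h2 : Measurable fun p : ℝ × T3 × V => (((p.1, p.2.1), p.2.2) : (ℝ × T3) × V) := by fun_prop
  have h3 := h.comp h2
  have h4 : ((fun q : (ℝ × T3) × V => gain (F q.1.1 q.1.2) q.2) ∘
      fun p : ℝ × T3 × V => (((p.1, p.2.1), p.2.2) : (ℝ × T3) × V))
      = fun p : ℝ × T3 × V => gain (F p.1 p.2.1) p.2.2 := by
    funext p
    rfl
  rw [h4] at h3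
  exact h3

theorem measurable_loss_st {F : ℝ → T3 → V → ℝ}
    (hF : Measurable fun p : ℝ × T3 × V => F p.1 p.2.1 p.2.2) :
    Measurable fun p : ℝ × T3 × V => loss (F p.1 p.2.1) p.2.2 := by
  have h0 : Measurable fun q : (ℝ × T3) × V => F q.1.1 q.1.2 q.2 :=
    hF.comp (measurable_fst.fst.prodMk (measurable_fst.snd.prodMk measurable_snd))
  have h : Measurable fun q : (ℝ × T3) × V => loss (F q.1.1 q.1.2) q.2 :=
    measurable_loss (α := ℝ × T3) (f := fun a => F a.1 a.2) h0
  have h2 : Measurable fun p : ℝ × T3 × V => (((p.1, p.2.1), p.2.2) : (ℝ × T3) × V) := by fun_prop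
  have h3 := h.comp h2
  have h4 : ((fun q : (ℝ × T3) × V => loss (F q.1.1 q.1.2) q.2) ∘
      fun p : ℝ × T3 × V => (((p.1, p.2.1), p.2.2) : (ℝ × T3) × V))
      = fun p : ℝ × T3 × V => loss (F p.1 p.2.1) p.2.2 := by
    funext p
    rfl
  rw [h4] at h3
  exact h3

theorem measurable_coll_st {F : ℝ → T3 → V → ℝ}
    (hF : Measurable fun p : ℝ × T3 × V => F p.1 p.2.1 p.2.2) :
    Measurable fun p : ℝ × T3 × V => coll (F p.1 p.2.1) p.2.2 :=
  (measurable_gain_st hF).ennreal_toReal.sub (measurable_loss_st hF).ennreal_toReal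

/-- gain term along the free flow -/
def gainA (F : ℝ → T3 → V → ℝ) (q : ℝ × T3 × V) : ℝ≥0∞ :=
  gain (F q.1 (q.2.1 + toTorus (q.1 • q.2.2))) q.2.2

/-- loss term along the free flow -/
def lossA (F : ℝ → T3 → V → ℝ) (q : ℝ × T3 × V) : ℝ≥0∞ :=
  loss (F q.1 (q.2.1 + toTorus (q.1 • q.2.2))) q.2.2

theorem measurable_gainA {F : ℝ → T3 → V → ℝ}
    (hF : Measurable fun p : ℝ × T3 × V => F p.1 p.2.1 p.2.2) : Measurable (gainA F) :=
  ((measurable_gain_st hF).comp measurable_stFlow :)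

theorem measurable_lossA {F : ℝ → T3 → V → ℝ}
    (hF : Measurable fun p : ℝ × T3 × V => F p.1 p.2.1 p.2.2) : Measurable (lossA F) :=
  ((measurable_loss_st hF).comp measurable_stFlow :)

section renorm

variable {F0 : T3 → V → ℝ} {F : ℝ → T3 → V → ℝ}

theorem lintegral_F0_lt_top (hF : IsDatum F0) :
    ∫⁻ p : T3 × V, ENNReal.ofReal (F0 p.1 p.2) < ⊤ := by
  refine lt_of_le_of_lt (lintegral_mono fun p => ?_) hF.finite
  apply ENNReal.ofReal_le_ofReal
  have h0 := hF.nonneg p.1 p.2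
  have h1 : 0 ≤ ‖p.2‖ ^ 2 := by positivity
  have h2 : 0 ≤ |Real.log (F0 p.1 p.2)| := abs_nonneg _
  linarith only [mul_nonneg h0 h2, mul_nonneg h0 h1]

end renorm

end Vale.Agent.P140
end
end

section

open MeasureTheory Set Filter
open scoped ENNReal Topology NNReal

noncomputable section

namespace Vale.Agent.P140

/-- `ENNReal.ofReal` of a velocity distribution -/
def eR (f : V → ℝ) (v : V) : ℝ≥0∞ := ENNReal.ofReal (f v)

theorem measurable_eR {f : V → ℝ} (hf : Measurable f) : Measurable (eR f) := hf.ennreal_ofReal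

theorem gain_eq {f : V → ℝ} (hf : ∀ v, 0 ≤ f v) (v : V) :
    gain f v = ∫⁻ w, ∫⁻ o, kk v w o * (eR f (post v w o) * eR f (postStar v w o)) ∂surf := by
  unfold gain kk eR
  apply lintegral_congr; intro w
  apply lintegral_congr; intro o
  rw [ENNReal.ofReal_mul (abs_nonneg _), ENNReal.ofReal_mul (hf _)]

theorem loss_eq {f : V → ℝ} (hf : ∀ v, 0 ≤ f v) (v : V) :
    loss f v = ∫⁻ w, ∫⁻ o, kk v w o * (eR f v * eR f w) ∂surf := by
  unfold loss kk eR
  apply lintegral_congr; intro w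
  apply lintegral_congr; intro o
  rw [ENNReal.ofReal_mul (abs_nonneg _), ENNReal.ofReal_mul (hf _)]

theorem measurable_triple {H : V × V × S2 → ℝ≥0∞} (hH : Measurable H) :
    Measurable fun v => ∫⁻ w, ∫⁻ o, H (v, w, o) ∂surf := by
  have h : Measurable fun z : (V × V) × S2 => H (z.1.1, z.1.2, z.2) := by
    apply hH.comp
    fun_prop
  exact (h.lintegral_prod_right' (ν := surf)).lintegral_prod_right'

theorem measurable_double {H : V × V × S2 → ℝ≥0∞} (hH : Measurable H) (v : V) :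
    Measurable fun w => ∫⁻ o, H (v, w, o) ∂surf := by
  have h : Measurable fun z : V × S2 => H (v, z.1, z.2) := by
    apply hH.comp
    fun_prop
  exact h.lintegral_prod_right' (ν := surf)

theorem measurable_single {H : V × V × S2 → ℝ≥0∞} (hH : Measurable H) (v w : V) :
    Measurable fun o => H (v, w, o) := by
  apply hH.comp
  fun_prop

theorem measurable_lossV {f : V → ℝ} (hf : Measurable f) (hf0 : ∀ v, 0 ≤ f v) :
    Measurable (loss f) := by
  have : loss f = fun v => ∫⁻ w, ∫⁻ o, kk v w o * (eR f v * eR f w) ∂surf := by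
    funext v
    exact loss_eq hf0 v
  rw [this]
  refine measurable_triple (H := fun z => kk z.1 z.2.1 z.2.2 * (eR f z.1 * eR f z.2.1)) ?_
  apply measurable_kk.mul
  exact ((measurable_eR hf).comp measurable_fst).mul ((measurable_eR hf).comp measurable_snd.fst)

end Vale.Agent.P140
end
end

section

open MeasureTheory Set Filter
open scoped ENNReal Topology NNReal

noncomputable section

namespace Vale.Agent.P140

end Vale.Agent.P140
end
end

section

open MeasureTheory Set Filter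
open scoped ENNReal Topology NNReal

noncomputable section

namespace Vale.Agent.P140

/-- the mild representative along the free flow -/
def bar (F0 : T3 → V → ℝ) (F : ℝ → T3 → V → ℝ) (t : ℝ) (p : T3 × V) : ℝ :=
  F0 p.1 p.2 + ∫ s in Ioc 0 t, ((gainA F (s, p)).toReal - (lossA F (s, p)).toReal)

section

variable {T : ℝ} {F0 G0 : T3 → V → ℝ} {F G : ℝ → T3 → V → ℝ}

end

end Vale.Agent.P140
end
end

section

open MeasureTheory Set Filter
open scoped ENNReal Topology NNReal

noncomputable section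

namespace Vale.Agent.P140

variable {T : ℝ} {F0 G0 : T3 → V → ℝ} {F G : ℝ → T3 → V → ℝ} {ψ : V → ℝ≥0∞}

/-- weighted phase space integral of a nonnegative function -/
def wInt (ψ : V → ℝ≥0∞) (f : T3 → V → ℝ) : ℝ≥0∞ :=
  ∫⁻ p : T3 × V, ψ p.2 * ENNReal.ofReal (f p.1 p.2)

/-- weighted `L¹` distance on phase space -/
def wDist (ψ : V → ℝ≥0∞) (f g : T3 → V → ℝ) : ℝ≥0∞ :=
  ∫⁻ p : T3 × V, ψ p.2 * ENNReal.ofReal |f p.1 p.2 - g p.1 p.2|

theorem measurable_slice {F : ℝ → T3 → V → ℝ}
    (hF : Measurable fun p : ℝ × T3 × V => F p.1 p.2.1 p.2.2) (t : ℝ) (x : T3) :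
    Measurable (F t x) :=
  hF.comp (by fun_prop : Measurable fun v : V => (t, x, v))

theorem measurable_loss_slice {F : ℝ → T3 → V → ℝ}
    (hF : Measurable fun p : ℝ × T3 × V => F p.1 p.2.1 p.2.2) (s : ℝ) :
    Measurable fun p : T3 × V => loss (F s p.1) p.2 := by
  have h1 : Measurable fun p : T3 × V => ((s, p) : ℝ × T3 × V) := by fun_prop
  have h := (measurable_loss_st hF).comp h1
  have h4 : ((fun p : ℝ × T3 × V => loss (F p.1 p.2.1) p.2.2) ∘
      fun p : T3 × V => ((s, p) : ℝ × T3 × V)) = fun p : T3 × V => loss (F s p.1) p.2 := by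
    funext p
    rfl
  rw [h4] at h
  exact h

/-- a good time: the mild representative coincides with the solution a.e. -/
def Good (F0 : T3 → V → ℝ) (F : ℝ → T3 → V → ℝ) (t : ℝ) : Prop :=
  ∀ᵐ p : T3 × V, along F (t, p) = bar F0 F t p

end Vale.Agent.P140
end
end

section

open MeasureTheory Set Filter
open scoped ENNReal Topology NNReal

noncomputable section

namespace Vale.Agent.P140

/-- the weight `1` -/
def psi0 (_ : V) : ℝ≥0∞ := 1

/-- the weight `1 + |v|²` -/
def psi2 (v : V) : ℝ≥0∞ := ENNReal.ofReal (1 + ‖v‖ ^ 2)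

theorem measurable_psi0 : Measurable psi0 := measurable_const

theorem measurable_psi2 : Measurable psi2 := by
  unfold psi2
  fun_prop

theorem psi2_ne_top (v : V) : psi2 v ≠ ⊤ := by simp [psi2]

theorem psi0_le_psi2 (v : V) : psi0 v ≤ psi2 v := by
  unfold psi0 psi2
  rw [← ENNReal.ofReal_one]
  apply ENNReal.ofReal_le_ofReal
  linarith only [sq_nonneg ‖v‖]

theorem norm_le_psi2 (v : V) : ENNReal.ofReal ‖v‖ ≤ psi2 v := by
  unfold psi2
  apply ENNReal.ofReal_le_ofReal
  linarith only [norm_nonneg v, sq_nonneg (‖v‖ - 1)]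

/-- collision integral of a product bounded by moments -/
theorem triple_kk_le {a b : V → ℝ≥0∞} (ha : Measurable a) (hb : Measurable b) :
    ∫⁻ v, ∫⁻ w, ∫⁻ o, kk v w o * (a v * b w) ∂surf
      ≤ surf univ * ((∫⁻ v, ENNReal.ofReal ‖v‖ * a v) * (∫⁻ w, b w)
        + (∫⁻ v, a v) * ∫⁻ w, ENNReal.ofReal ‖w‖ * b w) := by
  have hn : Measurable fun w : V => ENNReal.ofReal ‖w‖ := measurable_norm.ennreal_ofReal
  have h1 : ∀ v w, ∫⁻ o, kk v w o * (a v * b w) ∂surf
      ≤ surf univ * ((ENNReal.ofReal ‖v‖ * a v) * b w + a v * (ENNReal.ofReal ‖w‖ * b w)) := by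
    intro v w
    calc ∫⁻ o, kk v w o * (a v * b w) ∂surf
        ≤ ∫⁻ o, ((ENNReal.ofReal ‖v‖ + ENNReal.ofReal ‖w‖) * (a v * b w)) ∂surf := by
          apply lintegral_mono
          intro o
          simp only
          gcongr
          unfold kk
          rw [← ENNReal.ofReal_add (norm_nonneg _) (norm_nonneg _)]
          exact ENNReal.ofReal_le_ofReal (abs_relA_le v w o)
      _ = _ := by
          rw [lintegral_const]
          ring
  calc ∫⁻ v, ∫⁻ w, ∫⁻ o, kk v w o * (a v * b w) ∂surf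
      ≤ ∫⁻ v, ∫⁻ w, surf univ * ((ENNReal.ofReal ‖v‖ * a v) * b w
          + a v * (ENNReal.ofReal ‖w‖ * b w)) :=
        lintegral_mono fun v => lintegral_mono fun w => h1 v w
    _ = _ := by
        have h2 : ∀ v, ∫⁻ w, surf univ * ((ENNReal.ofReal ‖v‖ * a v) * b w
            + a v * (ENNReal.ofReal ‖w‖ * b w))
            = surf univ * ((ENNReal.ofReal ‖v‖ * a v) * (∫⁻ w, b w)
            + a v * ∫⁻ w, ENNReal.ofReal ‖w‖ * b w) := by
          intro v
          have k1 : Measurable fun w => (ENNReal.ofReal ‖v‖ * a v) * b w := measurable_const.mul hb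
          have k2 : Measurable fun w : V => ENNReal.ofReal ‖w‖ * b w := hn.mul hb
          have k3 : Measurable fun w => (ENNReal.ofReal ‖v‖ * a v) * b w
              + a v * (ENNReal.ofReal ‖w‖ * b w) := k1.add (measurable_const.mul k2)
          rw [lintegral_const_mul _ k3, lintegral_add_left k1, lintegral_const_mul _ hb,
            lintegral_const_mul _ k2]
        simp_rw [h2]
        have m1 : Measurable fun v => ENNReal.ofReal ‖v‖ * a v := hn.mul ha
        have m3 : Measurable fun v => (ENNReal.ofReal ‖v‖ * a v) * (∫⁻ w, b w) := m1.mul_const _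
        have m4 : Measurable fun v => (ENNReal.ofReal ‖v‖ * a v) * (∫⁻ w, b w)
            + a v * ∫⁻ w, ENNReal.ofReal ‖w‖ * b w := m3.add (ha.mul_const _)
        rw [lintegral_const_mul _ m4, lintegral_add_left m3, lintegral_mul_const _ m1,
          lintegral_mul_const _ ha]

end Vale.Agent.P140
end
end

section

/-!
Definitions for the existence and stability theory of renormalized entropy solutions.
-/

open MeasureTheory Set Filter
open scoped ENNReal Topology NNReal

noncomputable section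

namespace Vale.Agent.P140.DL

/-- uniform integrability of a family of nonnegative functions -/
def UI {α ι : Type*} [MeasurableSpace α] (μ : Measure α) (g : ι → α → ℝ≥0∞) : Prop :=
  ∀ ε : ℝ≥0∞, 0 < ε → ∃ K : ℝ≥0, ∀ i, ∫⁻ a, (g i a - K) ∂μ ≤ ε

/-- weak convergence in `L¹(μ)`, tested with bounded measurable functions -/
def WConv {α : Type*} [MeasurableSpace α] (μ : Measure α) (g : ℕ → α → ℝ) (G : α → ℝ) : Prop :=
  ∀ θ : α → ℝ, Measurable θ → (∀ a, |θ a| ≤ 1) →
    Tendsto (fun n => ∫ a, g n a * θ a ∂μ) atTop (𝓝 (∫ a, G a * θ a ∂μ))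

/-- strong convergence in `L¹(μ)` -/
def SConv {α : Type*} [MeasurableSpace α] (μ : Measure α) (g : ℕ → α → ℝ) (G : α → ℝ) : Prop :=
  Tendsto (fun n => ∫⁻ a, ENNReal.ofReal |g n a - G a| ∂μ) atTop (𝓝 0)

/-- the Maxwellian probability measure on velocities -/
def mV : Measure V := (volume : Measure V).withDensity fun v => ENNReal.ofReal (Maxw v)

/-- the Maxwellian probability measure on phase space -/
def muM : Measure (T3 × V) := (volume : Measure T3).prod mV

/-- the probability measure `exp(-t) dt` on `(0,∞)` -/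
def nuE : Measure ℝ := (volume.restrict (Ioi (0 : ℝ))).withDensity fun t =>
  ENNReal.ofReal (Real.exp (-t))

/-- reference probability measure on time and phase space -/
def PP : Measure (ℝ × T3 × V) := nuE.prod muM

/-- reference probability measure on time and position -/
def zet : Measure (ℝ × T3) := nuE.prod (volume : Measure T3)

/-- reference finite measure on time, position, two velocities and the sphere -/
def P4 : Measure ((ℝ × T3) × V × V × S2) := zet.prod (mV.prod (mV.prod surf))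

/-- truncated hard sphere kernel -/
def bN (n : ℕ) (v w : V) (o : S2) : ℝ :=
  if ‖v‖ ^ 2 + ‖w‖ ^ 2 ≤ (n : ℝ) ^ 2 ∧ 1 ≤ (n : ℝ) * |relA v w o| then |relA v w o| else 0

/-- local density of the slow particles -/
def rhoN (n : ℕ) (g : V → ℝ) : ℝ≥0∞ := ∫⁻ w in Metric.closedBall 0 (n : ℝ), ENNReal.ofReal (g w)

/-- local density -/
def rhoE (g : V → ℝ) : ℝ≥0∞ := ∫⁻ w, ENNReal.ofReal (g w)

/-- prefactor `1 / (1 + ρ / n)` of the truncated collision operator -/
def pfN (n : ℕ) (g : V → ℝ) : ℝ≥0∞ := (1 + rhoN n g / (n : ℝ≥0∞))⁻¹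

/-- normalizing factor `1 / (1 + ρ / (k + 1))` -/
def dk (k : ℕ) (g : V → ℝ) : ℝ≥0∞ := (1 + rhoE g / ((k : ℝ≥0∞) + 1))⁻¹

/-- truncated gain operator (without prefactor) -/
def gainN (n : ℕ) (g : V → ℝ) (v : V) : ℝ≥0∞ :=
  ∫⁻ w : V, ∫⁻ o : S2, ENNReal.ofReal (bN n v w o * (g (post v w o) * g (postStar v w o))) ∂surf

/-- truncated collision frequency (without prefactor) -/
def rateN (n : ℕ) (g : V → ℝ) (v : V) : ℝ≥0∞ :=
  ∫⁻ w : V, ∫⁻ o : S2, ENNReal.ofReal (bN n v w o * g w) ∂surf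

/-- collision frequency -/
def rate (g : V → ℝ) (v : V) : ℝ≥0∞ :=
  ∫⁻ w : V, ∫⁻ o : S2, ENNReal.ofReal (|relA v w o| * g w) ∂surf

/-- gain with prefactor -/
def gainP (n : ℕ) (g : V → ℝ) (v : V) : ℝ≥0∞ := pfN n g * gainN n g v

/-- collision frequency with prefactor -/
def rateP (n : ℕ) (g : V → ℝ) (v : V) : ℝ≥0∞ := pfN n g * rateN n g v

/-- truncated collision operator -/
def QN (n : ℕ) (F : ℝ → T3 → V → ℝ) (t : ℝ) (x : T3) (v : V) : ℝ :=
  (gainP n (F t x) v).toReal - F t x v * (rateP n (F t x) v).toReal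

/-- entropy dissipation of the truncated operator -/
def dissN (n : ℕ) (f : T3 → V → ℝ) : ℝ≥0∞ :=
  (1 / 4) * ∫⁻ x : T3, ∫⁻ v : V, ∫⁻ w : V, ∫⁻ o : S2, pfN n (f x) * ENNReal.ofReal (bN n v w o) *
    dissDensity (f x (post v w o) * f x (postStar v w o)) (f x v * f x w) ∂surf

/-- `F / M` as a function of time, position and velocity -/
def den (F : ℝ → T3 → V → ℝ) (q : ℝ × T3 × V) : ℝ := F q.1 q.2.1 q.2.2 / Maxw q.2.2

/-- `F / M` for functions on phase space -/
def den0 (f : T3 → V → ℝ) (p : T3 × V) : ℝ := f p.1 p.2 / Maxw p.2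

/-- `F / M` along characteristics -/
def cden (F : ℝ → T3 → V → ℝ) (q : ℝ × T3 × V) : ℝ := along F q / Maxw q.2.2

/-- renormalization `z / (1 + z / (j + 1))` -/
def ren (j : ℕ) (z : ℝ) : ℝ := z / (1 + z / ((j : ℝ) + 1))

/-- `z log z - z + 1` -/
def hE (z : ℝ) : ℝ := z * Real.log z - z + 1

/-- reference finite measure on time, position and two velocities -/
def P3 : Measure ((ℝ × T3) × V × V) := zet.prod (mV.prod mV)

/-- normalized products -/
def xN (k : ℕ) (F : ℝ → T3 → V → ℝ) (q : (ℝ × T3) × V × V) : ℝ :=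
  (dk k (F q.1.1 q.1.2)).toReal *
    ((F q.1.1 q.1.2 q.2.1 / Maxw q.2.1) * (F q.1.1 q.1.2 q.2.2 / Maxw q.2.2))

/-- normalized products with truncated kernel and prefactor -/
def yN (k n : ℕ) (F : ℝ → T3 → V → ℝ) (q : (ℝ × T3) × V × V × S2) : ℝ :=
  (pfN n (F q.1.1 q.1.2)).toReal * bN n q.2.1 q.2.2.1 q.2.2.2 * xN k F (q.1, q.2.1, q.2.2.1)

/-- normalized products with the hard sphere kernel -/
def yL (k : ℕ) (F : ℝ → T3 → V → ℝ) (q : (ℝ × T3) × V × V × S2) : ℝ :=
  |relA q.2.1 q.2.2.1 q.2.2.2| * xN k F (q.1, q.2.1, q.2.2.1)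

/-- bounded mild solutions of the truncated problem -/
structure IsBM (n : ℕ) (F0 : T3 → V → ℝ) (F : ℝ → T3 → V → ℝ) : Prop where
  meas0 : Measurable fun p : T3 × V => F0 p.1 p.2
  nonneg0 : ∀ x v, 0 ≤ F0 x v
  meas : Measurable fun p : ℝ × T3 × V => F p.1 p.2.1 p.2.2
  nonneg : ∀ t x v, 0 ≤ F t x v
  bdd : ∀ T : ℝ, ∃ B : ℝ, ∀ t ∈ Icc 0 T, ∀ x v, ‖v‖ ≤ n → F t x v ≤ B
  mild : ∀ p : T3 × V, ∀ t, 0 ≤ t →
    along F (t, p) = F0 p.1 p.2 + ∫ s in Ioc 0 t, along (QN n F) (s, p)

/-- solutions of the truncated problem with all conservation laws and the entropy inequality -/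
structure IsApprox (n : ℕ) (F0 : T3 → V → ℝ) (F : ℝ → T3 → V → ℝ) : Prop extends IsBM n F0 F where
  datum : IsDatum F0
  mass : ∀ t, 0 ≤ t → wInt psi0 (F t) = wInt psi0 F0
  momentum : ∀ t, 0 ≤ t → ∫ p : T3 × V, F t p.1 p.2 • p.2 = ∫ p : T3 × V, F0 p.1 p.2 • p.2
  energy : ∀ t, 0 ≤ t → wInt psi2 (F t) = wInt psi2 F0
  massloc : ∀ φ : ℝ → T3 → ℝ, IsTestX φ →
    (∫ p : ℝ × T3 × V in Ioi 0 ×ˢ univ, F p.1 p.2.1 p.2.2 * transport φ p.1 p.2.1 p.2.2)
      + ∫ p : T3 × V, F0 p.1 p.2 * φ 0 p.1 = 0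
  entropy : ∀ t, 0 ≤ t → relEntropy (F t) + ∫⁻ s in Ioc 0 t, dissN n (F s) ≤ relEntropy F0

/-- a sequence of approximate solutions with uniformly bounded data -/
structure ASeq (N : ℕ → ℕ) (F0 : ℕ → T3 → V → ℝ) (F : ℕ → ℝ → T3 → V → ℝ) (C : ℝ≥0) : Prop where
  tend : Tendsto N atTop atTop
  apx : ∀ n, IsApprox (N n) (F0 n) (F n)
  ent : ∀ n, relEntropy (F0 n) ≤ C
  mom : ∀ n, wInt psi2 (F0 n) ≤ C

/-- approximate solutions converging weakly, with their renormalizations -/
structure Lim1 (N : ℕ → ℕ) (F0 : ℕ → T3 → V → ℝ) (F : ℕ → ℝ → T3 → V → ℝ) (C : ℝ≥0)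
    (L : ℝ → T3 → V → ℝ) : Prop extends ASeq N F0 F C where
  meas : Measurable fun p : ℝ × T3 × V => L p.1 p.2.1 p.2.2
  nonneg : ∀ t x v, 0 ≤ L t x v
  int : Integrable (den L) PP
  wden : WConv PP (fun n => den (F n)) (den L)
  wren : ∀ j : ℕ, ∃ U : ℝ × T3 × V → ℝ, Measurable U ∧ Integrable U PP ∧
    WConv PP (fun n q => ren j (den (F n) q)) U

/-- mild solutions of the Boltzmann equation, for all times -/
structure IsMildC (F0 : T3 → V → ℝ) (F : ℝ → T3 → V → ℝ) : Prop where
  measurable0 : Measurable fun p : T3 × V => F0 p.1 p.2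
  nonneg0 : ∀ x v, 0 ≤ F0 x v
  measurable : Measurable fun p : ℝ × T3 × V => F p.1 p.2.1 p.2.2
  nonneg : ∀ t x v, 0 ≤ F t x v
  gain_fin : ∀ᵐ p : T3 × V, ∀ T : ℝ, ∫⁻ s in Ioc 0 T, gainA F (s, p) < ⊤
  loss_fin : ∀ᵐ p : T3 × V, ∀ T : ℝ, ∫⁻ s in Ioc 0 T, lossA F (s, p) < ⊤
  mild : ∀ᵐ p : T3 × V, ∀ t, 0 ≤ t →
    along F (t, p) = F0 p.1 p.2 + ∫ s in Ioc 0 t, ((gainA F (s, p)).toReal - (lossA F (s, p)).toReal)

/-- approximate solutions converging to a mild solution -/
structure Lim2 (N : ℕ → ℕ) (F0n : ℕ → T3 → V → ℝ) (F : ℕ → ℝ → T3 → V → ℝ) (C : ℝ≥0)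
    (F0 : T3 → V → ℝ) (L : ℝ → T3 → V → ℝ) : Prop extends Lim1 N F0n F C L where
  mildc : IsMildC F0 L
  datum : IsDatum F0
  conv0 : Tendsto (fun n => wDist psi2 (F0n n) F0) atTop (𝓝 0)
  ent0 : ∀ ε : ℝ≥0∞, 0 < ε → ∀ᶠ n in atTop, relEntropy (F0n n) ≤ relEntropy F0 + ε

end Vale.Agent.P140.DL
end
end

section

/-!
P140, non-uniqueness: definitions (medium, weights, collision operators).
See `Vale/Agent/P140/NU/BLUEPRINT.txt`.
-/

open MeasureTheory Set Filter
open scoped ENNReal Topology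

noncomputable section

namespace Vale.Agent.P140.NU

/-! ### collision operators on `[0,∞]`-valued functions of the velocity -/

/-- gain `∫∫ |a| f(v') g(w') dω dw` -/
def Gam (f g : V → ℝ≥0∞) (v : V) : ℝ≥0∞ :=
  ∫⁻ w : V, ∫⁻ ω : S2, ENNReal.ofReal |relA v w ω| * (f (post v w ω) * g (postStar v w ω)) ∂surf

/-- collision frequency `∫∫ |a| f(w) dω dw` -/
def LL (f : V → ℝ≥0∞) (v : V) : ℝ≥0∞ :=
  ∫⁻ w : V, ∫⁻ ω : S2, ENNReal.ofReal |relA v w ω| * f w ∂surf

/-- truncated gain -/
def GamN (N : ℕ) (f g : V → ℝ≥0∞) (v : V) : ℝ≥0∞ :=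
  ∫⁻ w : V, ∫⁻ ω : S2, ENNReal.ofReal (DL.bN N v w ω) * (f (post v w ω) * g (postStar v w ω)) ∂surf

/-- a real function as a `[0,∞]`-valued function -/
def nn (f : V → ℝ) : V → ℝ≥0∞ := fun v => ENNReal.ofReal (f v)

/-- position at time `τ` after `x` of a particle with velocity `v` -/
def mv (x : T3) (v : V) (τ : ℝ) : T3 := x + toTorus (τ • v)

/-! ### geometry near the line `x₀ = x₁ = 0` -/

/-- representative in `[-1/2, 1/2)` of a coordinate of a point of the torus -/
def rep (x : T3) (i : Fin 3) : ℝ := ((AddCircle.equivIco (1 : ℝ) (-1 / 2) (x i) : ℝ))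

/-- distance to the line -/
def rr (x : T3) : ℝ := √(‖x 0‖ ^ 2 + ‖x 1‖ ^ 2)

/-- length of the horizontal part of a velocity -/
def vp (v : V) : ℝ := √(v 0 ^ 2 + v 1 ^ 2)

/-- radial component `v ⬝ e_r(x)` (`0` if `rr x = 0`) -/
def dotE (x : T3) (v : V) : ℝ := (rep x 0 * v 0 + rep x 1 * v 1) / rr x

/-- `x × v` (horizontal parts) -/
def crossE (x : T3) (v : V) : ℝ := rep x 0 * v 1 - rep x 1 * v 0

/-! ### parameters -/

/-- parameters of the medium -/
structure Par where
  /-- density constant -/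
  c : ℝ
  /-- ratio of consecutive cells -/
  lam : ℝ
  /-- thermal constant -/
  kdel : ℝ
  /-- order of vanishing of the noise -/
  K : ℕ
  /-- first cell -/
  j0 : ℕ

/-- gap fraction -/
def gg : ℝ := 1 / 1000

/-- sign of the vertical velocity in cell `j` -/
def sg (j : ℕ) : ℝ := (-1) ^ j

namespace Par

variable (P : Par)

/-- radial velocity of the medium -/
def w : ℝ := 1 / (10 ^ 20 * P.c ^ 2)
/-- maximal good speed -/
def Vg : ℝ := 400 * √P.c
/-- growth exponent -/
def Lam : ℝ := P.c / (100 * P.Vg)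
/-- relative speed below which a particle is slow -/
def m2 : ℝ := 10 ^ 6 * P.Lam * P.w
/-- relative speed below which a particle is glued -/
def m1 : ℝ := P.Lam * P.w / (10 ^ 5 * P.c)
/-- thermal exponent -/
def Q : ℕ := 2 * P.K + 8
/-- thermal width of cell `j` -/
def del (j : ℕ) : ℝ := P.kdel * (P.lam ^ j) ^ P.Q
/-- bound for the impact parameter in cell `j` -/
def imp (j : ℕ) : ℝ := P.del j * P.lam ^ (j + 1)
/-- amplitude in cell `j` -/
def amp (j : ℕ) : ℝ := P.c / (4 * P.w * P.del j ^ 2 * P.imp j)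
/-- labels of cell `j`, shrunk by the fraction `γ` (`γ = g`: the cell; `γ = g/2`: enlarged;
`γ = 2g`: reduced) -/
def cell (γ : ℝ) (j : ℕ) : Set ℝ := Icc (P.lam ^ ((j : ℝ) + 1 - γ)) (P.lam ^ ((j : ℝ) + γ))
/-- `s* = λ^{n+1} / w` -/
def ss (n : ℕ) : ℝ := P.lam ^ (n + 1) / P.w
/-- time from the virtual origin -/
def TT (n : ℕ) (t : ℝ) : ℝ := t + P.ss n
/-- thickness of the inner layer -/
def a1 (T : ℝ) : ℝ := 2 * P.m2 * P.w * T / P.c

end Par

/-- for all good parameters: `c` large, then `λ` close to `1`, `K` large, `kdel` small, and `j0`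
with `λ^{j0} ≤ 1/64` -/
def EvP (φ : Par → Prop) : Prop :=
  ∀ᶠ c in atTop, ∀ᶠ lam in 𝓝[<] (1 : ℝ), ∀ᶠ K in atTop, ∀ᶠ kdel in 𝓝[>] (0 : ℝ), ∀ j0 : ℕ,
    lam ^ j0 ≤ 1 / 64 → φ ⟨c, lam, kdel, K, j0⟩

variable (P : Par)

/-- `|v - u_s(x)|²` for `u_s(x) = (w e_r(x), s)` -/
def SS (s : ℝ) (x : T3) (v : V) : ℝ :=
  vp v ^ 2 + P.w ^ 2 - 2 * P.w * dotE x v + (v 2 - s) ^ 2

/-- the box of velocities of cell `j` -/
def Box (j : ℕ) (x : T3) : Set V :=
  {v | P.w ≤ vp v ∧ vp v ≤ P.w + P.del j ∧ |crossE x v| ≤ P.imp j * vp v ∧ 0 < dotE x v ∧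
    |v 2 - sg j| ≤ P.del j}

open Classical in
/-- cold gas of cell `j` -/
def coldj (j : ℕ) (x : T3) (v : V) : ℝ :=
  if rr x ∈ P.cell gg j ∧ v ∈ Box P j x then P.amp j else 0

/-- cold gas of the cells `j0 ≤ j ≤ n` -/
def coldn (n : ℕ) (x : T3) (v : V) : ℝ := ∑ j ∈ Finset.Icc P.j0 n, coldj P j x v

open Classical in
/-- the singular datum -/
def coldInf (x : T3) (v : V) : ℝ := ∑' j : ℕ, if P.j0 ≤ j then coldj P j x v else 0

/-- free flow of the cold gas -/
def cf (n : ℕ) (t : ℝ) (x : T3) (v : V) : ℝ≥0∞ :=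
  ENNReal.ofReal (coldn P n (mv x v (-t)) v)

open Classical in
/-- the seed -/
def seed (n : ℕ) (x : T3) (v : V) : ℝ :=
  if P.ss n ≤ rr x ∧ rr x ≤ 2 * P.ss n ∧ 1 ≤ dotE x v ∧ dotE x v ≤ 2 ∧ ‖v‖ ≤ 3 then (P.ss n)⁻¹
  else 0

/-! ### weights -/

open Classical in
/-- singular velocity weight -/
def WW (t : ℝ) (x : T3) (v : V) : ℝ≥0∞ :=
  1 + if rr x ≤ 1 / 16 + 2 * t then
    (ENNReal.ofReal (SS P 1 x v) ^ (-(3 / 4) : ℝ) - 1) +
      (ENNReal.ofReal (SS P (-1) x v) ^ (-(3 / 4) : ℝ) - 1) else 0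

/-- `y = (r - |v| T)₊ / T` -/
def yy (n : ℕ) (t : ℝ) (x : T3) (v : V) : ℝ := max (rr x - ‖v‖ * P.TT n t) 0 / P.TT n t

/-- profile for the sup norm of the hot part; `γ` is the Gaussian exponent -/
def Pi (n : ℕ) (γ : ℝ) (t : ℝ) (x : T3) (v : V) : ℝ≥0∞ :=
  ENNReal.ofReal (Real.exp (-(2 * yy P n t x v) - γ * ‖v‖ ^ 2)) * WW P t x v

/-- `c_f`-gain operator `K f = 2 Γ(c_f, f)` -/
def KK (n : ℕ) (t : ℝ) (f : T3 → V → ℝ≥0∞) (x : T3) (v : V) : ℝ≥0∞ :=
  2 * Gam (cf P n t x) (f x) v

/-- Duhamel operator of `K` with initial time `t1` -/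
def UK (n : ℕ) (t1 : ℝ) (f : ℝ → T3 → V → ℝ≥0∞) (t : ℝ) (x : T3) (v : V) : ℝ≥0∞ :=
  ∫⁻ τ in Icc t1 t, KK P n τ (f τ) (mv x v (τ - t)) v

/-- density of the products of the first cold-cold collisions (free-flow upper bound) -/
def bf (n : ℕ) (t : ℝ) (x : T3) (v : V) : ℝ≥0∞ :=
  ∫⁻ τ in Icc 0 t, Gam (cf P n τ (mv x v (τ - t))) (cf P n τ (mv x v (τ - t))) v

/-- noise barrier -/
def Bb (t : ℝ) (x : T3) (v : V) : ℝ≥0∞ :=
  ENNReal.ofReal (min ((P.K + ‖v‖) * t + rr x) 1 ^ P.K * Real.exp (-(‖v‖ ^ 2 / 6))) * WW P t x v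

/-! ### growth functional -/

open Classical in
/-- upper bound of the collision rate with the free cold gas -/
def qq (n : ℕ) (t : ℝ) (x : T3) (v : V) : ℝ :=
  ∑ j ∈ Finset.Icc P.j0 n, if rr x - P.w * t ∈ P.cell (gg / 2) j then
    (1 + 1 / 100) * (2 * Real.pi) * (P.c / rr x) * (√(SS P (sg j) x v) + 4 * P.del j) else 0

open Classical in
/-- lower bound of the rate of successful collisions -/
def pp (n : ℕ) (t : ℝ) (x : T3) (v : V) : ℝ :=
  ∑ j ∈ Finset.Icc P.j0 n, if rr x - P.w * t ∈ P.cell (2 * gg) j ∧ rr x ≤ P.Vg * P.TT n t ∧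
      ‖v‖ ≤ P.Vg ∧ (P.m2 ≤ √(SS P (sg j) x v) ∨
        (P.m1 ≤ √(SS P (sg j) x v) ∧ P.a1 (P.TT n t) ≤ rr x - P.w * P.TT n t)) then
    (1 - 1 / 100) * (2 * Real.pi) * (P.c / rr x) * (√(SS P (sg j) x v) - 4 * P.del j) else 0

/-- the main weight: probability that the next collision is successful and occurs before an
exponential clock of rate `Λ/T` rings; `te` is the final time -/
def wt (n : ℕ) (te t : ℝ) (x : T3) (v : V) : ℝ :=
  ∫ τ in t..te, pp P n τ (mv x v (τ - t)) v *
    Real.exp (-∫ s in t..τ, (qq P n s (mv x v (s - t)) v + P.Lam / P.TT n s))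

/-- small weight controlling the total mass -/
def ee (n : ℕ) (t : ℝ) (x : T3) (v : V) : ℝ :=
  Real.exp (-(2 * P.Vg) - 100) * Real.exp (yy P n t x v + ‖v‖ ^ 2 / 16)

open Classical in
/-- rate of collisions of slow inward particles in the inner layer -/
def qb (n : ℕ) (t : ℝ) (x : T3) (v : V) : ℝ :=
  ∑ j ∈ Finset.Icc P.j0 n, if rr x - P.w * t ∈ P.cell (gg / 2) j ∧
      P.m1 ≤ √(SS P (sg j) x v) ∧ √(SS P (sg j) x v) < P.m2 ∧
      rr x - P.w * P.TT n t < P.a1 (P.TT n t) ∧
      dotE x v - P.w < -(√(SS P (sg j) x v) / 200) then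
    (1 + 1 / 100) * (2 * Real.pi) * (P.c / rr x) * (√(SS P (sg j) x v) + 4 * P.del j) else 0

/-- the corrected small weight `e (1 + z)` -/
def et (n : ℕ) (te t : ℝ) (x : T3) (v : V) : ℝ :=
  ee P n t x v * (1 + 500 * ∫ τ in t..te, qb P n τ (mv x v (τ - t)) v)

/-! ### the split solution -/

/-- shift in the direction of the line -/
def zsh (x : T3) (a : ℝ) : T3 := x + toTorus (a • EuclideanSpace.single 2 1)

/-- collision term of the hot part `h` of a solution `F = G + h` of the truncated problem -/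
def Qh (N : ℕ) (F G h : V → ℝ) (v : V) : ℝ :=
  (DL.pfN N F * (GamN N (nn G) (nn h) v + GamN N (nn h) (nn G) v + GamN N (nn h) (nn h) v)).toReal
    - h v * (DL.rateP N F v).toReal

/-- datum of the `n`-th problem -/
def dat (n : ℕ) (κ : ℝ) (x : T3) (v : V) : ℝ := coldn P n x v + κ * seed P n x v

/-- a solution `F = G + h` of the truncated problem, split into a cold part `G` and a hot part
`h`; `t0` is the final time and `CB` the constant of the barrier -/
structure Split (CB t0 : ℝ) (n N : ℕ) (κ : ℝ) (F G h : ℝ → T3 → V → ℝ) : Prop where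
  appr : DL.IsBM N (dat P n κ) F
  eq : ∀ t x v, F t x v = G t x v + h t x v
  measG : Measurable fun p : ℝ × T3 × V => G p.1 p.2.1 p.2.2
  meash : Measurable fun p : ℝ × T3 × V => h p.1 p.2.1 p.2.2
  nonnegG : ∀ t x v, 0 ≤ G t x v
  nonnegh : ∀ t x v, 0 ≤ h t x v
  invh : ∀ t x v a, 0 ≤ t → h t (zsh x a) v = h t x v
  low : ∀ t, 0 ≤ t → ∀ x v,
    coldn P n x v * Real.exp (-∫ τ in Ioc 0 t, (DL.rateP N (F τ (mv x v τ)) v).toReal)
      ≤ G t (mv x v t) v
  up : ∀ t ∈ Icc 0 t0, ∀ x v,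
    ENNReal.ofReal (G t x v) ≤ cf P n t x v + bf P n t x v + ENNReal.ofReal CB * Bb P t x v
  mild : ∀ t, 0 ≤ t → ∀ x v,
    h t (mv x v t) v = κ * seed P n x v +
      ∫ τ in Ioc 0 t, Qh N (F τ (mv x v τ)) (G τ (mv x v τ)) (h τ (mv x v τ)) v

end Vale.Agent.P140.NU
end
end

section

open MeasureTheory Set

namespace Vale.Agent.P140

noncomputable def ph (v : V) : ENNReal := ENNReal.ofReal (1 + ‖v‖ ^ 2)

/-- triple integral over velocities and directions -/
noncomputable def I3 (H : V × V × S2 → ENNReal) : ENNReal :=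
  ∫⁻ v, ∫⁻ w, ∫⁻ o, H (v, w, o) ∂surf

theorem I3_congr {H K : V × V × S2 → ENNReal} (h : ∀ p, H p = K p) : I3 H = I3 K := by
  rw [show H = K from funext h]

theorem meas_inner_int {H : V × V × S2 → ENNReal} (hH : Measurable H) :
    Measurable fun p : V × V => ∫⁻ o, H (p.1, p.2, o) ∂surf := by
  have hH' : Measurable fun q : (V × V) × S2 => H (q.1.1, q.1.2, q.2) := by
    apply hH.comp
    fun_prop
  exact Measurable.lintegral_prod_right' (f := fun q : (V × V) × S2 => H (q.1.1, q.1.2, q.2)) hH'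

theorem meas_inner_int2 {H : V × V × S2 → ENNReal} (hH : Measurable H) :
    Measurable fun v : V => ∫⁻ w, ∫⁻ o, H (v, w, o) ∂surf :=
  Measurable.lintegral_prod_right' (f := fun p : V × V => ∫⁻ o, H (p.1, p.2, o) ∂surf)
    (meas_inner_int hH)

theorem meas_sec_w {H : V × V × S2 → ENNReal} (hH : Measurable H) (v : V) :
    Measurable fun w : V => ∫⁻ o, H (v, w, o) ∂surf :=
  (meas_inner_int hH).comp (by fun_prop : Measurable fun w : V => (v, w))

theorem meas_sec_o {H : V × V × S2 → ENNReal} (hH : Measurable H) (v w : V) :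
    Measurable fun o : S2 => H (v, w, o) :=
  hH.comp (by fun_prop : Measurable fun o : S2 => (v, w, o))

theorem I3_swap {H : V × V × S2 → ENNReal} (hH : Measurable H) :
    I3 (fun p => H (p.2.1, p.1, p.2.2)) = I3 H := lintegral_swap hH

theorem I3_coll {H : V × V × S2 → ENNReal} (hH : Measurable H) :
    I3 (fun p => H (post p.1 p.2.1 p.2.2, postStar p.1 p.2.1 p.2.2, p.2.2)) = I3 H :=
  lintegral_coll hH

noncomputable def Ss : ENNReal := surf univ

theorem Ss_ne_top : Ss ≠ ⊤ := by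
  unfold Ss
  exact measure_ne_top _ _

noncomputable def Qp (f : V → ENNReal) (v : V) : ENNReal :=
  ∫⁻ w, ∫⁻ o, kk v w o * (f (post v w o) * f (postStar v w o)) ∂surf

noncomputable def Qm (f : V → ENNReal) (v : V) : ENNReal :=
  ∫⁻ w, ∫⁻ o, kk v w o * (f v * f w) ∂surf

noncomputable def Mo (j : ℕ) (f : V → ENNReal) : ENNReal := ∫⁻ v, f v * ph v ^ j

theorem meas_post_comp {f : V → ENNReal} (hf : Measurable f) :
    Measurable fun p : V × V × S2 => f (post p.1 p.2.1 p.2.2) := hf.comp measurable_post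

theorem meas_postStar_comp {f : V → ENNReal} (hf : Measurable f) :
    Measurable fun p : V × V × S2 => f (postStar p.1 p.2.1 p.2.2) := hf.comp measurable_postStar

theorem meas_1 {f : V → ENNReal} (hf : Measurable f) :
    Measurable fun p : V × V × S2 => f p.1 := hf.comp measurable_fst

theorem meas_2 {f : V → ENNReal} (hf : Measurable f) :
    Measurable fun p : V × V × S2 => f p.2.1 := hf.comp (measurable_fst.comp measurable_snd)

end Vale.Agent.P140
end

section

open MeasureTheory Set Filter Metric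
open scoped ENNReal Topology

namespace Vale.Agent.P140

/-- polar coordinates -/
theorem lint_polar0 {G : V → ℝ≥0∞} (hG : Measurable G) :
    ∫⁻ z : V, G z =
      ∫⁻ o : S2, (∫⁻ r in Ioi (0 : ℝ), ENNReal.ofReal (r ^ 2) * G (r • (o : V))) ∂surf := by
  have h0 : ∫⁻ z : V, G z = ∫⁻ z in ({0}ᶜ : Set V), G z := by
    rw [restrict_compl_singleton]
  have h1 : ∫⁻ z in ({0}ᶜ : Set V), G z =
      ∫⁻ z : ({0}ᶜ : Set V), G z ∂((volume : Measure V).comap (↑)) :=
    (lintegral_subtype_comap (measurableSet_singleton _).compl G).symm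
  have mp := (volume : Measure V).measurePreserving_homeomorphUnitSphereProd
  have hmG : Measurable fun p : S2 × Ioi (0 : ℝ) => G ((p.2 : ℝ) • (p.1 : V)) := by
    apply hG.comp
    exact (measurable_subtype_coe.comp measurable_snd).smul
      (measurable_subtype_coe.comp measurable_fst)
  have h2 := mp.lintegral_comp hmG
  have h3 : ∀ z : ({0}ᶜ : Set V), G (((homeomorphUnitSphereProd V z).2 : ℝ) •
      ((homeomorphUnitSphereProd V z).1 : V)) = G z := by
    intro z
    congr 1
    have := homeomorphUnitSphereProd_symm_apply_coe V (homeomorphUnitSphereProd V z)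
    rw [Homeomorph.symm_apply_apply] at this
    exact this.symm
  simp only [h3] at h2
  rw [h0, h1, h2, lintegral_prod _ hmG.aemeasurable]
  have hdim : Module.finrank ℝ V - 1 = 2 := by simp
  apply lintegral_congr
  intro o
  have hmo : Measurable fun r : ℝ => ENNReal.ofReal (r ^ 2) * G (r • (o : V)) := by
    apply Measurable.mul
    · exact (measurable_id.pow_const 2).ennreal_ofReal
    · exact hG.comp (measurable_id.smul_const _)
  rw [← lintegral_subtype_comap measurableSet_Ioi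
    (fun r : ℝ => ENNReal.ofReal (r ^ 2) * G (r • (o : V)))]
  rw [Measure.volumeIoiPow, hdim, lintegral_withDensity_eq_lintegral_mul]
  · rfl
  · exact (measurable_subtype_coe.pow_const 2).ennreal_ofReal
  · have h := hmG.comp (by fun_prop : Measurable fun y : Ioi (0 : ℝ) => (o, y))
    exact h

/-- an orthonormal frame starting with a given unit vector, and the corresponding Fubini
formula -/
theorem exists_frame (e : V) (he : ‖e‖ = 1) : ∃ b1 b2 : V,
    (∀ a x y : ℝ, ‖a • e + (x • b1 + y • b2)‖ ^ 2 = a ^ 2 + (x ^ 2 + y ^ 2)) ∧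
    (∀ a x y : ℝ, inner ℝ (a • e + (x • b1 + y • b2)) e = a) ∧
    ∀ H : V → ℝ≥0∞, Measurable H →
      ∫⁻ z : V, H z = ∫⁻ a : ℝ, ∫⁻ q : ℝ × ℝ, H (a • e + (q.1 • b1 + q.2 • b2)) := by
  have hcard : Module.finrank ℝ V = Fintype.card (Fin 3) := by simp
  obtain ⟨b, hb⟩ := Orthonormal.exists_orthonormalBasis_extension_of_card_eq (𝕜 := ℝ) (E := V)
    (ι := Fin 3) hcard (v := fun _ => e) (s := {0}) (by
      constructor
      · intro i; exact he
      · intro i j hij
        exact absurd (Subsingleton.elim i j) hij)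
  have hb0 : b 0 = e := hb 0 (by simp)
  refine ⟨b 1, b 2, ?_, ?_, ?_⟩
  · intro a x y
    have h : a • e + (x • b 1 + y • b 2) = b.repr.symm (WithLp.toLp 2 ![a, x, y]) := by
      rw [← b.sum_repr_symm]
      rw [Fin.sum_univ_three, hb0]
      simp
      rw [add_assoc]
    rw [h, LinearIsometryEquiv.norm_map, EuclideanSpace.norm_sq_eq]
    rw [Fin.sum_univ_three]
    simp
    ring
  · intro a x y
    have h01 : inner ℝ (b 1) (b 0) = (0 : ℝ) := by
      rw [b.inner_eq_zero (by decide)]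
    have h02 : inner ℝ (b 2) (b 0) = (0 : ℝ) := by
      rw [b.inner_eq_zero (by decide)]
    rw [← hb0, inner_add_left, inner_add_left, inner_smul_left, inner_smul_left, inner_smul_left,
      h01, h02]
    simp
  · intro H hH
    have m1 : MeasurePreserving b.repr.symm (volume : Measure V) volume := b.measurePreserving_repr_symm
    have m2 : MeasurePreserving (WithLp.toLp 2 : (Fin 3 → ℝ) → V) volume volume :=
      PiLp.volume_preserving_toLp (Fin 3)
    have m3 : MeasurePreserving (MeasurableEquiv.piFinSuccAbove (fun _ : Fin 3 => ℝ) 0)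
        volume volume := volume_preserving_piFinSuccAbove (fun _ : Fin 3 => ℝ) 0
    have m4 : MeasurePreserving (@MeasurableEquiv.finTwoArrow ℝ _) volume volume :=
      volume_preserving_finTwoArrow ℝ
    have m5 : MeasurePreserving (fun w : Fin 3 → ℝ => (w 0, (w 1, w 2)))
        volume (volume : Measure (ℝ × (ℝ × ℝ))) := by
      have h := ((MeasurePreserving.id (volume : Measure ℝ)).prod m4).comp m3
      exact h
    have mT : Measurable fun p : ℝ × (ℝ × ℝ) => p.1 • e + (p.2.1 • b 1 + p.2.2 • b 2) := by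
      fun_prop
    have hHT := hH.comp mT
    have e1 := m1.lintegral_comp hH
    have e2 := m2.lintegral_comp (f := fun z => H (b.repr.symm z)) (hH.comp m1.measurable)
    have e3 := m5.lintegral_comp hHT
    rw [← e1, ← e2]
    have e4 : ∀ w : Fin 3 → ℝ, H (b.repr.symm (WithLp.toLp 2 w)) =
        (H ∘ fun p : ℝ × (ℝ × ℝ) => p.1 • e + (p.2.1 • b 1 + p.2.2 • b 2)) (w 0, (w 1, w 2)) := by
      intro w
      simp only [Function.comp]
      congr 1
      rw [← b.sum_repr_symm, Fin.sum_univ_three, hb0, add_assoc]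
    simp only [e4]
    rw [e3, Measure.volume_eq_prod, lintegral_prod _ hHT.aemeasurable]
    rfl

end Vale.Agent.P140
end

section

open MeasureTheory Set Filter Metric
open scoped ENNReal Topology

namespace Vale.Agent.P140

theorem lintegral_real_split {f : ℝ → ℝ≥0∞} (hf : Measurable f) :
    ∫⁻ a : ℝ, f a = ∫⁻ a in Ioi (0 : ℝ), (f a + f (-a)) := by
  have hneg : Measurable fun a : ℝ => f (-a) := hf.comp measurable_neg
  rw [lintegral_add_left hf]
  have h1 : ∫⁻ a : ℝ, f a = (∫⁻ a in Ioi (0 : ℝ), f a) + ∫⁻ a in (Ioi (0 : ℝ))ᶜ, f a :=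
    (lintegral_add_compl f measurableSet_Ioi).symm
  rw [h1]
  congr 1
  have mp : MeasurePreserving (Neg.neg : ℝ → ℝ) volume volume := Measure.measurePreserving_neg _
  have h2 := mp.setLIntegral_comp_preimage (s := (Ioi (0 : ℝ))ᶜ) measurableSet_Ioi.compl hf
  rw [← h2]
  have h3 : (Neg.neg : ℝ → ℝ) ⁻¹' (Ioi (0 : ℝ))ᶜ = Ici 0 := by
    ext x
    simp
  rw [h3]
  exact setLIntegral_congr Ioi_ae_eq_Ici.symm

/-- cylindrical coordinates -/
theorem cyl_coord {e b1 b2 : V} {H : V → ℝ≥0∞} (hH : Measurable H)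
    (hF : ∫⁻ z : V, H z = ∫⁻ a : ℝ, ∫⁻ q : ℝ × ℝ, H (a • e + (q.1 • b1 + q.2 • b2))) :
    ∫⁻ z : V, H z = ∫⁻ φ in Ioo (-Real.pi) Real.pi, ∫⁻ a in Ioi (0 : ℝ), ∫⁻ ρ in Ioi (0 : ℝ),
      ENNReal.ofReal ρ * (H (a • e + ρ • (Real.cos φ • b1 + Real.sin φ • b2)) +
        H ((-a) • e + ρ • (Real.cos φ • b1 + Real.sin φ • b2))) := by
  set η : ℝ → V := fun φ => Real.cos φ • b1 + Real.sin φ • b2 with hη
  have mη : Measurable η := by
    have : Continuous η := by fun_prop
    exact this.measurable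
  have mJ : Measurable fun q : (ℝ × ℝ) × ℝ => ENNReal.ofReal q.1.2 * H (q.1.1 • e + q.1.2 • η q.2) := by
    apply Measurable.mul
    · exact measurable_fst.snd.ennreal_ofReal
    · exact hH.comp ((measurable_fst.fst.smul_const e).add
        (measurable_fst.snd.smul (mη.comp measurable_snd)))
  have h1 : ∀ a : ℝ, ∫⁻ q : ℝ × ℝ, H (a • e + (q.1 • b1 + q.2 • b2)) =
      ∫⁻ ρ in Ioi (0 : ℝ), ∫⁻ φ in Ioo (-Real.pi) Real.pi, ENNReal.ofReal ρ * H (a • e + ρ • η φ) := by
    intro a
    rw [← lintegral_comp_polarCoord_symm]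
    have ht : polarCoord.target = Ioi (0 : ℝ) ×ˢ Ioo (-Real.pi) Real.pi := rfl
    have hm : Measurable fun p : ℝ × ℝ => ENNReal.ofReal p.1 * H (a • e + p.1 • η p.2) :=
      (mJ.comp (by fun_prop : Measurable fun p : ℝ × ℝ => ((a, p.1), p.2)) :)
    have e1 : ∫⁻ p in polarCoord.target, ENNReal.ofReal p.1 • H (a • e +
        ((polarCoord.symm p).1 • b1 + (polarCoord.symm p).2 • b2)) =
        ∫⁻ p in Ioi (0 : ℝ) ×ˢ Ioo (-Real.pi) Real.pi, ENNReal.ofReal p.1 * H (a • e + p.1 • η p.2) := by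
      rw [ht]
      apply lintegral_congr
      intro p
      rw [polarCoord_symm_apply, smul_eq_mul]
      simp only [hη, smul_add, smul_smul]
    rw [e1, Measure.volume_eq_prod, ← Measure.prod_restrict, lintegral_prod _ hm.aemeasurable]
  rw [hF]
  simp only [h1]
  have m2 : Measurable fun q : ℝ × ℝ => ∫⁻ φ in Ioo (-Real.pi) Real.pi,
      ENNReal.ofReal q.2 * H (q.1 • e + q.2 • η φ) :=
    Measurable.lintegral_prod_right' (ν := volume.restrict (Ioo (-Real.pi) Real.pi)) mJ
  have m3 : Measurable fun a : ℝ => ∫⁻ ρ in Ioi (0 : ℝ), ∫⁻ φ in Ioo (-Real.pi) Real.pi,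
      ENNReal.ofReal ρ * H (a • e + ρ • η φ) :=
    Measurable.lintegral_prod_right' (ν := volume.restrict (Ioi (0 : ℝ))) m2
  rw [lintegral_real_split m3]
  have mJ' : Measurable fun q : (ℝ × ℝ) × ℝ => ENNReal.ofReal q.1.2 *
      H ((-q.1.1) • e + q.1.2 • η q.2) := by
    have h := mJ.comp (by fun_prop : Measurable fun q : (ℝ × ℝ) × ℝ => ((-q.1.1, q.1.2), q.2))
    exact h
  have mS : Measurable fun q : (ℝ × ℝ) × ℝ => ENNReal.ofReal q.1.2 *
      (H (q.1.1 • e + q.1.2 • η q.2) + H ((-q.1.1) • e + q.1.2 • η q.2)) := by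
    simp only [mul_add]
    exact mJ.add mJ'
  -- combine
  have h4 : ∀ a : ℝ, (∫⁻ ρ in Ioi (0 : ℝ), ∫⁻ φ in Ioo (-Real.pi) Real.pi,
      ENNReal.ofReal ρ * H (a • e + ρ • η φ)) + (∫⁻ ρ in Ioi (0 : ℝ), ∫⁻ φ in Ioo (-Real.pi) Real.pi,
      ENNReal.ofReal ρ * H ((-a) • e + ρ • η φ)) =
      ∫⁻ ρ in Ioi (0 : ℝ), ∫⁻ φ in Ioo (-Real.pi) Real.pi,
      ENNReal.ofReal ρ * (H (a • e + ρ • η φ) + H ((-a) • e + ρ • η φ)) := by
    intro a
    have k1 : Measurable fun ρ : ℝ => ∫⁻ φ in Ioo (-Real.pi) Real.pi,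
        ENNReal.ofReal ρ * H (a • e + ρ • η φ) :=
      m2.comp (by fun_prop : Measurable fun ρ : ℝ => (a, ρ))
    rw [← lintegral_add_left k1]
    apply lintegral_congr
    intro ρ
    have k2 : Measurable fun φ : ℝ => ENNReal.ofReal ρ * H (a • e + ρ • η φ) :=
      mJ.comp (by fun_prop : Measurable fun φ : ℝ => ((a, ρ), φ))
    rw [← lintegral_add_left k2]
    apply lintegral_congr
    intro φ
    rw [mul_add]
  simp only [h4]
  -- exchange the order
  have mS1 : Measurable fun q : ℝ × ℝ => ∫⁻ ρ in Ioi (0 : ℝ), ENNReal.ofReal ρ *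
      (H (q.1 • e + ρ • η q.2) + H ((-q.1) • e + ρ • η q.2)) := by
    apply Measurable.lintegral_prod_right' (ν := volume.restrict (Ioi (0 : ℝ)))
      (f := fun q : (ℝ × ℝ) × ℝ => ENNReal.ofReal q.2 *
      (H (q.1.1 • e + q.2 • η q.1.2) + H ((-q.1.1) • e + q.2 • η q.1.2)))
    exact mS.comp (by fun_prop : Measurable fun q : (ℝ × ℝ) × ℝ => ((q.1.1, q.2), q.1.2))
  have h5 : ∀ a : ℝ, ∫⁻ ρ in Ioi (0 : ℝ), ∫⁻ φ in Ioo (-Real.pi) Real.pi,
      ENNReal.ofReal ρ * (H (a • e + ρ • η φ) + H ((-a) • e + ρ • η φ)) =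
      ∫⁻ φ in Ioo (-Real.pi) Real.pi, ∫⁻ ρ in Ioi (0 : ℝ),
      ENNReal.ofReal ρ * (H (a • e + ρ • η φ) + H ((-a) • e + ρ • η φ)) := by
    intro a
    apply lintegral_lintegral_swap
    exact (mS.comp (by fun_prop : Measurable fun q : ℝ × ℝ => ((a, q.1), q.2))).aemeasurable
  simp only [h5]
  exact lintegral_lintegral_swap mS1.aemeasurable

/-- radial cut-off -/
noncomputable def chi (t : ℝ) : ℝ≥0∞ := (Icc (1 : ℝ) 4).indicator (fun _ => 1) t

theorem measurable_chi : Measurable chi := measurable_const.indicator measurableSet_Icc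

/-- normalization constant -/
noncomputable def cchi : ℝ≥0∞ := ∫⁻ r in Ioi (0 : ℝ), ENNReal.ofReal (r ^ 2) * chi (r ^ 2)

theorem cchi_ne_top : cchi ≠ ⊤ := by
  unfold cchi
  have h : ∀ r ∈ Ioi (0 : ℝ), ENNReal.ofReal (r ^ 2) * chi (r ^ 2) ≤
      (Icc (0 : ℝ) 2).indicator (fun _ => ENNReal.ofReal 4) r := by
    intro r hr
    unfold chi
    by_cases h : r ^ 2 ∈ Icc (1 : ℝ) 4
    · have h2 : r ≤ 2 := by
        have := h.2
        nlinarith [mem_Ioi.mp hr]
      rw [indicator_of_mem h, indicator_of_mem (show r ∈ Icc (0 : ℝ) 2 from ⟨le_of_lt hr, h2⟩), mul_one]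
      exact ENNReal.ofReal_le_ofReal h.2
    · rw [indicator_of_notMem h, mul_zero]
      exact zero_le
  refine ne_top_of_le_ne_top ?_ (setLIntegral_mono' measurableSet_Ioi h)
  refine ne_top_of_le_ne_top ?_ (setLIntegral_le_lintegral _ _)
  rw [lintegral_indicator measurableSet_Icc, setLIntegral_const, Real.volume_Icc]
  exact ENNReal.mul_ne_top ENNReal.ofReal_ne_top ENNReal.ofReal_ne_top

theorem cchi_ne_zero : cchi ≠ 0 := by
  have h : (1 : ℝ≥0∞) ≤ cchi := by
    unfold cchi
    calc (1 : ℝ≥0∞) = ∫⁻ r in Icc (1 : ℝ) 2, 1 := by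
          rw [setLIntegral_const, Real.volume_Icc, one_mul]
          norm_num
      _ ≤ ∫⁻ r in Icc (1 : ℝ) 2, ENNReal.ofReal (r ^ 2) * chi (r ^ 2) := by
          apply setLIntegral_mono' measurableSet_Icc
          intro r hr
          have h1 : (1 : ℝ) ≤ r ^ 2 := by nlinarith [hr.1]
          have h2 : r ^ 2 ≤ 4 := by nlinarith [hr.1, hr.2]
          unfold chi
          rw [indicator_of_mem (show r ^ 2 ∈ Icc (1 : ℝ) 4 from ⟨h1, h2⟩), mul_one,
            ← ENNReal.ofReal_one]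
          exact ENNReal.ofReal_le_ofReal h1
      _ ≤ _ := lintegral_mono_set (fun r hr => lt_of_lt_of_le one_pos hr.1)
  intro h0
  rw [h0] at h
  exact absurd h (by simp)

/-- sphere integrals as space integrals -/
theorem sphere_eq {Ψ : V → ℝ≥0∞} (hΨ : Measurable Ψ) :
    ∫⁻ z : V, chi (‖z‖ ^ 2) * Ψ (‖z‖⁻¹ • z) = cchi * ∫⁻ o : S2, Ψ (o : V) ∂surf := by
  have hm : Measurable fun z : V => chi (‖z‖ ^ 2) * Ψ (‖z‖⁻¹ • z) :=
    (measurable_chi.comp (measurable_norm.pow_const 2)).mul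
      (hΨ.comp (measurable_norm.inv.smul measurable_id))
  rw [lint_polar0 hm]
  have hms : Measurable fun o : S2 => Ψ (o : V) := hΨ.comp measurable_subtype_coe
  rw [← lintegral_const_mul _ hms]
  apply lintegral_congr
  intro o
  unfold cchi
  have hmr : Measurable fun r : ℝ => ENNReal.ofReal (r ^ 2) * chi (r ^ 2) :=
    (measurable_id.pow_const 2).ennreal_ofReal.mul (measurable_chi.comp (measurable_id.pow_const 2))
  rw [← lintegral_mul_const _ hmr]
  apply setLIntegral_congr_fun measurableSet_Ioi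
  intro r hr
  simp only
  have hr0 : (0 : ℝ) < r := hr
  rw [norm_smul, norm_o, mul_one, Real.norm_of_nonneg hr0.le, smul_smul,
    inv_mul_cancel₀ hr0.ne', one_smul]
  ring

end Vale.Agent.P140
end

section

open MeasureTheory Set Filter Metric
open scoped ENNReal Topology

namespace Vale.Agent.P140

/-- kernel in cylindrical coordinates -/
noncomputable def exK (s : ℝ) (e η : V) (Φ : V → ℝ≥0∞) (σ a ρ : ℝ) : ℝ≥0∞ :=
  ENNReal.ofReal (a * ρ) * (chi (a ^ 2 + ρ ^ 2) * ENNReal.ofReal (s / Real.sqrt (a ^ 2 + ρ ^ 2)) *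
    Φ ((s / (a ^ 2 + ρ ^ 2)) • ((a ^ 2) • e + (σ * (a * ρ)) • η)))

theorem exH1 {s : ℝ} (hs : 0 < s) {e η u z : V} (hu : u = s • e) {Φ : V → ℝ≥0∞} {a ρ σ : ℝ}
    (ha : 0 < a) (hρ : 0 < ρ) (hσ : σ ^ 2 = 1) (hz : z = (σ * a) • e + ρ • η)
    (hn : ‖z‖ ^ 2 = a ^ 2 + ρ ^ 2) (hi : inner ℝ z e = σ * a) :
    ENNReal.ofReal ρ * (chi (‖z‖ ^ 2) * (ENNReal.ofReal |inner ℝ u (‖z‖⁻¹ • z)| *
      Φ ((inner ℝ u (‖z‖⁻¹ • z) : ℝ) • (‖z‖⁻¹ • z)))) = exK s e η Φ σ a ρ := by
  have hN : ‖z‖ = Real.sqrt (a ^ 2 + ρ ^ 2) := by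
    rw [← hn, Real.sqrt_sq (norm_nonneg _)]
  have hpos : 0 < a ^ 2 + ρ ^ 2 := by positivity
  have hNpos : 0 < ‖z‖ := by rw [hN]; exact Real.sqrt_pos.mpr hpos
  have hin : (inner ℝ u (‖z‖⁻¹ • z) : ℝ) = s * (σ * a) / ‖z‖ := by
    rw [hu, inner_smul_left, inner_smul_right, real_inner_comm, hi]
    simp
    ring
  have habs : |(inner ℝ u (‖z‖⁻¹ • z) : ℝ)| = s * a / ‖z‖ := by
    rw [hin, abs_div, abs_of_pos hNpos, abs_mul, abs_mul, abs_of_pos hs, abs_of_pos ha]
    have : |σ| = 1 := by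
      rw [← sq_eq_sq₀ (abs_nonneg _) zero_le_one, sq_abs, hσ]; norm_num
    rw [this, one_mul]
  have hvec : (inner ℝ u (‖z‖⁻¹ • z) : ℝ) • (‖z‖⁻¹ • z) =
      (s / (a ^ 2 + ρ ^ 2)) • ((a ^ 2) • e + (σ * (a * ρ)) • η) := by
    rw [hin, smul_smul]
    have e1 : s * (σ * a) / ‖z‖ * ‖z‖⁻¹ = s / (a ^ 2 + ρ ^ 2) * (σ * a) := by
      rw [← hn]
      field_simp
    rw [e1, mul_smul]
    congr 1
    rw [hz, smul_add, smul_smul, smul_smul]
    congr 1
    · congr 1
      calc σ * a * (σ * a) = σ ^ 2 * a ^ 2 := by ring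
        _ = a ^ 2 := by rw [hσ, one_mul]
    · congr 1
      ring
  rw [hvec, habs]
  unfold exK
  rw [hn, hN]
  have e2 : ENNReal.ofReal (s * a / Real.sqrt (a ^ 2 + ρ ^ 2)) =
      ENNReal.ofReal a * ENNReal.ofReal (s / Real.sqrt (a ^ 2 + ρ ^ 2)) := by
    rw [← ENNReal.ofReal_mul ha.le]
    congr 1
    ring
  rw [e2, ENNReal.ofReal_mul ha.le]
  ring

theorem exH2 {s : ℝ} (hs : 0 < s) {e η u z : V} (hu : u = s • e) {Φ : V → ℝ≥0∞} {a ρ σ : ℝ}
    (ha : 0 < a) (hρ : 0 < ρ) (hσ : σ ^ 2 = 1) (hz : z = (σ * a) • e + ρ • η)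
    (hn : ‖z‖ ^ 2 = a ^ 2 + ρ ^ 2) (hi : inner ℝ z e = σ * a) :
    ENNReal.ofReal ρ * (chi (‖z‖ ^ 2) * (ENNReal.ofReal |inner ℝ u (‖z‖⁻¹ • z)| *
      Φ (u - (inner ℝ u (‖z‖⁻¹ • z) : ℝ) • (‖z‖⁻¹ • z)))) = exK s e η Φ (-σ) ρ a := by
  have hN : ‖z‖ = Real.sqrt (a ^ 2 + ρ ^ 2) := by
    rw [← hn, Real.sqrt_sq (norm_nonneg _)]
  have hpos : 0 < a ^ 2 + ρ ^ 2 := by positivity
  have hNpos : 0 < ‖z‖ := by rw [hN]; exact Real.sqrt_pos.mpr hpos
  have hin : (inner ℝ u (‖z‖⁻¹ • z) : ℝ) = s * (σ * a) / ‖z‖ := by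
    rw [hu, inner_smul_left, inner_smul_right, real_inner_comm, hi]
    simp
    ring
  have habs : |(inner ℝ u (‖z‖⁻¹ • z) : ℝ)| = s * a / ‖z‖ := by
    rw [hin, abs_div, abs_of_pos hNpos, abs_mul, abs_mul, abs_of_pos hs, abs_of_pos ha]
    have : |σ| = 1 := by
      rw [← sq_eq_sq₀ (abs_nonneg _) zero_le_one, sq_abs, hσ]; norm_num
    rw [this, one_mul]
  have hvec : u - (inner ℝ u (‖z‖⁻¹ • z) : ℝ) • (‖z‖⁻¹ • z) =
      (s / (a ^ 2 + ρ ^ 2)) • ((ρ ^ 2) • e + ((-σ) * (ρ * a)) • η) := by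
    rw [hin, smul_smul]
    have e1 : s * (σ * a) / ‖z‖ * ‖z‖⁻¹ = s / (a ^ 2 + ρ ^ 2) * (σ * a) := by
      rw [← hn]
      field_simp
    have e3 : u = (s / (a ^ 2 + ρ ^ 2)) • ((a ^ 2 + ρ ^ 2) • e) := by
      rw [smul_smul, hu]
      congr 1
      field_simp
    rw [e1, mul_smul]
    nth_rewrite 1 [e3]
    rw [← smul_sub]
    congr 1
    rw [hz, smul_add, smul_smul, smul_smul]
    have e4 : σ * a * (σ * a) = a ^ 2 := by
      calc σ * a * (σ * a) = σ ^ 2 * a ^ 2 := by ring
        _ = a ^ 2 := by rw [hσ, one_mul]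
    rw [e4]
    module
  rw [hvec, habs]
  unfold exK
  rw [hn, hN]
  have e2 : ENNReal.ofReal (s * a / Real.sqrt (a ^ 2 + ρ ^ 2)) =
      ENNReal.ofReal a * ENNReal.ofReal (s / Real.sqrt (a ^ 2 + ρ ^ 2)) := by
    rw [← ENNReal.ofReal_mul ha.le]
    congr 1
    ring
  rw [e2, ENNReal.ofReal_mul hρ.le, add_comm (ρ ^ 2) (a ^ 2)]
  ring

theorem measurable_exK (s : ℝ) (e η : V) {Φ : V → ℝ≥0∞} (hΦ : Measurable Φ) (σ : ℝ) :
    Measurable fun q : ℝ × ℝ => exK s e η Φ σ q.1 q.2 := by
  unfold exK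
  apply Measurable.mul
  · exact (measurable_fst.mul measurable_snd).ennreal_ofReal
  · have m1 : Measurable fun q : ℝ × ℝ => q.1 ^ 2 + q.2 ^ 2 := by fun_prop
    apply Measurable.mul
    · apply Measurable.mul
      · exact measurable_chi.comp m1
      · exact (measurable_const.div m1.sqrt).ennreal_ofReal
    · apply hΦ.comp
      have k1 : Measurable fun q : ℝ × ℝ => s / (q.1 ^ 2 + q.2 ^ 2) := measurable_const.div m1
      have k2 : Measurable fun q : ℝ × ℝ => q.1 ^ 2 • e + (σ * (q.1 * q.2)) • η := by fun_prop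
      exact k1.smul k2

theorem exchange_aux (u : V) {Φ : V → ℝ≥0∞} (hΦ : Measurable Φ) :
    ∫⁻ o : S2, ENNReal.ofReal |inner ℝ u (o : V)| * Φ ((inner ℝ u (o : V) : ℝ) • (o : V)) ∂surf =
    ∫⁻ o : S2, ENNReal.ofReal |inner ℝ u (o : V)| * Φ (u - (inner ℝ u (o : V) : ℝ) • (o : V)) ∂surf := by
  rcases eq_or_ne u 0 with hu0 | hu0
  · simp [hu0]
  set s : ℝ := ‖u‖ with hs
  have hs0 : 0 < s := norm_pos_iff.mpr hu0
  set e : V := s⁻¹ • u with he
  have he1 : ‖e‖ = 1 := by
    rw [he, norm_smul, norm_inv, Real.norm_of_nonneg hs0.le]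
    exact inv_mul_cancel₀ hs0.ne'
  have hu : u = s • e := by
    rw [he, smul_smul, mul_inv_cancel₀ hs0.ne', one_smul]
  obtain ⟨b1, b2, hn, hi, hF⟩ := exists_frame e he1
  have mi : Measurable fun z : V => (inner ℝ u z : ℝ) := by fun_prop
  have m1 : Measurable fun z : V => ENNReal.ofReal |inner ℝ u z| * Φ ((inner ℝ u z : ℝ) • z) :=
    (mi.abs.ennreal_ofReal).mul (hΦ.comp (mi.smul measurable_id))
  have m2 : Measurable fun z : V => ENNReal.ofReal |inner ℝ u z| * Φ (u - (inner ℝ u z : ℝ) • z) :=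
    (mi.abs.ennreal_ofReal).mul (hΦ.comp (measurable_const.sub (mi.smul measurable_id)))
  have s1 := sphere_eq m1
  have s2 := sphere_eq m2
  have hm : ∀ {Ψ : V → ℝ≥0∞}, Measurable Ψ → Measurable fun z : V => chi (‖z‖ ^ 2) * Ψ (‖z‖⁻¹ • z) :=
    fun hΨ => (measurable_chi.comp (measurable_norm.pow_const 2)).mul
      (hΨ.comp (measurable_norm.inv.smul measurable_id))
  rw [cyl_coord (hm m1) (hF _ (hm m1))] at s1
  rw [cyl_coord (hm m2) (hF _ (hm m2))] at s2
  have key : ∀ φ ∈ Ioo (-Real.pi) Real.pi, ∀ a ∈ Ioi (0 : ℝ), ∀ ρ ∈ Ioi (0 : ℝ), ∀ σ : ℝ, σ ^ 2 = 1 →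
      ‖(σ * a) • e + ρ • (Real.cos φ • b1 + Real.sin φ • b2)‖ ^ 2 = a ^ 2 + ρ ^ 2 ∧
      inner ℝ ((σ * a) • e + ρ • (Real.cos φ • b1 + Real.sin φ • b2)) e = σ * a := by
    intro φ _ a _ ρ _ σ hσ
    have hv : (σ * a) • e + ρ • (Real.cos φ • b1 + Real.sin φ • b2) =
        (σ * a) • e + ((ρ * Real.cos φ) • b1 + (ρ * Real.sin φ) • b2) := by
      rw [smul_add ρ, smul_smul ρ (Real.cos φ), smul_smul ρ (Real.sin φ)]
    rw [hv, hn, hi]
    refine ⟨?_, rfl⟩
    have := Real.sin_sq_add_cos_sq φ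
    calc (σ * a) ^ 2 + ((ρ * Real.cos φ) ^ 2 + (ρ * Real.sin φ) ^ 2)
        = σ ^ 2 * a ^ 2 + ρ ^ 2 * (Real.sin φ ^ 2 + Real.cos φ ^ 2) := by ring
      _ = _ := by rw [hσ, this]; ring
  have hpos : (1 : ℝ) ^ 2 = 1 := by norm_num
  have hneg : (-1 : ℝ) ^ 2 = 1 := by norm_num
  have hL : cchi * ∫⁻ o : S2, ENNReal.ofReal |inner ℝ u (o : V)| *
      Φ ((inner ℝ u (o : V) : ℝ) • (o : V)) ∂surf =
      ∫⁻ φ in Ioo (-Real.pi) Real.pi, ∫⁻ a in Ioi (0 : ℝ), ∫⁻ ρ in Ioi (0 : ℝ),
      (exK s e (Real.cos φ • b1 + Real.sin φ • b2) Φ 1 a ρ +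
        exK s e (Real.cos φ • b1 + Real.sin φ • b2) Φ (-1) a ρ) := by
    rw [← s1]
    apply setLIntegral_congr_fun measurableSet_Ioo
    intro φ hφ
    apply setLIntegral_congr_fun measurableSet_Ioi
    intro a ha
    apply setLIntegral_congr_fun measurableSet_Ioi
    intro ρ hρ
    simp only
    have k1 := key φ hφ a ha ρ hρ 1 hpos
    have k2 := key φ hφ a ha ρ hρ (-1) hneg
    rw [mul_add, ← exH1 hs0 hu (Φ := Φ) ha hρ hpos rfl k1.1 k1.2,
      ← exH1 hs0 hu (Φ := Φ) ha hρ hneg rfl k2.1 k2.2]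
    simp only [one_mul, neg_mul]
  have hR : cchi * ∫⁻ o : S2, ENNReal.ofReal |inner ℝ u (o : V)| *
      Φ (u - (inner ℝ u (o : V) : ℝ) • (o : V)) ∂surf =
      ∫⁻ φ in Ioo (-Real.pi) Real.pi, ∫⁻ a in Ioi (0 : ℝ), ∫⁻ ρ in Ioi (0 : ℝ),
      (exK s e (Real.cos φ • b1 + Real.sin φ • b2) Φ 1 ρ a +
        exK s e (Real.cos φ • b1 + Real.sin φ • b2) Φ (-1) ρ a) := by
    rw [← s2]
    apply setLIntegral_congr_fun measurableSet_Ioo
    intro φ hφ
    apply setLIntegral_congr_fun measurableSet_Ioi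
    intro a ha
    apply setLIntegral_congr_fun measurableSet_Ioi
    intro ρ hρ
    simp only
    have k1 := key φ hφ a ha ρ hρ 1 hpos
    have k2 := key φ hφ a ha ρ hρ (-1) hneg
    have g1 := exH2 hs0 hu (Φ := Φ) ha hρ hpos rfl k1.1 k1.2
    have g2 := exH2 hs0 hu (Φ := Φ) ha hρ hneg rfl k2.1 k2.2
    rw [neg_neg] at g2
    rw [mul_add, add_comm (exK _ _ _ _ _ _ _), ← g1, ← g2]
    simp only [one_mul, neg_mul]
  have hswap : ∀ φ : ℝ, ∫⁻ a in Ioi (0 : ℝ), ∫⁻ ρ in Ioi (0 : ℝ),
      (exK s e (Real.cos φ • b1 + Real.sin φ • b2) Φ 1 a ρ +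
        exK s e (Real.cos φ • b1 + Real.sin φ • b2) Φ (-1) a ρ) =
      ∫⁻ a in Ioi (0 : ℝ), ∫⁻ ρ in Ioi (0 : ℝ),
      (exK s e (Real.cos φ • b1 + Real.sin φ • b2) Φ 1 ρ a +
        exK s e (Real.cos φ • b1 + Real.sin φ • b2) Φ (-1) ρ a) := by
    intro φ
    apply lintegral_lintegral_swap
    exact ((measurable_exK s e _ hΦ 1).add (measurable_exK s e _ hΦ (-1))).aemeasurable
  simp only [hswap] at hL
  rw [← hL] at hR
  exact ((ENNReal.mul_right_inj cchi_ne_zero cchi_ne_top).mp hR).symm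

/-- **Exchange of the two post-collisional velocities.** -/
theorem lintegral_exchange (v w : V) {Φ : V × V → ℝ≥0∞} (hΦ : Measurable Φ) :
    ∫⁻ o, kk v w o * Φ (post v w o, postStar v w o) ∂surf =
      ∫⁻ o, kk v w o * Φ (postStar v w o, post v w o) ∂surf := by
  have mΨ : Measurable fun z : V => Φ (v - z, w + z) :=
    hΦ.comp ((measurable_const.sub measurable_id).prodMk (measurable_const.add measurable_id))
  have h := exchange_aux (v - w) (Φ := fun z => Φ (v - z, w + z)) mΨ
  have e1 : ∀ o : S2, kk v w o * Φ (post v w o, postStar v w o) =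
      ENNReal.ofReal |inner ℝ (v - w) (o : V)| *
        Φ (v - (inner ℝ (v - w) (o : V) : ℝ) • (o : V), w + (inner ℝ (v - w) (o : V) : ℝ) • (o : V)) :=
    fun o => rfl
  have e2 : ∀ o : S2, kk v w o * Φ (postStar v w o, post v w o) =
      ENNReal.ofReal |inner ℝ (v - w) (o : V)| *
        Φ (v - (v - w - (inner ℝ (v - w) (o : V) : ℝ) • (o : V)),
          w + (v - w - (inner ℝ (v - w) (o : V) : ℝ) • (o : V))) := by
    intro o
    have a1 : postStar v w o = v - (v - w - (inner ℝ (v - w) (o : V) : ℝ) • (o : V)) := by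
      unfold postStar relA
      abel
    have a2 : post v w o = w + (v - w - (inner ℝ (v - w) (o : V) : ℝ) • (o : V)) := by
      unfold post relA
      abel
    rw [← a1, ← a2]
    rfl
  simp only [e1, e2]
  exact h

end Vale.Agent.P140
end

section

/-!
P140, module S: exact cold pairs.
-/

open MeasureTheory Set Filter
open scoped ENNReal Topology

noncomputable section

namespace Vale.Agent.P140.NU.S

/-- `a`, `b` is a pair of exact cold velocities -/
def Cp (a b : V) : Prop := a 2 = 1 ∧ b 2 = -1 ∧ a 0 = b 0 ∧ a 1 = b 1 ∧ a 0 ^ 2 + a 1 ^ 2 ≤ 1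

end Vale.Agent.P140.NU.S
end
end

namespace Vale.Agent.P140.Sc
open MeasureTheory ENNReal Vale.Agent.P140
theorem a01 : FiniteDimensional ℝ V := inferInstance
attribute [local instance 5000] a01
theorem a02 : SigmaFinite (volume : Measure V) := inferInstance
theorem a03 : SFinite (volume : Measure V) := inferInstance
theorem a04 : SFinite surf := inferInstance
theorem a05 : SFinite (volume : Measure T3) := inferInstance
attribute [local instance 5000] a02 a03 a04 a05
theorem a06 : SFinite (volume : Measure (T3 × V)) := inferInstance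
theorem a07 : SFinite ((volume : Measure V).prod surf) := inferInstance
theorem a08 : SFinite ((volume : Measure V).prod ((volume : Measure V).prod surf)) := inferInstance
theorem a09 : ProperSpace V := inferInstance
theorem a10 : WeaklyLocallyCompactSpace V := inferInstance
theorem a11 : MeasurableAdd₂ V := inferInstance
theorem a12 : MeasurableSub₂ V := inferInstance
theorem a13 : MeasurableSMul₂ ℝ V := inferInstance
theorem a14 : MeasurableSMul ℝ V := inferInstance
theorem a15 : MeasurableAdd V := inferInstance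
theorem a16 : MeasurableSub V := inferInstance
theorem a17 : MeasurableNeg V := inferInstance
theorem a18 : ContinuousSMul ℝ V := inferInstance
theorem a19 : ContinuousSub V := inferInstance
theorem a20 : ContinuousAdd V := inferInstance
theorem a21 : MeasurableMul ℝ≥0∞ := inferInstance
theorem a22 : MeasurableSub ℝ≥0∞ := inferInstance
theorem a23 : MeasurableDiv₂ ℝ := inferInstance
theorem a24 : MeasurableAdd T3 := inferInstance
theorem a25 : MeasurableSub₂ T3 := inferInstance
theorem a26 : MeasurableAdd₂ T3 := inferInstance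
theorem a27 : (volume : Measure V).IsAddRightInvariant := inferInstance
theorem a28 : (volume : Measure T3).IsAddRightInvariant := inferInstance
theorem a29 : (volume : Measure V).IsNegInvariant := inferInstance
theorem a30 : AddRightStrictMono ℝ := inferInstance
theorem a31 : AddRightMono ℝ := inferInstance
theorem a32 : ClosedIicTopology ℝ := inferInstance
theorem a33 : IsTopologicalAddGroup V := inferInstance
theorem r01 : CharZero ℝ := inferInstance
theorem r02 : AddLeftMono ℝ := inferInstance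
theorem r03 : AddRightMono ℝ := inferInstance
theorem r04 : AddLeftStrictMono ℝ := inferInstance
theorem r05 : AddRightStrictMono ℝ := inferInstance
theorem r06 : PosMulReflectLT ℝ := inferInstance
theorem r07 : NoZeroDivisors ℝ := inferInstance
theorem r08 : NeZero (1:ℝ) := inferInstance
theorem r09 : NeZero (2:ℝ) := inferInstance
theorem r10 : OrderClosedTopology ℝ := inferInstance
theorem r11 : MulLeftMono ℝ≥0∞ := inferInstance
theorem r12 : MulRightMono ℝ≥0∞ := inferInstance
theorem r13 : AddLeftMono ℝ≥0∞ := inferInstance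
theorem r14 : AddRightMono ℝ≥0∞ := inferInstance
theorem r15 : MeasurableSingletonClass ℝ := inferInstance
theorem r16 : AddLeftMono ℕ := inferInstance
theorem r17 : AddRightMono ℕ := inferInstance
theorem r18 : SecondCountableTopology ℂ := inferInstance
end Vale.Agent.P140.Sc
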