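import Vale.Agent.P140.MathlibUsed

set_option linter.all false

section

open MeasureTheory Set

namespace Vale.Agent.P140

/-- Duhamel kernel -/
noncomputable def duh (l : ℝ) (h0 : ENNReal) (G : ℝ → ENNReal) (t : ℝ) : ENNReal :=
  ENNReal.ofReal (Real.exp (-l * t)) * h0 +
    ∫⁻ s in Ioc 0 t, ENNReal.ofReal (Real.exp (-l * (t - s))) * G s

end Vale.Agent.P140
end

section

/-!
P140, non-uniqueness, module N: the barrier along flights (real analysis).
-/

open MeasureTheory Set Filter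
open scoped ENNReal Topology

noncomputable section

namespace Vale.Agent.P140.NU.Nb

theorem hasDerivAt_max_pow {K : ℕ} (hK : 2 ≤ K) (y : ℝ) :
    HasDerivAt (fun y : ℝ => (max y 0) ^ K) (K * (max y 0) ^ (K - 1)) y := by
  rcases lt_trichotomy y 0 with h | h | h
  · have h1 : (fun y : ℝ => (max y 0) ^ K) =ᶠ[𝓝 y] fun _ => 0 := by
      filter_upwards [Iio_mem_nhds h] with z hz
      rw [max_eq_right (le_of_lt hz), zero_pow (by omega)]
    rw [max_eq_right h.le, zero_pow (by omega), mul_zero]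
    exact (hasDerivAt_const y (0 : ℝ)).congr_of_eventuallyEq h1
  · subst h
    rw [max_self, zero_pow (by omega : K - 1 ≠ 0), mul_zero, hasDerivAt_iff_isLittleO]
    rw [max_self, zero_pow (by omega : K ≠ 0)]
    simp only [sub_zero, smul_zero]
    have h1 : (fun x : ℝ => (max x 0) ^ K) =O[𝓝 0] fun x : ℝ => x ^ K := by
      apply Asymptotics.IsBigO.of_bound 1
      filter_upwards with x
      rw [Real.norm_eq_abs, Real.norm_eq_abs, abs_pow, abs_pow, one_mul]
      apply pow_le_pow_left₀ (abs_nonneg _)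
      rw [abs_le]
      constructor
      · have := le_max_right x 0
        have := abs_nonneg x
        linarith
      · exact max_le (le_abs_self x) (abs_nonneg x)
    exact h1.trans_isLittleO (Asymptotics.isLittleO_pow_id (by omega))
  · have h1 : (fun y : ℝ => (max y 0) ^ K) =ᶠ[𝓝 y] fun y => y ^ K := by
      filter_upwards [Ioi_mem_nhds h] with z hz
      rw [max_eq_left (le_of_lt hz)]
    rw [max_eq_left h.le]
    exact (hasDerivAt_pow K y).congr_of_eventuallyEq h1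

/-- integral of the power of an affine function, cut off at `0` -/
theorem flight_pow {K : ℕ} (hK : 2 ≤ K) {t r : ℝ} (ht : 0 ≤ t) (hr0 : 0 ≤ r) :
    ∫ τ in (0 : ℝ)..t, (max (r - K * (t - τ)) 0) ^ (K - 1) ≤ r ^ K / (K : ℝ) ^ 2 := by
  have hKp : (0 : ℝ) < K := by
    have : 0 < K := by omega
    exact_mod_cast this
  have hd : ∀ τ ∈ uIcc 0 t, HasDerivAt (fun τ : ℝ => (max (r - K * (t - τ)) 0) ^ K / (K : ℝ) ^ 2)
      ((max (r - K * (t - τ)) 0) ^ (K - 1)) τ := by
    intro τ _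
    have h0 : HasDerivAt (fun τ : ℝ => r - K * (t - τ)) K τ := by
      have h1 := (((hasDerivAt_id τ).const_sub t).const_mul (K : ℝ)).const_sub r
      simpa using h1
    have h1 := (hasDerivAt_max_pow hK (r - K * (t - τ))).comp τ h0
    have h2 := h1.div_const ((K : ℝ) ^ 2)
    have e : K * (max (r - K * (t - τ)) 0) ^ (K - 1) * K / (K : ℝ) ^ 2 =
        (max (r - K * (t - τ)) 0) ^ (K - 1) := by
      field_simp
    rw [e] at h2
    exact h2
  rw [intervalIntegral.integral_eq_sub_of_hasDerivAt hd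
    (by apply Continuous.intervalIntegrable; fun_prop)]
  have h3 : 0 ≤ (max (r - K * (t - 0)) 0) ^ K / (K : ℝ) ^ 2 := by positivity
  have h4 : max (r - K * (t - t)) 0 = r := by
    rw [sub_self, mul_zero, sub_zero, max_eq_left hr0]
  rw [h4]
  linarith

/-- the barrier inequality along a flight, real analysis part -/
theorem flight_ineq {K : ℕ} (hK : 2 ≤ K) {μ A t : ℝ} (ht : 0 ≤ t) (hA : 0 ≤ A)
    (hμ1 : 2 * (K : ℝ) ^ 2 ≤ μ) (hμ2 : 4 * A ≤ μ) {R : ℝ → ℝ} (hR0 : ∀ τ ∈ Icc 0 t, 0 ≤ R τ)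
    (hR : ∀ τ ∈ Icc 0 t, R τ + K * (t - τ) ≤ R t) :
    ∫⁻ τ in Ioc 0 t, ENNReal.ofReal (Real.exp (μ * τ) *
      ((K : ℝ) ^ 2 / 2 * (min (R τ) 1) ^ (K - 1) + A * (min (R τ) 1) ^ K)) ≤
    ENNReal.ofReal (Real.exp (μ * t) * (min (R t) 1) ^ K) := by
  have hKp : (0 : ℝ) < K := by
    have : 0 < K := by omega
    exact_mod_cast this
  have hμ : 0 < μ := by
    have : 0 < 2 * (K : ℝ) ^ 2 := by positivity
    linarith
  set r := R t with hr
  have hr0 : 0 ≤ r := hR0 t ⟨ht, le_refl t⟩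
  set m := min r 1 with hm
  have hm0 : 0 ≤ m := le_min hr0 zero_le_one
  set q : ℝ → ℝ := fun τ => min (max (r - K * (t - τ)) 0) 1 with hq
  have hq0 : ∀ τ, 0 ≤ q τ := fun τ => le_min (le_max_right _ _) zero_le_one
  have hq1 : ∀ τ, q τ ≤ 1 := fun τ => min_le_right _ _
  have hqm : ∀ τ ∈ Icc 0 t, q τ ≤ m := by
    intro τ hτ
    apply min_le_min_right
    apply max_le _ hr0
    have : 0 ≤ (K : ℝ) * (t - τ) := mul_nonneg hKp.le (by linarith [hτ.2])
    linarith
  have hRq : ∀ τ ∈ Icc 0 t, min (R τ) 1 ≤ q τ := by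
    intro τ hτ
    apply min_le_min_right
    apply le_max_of_le_left
    linarith [hR τ hτ]
  have hRm : ∀ τ ∈ Icc 0 t, 0 ≤ min (R τ) 1 := fun τ hτ => le_min (hR0 τ hτ) zero_le_one
  have qc : Continuous q := by
    simp only [hq]
    fun_prop
  have hexp : ∀ τ ∈ Icc 0 t, Real.exp (μ * τ) ≤ Real.exp (μ * t) := by
    intro τ hτ
    apply Real.exp_le_exp.mpr
    exact mul_le_mul_of_nonneg_left hτ.2 hμ.le
  have hint : ∫ τ in (0 : ℝ)..t, Real.exp (μ * τ) ≤ Real.exp (μ * t) / μ := by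
    have h1 : ∫ τ in (0 : ℝ)..t, Real.exp (μ * τ) = μ⁻¹ * (Real.exp (μ * t) - Real.exp (μ * 0)) := by
      have := intervalIntegral.integral_comp_mul_left (a := 0) (b := t) (fun x => Real.exp x) hμ.ne'
      rw [this, integral_exp]
      rfl
    rw [h1, mul_zero, Real.exp_zero]
    have : 0 < μ⁻¹ := inv_pos.mpr hμ
    rw [div_eq_inv_mul]
    linarith only [this]
  -- majorant
  have step1 : ∫⁻ τ in Ioc 0 t, ENNReal.ofReal (Real.exp (μ * τ) *
      ((K : ℝ) ^ 2 / 2 * (min (R τ) 1) ^ (K - 1) + A * (min (R τ) 1) ^ K)) ≤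
      ∫⁻ τ in Ioc 0 t, ENNReal.ofReal (Real.exp (μ * τ) *
        ((K : ℝ) ^ 2 / 2 * (q τ) ^ (K - 1)) + Real.exp (μ * τ) * (A * m ^ K)) := by
    apply setLIntegral_mono' measurableSet_Ioc
    intro τ hτ
    have hτ' : τ ∈ Icc 0 t := ⟨hτ.1.le, hτ.2⟩
    apply ENNReal.ofReal_le_ofReal
    rw [← mul_add]
    apply mul_le_mul_of_nonneg_left _ (Real.exp_pos _).le
    apply add_le_add
    · apply mul_le_mul_of_nonneg_left _ (by positivity)
      exact pow_le_pow_left₀ (hRm τ hτ') (hRq τ hτ') _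
    · apply mul_le_mul_of_nonneg_left _ hA
      exact pow_le_pow_left₀ (hRm τ hτ') ((hRq τ hτ').trans (hqm τ hτ')) _
  refine step1.trans ?_
  have c1 : Continuous fun τ => Real.exp (μ * τ) * ((K : ℝ) ^ 2 / 2 * (q τ) ^ (K - 1)) := by
    fun_prop
  have c2 : Continuous fun τ : ℝ => Real.exp (μ * τ) * (A * m ^ K) := by fun_prop
  have c3 : Continuous fun τ => Real.exp (μ * τ) * ((K : ℝ) ^ 2 / 2 * (q τ) ^ (K - 1)) +
      Real.exp (μ * τ) * (A * m ^ K) := c1.add c2
  rw [← ofReal_integral_eq_lintegral_ofReal c3.integrableOn_Ioc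
    (Eventually.of_forall fun τ => by
      have := hq0 τ
      simp only [Pi.zero_apply]
      (clear * - hK hA hr0; positivity))]
  apply ENNReal.ofReal_le_ofReal
  rw [← intervalIntegral.integral_of_le ht]
  rw [intervalIntegral.integral_add (c1.intervalIntegrable _ _) (c2.intervalIntegrable _ _)]
  rw [intervalIntegral.integral_mul_const]
  have b2 : (∫ τ in (0 : ℝ)..t, Real.exp (μ * τ)) * (A * m ^ K) ≤
      1 / 4 * (Real.exp (μ * t) * m ^ K) := by
    have h1 : (∫ τ in (0 : ℝ)..t, Real.exp (μ * τ)) * (A * m ^ K) ≤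
        Real.exp (μ * t) / μ * (A * m ^ K) :=
      mul_le_mul_of_nonneg_right hint (by positivity)
    have h2 : Real.exp (μ * t) / μ * (A * m ^ K) = (A / μ) * (Real.exp (μ * t) * m ^ K) := by ring
    have h3 : A / μ ≤ 1 / 4 := by
      rw [div_le_div_iff₀ hμ (by norm_num)]
      linarith
    rw [h2] at h1
    refine h1.trans (mul_le_mul_of_nonneg_right h3 (by positivity))
  have b1 : ∫ τ in (0 : ℝ)..t, Real.exp (μ * τ) * ((K : ℝ) ^ 2 / 2 * (q τ) ^ (K - 1)) ≤
      1 / 2 * (Real.exp (μ * t) * m ^ K) := by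
    rcases le_or_gt r 1 with h1 | h1
    · have hmr : m = r := min_eq_left h1
      have h2 : ∫ τ in (0 : ℝ)..t, Real.exp (μ * τ) * ((K : ℝ) ^ 2 / 2 * (q τ) ^ (K - 1)) ≤
          ∫ τ in (0 : ℝ)..t, (Real.exp (μ * t) * ((K : ℝ) ^ 2 / 2)) *
            (max (r - K * (t - τ)) 0) ^ (K - 1) := by
        apply intervalIntegral.integral_mono_on ht (c1.intervalIntegrable _ _)
          (by apply Continuous.intervalIntegrable; fun_prop)
        intro τ hτ
        have h3 : q τ ≤ max (r - K * (t - τ)) 0 := min_le_left _ _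
        have h4 : q τ ^ (K - 1) ≤ (max (r - K * (t - τ)) 0) ^ (K - 1) :=
          pow_le_pow_left₀ (hq0 τ) h3 _
        rw [mul_assoc]
        apply mul_le_mul (hexp τ hτ) _ (by have := hq0 τ; positivity) (Real.exp_pos _).le
        exact mul_le_mul_of_nonneg_left h4 (by positivity)
      rw [intervalIntegral.integral_const_mul] at h2
      have h5 := flight_pow hK ht hr0
      have h6 : (Real.exp (μ * t) * ((K : ℝ) ^ 2 / 2)) *
          ∫ τ in (0 : ℝ)..t, (max (r - K * (t - τ)) 0) ^ (K - 1) ≤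
          (Real.exp (μ * t) * ((K : ℝ) ^ 2 / 2)) * (r ^ K / (K : ℝ) ^ 2) :=
        mul_le_mul_of_nonneg_left h5 (by positivity)
      have h7 : (Real.exp (μ * t) * ((K : ℝ) ^ 2 / 2)) * (r ^ K / (K : ℝ) ^ 2) =
          1 / 2 * (Real.exp (μ * t) * m ^ K) := by
        rw [hmr]
        field_simp
      linarith only [h7, h6, h2]
    · have hmr : m = 1 := min_eq_right h1.le
      have h2 : ∫ τ in (0 : ℝ)..t, Real.exp (μ * τ) * ((K : ℝ) ^ 2 / 2 * (q τ) ^ (K - 1)) ≤
          ∫ τ in (0 : ℝ)..t, Real.exp (μ * τ) * ((K : ℝ) ^ 2 / 2) := by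
        apply intervalIntegral.integral_mono_on ht (c1.intervalIntegrable _ _)
          (by apply Continuous.intervalIntegrable; fun_prop)
        intro τ hτ
        apply mul_le_mul_of_nonneg_left _ (Real.exp_pos _).le
        have h4 : q τ ^ (K - 1) ≤ 1 := pow_le_one₀ (hq0 τ) (hq1 τ)
        have : (0 : ℝ) ≤ (K : ℝ) ^ 2 / 2 := by positivity
        linarith only [mul_nonneg (sub_nonneg.2 h4) (sub_nonneg.2 this)]
      rw [intervalIntegral.integral_mul_const] at h2
      have h5 : (∫ τ in (0 : ℝ)..t, Real.exp (μ * τ)) * ((K : ℝ) ^ 2 / 2) ≤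
          Real.exp (μ * t) / μ * ((K : ℝ) ^ 2 / 2) :=
        mul_le_mul_of_nonneg_right hint (by positivity)
      have h6 : Real.exp (μ * t) / μ * ((K : ℝ) ^ 2 / 2) =
          ((K : ℝ) ^ 2 / (2 * μ)) * Real.exp (μ * t) := by
        field_simp
      have h7 : (K : ℝ) ^ 2 / (2 * μ) ≤ 1 / 2 := by
        rw [div_le_div_iff₀ (by positivity) (by norm_num)]
        linarith only [hμ, hμ1]
      have h8 : ((K : ℝ) ^ 2 / (2 * μ)) * Real.exp (μ * t) ≤ 1 / 2 * Real.exp (μ * t) :=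
        mul_le_mul_of_nonneg_right h7 (Real.exp_pos _).le
      rw [hmr, one_pow, mul_one]
      linarith only [h8, h6, h5, h2]
  have hpos : 0 ≤ Real.exp (μ * t) * m ^ K := by positivity
  linarith

end Vale.Agent.P140.NU.Nb
end
end

section

/-!
P140-NU-S: one-dimensional multiplicity lemma.
-/

open MeasureTheory Set
open scoped ENNReal NNReal Topology

noncomputable section

namespace Vale.Agent.P140.NU.S

/-- the number of the pieces whose image contains `y` is at most the number of preimages -/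
theorem sweep_count {G : Set ℝ} {ψ : ℝ → ℝ} {t : ℕ → Set ℝ} (htd : Pairwise (Function.onFun Disjoint t))
    (m : ℕ) (y : ℝ) (hm : ({τ ∈ G | ψ τ = y}).encard ≤ m) :
    ∑' n, (ψ '' (G ∩ t n)).indicator (fun _ => (1 : ℝ≥0∞)) y ≤ m := by
  classical
  rw [ENNReal.tsum_eq_iSup_sum]
  refine iSup_le fun s => ?_
  have h1 : ∑ n ∈ s, (ψ '' (G ∩ t n)).indicator (fun _ => (1 : ℝ≥0∞)) y
      = ((s.filter fun n => y ∈ ψ '' (G ∩ t n)).card : ℝ≥0∞) := by
    rw [Finset.card_filter]
    push_cast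
    refine Finset.sum_congr rfl fun n _ => ?_
    by_cases h : y ∈ ψ '' (G ∩ t n)
    · simp [h]
    · simp [h]
  rw [h1]
  set s' := s.filter fun n => y ∈ ψ '' (G ∩ t n) with hs'
  have hex : ∀ n ∈ s', ∃ τ, τ ∈ G ∩ t n ∧ ψ τ = y := fun n hn => (Finset.mem_filter.1 hn).2
  choose! c hc using hex
  have hinj : InjOn c (s' : Set ℕ) := by
    intro a ha b hb hab
    by_contra hne
    have h2 := (htd hne)
    exact (Set.disjoint_left.1 h2) (hc a ha).1.2 (by rw [hab]; exact (hc b hb).1.2)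
  have h3 : (s' : Set ℕ).encard ≤ ({τ ∈ G | ψ τ = y}).encard := by
    rw [← hinj.encard_image]
    apply Set.encard_le_encard
    rintro _ ⟨n, hn, rfl⟩
    exact ⟨(hc n hn).1.1, (hc n hn).2⟩
  have h4 : ((s'.card : ℕ) : ℕ∞) ≤ m := by
    have := h3.trans hm
    rwa [Set.encard_coe_eq_coe_finsetCard] at this
  exact_mod_cast (Nat.cast_le.1 h4 : s'.card ≤ m)

theorem sweep (G : Set ℝ) (hG : MeasurableSet G) (ψ ψ' : ℝ → ℝ)
    (hd : ∀ τ ∈ G, HasDerivAt ψ (ψ' τ) τ) (l : ℝ) (hl : 0 < l) (hb : ∀ τ ∈ G, l ≤ |ψ' τ|) (m : ℕ)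
    (hm : ∀ y, ({τ ∈ G | ψ τ = y}).encard ≤ m) (g : ℝ → ℝ≥0∞) (hg : Measurable g) :
    ∫⁻ τ in G, g (ψ τ) ≤ ENNReal.ofReal (m / l) * ∫⁻ y, g y := by
  classical
  rcases G.eq_empty_or_nonempty with hGe | hGne
  · simp [hGe]
  let r : (ℝ →L[ℝ] ℝ) → ℝ≥0 := fun A => if A 1 = 0 then 1 else ‖A 1‖₊ / 2
  have rpos : ∀ A, r A ≠ 0 := by
    intro A
    simp only [r]
    split_ifs with h
    · exact one_ne_zero
    · have : ‖A 1‖₊ ≠ 0 := by simpa using h
      positivity
  have hfd : ∀ x ∈ G, HasFDerivWithinAt ψ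
      ((ContinuousLinearMap.toSpanSingleton ℝ (ψ' x) : ℝ →L[ℝ] ℝ)) G x :=
    fun x hx => (hd x hx).hasFDerivAt.hasFDerivWithinAt
  obtain ⟨t, A, htd, htm, hcov, happ, hA⟩ :=
    exists_partition_approximatesLinearOn_of_hasFDerivWithinAt ψ G
      (fun x => (ContinuousLinearMap.toSpanSingleton ℝ (ψ' x) : ℝ →L[ℝ] ℝ)) hfd r rpos
  have hinj : ∀ n, InjOn ψ (G ∩ t n) := by
    intro n x hx y hy hxy
    obtain ⟨z, hz, hAz⟩ := hA hGne n
    have hA1 : A n 1 = ψ' z := by rw [hAz]; simp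
    have hne : A n 1 ≠ 0 := by
      rw [hA1]; intro h0
      have := hb z hz
      rw [h0, abs_zero] at this
      linarith
    have h := happ n x hx y hy
    rw [hxy, sub_self, zero_sub, norm_neg] at h
    have h5 : A n (x - y) = (x - y) * A n 1 := by
      have := (A n).map_smul (x - y) (1 : ℝ)
      simpa using this
    rw [h5, norm_mul] at h
    have h6 : (r (A n) : ℝ) = ‖A n 1‖ / 2 := by
      simp only [r, hne, if_false]
      simp
    rw [h6] at h
    have h7 : 0 < ‖A n 1‖ := norm_pos_iff.2 hne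
    have h8 : ‖x - y‖ ≤ 0 := by
      by_contra hpos
      push Not at hpos
      linarith only [mul_pos (sub_pos.2 h7) (sub_pos.2 hpos), h]
    have h9 : x - y = 0 := by simpa using h8
    linarith
  have hGn : ∀ n, MeasurableSet (G ∩ t n) := fun n => hG.inter (htm n)
  have hdn : ∀ n, ∀ x ∈ G ∩ t n, HasDerivWithinAt ψ (ψ' x) (G ∩ t n) x :=
    fun n x hx => (hd x hx.1).hasDerivWithinAt
  have hUn : G = ⋃ n, G ∩ t n := by
    rw [← inter_iUnion]
    exact (inter_eq_left.2 hcov).symm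
  have hpd : Pairwise (Function.onFun Disjoint fun n => G ∩ t n) := by
    intro a b hab
    exact (htd hab).mono inter_subset_right inter_subset_right
  have hpiece : ∀ n, ∫⁻ τ in G ∩ t n, g (ψ τ)
      ≤ ENNReal.ofReal (1 / l) * ∫⁻ y, (ψ '' (G ∩ t n)).indicator (fun _ => (1 : ℝ≥0∞)) y * g y := by
    intro n
    have e1 : ∫⁻ τ in G ∩ t n, g (ψ τ)
        ≤ ∫⁻ τ in G ∩ t n, ENNReal.ofReal (1 / l) * (ENNReal.ofReal |ψ' τ| * g (ψ τ)) := by
      apply setLIntegral_mono' (hGn n)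
      intro τ hτ
      rw [← mul_assoc, ← ENNReal.ofReal_mul (by positivity)]
      have : (1 : ℝ) ≤ 1 / l * |ψ' τ| := by
        rw [one_div, inv_mul_eq_div, le_div_iff₀ hl]
        simpa using hb τ hτ.1
      calc g (ψ τ) = 1 * g (ψ τ) := (one_mul _).symm
        _ ≤ ENNReal.ofReal (1 / l * |ψ' τ|) * g (ψ τ) := by
            gcongr
            rw [← ENNReal.ofReal_one]
            exact ENNReal.ofReal_le_ofReal this
    refine e1.trans ?_
    rw [lintegral_const_mul' _ _ ENNReal.ofReal_ne_top]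
    refine mul_le_mul' le_rfl ?_
    rw [← lintegral_image_eq_lintegral_abs_deriv_mul (hGn n) (hdn n) (hinj n) g]
    have himg : MeasurableSet (ψ '' (G ∩ t n)) :=
      measurable_image_of_fderivWithin (hGn n) (fun x hx => (hdn n x hx).hasFDerivWithinAt) (hinj n)
    rw [← lintegral_indicator himg]
    apply lintegral_mono
    intro y
    by_cases h : y ∈ ψ '' (G ∩ t n)
    · simp [indicator_of_mem h]
    · simp [indicator_of_notMem h]
  calc ∫⁻ τ in G, g (ψ τ) = ∫⁻ τ in ⋃ n, G ∩ t n, g (ψ τ) := by rw [← hUn]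
    _ = ∑' n, ∫⁻ τ in G ∩ t n, g (ψ τ) := lintegral_iUnion hGn hpd _
    _ ≤ ∑' n, ENNReal.ofReal (1 / l) *
          ∫⁻ y, (ψ '' (G ∩ t n)).indicator (fun _ => (1 : ℝ≥0∞)) y * g y :=
        ENNReal.tsum_le_tsum hpiece
    _ = ENNReal.ofReal (1 / l) * ∑' n,
          ∫⁻ y, (ψ '' (G ∩ t n)).indicator (fun _ => (1 : ℝ≥0∞)) y * g y := ENNReal.tsum_mul_left
    _ = ENNReal.ofReal (1 / l) *
          ∫⁻ y, ∑' n, (ψ '' (G ∩ t n)).indicator (fun _ => (1 : ℝ≥0∞)) y * g y := by
        rw [lintegral_tsum]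
        intro n
        have himg : MeasurableSet (ψ '' (G ∩ t n)) :=
          measurable_image_of_fderivWithin (hGn n) (fun x hx => (hdn n x hx).hasFDerivWithinAt)
            (hinj n)
        exact ((measurable_const.indicator himg).mul hg).aemeasurable
    _ ≤ ENNReal.ofReal (1 / l) * ∫⁻ y, (m : ℝ≥0∞) * g y := by
        gcongr with y
        rw [ENNReal.tsum_mul_right]
        gcongr
        exact sweep_count htd m y (hm y)
    _ = ENNReal.ofReal (m / l) * ∫⁻ y, g y := by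
        rw [lintegral_const_mul _ hg, ← mul_assoc]
        congr 1
        rw [← ENNReal.ofReal_natCast, ← ENNReal.ofReal_mul (by positivity)]
        congr 1
        ring

end Vale.Agent.P140.NU.S
end
end
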