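import Vale.Agent.P140.MathlibUsed
import Vale.Agent.P140.Bd3.B1
import Vale.Agent.P140.Bd3.B2

set_option linter.all false

attribute [local instance 5000] Vale.Agent.P140.Sc.a01 Vale.Agent.P140.Sc.a02 Vale.Agent.P140.Sc.a03 Vale.Agent.P140.Sc.a04 Vale.Agent.P140.Sc.a05 Vale.Agent.P140.Sc.a06 Vale.Agent.P140.Sc.a07 Vale.Agent.P140.Sc.a08 Vale.Agent.P140.Sc.a09 Vale.Agent.P140.Sc.a10 Vale.Agent.P140.Sc.a11 Vale.Agent.P140.Sc.a12 Vale.Agent.P140.Sc.a13 Vale.Agent.P140.Sc.a14 Vale.Agent.P140.Sc.a15 Vale.Agent.P140.Sc.a16 Vale.Agent.P140.Sc.a17 Vale.Agent.P140.Sc.a18 Vale.Agent.P140.Sc.a19 Vale.Agent.P140.Sc.a20 Vale.Agent.P140.Sc.a21 Vale.Agent.P140.Sc.a22 Vale.Agent.P140.Sc.a23 Vale.Agent.P140.Sc.a24 Vale.Agent.P140.Sc.a25 Vale.Agent.P140.Sc.a26 Vale.Agent.P140.Sc.a27 Vale.Agent.P140.Sc.a28 Vale.Agent.P140.Sc.a29 Vale.Agent.P140.Sc.a30 Vale.Agent.P140.Sc.a31 Vale.Agent.P140.Sc.a32 Vale.Agent.P140.Sc.a33 Vale.Agent.P140.Sc.r01 Vale.Agent.P140.Sc.r02 Vale.Agent.P140.Sc.r03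 Vale.Agent.P140.Sc.r04 Vale.Agent.P140.Sc.r05 Vale.Agent.P140.Sc.r06 Vale.Agent.P140.Sc.r07 Vale.Agent.P140.Sc.r08 Vale.Agent.P140.Sc.r09 Vale.Agent.P140.Sc.r10 Vale.Agent.P140.Sc.r11 Vale.Agent.P140.Sc.r12 Vale.Agent.P140.Sc.r13 Vale.Agent.P140.Sc.r14 Vale.Agent.P140.Sc.r15 Vale.Agent.P140.Sc.r16 Vale.Agent.P140.Sc.r17 Vale.Agent.P140.Sc.r18

section

open MeasureTheory Set

namespace Vale.Agent.P140

end Vale.Agent.P140
end

section

open MeasureTheory Set

namespace Vale.Agent.P140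

section joint
variable {α : Type*} [MeasurableSpace α] {f : α → V → ENNReal}

end joint

end Vale.Agent.P140
end

section

open MeasureTheory Set

namespace Vale.Agent.P140

end Vale.Agent.P140
end

section

open MeasureTheory Set

namespace Vale.Agent.P140

end Vale.Agent.P140
end

section

open MeasureTheory Set

namespace Vale.Agent.P140

end Vale.Agent.P140
end

section

open MeasureTheory Set

namespace Vale.Agent.P140

theorem ae_post_notMem {N : Set V} (hN : volume N = 0) :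
    ∀ᵐ v : V, ∀ᵐ w : V, ∀ᵐ o ∂surf, post v w o ∉ N ∧ postStar v w o ∉ N := by
  set N' := toMeasurable volume N with hN'
  have hm : MeasurableSet N' := measurableSet_toMeasurable _ _
  have h0 : volume N' = 0 := by rw [hN', measure_toMeasurable]; exact hN
  have hsub : N ⊆ N' := subset_toMeasurable _ _
  have hi : Measurable (N'.indicator (fun _ : V => (1 : ENNReal))) := measurable_const.indicator hm
  have hz : ∫⁻ v, N'.indicator (fun _ : V => (1 : ENNReal)) v = 0 := by
    rw [lintegral_indicator hm]; simp [h0]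
  have a1 : I3 (fun p => N'.indicator (fun _ : V => (1 : ENNReal)) (post p.1 p.2.1 p.2.2)) = 0 := by
    have := I3_coll (H := fun p => N'.indicator (fun _ : V => (1 : ENNReal)) p.1) (meas_1 hi)
    simp only at this
    rw [this]
    unfold I3
    have h2 : ∀ᵐ v : V, v ∉ N' := measure_eq_zero_iff_ae_notMem.mp h0
    apply (lintegral_eq_zero_iff' ?_).mpr
    · filter_upwards [h2] with v hv
      simp [hv]
    · exact (meas_inner_int2 (meas_1 hi)).aemeasurable
  have a2 : I3 (fun p => N'.indicator (fun _ : V => (1 : ENNReal)) (postStar p.1 p.2.1 p.2.2)) = 0 := by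
    have hs := I3_swap (H := fun p => N'.indicator (fun _ : V => (1 : ENNReal)) (post p.1 p.2.1 p.2.2))
      (meas_post_comp hi)
    rw [a1] at hs
    rw [← hs]
    apply I3_congr
    intro p
    simp only
    rw [post_swap p.1 p.2.1]
  have key : ∀ H : V × V × S2 → ENNReal, Measurable H → I3 H = 0 →
      ∀ᵐ v : V, ∀ᵐ w : V, ∀ᵐ o ∂surf, H (v, w, o) = 0 := by
    intro H hH h
    have h1 := (lintegral_eq_zero_iff (meas_inner_int2 hH)).mp h
    filter_upwards [h1] with v hv
    have h2 := (lintegral_eq_zero_iff (meas_sec_w hH v)).mp hv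
    filter_upwards [h2] with w hw
    exact (lintegral_eq_zero_iff (meas_sec_o hH v w)).mp hw
  have k1 := key _ (meas_post_comp hi) a1
  have k2 := key _ (meas_postStar_comp hi) a2
  filter_upwards [k1, k2] with v h1 h2
  filter_upwards [h1, h2] with w h1 h2
  filter_upwards [h1, h2] with o h1 h2
  constructor
  · intro h
    have : post v w o ∈ N' := hsub h
    simp [this] at h1
  · intro h
    have : postStar v w o ∈ N' := hsub h
    simp [this] at h2

end Vale.Agent.P140
end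

section

open MeasureTheory Set Filter
open scoped ENNReal Topology

namespace Vale.Agent.P140

/-- collision frequency -/
noncomputable def Ln (f : V → ℝ≥0∞) (v : V) : ℝ≥0∞ :=
  ∫⁻ w, ∫⁻ o, kk v w o * f w ∂surf

/-- bilinear gain operator -/
noncomputable def Bg (f g : V → ℝ≥0∞) (v : V) : ℝ≥0∞ :=
  ∫⁻ w, ∫⁻ o, kk v w o * (f (post v w o) * g (postStar v w o)) ∂surf

theorem Ln_mono {f g : V → ℝ≥0∞} (h : ∀ v, f v ≤ g v) (v : V) : Ln f v ≤ Ln g v := by
  unfold Ln
  apply lintegral_mono; intro w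
  apply lintegral_mono; intro o
  simp only
  gcongr
  exact h _

theorem meas_LnI {f : V → ℝ≥0∞} (hf : Measurable f) :
    Measurable fun p : V × V × S2 => kk p.1 p.2.1 p.2.2 * f p.2.1 :=
  measurable_kk.mul (meas_2 hf)

theorem meas_BgI {f g : V → ℝ≥0∞} (hf : Measurable f) (hg : Measurable g) :
    Measurable fun p : V × V × S2 =>
      kk p.1 p.2.1 p.2.2 * (f (post p.1 p.2.1 p.2.2) * g (postStar p.1 p.2.1 p.2.2)) :=
  measurable_kk.mul ((meas_post_comp hf).mul (meas_postStar_comp hg))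

/-- source term: increasing in `a`, decreasing in `b` -/
noncomputable def src (L : V → ℝ) (a b : V → ℝ≥0∞) (v : V) : ℝ≥0∞ :=
  Qp a v + (ENNReal.ofReal (L v) - Ln b v) * a v

/-- time dependent functions on the torus -/
abbrev TF := ℝ → T3 → V → ℝ≥0∞

def MeasTF (a : TF) : Prop := Measurable fun p : ℝ × T3 × V => a p.1 p.2.1 p.2.2

/-- Lagrangian Duhamel operator -/
noncomputable def PhL (L : V → ℝ) (F0 : T3 → V → ℝ≥0∞) (a b : TF) (t : ℝ) (p : T3 × V) : ℝ≥0∞ :=
  duh (L p.2) (F0 p.1 p.2)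
    (fun s => src L (a s (flow s p).1) (b s (flow s p).1) p.2) t

/-- Eulerian Duhamel operator -/
noncomputable def Ph (L : V → ℝ) (F0 : T3 → V → ℝ≥0∞) (a b : TF) : TF :=
  fun t x v => PhL L F0 a b t (flow (-t) (x, v))

/-- hypotheses of the monotone scheme with `x`-independent barriers -/
structure KSData (L : V → ℝ) (F0 : T3 → V → ℝ≥0∞) (T : ℝ) (l0 u0 : ℝ → V → ℝ≥0∞) : Prop where
  measL : Measurable L
  measF0 : Measurable fun p : T3 × V => F0 p.1 p.2
  measl : Measurable fun p : ℝ × V => l0 p.1 p.2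
  measu : Measurable fun p : ℝ × V => u0 p.1 p.2
  Lnonneg : ∀ v, 0 ≤ L v
  lu : ∀ t ∈ Icc 0 T, ∀ v, l0 t v ≤ u0 t v
  ufin : ∀ t ∈ Icc 0 T, ∀ v, u0 t v ≠ ⊤
  Qfin : ∀ t ∈ Icc 0 T, ∀ v, Qp (u0 t) v ≠ ⊤
  Lle : ∀ t ∈ Icc 0 T, ∀ v, Ln (u0 t) v ≤ ENNReal.ofReal (L v)
  intfin : ∀ v, (∫⁻ s in Ioc 0 T, (Qp (u0 s) v + ENNReal.ofReal (L v) * u0 s v)) ≠ ⊤
  sub : ∀ t ∈ Icc 0 T, ∀ x v, l0 t v ≤ Ph L F0 (fun t _ => l0 t) (fun t _ => u0 t) t x v
  sup : ∀ t ∈ Icc 0 T, ∀ x v, Ph L F0 (fun t _ => u0 t) (fun t _ => l0 t) t x v ≤ u0 t v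

section
variable {L : V → ℝ} {F0 : T3 → V → ℝ≥0∞} {T : ℝ} {l0 u0 : ℝ → V → ℝ≥0∞}

end

end Vale.Agent.P140
end

section

open MeasureTheory Set Filter
open scoped ENNReal Topology

namespace Vale.Agent.P140

section
variable {L : V → ℝ} {F0 : T3 → V → ℝ≥0∞} {T : ℝ} {l0 u0 : ℝ → V → ℝ≥0∞}

end

end Vale.Agent.P140
end

section

open MeasureTheory Set Filter
open scoped ENNReal Topology

namespace Vale.Agent.P140

theorem Bg_add_left {f f' g : V → ℝ≥0∞} (hf : Measurable f) (hg : Measurable g) (v : V) :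
    Bg (fun w => f w + f' w) g v = Bg f g v + Bg f' g v := by
  unfold Bg
  rw [← lintegral_add_left (meas_sec_w (meas_BgI hf hg) v)]
  apply lintegral_congr; intro w
  rw [← lintegral_add_left (meas_sec_o (meas_BgI hf hg) v w)]
  apply lintegral_congr; intro o
  simp only
  ring

theorem Ln_add {f f' : V → ℝ≥0∞} (hf : Measurable f) (v : V) :
    Ln (fun w => f w + f' w) v = Ln f v + Ln f' v := by
  unfold Ln
  rw [← lintegral_add_left (meas_sec_w (meas_LnI hf) v)]
  apply lintegral_congr; intro w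
  rw [← lintegral_add_left (meas_sec_o (meas_LnI hf) v w)]
  apply lintegral_congr; intro o
  simp only
  ring

theorem Bg_const_mul {f g : V → ℝ≥0∞} (hf : Measurable f) (hg : Measurable g) (c c' : ℝ≥0∞)
    (v : V) : Bg (fun w => c * f w) (fun w => c' * g w) v = c * c' * Bg f g v := by
  unfold Bg
  rw [← lintegral_const_mul _ (meas_sec_w (meas_BgI hf hg) v)]
  apply lintegral_congr; intro w
  rw [← lintegral_const_mul _ (meas_sec_o (meas_BgI hf hg) v w)]
  apply lintegral_congr; intro o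
  simp only
  ring

theorem Ln_const_mul {f : V → ℝ≥0∞} (hf : Measurable f) (c : ℝ≥0∞) (v : V) :
    Ln (fun w => c * f w) v = c * Ln f v := by
  unfold Ln
  rw [← lintegral_const_mul _ (meas_sec_w (meas_LnI hf) v)]
  apply lintegral_congr; intro w
  rw [← lintegral_const_mul _ (meas_sec_o (meas_LnI hf) v w)]
  apply lintegral_congr; intro o
  simp only
  ring

section
variable {L : V → ℝ} {F0 : T3 → V → ℝ≥0∞} {T : ℝ} {l0 u0 E : ℝ → V → ℝ≥0∞} {θ C0 : ℝ≥0∞}

end

end Vale.Agent.P140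
end

section

open MeasureTheory Set Filter Metric
open scoped ENNReal Topology

namespace Vale.Agent.P140

/-- Gaussian weight -/
noncomputable def gau (c : ℝ) (v : V) : ℝ≥0∞ := ENNReal.ofReal (Real.exp (-(c * ‖v‖ ^ 2)))

theorem measurable_gau (c : ℝ) : Measurable (gau c) := by
  unfold gau
  apply ENNReal.measurable_ofReal.comp
  apply Continuous.measurable
  fun_prop

/-- plane Gaussian integral -/
noncomputable def G2 (c : ℝ) : ℝ≥0∞ :=
  ∫⁻ q : ℝ × ℝ, ENNReal.ofReal (Real.exp (-(c * (q.1 ^ 2 + q.2 ^ 2))))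

theorem G2_ne_top {c : ℝ} (hc : 0 < c) : G2 c ≠ ⊤ := by
  have h1 : Integrable fun x : ℝ => Real.exp (-c * x ^ 2) := integrable_exp_neg_mul_sq hc
  have h2 := h1.mul_prod h1
  have h3 : ∀ q : ℝ × ℝ, Real.exp (-(c * (q.1 ^ 2 + q.2 ^ 2))) =
      Real.exp (-c * q.1 ^ 2) * Real.exp (-c * q.2 ^ 2) := by
    intro q
    rw [← Real.exp_add]
    congr 1
    ring
  unfold G2
  simp only [h3]
  have h4 := h2.2
  unfold HasFiniteIntegral at h4
  refine ne_of_lt (lt_of_le_of_lt (lintegral_mono fun q => ?_) h4)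
  rw [← ofReal_norm, Real.norm_of_nonneg (by positivity)]

/-- integration over lines and orthogonal planes -/
theorem line_int (o : S2) {A : ℝ → ℝ≥0∞} (hA : Measurable A) (c : ℝ) :
    ∫⁻ w : V, A (inner ℝ w (o : V)) *
      ENNReal.ofReal (Real.exp (-(c * ‖w - (inner ℝ w (o : V) : ℝ) • (o : V)‖ ^ 2))) =
    G2 c * ∫⁻ r : ℝ, A r := by
  obtain ⟨b1, b2, hn, hi, hF⟩ := exists_frame (o : V) (norm_o o)
  have mi : Measurable fun w : V => (inner ℝ w (o : V) : ℝ) := by fun_prop
  have hm : Measurable fun w : V => A (inner ℝ w (o : V)) *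
      ENNReal.ofReal (Real.exp (-(c * ‖w - (inner ℝ w (o : V) : ℝ) • (o : V)‖ ^ 2))) := by
    apply (hA.comp mi).mul
    apply ENNReal.measurable_ofReal.comp
    apply Continuous.measurable
    fun_prop
  rw [hF _ hm]
  have h1 : ∀ (a : ℝ) (q : ℝ × ℝ), A (inner ℝ (a • (o : V) + (q.1 • b1 + q.2 • b2)) (o : V)) *
      ENNReal.ofReal (Real.exp (-(c * ‖(a • (o : V) + (q.1 • b1 + q.2 • b2)) -
        (inner ℝ (a • (o : V) + (q.1 • b1 + q.2 • b2)) (o : V) : ℝ) • (o : V)‖ ^ 2))) =
      A a * ENNReal.ofReal (Real.exp (-(c * (q.1 ^ 2 + q.2 ^ 2)))) := by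
    intro a q
    rw [hi, add_sub_cancel_left]
    have h2 : ‖q.1 • b1 + q.2 • b2‖ ^ 2 = q.1 ^ 2 + q.2 ^ 2 := by
      have := hn 0 q.1 q.2
      simpa using this
    rw [h2]
  simp only [h1]
  have hme : Measurable fun q : ℝ × ℝ => ENNReal.ofReal (Real.exp (-(c * (q.1 ^ 2 + q.2 ^ 2)))) := by
    apply ENNReal.measurable_ofReal.comp
    apply Continuous.measurable
    fun_prop
  have h3 : ∀ a : ℝ, ∫⁻ q : ℝ × ℝ, A a * ENNReal.ofReal (Real.exp (-(c * (q.1 ^ 2 + q.2 ^ 2)))) =
      A a * G2 c := by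
    intro a
    rw [lintegral_const_mul _ hme]
    rfl
  simp only [h3]
  rw [lintegral_mul_const _ hA, mul_comm]

/-- polar coordinates on lines through `v` -/
theorem line_polar {f : V → ℝ≥0∞} (hf : Measurable f) (v : V) :
    ∫⁻ o : S2, (∫⁻ r : ℝ, ENNReal.ofReal |r| * f (v + r • (o : V))) ∂surf =
      2 * ∫⁻ y : V, ENNReal.ofReal ‖y - v‖⁻¹ * f y := by
  have mn : Measurable fun z : V => ENNReal.ofReal ‖z‖⁻¹ := measurable_norm.inv.ennreal_ofReal
  have mp : Measurable fun z : V => ENNReal.ofReal ‖z‖⁻¹ * f (v + z) :=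
    mn.mul (hf.comp (measurable_const.add measurable_id))
  have mm : Measurable fun z : V => ENNReal.ofReal ‖z‖⁻¹ * f (v - z) :=
    mn.mul (hf.comp (measurable_const.sub measurable_id))
  have e1 := lint_polar0 mp
  have e2 := lint_polar0 mm
  have e3 : ∫⁻ z : V, ENNReal.ofReal ‖z‖⁻¹ * f (v - z) = ∫⁻ z : V, ENNReal.ofReal ‖z‖⁻¹ * f (v + z) := by
    have mpn : MeasurePreserving (Neg.neg : V → V) volume volume := Measure.measurePreserving_neg _
    rw [← mpn.lintegral_comp mp]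
    apply lintegral_congr
    intro z
    rw [norm_neg, sub_eq_add_neg]
  have e4 : ∫⁻ z : V, ENNReal.ofReal ‖z‖⁻¹ * f (v + z) = ∫⁻ y : V, ENNReal.ofReal ‖y - v‖⁻¹ * f y := by
    have h := lintegral_add_left_eq_self (μ := (volume : Measure V))
      (fun y => ENNReal.ofReal ‖y - v‖⁻¹ * f y) v
    rw [← h]
    apply lintegral_congr
    intro z
    rw [add_sub_cancel_left]
  rw [e3] at e2
  rw [two_mul, ← e4]
  nth_rewrite 1 [e1]
  rw [e2]
  have mr : ∀ (σ : ℝ), Measurable fun q : S2 × ℝ => ENNReal.ofReal (q.2 ^ 2) *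
      (ENNReal.ofReal ‖q.2 • (q.1 : V)‖⁻¹ * f (v + (σ * q.2) • (q.1 : V))) := by
    intro σ
    apply Measurable.mul
    · exact (measurable_snd.pow_const 2).ennreal_ofReal
    · apply Measurable.mul
      · exact ((measurable_snd.smul (measurable_subtype_coe.comp measurable_fst)).norm.inv).ennreal_ofReal
      · exact hf.comp (measurable_const.add ((measurable_snd.const_mul σ).smul
          (measurable_subtype_coe.comp measurable_fst)))
  have e5 : ∀ o : S2, ∫⁻ r : ℝ, ENNReal.ofReal |r| * f (v + r • (o : V)) =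
      (∫⁻ r in Ioi (0 : ℝ), ENNReal.ofReal (r ^ 2) *
        (ENNReal.ofReal ‖r • (o : V)‖⁻¹ * f (v + r • (o : V)))) +
      ∫⁻ r in Ioi (0 : ℝ), ENNReal.ofReal (r ^ 2) *
        (ENNReal.ofReal ‖r • (o : V)‖⁻¹ * f (v - r • (o : V))) := by
    intro o
    have m1 : Measurable fun r : ℝ => ENNReal.ofReal |r| * f (v + r • (o : V)) := by
      apply Measurable.mul
      · exact (continuous_abs.measurable).ennreal_ofReal
      · exact hf.comp (measurable_const.add (measurable_id.smul_const _))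
    rw [lintegral_real_split m1]
    have m2 : Measurable fun r : ℝ => ENNReal.ofReal (r ^ 2) *
        (ENNReal.ofReal ‖r • (o : V)‖⁻¹ * f (v + r • (o : V))) := by
      have h := (mr 1).comp (by fun_prop : Measurable fun r : ℝ => (o, r))
      simp only [one_mul] at h
      exact h
    rw [← lintegral_add_left m2]
    apply setLIntegral_congr_fun measurableSet_Ioi
    intro r hr
    have hr0 : (0 : ℝ) < r := hr
    simp only
    have k : ENNReal.ofReal (r ^ 2) * ENNReal.ofReal ‖r • (o : V)‖⁻¹ = ENNReal.ofReal |r| := by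
      rw [norm_smul, norm_o, mul_one, Real.norm_of_nonneg hr0.le,
        ← ENNReal.ofReal_mul (by positivity), abs_of_pos hr0]
      congr 1
      field_simp
    rw [← mul_assoc, ← mul_assoc, k, abs_neg, neg_smul, sub_eq_add_neg]
  simp only [e5]
  have m3 : Measurable fun o : S2 => ∫⁻ r in Ioi (0 : ℝ), ENNReal.ofReal (r ^ 2) *
        (ENNReal.ofReal ‖r • (o : V)‖⁻¹ * f (v + r • (o : V))) := by
    have h := mr 1
    simp only [one_mul] at h
    exact Measurable.lintegral_prod_right' (ν := volume.restrict (Ioi (0 : ℝ))) h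
  rw [lintegral_add_left m3]

/-- Carleman-type bound for the gain operator -/
theorem carleman {f : V → ℝ≥0∞} (hf : Measurable f) {h : V → S2 → ℝ≥0∞} {c : ℝ}
    (hc : 0 < c) (hm : Measurable fun p : V × S2 => h p.1 p.2)
    (hh : ∀ w (o : S2), h w o ≤
      ENNReal.ofReal (Real.exp (-(c * ‖w - (inner ℝ w (o : V) : ℝ) • (o : V)‖ ^ 2)))) (v : V) :
    ∫⁻ w, ∫⁻ o, kk v w o * (f (post v w o) * h w o) ∂surf ≤
      G2 c * (2 * ∫⁻ y : V, ENNReal.ofReal ‖y - v‖⁻¹ * f y) := by
  have mk : Measurable fun p : V × S2 => kk v p.1 p.2 * (f (post v p.1 p.2) * h p.1 p.2) := by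
    have k1 : Measurable fun p : V × S2 => ((v, p.1, p.2) : V × V × S2) := by fun_prop
    have k2 := measurable_kk.comp k1
    have k3 := (meas_post_comp hf).comp k1
    exact k2.mul (k3.mul hm)
  rw [lintegral_lintegral_swap mk.aemeasurable, ← line_polar hf v,
    ← lintegral_const_mul']
  · apply lintegral_mono
    intro o
    simp only
    have hA : Measurable fun b : ℝ => ENNReal.ofReal |inner ℝ v (o : V) - b| *
        f (v + (b - inner ℝ v (o : V)) • (o : V)) := by
      apply Measurable.mul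
      · exact (measurable_const.sub measurable_id).abs.ennreal_ofReal
      · exact hf.comp (measurable_const.add ((measurable_id.sub measurable_const).smul_const _))
    have hl := line_int o hA c
    have e1 : ∫⁻ r : ℝ, ENNReal.ofReal |inner ℝ v (o : V) - r| *
        f (v + (r - inner ℝ v (o : V)) • (o : V)) = ∫⁻ r : ℝ, ENNReal.ofReal |r| * f (v + r • (o : V)) := by
      have h := lintegral_add_right_eq_self (μ := (volume : Measure ℝ))
        (fun r => ENNReal.ofReal |inner ℝ v (o : V) - r| *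
        f (v + (r - inner ℝ v (o : V)) • (o : V))) (inner ℝ v (o : V))
      rw [← h]
      apply lintegral_congr
      intro r
      rw [add_sub_cancel_right, sub_add_cancel_right, abs_neg]
    rw [e1] at hl
    rw [← hl]
    apply lintegral_mono
    intro w
    simp only
    have e2 : relA v w o = inner ℝ v (o : V) - inner ℝ w (o : V) := by
      unfold relA
      rw [inner_sub_left]
    have e3 : post v w o = v + (inner ℝ w (o : V) - inner ℝ v (o : V) : ℝ) • (o : V) := by
      unfold post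
      rw [e2, sub_eq_add_neg, ← neg_smul, neg_sub]
    unfold kk
    rw [e2, e3, mul_assoc]
    gcongr
    exact hh w o
  · exact G2_ne_top hc

end Vale.Agent.P140
end

section

/-! Gaussian weights: moments, loss and gain operators; Duhamel operator on explicit functions. -/

open MeasureTheory Set Filter Metric
open scoped ENNReal Topology

namespace Vale.Agent.P140

theorem lintegral_gau {c : ℝ} (hc : 0 < c) : ∫⁻ v, gau c v ≠ ⊤ := by
  have h := GaussianFourier.integrable_cexp_neg_mul_sq_norm_add (V := V) (b := (c : ℂ))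
    (by simpa using hc) 0 (0 : V)
  have h2 := h.2
  unfold HasFiniteIntegral at h2
  refine ne_of_lt (lt_of_le_of_lt (lintegral_mono fun v => ?_) h2)
  rw [← ofReal_norm, Complex.norm_exp]
  unfold gau
  apply ENNReal.ofReal_le_ofReal
  rw [Real.exp_le_exp]
  apply le_of_eq
  have : (-(c : ℂ) * (‖v‖ : ℂ) ^ 2 + 0 * ((inner ℝ (0 : V) v : ℝ) : ℂ)) = ((-(c * ‖v‖ ^ 2) : ℝ) : ℂ) := by
    push_cast
    ring
  rw [this, Complex.ofReal_re]

theorem ph_pow_gau_le (j : ℕ) {c : ℝ} (hc : 0 < c) : ∃ C : ℝ≥0∞, C ≠ ⊤ ∧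
    ∀ v, gau c v * ph v ^ j ≤ C * gau (c / 2) v := by
  refine ⟨ENNReal.ofReal (j.factorial * (2 / c) ^ j * Real.exp (c / 2)), ENNReal.ofReal_ne_top,
    fun v => ?_⟩
  unfold gau ph
  rw [← ENNReal.ofReal_pow (by positivity), ← ENNReal.ofReal_mul (by positivity),
    ← ENNReal.ofReal_mul (by positivity)]
  apply ENNReal.ofReal_le_ofReal
  have h1 := Real.pow_div_factorial_le_exp (c / 2 * (1 + ‖v‖ ^ 2)) (by positivity) j
  have hj : (0 : ℝ) < j.factorial := by positivity
  rw [div_le_iff₀ hj, mul_pow] at h1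
  have h2 : (1 + ‖v‖ ^ 2) ^ j ≤ (2 / c) ^ j * (Real.exp (c / 2 * (1 + ‖v‖ ^ 2)) * j.factorial) := by
    calc (1 + ‖v‖ ^ 2) ^ j = (2 / c) ^ j * ((c / 2) ^ j * (1 + ‖v‖ ^ 2) ^ j) := by
          rw [← mul_assoc, ← mul_pow, div_mul_div_comm, mul_comm 2 c, div_self (by positivity),
            one_pow, one_mul]
      _ ≤ _ := by gcongr
  calc Real.exp (-(c * ‖v‖ ^ 2)) * (1 + ‖v‖ ^ 2) ^ j
      ≤ Real.exp (-(c * ‖v‖ ^ 2)) *
        ((2 / c) ^ j * (Real.exp (c / 2 * (1 + ‖v‖ ^ 2)) * j.factorial)) := by gcongr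
    _ = j.factorial * (2 / c) ^ j * (Real.exp (-(c * ‖v‖ ^ 2)) *
        Real.exp (c / 2 * (1 + ‖v‖ ^ 2))) := by ring
    _ = j.factorial * (2 / c) ^ j * (Real.exp (c / 2) * Real.exp (-(c / 2 * ‖v‖ ^ 2))) := by
        rw [← Real.exp_add, ← Real.exp_add]
        congr 2
        ring
    _ = _ := by ring

theorem Mo_gau (j : ℕ) {c : ℝ} (hc : 0 < c) : Mo j (gau c) ≠ ⊤ := by
  obtain ⟨C, hC, h⟩ := ph_pow_gau_le j hc
  unfold Mo
  refine ne_top_of_le_ne_top ?_ (lintegral_mono h)
  rw [lintegral_const_mul' _ _ hC]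
  exact ENNReal.mul_ne_top hC (lintegral_gau (by positivity))

end Vale.Agent.P140
end

section

open MeasureTheory Set

namespace Vale.Agent.P140

/-- integrand of the angular average -/
noncomputable def jj (u v : V) (o : S2) : ℝ :=
  |inner ℝ u (o : V)| * ((inner ℝ v (o : V)) ^ 2 * (‖v‖ ^ 2 - (inner ℝ v (o : V)) ^ 2))

end Vale.Agent.P140
end

section

/-! Singular kernel `1/|y-v|` and bounds of the collision frequency. -/

open MeasureTheory Set Filter Metric
open scoped ENNReal Topology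

namespace Vale.Agent.P140

end Vale.Agent.P140
end

section

/-! Abstract near-equilibrium structure. -/

open MeasureTheory Set Filter
open scoped ENNReal Topology NNReal

noncomputable section

namespace Vale.Agent.P140

end Vale.Agent.P140
end
end

section

/-! A priori bound near equilibrium (double Duhamel argument). -/

open MeasureTheory Set Filter
open scoped ENNReal Topology NNReal

noncomputable section

namespace Vale.Agent.P140

variable {M ζ : V → ℝ≥0∞} {CK C5 CM : ℝ≥0∞} {ν0 : ℝ}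

end Vale.Agent.P140
end
end

section

/-! Kernel estimates for Maxwellians. -/

open MeasureTheory Set Filter Metric
open scoped ENNReal Topology

noncomputable section

namespace Vale.Agent.P140

theorem norm_perp_le (w : V) (o : S2) :
    ‖w - (inner ℝ w (o : V) : ℝ) • (o : V)‖ ^ 2 ≤ ‖w‖ ^ 2 := by
  rw [norm_sub_sq_real, inner_smul_right, norm_smul, norm_o, mul_one, Real.norm_eq_abs, sq_abs]
  linarith only [sq_nonneg (inner ℝ w (o : V) : ℝ)]

end Vale.Agent.P140
end
end

section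

/-! The near-equilibrium structure for Maxwellians. -/

open MeasureTheory Set Filter Metric
open scoped ENNReal Topology

noncomputable section

namespace Vale.Agent.P140

/-- Maxwellian `ρ exp(-2c|v|²)` -/
def MxE (ρ c : ℝ) (v : V) : ℝ≥0∞ := ENNReal.ofReal ρ * gau (2 * c) v

end Vale.Agent.P140
end
end

section

open MeasureTheory Set Filter
open scoped ENNReal Topology NNReal

noncomputable section

namespace Vale.Agent.P140.DL

theorem bN_nonneg (n : ℕ) (v w : V) (o : S2) : 0 ≤ bN n v w o := by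
  unfold bN
  split_ifs
  · exact abs_nonneg _
  · exact le_rfl

theorem bN_le (n : ℕ) (v w : V) (o : S2) : bN n v w o ≤ |relA v w o| := by
  unfold bN
  split_ifs
  · exact le_rfl
  · exact abs_nonneg _

/-- on the support of the kernel all four velocities are bounded by `n` -/
theorem bN_ne_zero {n : ℕ} {v w : V} {o : S2} (h : bN n v w o ≠ 0) :
    ‖v‖ ≤ n ∧ ‖w‖ ≤ n ∧ ‖post v w o‖ ≤ n ∧ ‖postStar v w o‖ ≤ n := by
  unfold bN at h
  split_ifs at h with h1
  · have h2 := h1.1
    have h3 := energy_post v w o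
    have hn : (0 : ℝ) ≤ n := Nat.cast_nonneg n
    refine ⟨?_, ?_, ?_, ?_⟩ <;> refine abs_le_of_sq_le_sq' ?_ hn |>.2
    · have := sq_nonneg ‖w‖
      linarith
    · have := sq_nonneg ‖v‖
      linarith
    · have := sq_nonneg ‖postStar v w o‖
      linarith
    · have := sq_nonneg ‖post v w o‖
      linarith
  · exact absurd rfl h

theorem bN_le_two (n : ℕ) (v w : V) (o : S2) : bN n v w o ≤ 2 * n := by
  by_cases h : bN n v w o = 0
  · rw [h]; positivity
  obtain ⟨h1, h2, -, -⟩ := bN_ne_zero h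
  have := (bN_le n v w o).trans (abs_relA_le v w o)
  linarith

theorem bN_post (n : ℕ) (v w : V) (o : S2) :
    bN n (post v w o) (postStar v w o) o = bN n v w o := by
  unfold bN
  rw [energy_post, relA_post, abs_neg]

theorem bN_swap (n : ℕ) (v w : V) (o : S2) : bN n w v o = bN n v w o := by
  unfold bN
  rw [relA_swap, abs_neg, add_comm (‖w‖ ^ 2)]

theorem bN_eq_zero {n : ℕ} {v : V} (h : (n : ℝ) < ‖v‖) (w : V) (o : S2) : bN n v w o = 0 := by
  by_contra h0
  exact absurd (bN_ne_zero h0).1 (not_le.mpr h)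

theorem bN_eq_zero' {n : ℕ} {w : V} (h : (n : ℝ) < ‖w‖) (v : V) (o : S2) : bN n v w o = 0 := by
  by_contra h0
  exact absurd (bN_ne_zero h0).2.1 (not_le.mpr h)

theorem measurable_bN (n : ℕ) : Measurable fun p : V × V × S2 => bN n p.1 p.2.1 p.2.2 := by
  unfold bN
  have h1 : Measurable fun p : V × V × S2 => |relA p.1 p.2.1 p.2.2| := measurable_relA.abs
  refine Measurable.ite ?_ h1 measurable_const
  refine MeasurableSet.inter ?_ ?_
  · exact measurableSet_le (((measurable_norm.comp measurable_fst).pow_const 2).add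
      ((measurable_norm.comp (measurable_fst.comp measurable_snd)).pow_const 2)) measurable_const
  · exact measurableSet_le measurable_const (h1.const_mul _)

theorem A1_measurable_triple {α : Type*} [MeasurableSpace α] :
    Measurable fun z : ((α × V) × V) × S2 => (z.1.1.2, z.1.2, z.2) :=
  (measurable_snd.comp (measurable_fst.comp measurable_fst)).prodMk
    ((measurable_snd.comp measurable_fst).prodMk measurable_snd)

theorem A1_measurable_bN {α : Type*} [MeasurableSpace α] (n : ℕ) :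
    Measurable fun z : ((α × V) × V) × S2 => bN n z.1.1.2 z.1.2 z.2 :=
  Measurable.comp (g := fun p : V × V × S2 => bN n p.1 p.2.1 p.2.2)
    (f := fun z : ((α × V) × V) × S2 => (z.1.1.2, z.1.2, z.2)) (measurable_bN n)
    A1_measurable_triple

section

variable {α : Type*} [MeasurableSpace α]

theorem measurable_rhoE {f : α → V → ℝ} (hf : Measurable fun q : α × V => f q.1 q.2) :
    Measurable fun a => rhoE (f a) := by
  unfold rhoE
  exact (ENNReal.measurable_ofReal.comp hf).lintegral_prod_right'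

theorem measurable_rhoN (n : ℕ) {f : α → V → ℝ} (hf : Measurable fun q : α × V => f q.1 q.2) :
    Measurable fun a => rhoN n (f a) := by
  unfold rhoN
  exact (ENNReal.measurable_ofReal.comp hf).lintegral_prod_right'

theorem measurable_pfN (n : ℕ) {f : α → V → ℝ} (hf : Measurable fun q : α × V => f q.1 q.2) :
    Measurable fun a => pfN n (f a) := by
  unfold pfN
  exact (((measurable_rhoN n hf).div_const _).const_add 1).inv

theorem measurable_dk (k : ℕ) {f : α → V → ℝ} (hf : Measurable fun q : α × V => f q.1 q.2) :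
    Measurable fun a => dk k (f a) := by
  unfold dk
  exact (((measurable_rhoE hf).div_const _).const_add 1).inv

theorem measurable_gainN (n : ℕ) {f : α → V → ℝ} (hf : Measurable fun q : α × V => f q.1 q.2) :
    Measurable fun q : α × V => gainN n (f q.1) q.2 := by
  unfold gainN
  have h : Measurable fun z : ((α × V) × V) × S2 =>
      ENNReal.ofReal (bN n z.1.1.2 z.1.2 z.2 * (f z.1.1.1 (post z.1.1.2 z.1.2 z.2)
        * f z.1.1.1 (postStar z.1.1.2 z.1.2 z.2))) := by
    apply ENNReal.measurable_ofReal.comp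
    apply Measurable.mul
    · exact A1_measurable_bN n
    · apply Measurable.mul
      · exact hf.comp ((measurable_fst.comp (measurable_fst.comp measurable_fst)).prodMk
          (measurable_post.comp A1_measurable_triple))
      · exact hf.comp ((measurable_fst.comp (measurable_fst.comp measurable_fst)).prodMk
          (measurable_postStar.comp A1_measurable_triple))
  exact (h.lintegral_prod_right' (ν := surf)).lintegral_prod_right'

theorem measurable_rateN (n : ℕ) {f : α → V → ℝ} (hf : Measurable fun q : α × V => f q.1 q.2) :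
    Measurable fun q : α × V => rateN n (f q.1) q.2 := by
  unfold rateN
  have h : Measurable fun z : ((α × V) × V) × S2 =>
      ENNReal.ofReal (bN n z.1.1.2 z.1.2 z.2 * f z.1.1.1 z.1.2) := by
    apply ENNReal.measurable_ofReal.comp
    apply Measurable.mul
    · exact A1_measurable_bN n
    · exact hf.comp ((measurable_fst.comp (measurable_fst.comp measurable_fst)).prodMk
        (measurable_snd.comp measurable_fst))
  exact (h.lintegral_prod_right' (ν := surf)).lintegral_prod_right'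

theorem measurable_rate {f : α → V → ℝ} (hf : Measurable fun q : α × V => f q.1 q.2) :
    Measurable fun q : α × V => rate (f q.1) q.2 := by
  unfold rate
  have h : Measurable fun z : ((α × V) × V) × S2 =>
      ENNReal.ofReal (|relA z.1.1.2 z.1.2 z.2| * f z.1.1.1 z.1.2) := by
    apply ENNReal.measurable_ofReal.comp
    apply Measurable.mul
    · exact (measurable_relA.comp A1_measurable_triple).abs
    · exact hf.comp ((measurable_fst.comp (measurable_fst.comp measurable_fst)).prodMk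
        (measurable_snd.comp measurable_fst))
  exact (h.lintegral_prod_right' (ν := surf)).lintegral_prod_right'

theorem measurable_gainP (n : ℕ) {f : α → V → ℝ} (hf : Measurable fun q : α × V => f q.1 q.2) :
    Measurable fun q : α × V => gainP n (f q.1) q.2 := by
  unfold gainP
  exact ((measurable_pfN n hf).comp measurable_fst).mul (measurable_gainN n hf)

theorem measurable_rateP (n : ℕ) {f : α → V → ℝ} (hf : Measurable fun q : α × V => f q.1 q.2) :
    Measurable fun q : α × V => rateP n (f q.1) q.2 := by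
  unfold rateP
  exact ((measurable_pfN n hf).comp measurable_fst).mul (measurable_rateN n hf)

end

theorem pfN_le_one (n : ℕ) (g : V → ℝ) : pfN n g ≤ 1 := by
  unfold pfN
  rw [ENNReal.inv_le_one]
  exact le_self_add

theorem dk_le_one (k : ℕ) (g : V → ℝ) : dk k g ≤ 1 := by
  unfold dk
  rw [ENNReal.inv_le_one]
  exact le_self_add

theorem A1_div_mul_le {c : ℝ≥0∞} (hc0 : c ≠ 0) (hc : c ≠ ⊤) (r : ℝ≥0∞) :
    (1 + r / c)⁻¹ * r ≤ c := by
  rcases eq_or_ne r ⊤ with rfl | hr
  · rw [ENNReal.top_div_of_ne_top hc, add_top, ENNReal.inv_top, zero_mul]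
    exact zero_le
  · have h1 : r ≤ (1 + r / c) * c := by
      rw [add_mul, ENNReal.div_mul_cancel hc0 hc]
      exact le_add_self
    calc (1 + r / c)⁻¹ * r ≤ (1 + r / c)⁻¹ * ((1 + r / c) * c) := by gcongr
      _ = c := by
        rw [← mul_assoc, ENNReal.inv_mul_cancel (by simp) , one_mul]
        exact ENNReal.add_ne_top.mpr ⟨ENNReal.one_ne_top, ENNReal.div_ne_top hr hc0⟩

theorem pfN_mul_rhoN (n : ℕ) (g : V → ℝ) : pfN n g * rhoN n g ≤ n := by
  rcases Nat.eq_zero_or_pos n with rfl | hn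
  · have h0 : rhoN 0 g = 0 := by
      unfold rhoN
      rw [Nat.cast_zero, Metric.closedBall_zero]
      exact setLIntegral_measure_zero _ _ (measure_singleton 0)
    rw [h0, mul_zero]
    exact zero_le
  · exact A1_div_mul_le (by exact_mod_cast hn.ne') (ENNReal.natCast_ne_top n) _

theorem dk_mul_rhoE (k : ℕ) (g : V → ℝ) : dk k g * rhoE g ≤ (k : ℝ≥0∞) + 1 := by
  exact A1_div_mul_le (by simp) (by finiteness) _

theorem gainN_eq_zero {n : ℕ} {v : V} (h : (n : ℝ) < ‖v‖) (g : V → ℝ) : gainN n g v = 0 := by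
  unfold gainN
  simp [bN_eq_zero h]

theorem rateN_eq_zero {n : ℕ} {v : V} (h : (n : ℝ) < ‖v‖) (g : V → ℝ) : rateN n g v = 0 := by
  unfold rateN
  simp [bN_eq_zero h]

/-- the collision frequency is at most linear -/
theorem rateN_le (n : ℕ) {g : V → ℝ} (hg : Measurable g) (v : V) :
    rateN n g v ≤ surf univ * ∫⁻ w, ENNReal.ofReal ((‖v‖ + ‖w‖) * g w) := by
  unfold rateN
  have h1 : ∀ w : V, ∫⁻ o : S2, ENNReal.ofReal (bN n v w o * g w) ∂surf ≤
      surf univ * ENNReal.ofReal ((‖v‖ + ‖w‖) * g w) := by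
    intro w
    rcases le_or_gt 0 (g w) with hg0 | hg0
    · calc ∫⁻ o : S2, ENNReal.ofReal (bN n v w o * g w) ∂surf
          ≤ ∫⁻ _ : S2, ENNReal.ofReal ((‖v‖ + ‖w‖) * g w) ∂surf := by
            refine lintegral_mono fun o => ENNReal.ofReal_le_ofReal ?_
            exact mul_le_mul_of_nonneg_right ((bN_le n v w o).trans (abs_relA_le v w o)) hg0
        _ = surf univ * ENNReal.ofReal ((‖v‖ + ‖w‖) * g w) := by
            rw [lintegral_const, mul_comm]
    · have : ∀ o : S2, ENNReal.ofReal (bN n v w o * g w) = 0 := fun o =>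
        ENNReal.ofReal_of_nonpos (mul_nonpos_of_nonneg_of_nonpos (bN_nonneg n v w o) hg0.le)
      simp only [this, lintegral_const, zero_mul]
      exact zero_le
  refine (lintegral_mono h1).trans ?_
  rw [lintegral_const_mul]
  exact ENNReal.measurable_ofReal.comp ((measurable_const.add measurable_norm).mul hg)

theorem a1b_norm_post_sub (v w : V) (o : S2) : ‖post v w o - v‖ = |relA v w o| := by
  unfold post
  rw [sub_sub_cancel_left, norm_neg, norm_smul, norm_o, mul_one, Real.norm_eq_abs]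

theorem a1b_bN_rel {n : ℕ} {v w : V} {o : S2} (h : bN n v w o ≠ 0) :
    1 ≤ (n : ℝ) * |relA v w o| := by
  unfold bN at h
  split_ifs at h with h1
  · exact h1.2
  · exact absurd rfl h

theorem a1b_surf_ne_top : surf univ ≠ ⊤ := measure_ne_top _ _

theorem a1b_ball_ne_top (n : ℕ) : volume (Metric.closedBall (0 : V) (n : ℝ)) ≠ ⊤ :=
  (isCompact_closedBall _ _).measure_ne_top

/-- comparison of double integrals -/
theorem a1b_int_le (n : ℕ) {F G : V → S2 → ℝ≥0∞} {C : ℝ≥0∞}
    (h1 : ∀ w o, ‖w‖ ≤ n → F w o ≤ G w o + C) (h2 : ∀ w o, (n : ℝ) < ‖w‖ → F w o ≤ G w o) :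
    ∫⁻ w, ∫⁻ o, F w o ∂surf ≤ (∫⁻ w, ∫⁻ o, G w o ∂surf) +
      C * (surf univ * volume (Metric.closedBall (0 : V) (n : ℝ))) := by
  have h3 : ∀ w, ∫⁻ o, F w o ∂surf ≤ (∫⁻ o, G w o ∂surf) +
      (Metric.closedBall (0 : V) (n : ℝ)).indicator (fun _ => C * surf univ) w := by
    intro w
    by_cases hw : ‖w‖ ≤ n
    · rw [indicator_of_mem (by simpa using hw)]
      have h4 : ∫⁻ o, (G w o + C) ∂surf = (∫⁻ o, G w o ∂surf) + C * surf univ := by
        rw [lintegral_add_right _ measurable_const, lintegral_const]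
      rw [← h4]
      exact lintegral_mono fun o => h1 w o hw
    · rw [indicator_of_notMem (by simpa using hw), add_zero]
      exact lintegral_mono fun o => h2 w o (not_le.1 hw)
  refine (lintegral_mono h3).trans ?_
  have hm : Measurable ((Metric.closedBall (0 : V) (n : ℝ)).indicator
      (fun _ => C * surf univ)) := measurable_const.indicator measurableSet_closedBall
  rw [lintegral_add_right _ hm, lintegral_indicator measurableSet_closedBall,
    setLIntegral_const, mul_assoc]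

theorem a1b_abs_toReal {a b c : ℝ≥0∞} (ha : a ≠ ⊤) (hb : b ≠ ⊤) (hc : c ≠ ⊤)
    (h1 : a ≤ b + c) (h2 : b ≤ a + c) : |a.toReal - b.toReal| ≤ c.toReal := by
  have h3 := ENNReal.toReal_mono (ENNReal.add_ne_top.2 ⟨hb, hc⟩) h1
  have h4 := ENNReal.toReal_mono (ENNReal.add_ne_top.2 ⟨ha, hc⟩) h2
  rw [ENNReal.toReal_add hb hc] at h3
  rw [ENNReal.toReal_add ha hc] at h4
  rw [abs_le]
  constructor <;> linarith

/-- Carleman bound of the truncated gain without prefactor -/
theorem a1b_gainN_le (n : ℕ) {g : V → ℝ} (hg : Measurable g) (h0 : ∀ v, 0 ≤ g v) {B : ℝ}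
    (hB : ∀ v, ‖v‖ ≤ n → g v ≤ B) (v : V) :
    gainN n g v ≤ ENNReal.ofReal (B * Real.exp ((n : ℝ) ^ 2)) *
      (G2 1 * (2 * ((n : ℝ≥0∞) * rhoN n g))) := by
  have hBn : 0 ≤ B := (h0 0).trans (hB 0 (by simp))
  classical
  obtain ⟨A, hA⟩ : ∃ A : Set V, A = {y : V | ‖y‖ ≤ n ∧ 1 ≤ (n : ℝ) * ‖y - v‖} := ⟨_, rfl⟩
  have mA : MeasurableSet A := by
    rw [hA]
    exact (measurableSet_le measurable_norm measurable_const).inter
      (measurableSet_le measurable_const ((measurable_id.sub measurable_const).norm.const_mul _))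
  obtain ⟨f, hf⟩ : ∃ f : V → ℝ≥0∞, f = A.indicator fun y => ENNReal.ofReal (g y) := ⟨_, rfl⟩
  have mf : Measurable f := by
    rw [hf]
    exact hg.ennreal_ofReal.indicator mA
  obtain ⟨h, hh⟩ : ∃ h : V → S2 → ℝ≥0∞, h = fun w _ =>
      (Metric.closedBall (0 : V) (n : ℝ)).indicator
        (fun _ => ENNReal.ofReal (Real.exp (-(n : ℝ) ^ 2))) w := ⟨_, rfl⟩
  have mh : Measurable fun p : V × S2 => h p.1 p.2 := by
    rw [hh]
    exact (measurable_const.indicator measurableSet_closedBall).comp measurable_fst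
  have hle : ∀ w (o : S2), h w o ≤
      ENNReal.ofReal (Real.exp (-(1 * ‖w - (inner ℝ w (o : V) : ℝ) • (o : V)‖ ^ 2))) := by
    intro w o
    rw [hh]
    simp only
    by_cases hw : ‖w‖ ≤ n
    · rw [indicator_of_mem (by simpa using hw)]
      apply ENNReal.ofReal_le_ofReal
      rw [Real.exp_le_exp]
      have h1 := norm_perp_le w o
      have h2 : ‖w‖ ^ 2 ≤ (n : ℝ) ^ 2 := pow_le_pow_left₀ (norm_nonneg w) hw 2
      linarith
    · rw [indicator_of_notMem (by simpa using hw)]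
      exact zero_le
  have hc := carleman mf one_pos mh hle v
  have e1 : gainN n g v ≤ ENNReal.ofReal (B * Real.exp ((n : ℝ) ^ 2)) *
      ∫⁻ w, ∫⁻ o, kk v w o * (f (post v w o) * h w o) ∂surf := by
    unfold gainN
    rw [← lintegral_const_mul' _ _ ENNReal.ofReal_ne_top]
    refine lintegral_mono fun w => ?_
    simp only
    rw [← lintegral_const_mul' _ _ ENNReal.ofReal_ne_top]
    refine lintegral_mono fun o => ?_
    simp only
    by_cases hb : bN n v w o = 0
    · rw [hb, zero_mul, ENNReal.ofReal_zero]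
      exact zero_le
    · obtain ⟨b1, b2, b3, b4⟩ := bN_ne_zero hb
      have b5 := a1b_bN_rel hb
      have hfp : f (post v w o) = ENNReal.ofReal (g (post v w o)) := by
        rw [hf, indicator_of_mem]
        rw [hA]
        exact ⟨b3, by rw [a1b_norm_post_sub]; exact b5⟩
      have hhw : h w o = ENNReal.ofReal (Real.exp (-(n : ℝ) ^ 2)) := by
        rw [hh]
        simp only
        rw [indicator_of_mem (by simpa using b2)]
      rw [hfp, hhw]
      unfold kk
      rw [← ENNReal.ofReal_mul (h0 _), ← ENNReal.ofReal_mul (abs_nonneg _),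
        ← ENNReal.ofReal_mul (mul_nonneg hBn (Real.exp_pos _).le)]
      apply ENNReal.ofReal_le_ofReal
      have e2 : B * Real.exp ((n : ℝ) ^ 2) * (|relA v w o| *
          (g (post v w o) * Real.exp (-(n : ℝ) ^ 2))) = |relA v w o| * (g (post v w o) * B) := by
        have e3 : Real.exp ((n : ℝ) ^ 2) * Real.exp (-(n : ℝ) ^ 2) = 1 := by
          rw [← Real.exp_add, add_neg_cancel, Real.exp_zero]
        calc B * Real.exp ((n : ℝ) ^ 2) * (|relA v w o| *
          (g (post v w o) * Real.exp (-(n : ℝ) ^ 2))) = |relA v w o| * (g (post v w o) * B) *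
            (Real.exp ((n : ℝ) ^ 2) * Real.exp (-(n : ℝ) ^ 2)) := by ring
          _ = _ := by rw [e3, mul_one]
      rw [e2]
      have e4 : g (post v w o) * g (postStar v w o) ≤ g (post v w o) * B :=
        mul_le_mul_of_nonneg_left (hB _ b4) (h0 _)
      exact mul_le_mul (bN_le n v w o) e4 (mul_nonneg (h0 _) (h0 _)) (abs_nonneg _)
  refine e1.trans ?_
  gcongr
  refine hc.trans ?_
  gcongr
  unfold rhoN
  rw [← lintegral_const_mul' _ _ (ENNReal.natCast_ne_top n),
    ← lintegral_indicator measurableSet_closedBall]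
  refine lintegral_mono fun y => ?_
  simp only
  by_cases hy : y ∈ A
  · have hy' : ‖y‖ ≤ n ∧ 1 ≤ (n : ℝ) * ‖y - v‖ := by
      rw [hA] at hy
      exact hy
    rw [hf, indicator_of_mem hy, indicator_of_mem (by simpa using hy'.1)]
    gcongr
    have hpos : 0 < ‖y - v‖ := by
      rcases (norm_nonneg (y - v)).lt_or_eq with h5 | h5
      · exact h5
      · rw [← h5, mul_zero] at hy'
        linarith [hy'.2]
    have h6 : ‖y - v‖⁻¹ ≤ (n : ℝ) := by
      rw [inv_le_iff_one_le_mul₀ hpos]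
      exact hy'.2
    calc ENNReal.ofReal ‖y - v‖⁻¹ ≤ ENNReal.ofReal (n : ℝ) := ENNReal.ofReal_le_ofReal h6
      _ = n := ENNReal.ofReal_natCast n
  · rw [hf, indicator_of_notMem hy, mul_zero]
    exact zero_le

/-- linear bound of the truncated gain (Carleman type) -/
theorem gainP_le_b (n : ℕ) : ∃ K : ℝ, 0 ≤ K ∧ ∀ g : V → ℝ, Measurable g → (∀ v, 0 ≤ g v) →
    ∀ B : ℝ, (∀ v, ‖v‖ ≤ n → g v ≤ B) → ∀ v, gainP n g v ≤ ENNReal.ofReal (K * B) := by
  refine ⟨Real.exp ((n : ℝ) ^ 2) * (G2 1).toReal * (2 * (n * n)), by positivity, ?_⟩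
  intro g hg h0 B hB v
  have hBn : 0 ≤ B := (h0 0).trans (hB 0 (by simp))
  have hG : ENNReal.ofReal (G2 1).toReal = G2 1 := ENNReal.ofReal_toReal (G2_ne_top one_pos)
  unfold gainP
  calc pfN n g * gainN n g v ≤ pfN n g * (ENNReal.ofReal (B * Real.exp ((n : ℝ) ^ 2)) *
      (G2 1 * (2 * ((n : ℝ≥0∞) * rhoN n g)))) := by
        gcongr
        exact a1b_gainN_le n hg h0 hB v
    _ = ENNReal.ofReal (B * Real.exp ((n : ℝ) ^ 2)) * (G2 1 * (2 * ((n : ℝ≥0∞) *
        (pfN n g * rhoN n g)))) := by ring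
    _ ≤ ENNReal.ofReal (B * Real.exp ((n : ℝ) ^ 2)) * (G2 1 * (2 * ((n : ℝ≥0∞) * n))) := by
        gcongr
        exact pfN_mul_rhoN n g
    _ = ENNReal.ofReal (Real.exp ((n : ℝ) ^ 2) * (G2 1).toReal * (2 * (n * n)) * B) := by
        have e1 : Real.exp ((n : ℝ) ^ 2) * (G2 1).toReal * (2 * (n * n)) * B =
            B * Real.exp ((n : ℝ) ^ 2) * ((G2 1).toReal * (2 * (n * n))) := by ring
        rw [e1, ENNReal.ofReal_mul (p := B * Real.exp ((n : ℝ) ^ 2)) (by positivity),
          ENNReal.ofReal_mul (p := (G2 1).toReal) (by positivity), hG,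
          ENNReal.ofReal_mul (p := (2 : ℝ)) (by positivity),
          ENNReal.ofReal_mul (p := (n : ℝ)) (by positivity), ENNReal.ofReal_natCast]
        norm_num

section

variable {n : ℕ} {f g : V → ℝ} {B d : ℝ}

theorem a1b_rhoN_le (hf : ∀ v, ‖v‖ ≤ n → f v ≤ B) :
    rhoN n f ≤ ENNReal.ofReal B * volume (Metric.closedBall (0 : V) (n : ℝ)) := by
  unfold rhoN
  calc ∫⁻ w in Metric.closedBall 0 (n : ℝ), ENNReal.ofReal (f w) ≤
      ∫⁻ _w in Metric.closedBall (0 : V) (n : ℝ), ENNReal.ofReal B := by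
        refine setLIntegral_mono measurable_const fun w hw => ?_
        exact ENNReal.ofReal_le_ofReal (hf w (by simpa using hw))
    _ = _ := by rw [setLIntegral_const]

theorem a1b_rhoN_add (hd : ∀ v, ‖v‖ ≤ n → |f v - g v| ≤ d) :
    rhoN n f ≤ rhoN n g + ENNReal.ofReal d * volume (Metric.closedBall (0 : V) (n : ℝ)) := by
  unfold rhoN
  calc ∫⁻ w in Metric.closedBall 0 (n : ℝ), ENNReal.ofReal (f w) ≤
      ∫⁻ w in Metric.closedBall (0 : V) (n : ℝ), (ENNReal.ofReal (g w) + ENNReal.ofReal d) := by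
        refine lintegral_mono_ae ?_
        filter_upwards [ae_restrict_mem measurableSet_closedBall] with w hw
        have h1 := (abs_le.1 (hd w (by simpa using hw))).2
        exact (ENNReal.ofReal_le_ofReal (by linarith)).trans ENNReal.ofReal_add_le
    _ = _ := by
        rw [lintegral_add_right _ measurable_const, setLIntegral_const]

theorem a1b_pfN_toReal (hn : 0 < n) (hr : rhoN n f ≠ ⊤) :
    (pfN n f).toReal = (1 + (rhoN n f).toReal / n)⁻¹ := by
  have hn0 : (n : ℝ≥0∞) ≠ 0 := by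
    simpa using hn.ne'
  unfold pfN
  rw [ENNReal.toReal_inv, ENNReal.toReal_add ENNReal.one_ne_top
    (ENNReal.div_ne_top hr hn0), ENNReal.toReal_div]
  simp

theorem a1b_pfN_lip (hn : 0 < n) (hfB : ∀ v, ‖v‖ ≤ n → f v ≤ B) (hgB : ∀ v, ‖v‖ ≤ n → g v ≤ B)
    (hd0 : 0 ≤ d) (hd : ∀ v, ‖v‖ ≤ n → |f v - g v| ≤ d) :
    |(pfN n f).toReal - (pfN n g).toReal| ≤
      d * (volume (Metric.closedBall (0 : V) (n : ℝ))).toReal / n := by
  have hv := a1b_ball_ne_top n
  have hrf : rhoN n f ≠ ⊤ :=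
    ne_top_of_le_ne_top (ENNReal.mul_ne_top ENNReal.ofReal_ne_top hv) (a1b_rhoN_le hfB)
  have hrg : rhoN n g ≠ ⊤ :=
    ne_top_of_le_ne_top (ENNReal.mul_ne_top ENNReal.ofReal_ne_top hv) (a1b_rhoN_le hgB)
  have hd' : ∀ v, ‖v‖ ≤ n → |g v - f v| ≤ d := fun v hv' => by
    rw [abs_sub_comm]
    exact hd v hv'
  have h1 := a1b_abs_toReal hrf hrg (ENNReal.mul_ne_top ENNReal.ofReal_ne_top hv)
    (a1b_rhoN_add hd) (a1b_rhoN_add hd')
  rw [ENNReal.toReal_mul, ENNReal.toReal_ofReal hd0] at h1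
  rw [a1b_pfN_toReal hn hrf, a1b_pfN_toReal hn hrg]
  obtain ⟨x, hx⟩ : ∃ x, x = (rhoN n f).toReal := ⟨_, rfl⟩
  obtain ⟨y, hy⟩ : ∃ y, y = (rhoN n g).toReal := ⟨_, rfl⟩
  have hx0 : 0 ≤ x := hx ▸ ENNReal.toReal_nonneg
  have hy0 : 0 ≤ y := hy ▸ ENNReal.toReal_nonneg
  rw [← hx, ← hy] at h1 ⊢
  have hn' : (0 : ℝ) < n := by exact_mod_cast hn
  have hxn : 0 ≤ x / n := by positivity
  have hyn : 0 ≤ y / n := by positivity
  have e1 : (1 + x / n)⁻¹ - (1 + y / n)⁻¹ = (y - x) / n * ((1 + x / n)⁻¹ * (1 + y / n)⁻¹) := by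
    have h2 : 1 + x / n ≠ 0 := by positivity
    have h3 : 1 + y / n ≠ 0 := by positivity
    field_simp
    ring
  rw [e1, abs_mul, abs_div, abs_of_pos hn']
  have h4 : |(1 + x / n)⁻¹ * (1 + y / n)⁻¹| ≤ 1 := by
    rw [abs_of_nonneg (by positivity)]
    exact mul_le_one₀ (inv_le_one_of_one_le₀ (by linarith)) (by positivity)
      (inv_le_one_of_one_le₀ (by linarith))
  have h5 : |y - x| / n ≤ d * (volume (Metric.closedBall (0 : V) (n : ℝ))).toReal / n := by
    rw [abs_sub_comm]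
    exact div_le_div_of_nonneg_right h1 hn'.le
  calc |y - x| / n * |(1 + x / n)⁻¹ * (1 + y / n)⁻¹| ≤ |y - x| / n * 1 :=
        mul_le_mul_of_nonneg_left h4 (by positivity)
    _ ≤ _ := by rw [mul_one]; exact h5

/-- combination of the estimates for prefactor and integral -/
theorem a1b_comb {p1 p2 q1 q2 : ℝ≥0∞} {a b c : ℝ} (hp2 : p2 ≤ 1)
    (h1 : |p1.toReal - p2.toReal| ≤ a) (hq1 : q1.toReal ≤ b)
    (h2 : |q1.toReal - q2.toReal| ≤ c) :
    |(p1 * q1).toReal - (p2 * q2).toReal| ≤ a * b + c := by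
  rw [ENNReal.toReal_mul, ENNReal.toReal_mul]
  have hp : p2.toReal ≤ 1 := by
    have := ENNReal.toReal_mono ENNReal.one_ne_top hp2
    simpa using this
  have hp0 : 0 ≤ p2.toReal := ENNReal.toReal_nonneg
  have hq0 : 0 ≤ q1.toReal := ENNReal.toReal_nonneg
  have e1 : p1.toReal * q1.toReal - p2.toReal * q2.toReal =
      (p1.toReal - p2.toReal) * q1.toReal + p2.toReal * (q1.toReal - q2.toReal) := by ring
  rw [e1]
  refine (abs_add_le _ _).trans ?_
  rw [abs_mul, abs_mul, abs_of_nonneg hq0, abs_of_nonneg hp0]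
  have h3 : |p1.toReal - p2.toReal| * q1.toReal ≤ a * b :=
    mul_le_mul h1 hq1 hq0 ((abs_nonneg _).trans h1)
  have h4 : p2.toReal * |q1.toReal - q2.toReal| ≤ 1 * c :=
    mul_le_mul hp h2 (abs_nonneg _) zero_le_one
  linarith

theorem a1b_rateN_add (hd0 : 0 ≤ d) (hd : ∀ v, ‖v‖ ≤ n → |f v - g v| ≤ d) (v : V) :
    rateN n f v ≤ rateN n g v + ENNReal.ofReal (2 * n * d) *
      (surf univ * volume (Metric.closedBall (0 : V) (n : ℝ))) := by
  unfold rateN
  refine a1b_int_le n (fun w o hw => ?_) fun w o hw => ?_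
  · have h1 := (abs_le.1 (hd w hw)).2
    have h2 := bN_nonneg n v w o
    have h3 := bN_le_two n v w o
    refine (ENNReal.ofReal_le_ofReal ?_).trans ENNReal.ofReal_add_le
    have h4 : bN n v w o * f w ≤ bN n v w o * (g w + d) :=
      mul_le_mul_of_nonneg_left (by linarith) h2
    have h5 : bN n v w o * d ≤ 2 * n * d := mul_le_mul_of_nonneg_right h3 hd0
    linarith
  · rw [bN_eq_zero' hw, zero_mul, zero_mul]

theorem a1b_rateN_le (hB : ∀ v, ‖v‖ ≤ n → f v ≤ B) (hB0 : 0 ≤ B) (v : V) :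
    rateN n f v ≤ ENNReal.ofReal (2 * n * B) *
      (surf univ * volume (Metric.closedBall (0 : V) (n : ℝ))) := by
  have h := a1b_int_le n (F := fun w o => ENNReal.ofReal (bN n v w o * f w)) (G := fun _ _ => 0)
    (C := ENNReal.ofReal (2 * n * B)) (fun w o hw => ?_) fun w o hw => ?_
  · simpa [rateN] using h
  · rw [zero_add]
    apply ENNReal.ofReal_le_ofReal
    have h2 := bN_nonneg n v w o
    have h3 := bN_le_two n v w o
    exact (mul_le_mul_of_nonneg_left (hB w hw) h2).trans (mul_le_mul_of_nonneg_right h3 hB0)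
  · rw [bN_eq_zero' hw, zero_mul, ENNReal.ofReal_zero]

theorem a1b_gainN_add (hf0 : ∀ v, 0 ≤ f v) (hg0 : ∀ v, 0 ≤ g v)
    (hfB : ∀ v, ‖v‖ ≤ n → f v ≤ B) (hgB : ∀ v, ‖v‖ ≤ n → g v ≤ B)
    (hd0 : 0 ≤ d) (hd : ∀ v, ‖v‖ ≤ n → |f v - g v| ≤ d) (v : V) :
    gainN n f v ≤ gainN n g v + ENNReal.ofReal (2 * n * (2 * B * d)) *
      (surf univ * volume (Metric.closedBall (0 : V) (n : ℝ))) := by
  have hB0 : 0 ≤ B := (hf0 0).trans (hfB 0 (by simp))
  unfold gainN
  refine a1b_int_le n (fun w o hw => ?_) fun w o hw => ?_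
  · refine (ENNReal.ofReal_le_ofReal ?_).trans ENNReal.ofReal_add_le
    have h2 := bN_nonneg n v w o
    have h3 := bN_le_two n v w o
    have hBd : 0 ≤ 2 * B * d := by positivity
    by_cases hb : bN n v w o = 0
    · rw [hb, zero_mul, zero_mul, zero_add]
      positivity
    · obtain ⟨b1, b2, b3, b4⟩ := bN_ne_zero hb
      have h5 := (abs_le.1 (hd _ b3)).2
      have h6 := (abs_le.1 (hd _ b4)).2
      have h7 : f (post v w o) * f (postStar v w o) ≤
          g (post v w o) * g (postStar v w o) + 2 * B * d := by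
        have h8 : f (post v w o) * (f (postStar v w o) - g (postStar v w o)) ≤ B * d := by
          calc f (post v w o) * (f (postStar v w o) - g (postStar v w o)) ≤
              f (post v w o) * d := mul_le_mul_of_nonneg_left h6 (hf0 _)
            _ ≤ B * d := mul_le_mul_of_nonneg_right (hfB _ b3) hd0
        have h9 : (f (post v w o) - g (post v w o)) * g (postStar v w o) ≤ d * B := by
          calc (f (post v w o) - g (post v w o)) * g (postStar v w o) ≤
              d * g (postStar v w o) := mul_le_mul_of_nonneg_right h5 (hg0 _)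
            _ ≤ d * B := mul_le_mul_of_nonneg_left (hgB _ b4) hd0
        linarith
      calc bN n v w o * (f (post v w o) * f (postStar v w o)) ≤
          bN n v w o * (g (post v w o) * g (postStar v w o) + 2 * B * d) :=
            mul_le_mul_of_nonneg_left h7 h2
        _ ≤ bN n v w o * (g (post v w o) * g (postStar v w o)) + 2 * n * (2 * B * d) := by
            rw [mul_add]
            exact add_le_add le_rfl (mul_le_mul_of_nonneg_right h3 hBd)
  · rw [bN_eq_zero' hw, zero_mul, zero_mul]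

theorem a1b_gainN_fin (hf0 : ∀ v, 0 ≤ f v) (hfB : ∀ v, ‖v‖ ≤ n → f v ≤ B) (v : V) :
    gainN n f v ≤ ENNReal.ofReal (2 * n * (B * B)) *
      (surf univ * volume (Metric.closedBall (0 : V) (n : ℝ))) := by
  have hB0 : 0 ≤ B := (hf0 0).trans (hfB 0 (by simp))
  have h := a1b_int_le n
    (F := fun w o => ENNReal.ofReal (bN n v w o * (f (post v w o) * f (postStar v w o))))
    (G := fun _ _ => 0) (C := ENNReal.ofReal (2 * n * (B * B))) (fun w o hw => ?_)
    fun w o hw => ?_
  · simpa [gainN] using h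
  · rw [zero_add]
    apply ENNReal.ofReal_le_ofReal
    have h3 := bN_le_two n v w o
    by_cases hb : bN n v w o = 0
    · rw [hb, zero_mul]
      positivity
    · obtain ⟨b1, b2, b3, b4⟩ := bN_ne_zero hb
      exact mul_le_mul h3 (mul_le_mul (hfB _ b3) (hfB _ b4) (hf0 _) hB0)
        (mul_nonneg (hf0 _) (hf0 _)) (by positivity)
  · rw [bN_eq_zero' hw, zero_mul, ENNReal.ofReal_zero]

end

theorem a1b_bN_zero (v w : V) (o : S2) : bN 0 v w o = 0 := by
  have h1 := bN_nonneg 0 v w o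
  have h2 := bN_le_two 0 v w o
  simp only [Nat.cast_zero, mul_zero] at h2
  exact le_antisymm h2 h1

theorem gainP_lip_b (n : ℕ) (B : ℝ) : ∃ K : ℝ, 0 ≤ K ∧ ∀ f g : V → ℝ, Measurable f →
    Measurable g → (∀ v, 0 ≤ f v) → (∀ v, 0 ≤ g v) → (∀ v, ‖v‖ ≤ n → f v ≤ B) →
    (∀ v, ‖v‖ ≤ n → g v ≤ B) →
    ∀ d : ℝ, 0 ≤ d → (∀ v, ‖v‖ ≤ n → |f v - g v| ≤ d) →
    ∀ v, |(gainP n f v).toReal - (gainP n g v).toReal| ≤ K * d := by
  rcases lt_or_ge B 0 with hB | hB
  · refine ⟨0, le_rfl, fun f g _ _ hf _ hfB _ => ?_⟩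
    exact absurd ((hf 0).trans (hfB 0 (by simp))) (not_le.2 hB)
  rcases Nat.eq_zero_or_pos n with hn | hn
  · subst hn
    refine ⟨0, le_rfl, fun f g _ _ _ _ _ _ d _ _ v => ?_⟩
    simp [gainP, gainN, a1b_bN_zero]
  obtain ⟨κ, hκ⟩ : ∃ κ, κ = surf univ * volume (Metric.closedBall (0 : V) (n : ℝ)) := ⟨_, rfl⟩
  have hκt : κ ≠ ⊤ := by
    rw [hκ]
    exact ENNReal.mul_ne_top a1b_surf_ne_top (a1b_ball_ne_top n)
  have hn' : (0 : ℝ) < n := by exact_mod_cast hn
  refine ⟨(volume (Metric.closedBall (0 : V) (n : ℝ))).toReal / n * (2 * n * (B * B) * κ.toReal)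
    + 2 * n * (2 * B) * κ.toReal, by positivity, ?_⟩
  intro f g _ _ hf0 hg0 hfB hgB d hd0 hd v
  have hd' : ∀ v, ‖v‖ ≤ n → |g v - f v| ≤ d := fun v hv' => by
    rw [abs_sub_comm]
    exact hd v hv'
  have h1 := a1b_pfN_lip hn hfB hgB hd0 hd
  have hfF := a1b_gainN_fin hf0 hfB v
  have hgF := a1b_gainN_fin hg0 hgB v
  rw [← hκ] at hfF hgF
  have hct : ∀ x : ℝ, ENNReal.ofReal x * κ ≠ ⊤ := fun x =>
    ENNReal.mul_ne_top ENNReal.ofReal_ne_top hκt
  have hft : gainN n f v ≠ ⊤ := ne_top_of_le_ne_top (hct _) hfF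
  have hgt : gainN n g v ≠ ⊤ := ne_top_of_le_ne_top (hct _) hgF
  have hq : (gainN n f v).toReal ≤ 2 * n * (B * B) * κ.toReal := by
    have := ENNReal.toReal_mono (hct _) hfF
    rwa [ENNReal.toReal_mul, ENNReal.toReal_ofReal (by positivity)] at this
  have h2 : |(gainN n f v).toReal - (gainN n g v).toReal| ≤ 2 * n * (2 * B * d) * κ.toReal := by
    have ha := a1b_gainN_add hf0 hg0 hfB hgB hd0 hd v
    have hb := a1b_gainN_add hg0 hf0 hgB hfB hd0 hd' v
    rw [← hκ] at ha hb
    have := a1b_abs_toReal hft hgt (hct _) ha hb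
    rwa [ENNReal.toReal_mul, ENNReal.toReal_ofReal (by positivity)] at this
  have h3 := a1b_comb (pfN_le_one n g) h1 hq h2
  refine h3.trans (le_of_eq ?_)
  ring

theorem rateP_lip_b (n : ℕ) (B : ℝ) : ∃ K : ℝ, 0 ≤ K ∧ ∀ f g : V → ℝ, Measurable f →
    Measurable g → (∀ v, 0 ≤ f v) → (∀ v, 0 ≤ g v) → (∀ v, ‖v‖ ≤ n → f v ≤ B) →
    (∀ v, ‖v‖ ≤ n → g v ≤ B) →
    ∀ d : ℝ, 0 ≤ d → (∀ v, ‖v‖ ≤ n → |f v - g v| ≤ d) →
    ∀ v, |(rateP n f v).toReal - (rateP n g v).toReal| ≤ K * d := by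
  rcases lt_or_ge B 0 with hB | hB
  · refine ⟨0, le_rfl, fun f g _ _ hf _ hfB _ => ?_⟩
    exact absurd ((hf 0).trans (hfB 0 (by simp))) (not_le.2 hB)
  rcases Nat.eq_zero_or_pos n with hn | hn
  · subst hn
    refine ⟨0, le_rfl, fun f g _ _ _ _ _ _ d _ _ v => ?_⟩
    simp [rateP, rateN, a1b_bN_zero]
  obtain ⟨κ, hκ⟩ : ∃ κ, κ = surf univ * volume (Metric.closedBall (0 : V) (n : ℝ)) := ⟨_, rfl⟩
  have hκt : κ ≠ ⊤ := by
    rw [hκ]
    exact ENNReal.mul_ne_top a1b_surf_ne_top (a1b_ball_ne_top n)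
  have hn' : (0 : ℝ) < n := by exact_mod_cast hn
  refine ⟨(volume (Metric.closedBall (0 : V) (n : ℝ))).toReal / n * (2 * n * B * κ.toReal)
    + 2 * n * κ.toReal, by positivity, ?_⟩
  intro f g _ _ _ _ hfB hgB d hd0 hd v
  have hd' : ∀ v, ‖v‖ ≤ n → |g v - f v| ≤ d := fun v hv' => by
    rw [abs_sub_comm]
    exact hd v hv'
  have h1 := a1b_pfN_lip hn hfB hgB hd0 hd
  have hfF := a1b_rateN_le hfB hB v
  have hgF := a1b_rateN_le hgB hB v
  rw [← hκ] at hfF hgF
  have hct : ∀ x : ℝ, ENNReal.ofReal x * κ ≠ ⊤ := fun x =>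
    ENNReal.mul_ne_top ENNReal.ofReal_ne_top hκt
  have hft : rateN n f v ≠ ⊤ := ne_top_of_le_ne_top (hct _) hfF
  have hgt : rateN n g v ≠ ⊤ := ne_top_of_le_ne_top (hct _) hgF
  have hq : (rateN n f v).toReal ≤ 2 * n * B * κ.toReal := by
    have := ENNReal.toReal_mono (hct _) hfF
    rwa [ENNReal.toReal_mul, ENNReal.toReal_ofReal (by positivity)] at this
  have h2 : |(rateN n f v).toReal - (rateN n g v).toReal| ≤ 2 * n * d * κ.toReal := by
    have ha := a1b_rateN_add hd0 hd v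
    have hb := a1b_rateN_add hd0 hd' v
    rw [← hκ] at ha hb
    have := a1b_abs_toReal hft hgt (hct _) ha hb
    rwa [ENNReal.toReal_mul, ENNReal.toReal_ofReal (by positivity)] at this
  have h3 := a1b_comb (pfN_le_one n g) h1 hq h2
  refine h3.trans (le_of_eq ?_)
  ring

/-- linear bound of the truncated gain (Carleman type) -/
theorem gainP_le (n : ℕ) : ∃ K : ℝ, 0 ≤ K ∧ ∀ g : V → ℝ, Measurable g → (∀ v, 0 ≤ g v) →
    ∀ B : ℝ, (∀ v, ‖v‖ ≤ n → g v ≤ B) → ∀ v, gainP n g v ≤ ENNReal.ofReal (K * B) := by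
  exact gainP_le_b n

theorem rateP_le (n : ℕ) : ∃ K : ℝ, 0 ≤ K ∧ ∀ g : V → ℝ, Measurable g → (∀ v, 0 ≤ g v) →
    ∀ B : ℝ, (∀ v, ‖v‖ ≤ n → g v ≤ B) → ∀ v, rateP n g v ≤ ENNReal.ofReal (K * B) := by
  refine ⟨(surf univ).toReal * ((2 * n) * (volume (Metric.closedBall (0 : V) n)).toReal),
    by positivity, fun g hg hg0 B hB v => ?_⟩
  rcases lt_or_ge B 0 with hB0 | hB0
  · exact absurd (hB 0 (by simp)) (not_le.mpr (hB0.trans_le (hg0 0)))
  have h1 : ∀ w : V, ∫⁻ o : S2, ENNReal.ofReal (bN n v w o * g w) ∂surf ≤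
      surf univ * (Metric.closedBall (0 : V) n).indicator
        (fun _ => ENNReal.ofReal ((2 * n) * B)) w := by
    intro w
    by_cases hw : ‖w‖ ≤ n
    · rw [indicator_of_mem (mem_closedBall_zero_iff.mpr hw), mul_comm, ← lintegral_const]
      refine lintegral_mono fun o => ENNReal.ofReal_le_ofReal ?_
      exact mul_le_mul (bN_le_two n v w o) (hB w hw) (hg0 w) (by positivity)
    · have : ∀ o : S2, ENNReal.ofReal (bN n v w o * g w) = 0 := fun o => by
        rw [bN_eq_zero' (not_le.mp hw), zero_mul, ENNReal.ofReal_zero]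
      simp only [this, lintegral_const, zero_mul]
      exact zero_le
  calc rateP n g v ≤ 1 * rateN n g v := mul_le_mul_left (pfN_le_one n g) _
    _ = rateN n g v := one_mul _
    _ ≤ ∫⁻ w : V, surf univ * (Metric.closedBall (0 : V) n).indicator
        (fun _ => ENNReal.ofReal ((2 * n) * B)) w := lintegral_mono h1
    _ = surf univ * (ENNReal.ofReal ((2 * n) * B) * volume (Metric.closedBall (0 : V) n)) := by
        rw [lintegral_const_mul _ (measurable_const.indicator Metric.isClosed_closedBall.measurableSet),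
          lintegral_indicator_const Metric.isClosed_closedBall.measurableSet]
    _ = _ := by
        have e1 : surf univ = ENNReal.ofReal (surf univ).toReal :=
          (ENNReal.ofReal_toReal (measure_ne_top _ _)).symm
        have e2 : volume (Metric.closedBall (0 : V) n) =
            ENNReal.ofReal (volume (Metric.closedBall (0 : V) n)).toReal :=
          (ENNReal.ofReal_toReal measure_closedBall_lt_top.ne).symm
        conv_lhs => rw [e1, e2]
        rw [← ENNReal.ofReal_mul (by positivity), ← ENNReal.ofReal_mul (by positivity)]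
        congr 1
        ring

theorem gainP_lip (n : ℕ) (B : ℝ) : ∃ K : ℝ, 0 ≤ K ∧ ∀ f g : V → ℝ, Measurable f → Measurable g →
    (∀ v, 0 ≤ f v) → (∀ v, 0 ≤ g v) → (∀ v, ‖v‖ ≤ n → f v ≤ B) → (∀ v, ‖v‖ ≤ n → g v ≤ B) →
    ∀ d : ℝ, 0 ≤ d → (∀ v, ‖v‖ ≤ n → |f v - g v| ≤ d) →
    ∀ v, |(gainP n f v).toReal - (gainP n g v).toReal| ≤ K * d := by
  exact gainP_lip_b n B

theorem rateP_lip (n : ℕ) (B : ℝ) : ∃ K : ℝ, 0 ≤ K ∧ ∀ f g : V → ℝ, Measurable f → Measurable g →
    (∀ v, 0 ≤ f v) → (∀ v, 0 ≤ g v) → (∀ v, ‖v‖ ≤ n → f v ≤ B) → (∀ v, ‖v‖ ≤ n → g v ≤ B) →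
    ∀ d : ℝ, 0 ≤ d → (∀ v, ‖v‖ ≤ n → |f v - g v| ≤ d) →
    ∀ v, |(rateP n f v).toReal - (rateP n g v).toReal| ≤ K * d := by
  exact rateP_lip_b n B

end Vale.Agent.P140.DL
end
end
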