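import Vale.Agent.P140.MathlibUsed
import Vale.Agent.P140.Bd3.B1
import Vale.Agent.P140.Bd3.B2

set_option linter.all false

attribute [local instance 5000] Vale.Agent.P140.Sc.a01 Vale.Agent.P140.Sc.a02 Vale.Agent.P140.Sc.a03 Vale.Agent.P140.Sc.a04 Vale.Agent.P140.Sc.a05 Vale.Agent.P140.Sc.a06 Vale.Agent.P140.Sc.a07 Vale.Agent.P140.Sc.a08 Vale.Agent.P140.Sc.a09 Vale.Agent.P140.Sc.a10 Vale.Agent.P140.Sc.a11 Vale.Agent.P140.Sc.a12 Vale.Agent.P140.Sc.a13 Vale.Agent.P140.Sc.a14 Vale.Agent.P140.Sc.a15 Vale.Agent.P140.Sc.a16 Vale.Agent.P140.Sc.a17 Vale.Agent.P140.Sc.a18 Vale.Agent.P140.Sc.a19 Vale.Agent.P140.Sc.a20 Vale.Agent.P140.Sc.a21 Vale.Agent.P140.Sc.a22 Vale.Agent.P140.Sc.a23 Vale.Agent.P140.Sc.a24 Vale.Agent.P140.Sc.a25 Vale.Agent.P140.Sc.a26 Vale.Agent.P140.Sc.a27 Vale.Agent.P140.Sc.a28 Vale.Agent.P140.Sc.a29 Vale.Agent.P140.Sc.a30 Vale.Agent.P140.Sc.a31 Vale.Agent.P140.Sc.a32 Vale.Agent.P140.Sc.a33 Vale.Agent.P140.Sc.r01 Vale.Agent.P140.Sc.r02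 Vale.Agent.P140.Sc.r03 Vale.Agent.P140.Sc.r04 Vale.Agent.P140.Sc.r05 Vale.Agent.P140.Sc.r06 Vale.Agent.P140.Sc.r07 Vale.Agent.P140.Sc.r08 Vale.Agent.P140.Sc.r09 Vale.Agent.P140.Sc.r10 Vale.Agent.P140.Sc.r11 Vale.Agent.P140.Sc.r12 Vale.Agent.P140.Sc.r13 Vale.Agent.P140.Sc.r14 Vale.Agent.P140.Sc.r15 Vale.Agent.P140.Sc.r16 Vale.Agent.P140.Sc.r17 Vale.Agent.P140.Sc.r18

section

open MeasureTheory Set Filter
open scoped ENNReal Topology NNReal

noncomputable section

namespace Vale.Agent.P140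

end Vale.Agent.P140
end
end

section

/-!
P140, non-uniqueness: geometry of flights near the line.
-/

open MeasureTheory Set Filter
open scoped ENNReal Topology

noncomputable section

namespace Vale.Agent.P140.NU

/-! ### representatives -/

theorem rep_mem (x : T3) (i : Fin 3) : rep x i ∈ Ico (-(1 / 2) : ℝ) (1 / 2) := by
  have h := (AddCircle.equivIco (1 : ℝ) (-1 / 2) (x i)).2
  unfold rep
  constructor
  · have := h.1; linarith only [this]
  · have := h.2; norm_num at this ⊢; linarith only [this]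

theorem coe_rep (x : T3) (i : Fin 3) : ((rep x i : ℝ) : UnitAddCircle) = x i := by
  unfold rep
  exact AddCircle.coe_equivIco

theorem rep_of_coe {x : T3} {i : Fin 3} {a : ℝ} (ha : a ∈ Ico (-(1 / 2) : ℝ) (1 / 2))
    (h : x i = ((a : ℝ) : UnitAddCircle)) : rep x i = a := by
  unfold rep
  rw [h]
  have := AddCircle.equivIco_coe_of_mem (p := (1 : ℝ)) (a := -1 / 2) (y := a) (by
    constructor
    · have := ha.1; linarith only [this]
    · have := ha.2; norm_num at this ⊢; linarith only [this])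
  rw [this]

theorem abs_rep (x : T3) (i : Fin 3) : |rep x i| = ‖x i‖ := by
  rw [← coe_rep x i]
  symm
  rw [AddCircle.norm_coe_eq_abs_iff (1 : ℝ) one_ne_zero]
  have := rep_mem x i
  rw [abs_le]
  constructor
  · have := this.1; rw [abs_one]; linarith only [this]
  · have := this.2; rw [abs_one]; linarith only [this]

theorem norm_coe_circle_le (a : ℝ) : ‖((a : ℝ) : UnitAddCircle)‖ ≤ |a| := by
  rw [UnitAddCircle.norm_eq]
  have := round_le a 0
  simpa only [ge_iff_le, Int.cast_zero, sub_zero] using this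

theorem rr_eq (x : T3) : rr x = √(rep x 0 ^ 2 + rep x 1 ^ 2) := by
  unfold rr
  rw [← abs_rep, ← abs_rep, sq_abs, sq_abs]

theorem rr_sq (x : T3) : rr x ^ 2 = rep x 0 ^ 2 + rep x 1 ^ 2 := by
  rw [rr_eq, Real.sq_sqrt (by positivity)]

theorem rr_nonneg (x : T3) : 0 ≤ rr x := Real.sqrt_nonneg _

theorem vp_nonneg (v : V) : 0 ≤ vp v := Real.sqrt_nonneg _

theorem vp_sq (v : V) : vp v ^ 2 = v 0 ^ 2 + v 1 ^ 2 := by
  unfold vp
  rw [Real.sq_sqrt (by positivity)]

theorem norm_sq_eq (v : V) : ‖v‖ ^ 2 = vp v ^ 2 + v 2 ^ 2 := by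
  rw [EuclideanSpace.norm_sq_eq, vp_sq]
  simp [Fin.sum_univ_three]

theorem vp_le_norm (v : V) : vp v ≤ ‖v‖ := by
  have h := norm_sq_eq v
  exact abs_le_of_sq_le_sq' (by linarith only [sq_nonneg (v 2), h]) (norm_nonneg v) |>.2

theorem abs_rep_le_rr (x : T3) (i : Fin 3) (hi : i ≠ 2) : |rep x i| ≤ rr x := by
  rw [rr_eq]
  apply Real.le_sqrt_of_sq_le
  rw [sq_abs]
  fin_cases i
  · show rep x 0 ^ 2 ≤ _
    linarith only [sq_nonneg (rep x 1)]
  · show rep x 1 ^ 2 ≤ _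
    nlinarith only []
  · exact absurd rfl hi

theorem abs_apply_le_vp (v : V) (i : Fin 3) (hi : i ≠ 2) : |v i| ≤ vp v := by
  unfold vp
  apply Real.le_sqrt_of_sq_le
  rw [sq_abs]
  fin_cases i
  · show v 0 ^ 2 ≤ _
    (by_contra nlg; linarith [mul_pos (sub_pos.2 (not_le.1 nlg)) (sub_pos.2 (not_le.1 nlg)), mul_nonneg (sq_nonneg (v.ofLp 1 : (fun x => ℝ) 1)) (le_of_lt (sub_pos.2 (not_le.1 nlg)))])
  · show v 1 ^ 2 ≤ _
    nlinarith only []
  · exact absurd rfl hi

theorem mv_apply (x : T3) (v : V) (τ : ℝ) (i : Fin 3) :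
    mv x v τ i = x i + ((τ * v i : ℝ) : UnitAddCircle) := by
  unfold mv toTorus
  simp

theorem mv_zero (x : T3) (v : V) : mv x v 0 = x := by
  unfold mv
  rw [zero_smul, toTorus_zero, add_zero]

theorem mv_mv (x : T3) (v : V) (a b : ℝ) : mv (mv x v a) v b = mv x v (a + b) := by
  unfold mv
  rw [add_smul, toTorus_add, add_assoc]

theorem rep_mv_of {x : T3} {v : V} {τ : ℝ} {i : Fin 3}
    (h : rep x i + τ * v i ∈ Ico (-(1 / 2) : ℝ) (1 / 2)) :
    rep (mv x v τ) i = rep x i + τ * v i := by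
  apply rep_of_coe h
  rw [mv_apply, AddCircle.coe_add, coe_rep]

/-- planar norm inequality -/
theorem planar_add_le (a b p q : ℝ) :
    √((a + p) ^ 2 + (b + q) ^ 2) ≤ √(a ^ 2 + b ^ 2) + √(p ^ 2 + q ^ 2) := by
  apply Real.sqrt_le_iff.2
  refine ⟨by positivity, ?_⟩
  have h1 : √(a ^ 2 + b ^ 2) ^ 2 = a ^ 2 + b ^ 2 := Real.sq_sqrt (by positivity)
  have h2 : √(p ^ 2 + q ^ 2) ^ 2 = p ^ 2 + q ^ 2 := Real.sq_sqrt (by positivity)
  have h3 : a * p + b * q ≤ √(a ^ 2 + b ^ 2) * √(p ^ 2 + q ^ 2) := by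
    rw [← Real.sqrt_mul (by (clear * -; positivity))]
    apply Real.le_sqrt_of_sq_le
    (clear * -; linarith only [sq_nonneg (a * q - b * p)])
  linarith

theorem sqrt_mul_vec (τ : ℝ) (v : V) : √((τ * v 0) ^ 2 + (τ * v 1) ^ 2) = |τ| * vp v := by
  unfold vp
  rw [show (τ * v 0) ^ 2 + (τ * v 1) ^ 2 = τ ^ 2 * (v 0 ^ 2 + v 1 ^ 2) by ring,
    Real.sqrt_mul (sq_nonneg τ), Real.sqrt_sq_eq_abs]

/-- a local flight: the coordinates are those of the plane -/
theorem rep_mv {x : T3} {v : V} {τ : ℝ} (h : rr x + |τ| * vp v < 1 / 2) {i : Fin 3}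
    (hi : i ≠ 2) : rep (mv x v τ) i = rep x i + τ * v i := by
  apply rep_mv_of
  have h1 : |rep x i + τ * v i| ≤ rr x + |τ| * vp v := by
    calc |rep x i + τ * v i| ≤ |rep x i| + |τ * v i| := abs_add_le _ _
      _ = |rep x i| + |τ| * |v i| := by rw [abs_mul]
      _ ≤ rr x + |τ| * vp v := by
        gcongr
        · exact abs_rep_le_rr x i hi
        · exact abs_apply_le_vp v i hi
  have h2 := abs_lt.1 (lt_of_le_of_lt h1 h)
  exact ⟨by linarith only [h2], by linarith only [h2]⟩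

theorem rr_mv {x : T3} {v : V} {τ : ℝ} (h : rr x + |τ| * vp v < 1 / 2) :
    rr (mv x v τ) = √((rep x 0 + τ * v 0) ^ 2 + (rep x 1 + τ * v 1) ^ 2) := by
  rw [rr_eq, rep_mv h (by decide), rep_mv h (by decide)]

theorem rr_mv_sq {x : T3} {v : V} {τ : ℝ} (h : rr x + |τ| * vp v < 1 / 2) :
    rr (mv x v τ) ^ 2 = (rep x 0 + τ * v 0) ^ 2 + (rep x 1 + τ * v 1) ^ 2 := by
  rw [rr_mv h, Real.sq_sqrt (by positivity)]

/-- the distance to the line is Lipschitz along flights (always) -/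
theorem rr_mv_le (x : T3) (v : V) (τ : ℝ) : rr (mv x v τ) ≤ rr x + |τ| * vp v := by
  unfold rr
  have h0 : ∀ i : Fin 3, ‖mv x v τ i‖ ≤ ‖x i‖ + |τ * v i| := by
    intro i
    rw [mv_apply]
    refine (norm_add_le _ _).trans ?_
    gcongr
    exact norm_coe_circle_le _
  calc √(‖mv x v τ 0‖ ^ 2 + ‖mv x v τ 1‖ ^ 2)
      ≤ √((‖x 0‖ + |τ * v 0|) ^ 2 + (‖x 1‖ + |τ * v 1|) ^ 2) := by
        apply Real.sqrt_le_sqrt
        have := h0 0
        have := h0 1
        gcongr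
    _ ≤ √(‖x 0‖ ^ 2 + ‖x 1‖ ^ 2) + √(|τ * v 0| ^ 2 + |τ * v 1| ^ 2) := planar_add_le _ _ _ _
    _ = √(‖x 0‖ ^ 2 + ‖x 1‖ ^ 2) + |τ| * vp v := by rw [sq_abs, sq_abs, sqrt_mul_vec]

theorem rr_le_mv (x : T3) (v : V) (τ : ℝ) : rr x ≤ rr (mv x v τ) + |τ| * vp v := by
  have h := rr_mv_le (mv x v τ) v (-τ)
  rwa [mv_mv, add_neg_cancel, mv_zero, abs_neg] at h

theorem abs_rr_mv_sub_le (x : T3) (v : V) (τ : ℝ) : |rr (mv x v τ) - rr x| ≤ |τ| * vp v := by
  rw [abs_sub_le_iff]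
  constructor
  · linarith only [rr_mv_le x v τ]
  · linarith only [rr_le_mv x v τ]

/-! ### radial component -/

theorem dotE_mul_rr (x : T3) (v : V) : dotE x v * rr x = rep x 0 * v 0 + rep x 1 * v 1 := by
  unfold dotE
  by_cases h : rr x = 0
  · have h2 := rr_sq x
    rw [h] at h2
    have h3 : rep x 0 = 0 := by nlinarith only [h2]
    have h4 : rep x 1 = 0 := by nlinarith only [h2]
    rw [h, h3, h4]; simp only [Fin.isValue, zero_mul, add_zero, div_zero, mul_zero]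
  · field_simp

theorem sq_add_crossE (x : T3) (v : V) :
    (dotE x v * rr x) ^ 2 + crossE x v ^ 2 = rr x ^ 2 * vp v ^ 2 := by
  rw [dotE_mul_rr, rr_sq, vp_sq]
  unfold crossE
  ring

theorem abs_dotE_le (x : T3) (v : V) : |dotE x v| ≤ vp v := by
  by_cases h : rr x = 0
  · unfold dotE; rw [h]; simpa only [Fin.isValue, div_zero, abs_zero] using vp_nonneg v
  · have h1 := sq_add_crossE x v
    have h2 : 0 < rr x ^ 2 := by have := rr_nonneg x; positivity
    have h3 : dotE x v ^ 2 ≤ vp v ^ 2 := by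
      have : rr x ^ 2 * dotE x v ^ 2 ≤ rr x ^ 2 * vp v ^ 2 := by
        linarith only [sq_nonneg (crossE x v), h1]
      exact le_of_mul_le_mul_left this h2
    exact abs_le_of_sq_le_sq h3 (vp_nonneg v)

theorem dotE_sq_le (x : T3) (v : V) : dotE x v ^ 2 ≤ vp v ^ 2 :=
  sq_le_sq' (by linarith [neg_le_of_abs_le (abs_dotE_le x v)])
    (le_of_abs_le (abs_dotE_le x v))

theorem dotE_le (x : T3) (v : V) : dotE x v ≤ vp v := le_of_abs_le (abs_dotE_le x v)

theorem neg_vp_le_dotE (x : T3) (v : V) : -vp v ≤ dotE x v := neg_le_of_abs_le (abs_dotE_le x v)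

/-! ### relative speed -/

variable (P : Par)

theorem SS_eq (s : ℝ) (x : T3) (v : V) :
    SS P s x v = (vp v ^ 2 - dotE x v ^ 2) + (dotE x v - P.w) ^ 2 + (v 2 - s) ^ 2 := by
  unfold SS; ring

theorem SS_nonneg (s : ℝ) (x : T3) (v : V) : 0 ≤ SS P s x v := by
  rw [SS_eq]
  have := dotE_sq_le x v
  linarith only [sq_nonneg (v 2 - s), sq_nonneg (dotE x v - P.w), this]

theorem sq_dotE_sub_le_SS (s : ℝ) (x : T3) (v : V) : (dotE x v - P.w) ^ 2 ≤ SS P s x v := by
  rw [SS_eq]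
  have := dotE_sq_le x v
  linarith only [sq_nonneg (v 2 - s), this]

theorem sq_vz_sub_le_SS (s : ℝ) (x : T3) (v : V) : (v 2 - s) ^ 2 ≤ SS P s x v := by
  rw [SS_eq]
  have := dotE_sq_le x v
  (by_contra nlg; linarith only [nlg, mul_nonneg (le_of_lt (sub_pos.2 (not_le.1 nlg))) (sub_nonneg.2 this), mul_pos (sub_pos.2 (not_le.1 nlg)) (sub_pos.2 (not_le.1 nlg)), mul_nonneg (sq_nonneg (dotE x v - P.w : ℝ)) (le_of_lt (sub_pos.2 (not_le.1 nlg)))])

theorem abs_dotE_sub_le_sqrt_SS (s : ℝ) (x : T3) (v : V) : |dotE x v - P.w| ≤ √(SS P s x v) :=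
  Real.abs_le_sqrt (sq_dotE_sub_le_SS P s x v)

theorem abs_vz_sub_le_sqrt_SS (s : ℝ) (x : T3) (v : V) : |v 2 - s| ≤ √(SS P s x v) :=
  Real.abs_le_sqrt (sq_vz_sub_le_SS P s x v)

/-- `√SS ≤ |v| + |u_s|` -/
theorem sqrt_SS_le {s : ℝ} (x : T3) (v : V) (hw : 0 ≤ P.w) :
    √(SS P s x v) ≤ ‖v‖ + P.w + |s| := by
  apply Real.sqrt_le_iff.2
  refine ⟨by positivity, ?_⟩
  have h1 := norm_sq_eq v
  have h2 := neg_vp_le_dotE x v
  have h3 := vp_le_norm v
  have h4 : |v 2| ≤ ‖v‖ := by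
    apply abs_le_of_sq_le_sq _ (norm_nonneg v)
    (by_contra nlg; linarith only [nlg, mul_eq_zero_of_left (sub_eq_zero.2 h1) (v.ofLp 2 ^ 2 - (‖v‖ ^ 2)), mul_pos (sub_pos.2 (not_le.1 nlg)) (sub_pos.2 (not_le.1 nlg)), mul_nonneg (sq_nonneg (vp v : ℝ)) (le_of_lt (sub_pos.2 (not_le.1 nlg)))])
  have h5 : -(2 * v 2 * s) ≤ 2 * ‖v‖ * |s| := by
    calc -(2 * v 2 * s) ≤ |2 * v 2 * s| := neg_le_abs _
      _ = 2 * |v 2| * |s| := by rw [abs_mul, abs_mul]; (clear * -; norm_num)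
      _ ≤ 2 * ‖v‖ * |s| := by gcongr
  have h6 : s ^ 2 = |s| ^ 2 := (sq_abs s).symm
  unfold SS
  have h7 : 0 ≤ P.w * |s| := by (clear * - hw; positivity)
  nlinarith [norm_nonneg v, abs_nonneg s, mul_nonneg hw (sub_nonneg.2 h3),
    mul_nonneg hw (by linarith : (0 : ℝ) ≤ dotE x v + vp v)]

/-! ### flights -/

theorem crossE_mv {x : T3} {v : V} {τ : ℝ} (h : rr x + |τ| * vp v < 1 / 2) :
    crossE (mv x v τ) v = crossE x v := by
  unfold crossE
  rw [rep_mv h (by decide), rep_mv h (by decide)]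
  ring

theorem dotE_mv_mul {x : T3} {v : V} {τ : ℝ} (h : rr x + |τ| * vp v < 1 / 2) :
    dotE (mv x v τ) v * rr (mv x v τ) =
      rep x 0 * v 0 + rep x 1 * v 1 + τ * vp v ^ 2 := by
  rw [dotE_mul_rr, rep_mv h (by decide), rep_mv h (by decide), vp_sq]
  ring

theorem local_eventually {x : T3} {v : V} {τ : ℝ} (h : rr x + |τ| * vp v < 1 / 2) :
    ∀ᶠ σ in 𝓝 τ, rr x + |σ| * vp v < 1 / 2 := by
  have : Continuous fun σ : ℝ => rr x + |σ| * vp v := by fun_prop
  exact this.continuousAt.eventually_lt continuousAt_const h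

/-- derivative of the distance along a flight -/
theorem hasDerivAt_rr {x : T3} {v : V} {τ : ℝ} (h : rr x + |τ| * vp v < 1 / 2)
    (hr : 0 < rr (mv x v τ)) :
    HasDerivAt (fun σ => rr (mv x v σ)) (dotE (mv x v τ) v) τ := by
  have h1 : (fun σ => rr (mv x v σ)) =ᶠ[𝓝 τ]
      fun σ => √((rep x 0 + σ * v 0) ^ 2 + (rep x 1 + σ * v 1) ^ 2) := by
    filter_upwards [local_eventually h] with σ hσ using rr_mv hσ
  apply HasDerivAt.congr_of_eventuallyEq _ h1
  have h2 : HasDerivAt (fun σ : ℝ => (rep x 0 + σ * v 0) ^ 2 + (rep x 1 + σ * v 1) ^ 2)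
      (2 * (rep x 0 + τ * v 0) * v 0 + 2 * (rep x 1 + τ * v 1) * v 1) τ := by
    have ha : HasDerivAt (fun σ : ℝ => rep x 0 + σ * v 0) (v 0) τ := by
      simpa using ((hasDerivAt_id τ).mul_const (v 0)).const_add (rep x 0)
    have hb : HasDerivAt (fun σ : ℝ => rep x 1 + σ * v 1) (v 1) τ := by
      simpa using ((hasDerivAt_id τ).mul_const (v 1)).const_add (rep x 1)
    exact ((ha.pow 2).add (hb.pow 2)).congr_deriv (by push_cast; ring)
  have h3 := rr_mv_sq h
  have h4 : (rep x 0 + τ * v 0) ^ 2 + (rep x 1 + τ * v 1) ^ 2 ≠ 0 := by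
    rw [← h3]; (clear * - hr; positivity)
  refine (h2.sqrt h4).congr_deriv ?_
  rw [← rr_mv h]
  have h6 := dotE_mv_mul h
  rw [div_eq_iff (by positivity)]
  rw [show dotE (mv x v τ) v * (2 * rr (mv x v τ)) = 2 * (dotE (mv x v τ) v * rr (mv x v τ)) by
    ring, h6, vp_sq]
  ring

/-- derivative of the radial component along a flight -/
theorem hasDerivAt_dotE {x : T3} {v : V} {τ : ℝ} (h : rr x + |τ| * vp v < 1 / 2)
    (hr : 0 < rr (mv x v τ)) :
    HasDerivAt (fun σ => dotE (mv x v σ) v)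
      ((vp v ^ 2 - dotE (mv x v τ) v ^ 2) / rr (mv x v τ)) τ := by
  have hr' := hasDerivAt_rr h hr
  have h1 : (fun σ => dotE (mv x v σ) v) =ᶠ[𝓝 τ]
      fun σ => (rep x 0 * v 0 + rep x 1 * v 1 + σ * vp v ^ 2) / rr (mv x v σ) := by
    have hc : ∀ᶠ σ in 𝓝 τ, 0 < rr (mv x v σ) :=
      continuousAt_const.eventually_lt hr'.continuousAt hr
    filter_upwards [local_eventually h, hc] with σ hσ hσ2
    rw [eq_div_iff hσ2.ne', dotE_mv_mul hσ]
  apply HasDerivAt.congr_of_eventuallyEq _ h1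
  have h2 : HasDerivAt (fun σ : ℝ => rep x 0 * v 0 + rep x 1 * v 1 + σ * vp v ^ 2)
      (vp v ^ 2) τ := by
    simpa only [Fin.isValue, hasDerivAt_const_add_iff, id_eq, one_mul] using     ((hasDerivAt_id τ).mul_const (vp v ^ 2)).const_add (rep x 0 * v 0 + rep x 1 * v 1)
  refine (h2.fun_div hr' hr.ne').congr_deriv ?_
  rw [← dotE_mv_mul h]
  (clear * - hr; field_simp)

/-- derivative of `SS` along a flight -/
theorem hasDerivAt_SS {x : T3} {v : V} {τ : ℝ} (s : ℝ) (h : rr x + |τ| * vp v < 1 / 2)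
    (hr : 0 < rr (mv x v τ)) :
    HasDerivAt (fun σ => SS P s (mv x v σ) v)
      (-(2 * P.w * ((vp v ^ 2 - dotE (mv x v τ) v ^ 2) / rr (mv x v τ)))) τ := by
  have h1 := ((hasDerivAt_dotE h hr).const_mul (2 * P.w)).const_sub (vp v ^ 2 + P.w ^ 2)
  have h2 := h1.add_const ((v 2 - s) ^ 2)
  unfold SS
  exact h2

theorem mono_aux {A B C α β : ℝ} (hAB : A ≤ B) (hα : 0 ≤ α) (hβ : 0 ≤ β)
    (ea : α ^ 2 = A ^ 2 + C ^ 2) (eb : β ^ 2 = B ^ 2 + C ^ 2) : A * β ≤ B * α := by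
  rcases le_total 0 A with h2 | h2
  · apply (le_abs_self _).trans (abs_le_of_sq_le_sq _ (mul_nonneg (h2.trans hAB) hα))
    rw [mul_pow, mul_pow, ea, eb]
    have h3 : A ^ 2 ≤ B ^ 2 := by (clear * - h2 hAB; gcongr)
    linarith only [mul_nonneg (sq_nonneg (C : ℝ)) (sub_nonneg.2 h3)]
  · rcases le_total 0 B with h3 | h3
    · linarith only [mul_nonneg (sub_nonneg.2 h2) (sub_nonneg.2 hβ), mul_nonneg (sub_nonneg.2 h3) (sub_nonneg.2 hα)]
    · have h4 : (-B) * α ≤ (-A) * β := by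
        apply (le_abs_self _).trans (abs_le_of_sq_le_sq _ (mul_nonneg (neg_nonneg.2 h2) hβ))
        rw [mul_pow, mul_pow, ea, eb]
        have h5 : (-B) ^ 2 ≤ (-A) ^ 2 :=
          pow_le_pow_left₀ (neg_nonneg.2 h3) (neg_le_neg hAB) 2
        linarith only [mul_nonneg (sq_nonneg (C : ℝ)) (sub_nonneg.2 h5)]
      linarith only [h4]

/-- the radial component is nondecreasing along flights -/
theorem dotE_mono {x : T3} {v : V} {a b : ℝ} (hab : a ≤ b) (ha : rr x + |a| * vp v < 1 / 2)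
    (hb : rr x + |b| * vp v < 1 / 2) : dotE (mv x v a) v ≤ dotE (mv x v b) v := by
  have e1 := dotE_mv_mul ha
  have e2 := dotE_mv_mul hb
  have c1 := sq_add_crossE (mv x v a) v
  have c2 := sq_add_crossE (mv x v b) v
  rw [crossE_mv ha, e1] at c1
  rw [crossE_mv hb, e2] at c2
  set A := rep x 0 * v 0 + rep x 1 * v 1 + a * vp v ^ 2 with hA
  set B := rep x 0 * v 0 + rep x 1 * v 1 + b * vp v ^ 2 with hB
  have hAB : A ≤ B := by
    rw [hA, hB]; linarith only [mul_nonneg (sq_nonneg (vp v : ℝ)) (sub_nonneg.2 hab)]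
  set ra := rr (mv x v a) with hra
  set rb := rr (mv x v b) with hrb
  have hra0 : 0 ≤ ra := rr_nonneg _
  have hrb0 : 0 ≤ rb := rr_nonneg _
  rcases hra0.eq_or_lt with h0 | h0
  · -- `ra = 0`
    have hda : dotE (mv x v a) v = 0 := by
      unfold dotE; rw [← hra, ← h0]; simp
    have hA0 : A = 0 := by rw [← e1, ← h0, mul_zero]
    rw [hda]
    rcases hrb0.eq_or_lt with h1 | h1
    · unfold dotE; rw [← hrb, ← h1]; simp
    · have : 0 ≤ dotE (mv x v b) v * rb := by rw [e2]; linarith only [hAB, hA0]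
      exact nonneg_of_mul_nonneg_left this h1
  · rcases hrb0.eq_or_lt with h1 | h1
    · have hdb : dotE (mv x v b) v = 0 := by
        unfold dotE; rw [← hrb, ← h1]; simp
      have hB0 : B = 0 := by rw [← e2, ← h1, mul_zero]
      rw [hdb]
      have : dotE (mv x v a) v * ra ≤ 0 := by rw [e1]; linarith only [hAB, hB0]
      exact nonpos_of_mul_nonpos_left this h0
    · have ea : dotE (mv x v a) v = A / ra := by rw [← e1]; (clear * - h0; field_simp)
      have eb : dotE (mv x v b) v = B / rb := by rw [← e2]; field_simp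
      rw [ea, eb]
      by_cases hv : vp v = 0
      · rw [hv] at c1 c2
        have hA0 : A = 0 := by nlinarith only [c1]
        have hB0 : B = 0 := by nlinarith only [c2]
        rw [hA0, hB0]; simp
      · have hv0 : 0 < vp v := lt_of_le_of_ne (vp_nonneg v) (Ne.symm hv)
        have key : A * (rb * vp v) ≤ B * (ra * vp v) :=
          mono_aux (C := crossE x v) hAB (by (clear * - h0 hv0; positivity)) (by (clear * - h1 hv0; positivity)) (by rw [mul_pow]; exact c1.symm)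
            (by rw [mul_pow]; exact c2.symm)
        rw [div_le_div_iff₀ h0 h1]
        have := le_of_mul_le_mul_right (by linarith only [key] : A * rb * vp v ≤ B * ra * vp v) hv0
        linarith only [this]

/-- the relative speed is nonincreasing along flights -/
theorem SS_anti {x : T3} {v : V} {a b : ℝ} (s : ℝ) (hw : 0 ≤ P.w) (hab : a ≤ b)
    (ha : rr x + |a| * vp v < 1 / 2) (hb : rr x + |b| * vp v < 1 / 2) :
    SS P s (mv x v b) v ≤ SS P s (mv x v a) v := by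
  unfold SS
  have := dotE_mono hab ha hb
  linarith only [mul_nonneg (sub_nonneg.2 this) (sub_nonneg.2 hw)]

/-! ### measurability -/

theorem measurable_rep (i : Fin 3) : Measurable fun x : T3 => rep x i := by
  unfold rep
  exact measurable_subtype_coe.comp
    ((AddCircle.measurableEquivIco (1 : ℝ) (-1 / 2)).measurable.comp (measurable_pi_apply i))

theorem continuous_rr : Continuous rr := by
  unfold rr; (clear * -; fun_prop)

theorem measurable_rr : Measurable rr := continuous_rr.measurable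

theorem continuous_vp : Continuous vp := by
  unfold vp; fun_prop

theorem measurable_dotE : Measurable fun p : T3 × V => dotE p.1 p.2 := by
  unfold dotE
  have h0 : Measurable fun p : T3 × V => rep p.1 0 := (measurable_rep 0).comp measurable_fst
  have h1 : Measurable fun p : T3 × V => rep p.1 1 := (measurable_rep 1).comp measurable_fst
  have h2 : Measurable fun p : T3 × V => rr p.1 := measurable_rr.comp measurable_fst
  have h3 : Measurable fun p : T3 × V => p.2 0 := by fun_prop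
  have h4 : Measurable fun p : T3 × V => p.2 1 := by (clear * -; fun_prop)
  exact ((h0.mul h3).add (h1.mul h4)).div h2

theorem measurable_crossE : Measurable fun p : T3 × V => crossE p.1 p.2 := by
  unfold crossE
  have h0 : Measurable fun p : T3 × V => rep p.1 0 := (measurable_rep 0).comp measurable_fst
  have h1 : Measurable fun p : T3 × V => rep p.1 1 := (measurable_rep 1).comp measurable_fst
  have h3 : Measurable fun p : T3 × V => p.2 0 := by (clear * -; fun_prop)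
  have h4 : Measurable fun p : T3 × V => p.2 1 := by fun_prop
  exact (h0.mul h4).sub (h1.mul h3)

theorem measurable_SS (s : ℝ) : Measurable fun p : T3 × V => SS P s p.1 p.2 := by
  unfold SS
  have h1 := measurable_dotE
  have h2 : Measurable fun p : T3 × V => vp p.2 := (continuous_vp.comp continuous_snd).measurable
  have h4 : Measurable fun p : T3 × V => p.2 2 := by fun_prop
  exact ((((h2.pow_const 2).add_const _).sub (h1.const_mul _))).add
    ((h4.sub_const s).pow_const 2)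

theorem measurable_mv : Measurable fun q : ℝ × T3 × V => mv q.2.1 q.2.2 q.1 := by
  unfold mv
  exact (measurable_fst.comp measurable_snd).add (measurable_toTorus.comp (by fun_prop))

theorem continuous_mv : Continuous fun q : ℝ × T3 × V => mv q.2.1 q.2.2 q.1 := by
  unfold mv
  exact (continuous_fst.comp continuous_snd).add (continuous_toTorus.comp (by fun_prop))

end Vale.Agent.P140.NU
end
end

section

/-!
P140, non-uniqueness: joint measurability of all functions of `NU/Defs.lean`.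
-/

open MeasureTheory Set Filter
open scoped ENNReal Topology

noncomputable section

namespace Vale.Agent.P140.NU

/-! ### general lemmas -/

theorem measurable_intervalIntegral {α : Type*} [MeasurableSpace α] {f : α → ℝ → ℝ}
    (hf : Measurable fun q : α × ℝ => f q.1 q.2) {a b : α → ℝ} (ha : Measurable a)
    (hb : Measurable b) : Measurable fun x => ∫ τ in a x..b x, f x τ := by
  have key : ∀ {a b : α → ℝ}, Measurable a → Measurable b →
      Measurable fun x => ∫ τ in Ioc (a x) (b x), f x τ := by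
    intro a b ha hb
    have h1 : MeasurableSet {q : α × ℝ | q.2 ∈ Ioc (a q.1) (b q.1)} :=
      (measurableSet_lt (ha.comp measurable_fst) measurable_snd).inter
        (measurableSet_le measurable_snd (hb.comp measurable_fst))
    have h2 : Measurable fun q : α × ℝ =>
        ({q : α × ℝ | q.2 ∈ Ioc (a q.1) (b q.1)}).indicator (fun q => f q.1 q.2) q :=
      hf.indicator h1
    have h3 := (h2.stronglyMeasurable.integral_prod_right' (ν := (volume : Measure ℝ))).measurable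
    convert h3 using 1
    ext x
    rw [← integral_indicator measurableSet_Ioc]
    refine integral_congr_ae (Eventually.of_forall fun τ => ?_)
    by_cases h : τ ∈ Ioc (a x) (b x)
    · have h' : (x, τ) ∈ {q : α × ℝ | q.2 ∈ Ioc (a q.1) (b q.1)} := h
      simp only [indicator_of_mem h, indicator_of_mem h']
    · have h' : (x, τ) ∉ {q : α × ℝ | q.2 ∈ Ioc (a q.1) (b q.1)} := h
      simp only [indicator_of_notMem h, indicator_of_notMem h']
  simp only [intervalIntegral]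
  exact (key ha hb).sub (key hb ha)

theorem measurable_lintegral_Icc {α : Type*} [MeasurableSpace α] {f : α → ℝ → ℝ≥0∞}
    (hf : Measurable fun q : α × ℝ => f q.1 q.2) {a b : α → ℝ} (ha : Measurable a)
    (hb : Measurable b) : Measurable fun x => ∫⁻ τ in Icc (a x) (b x), f x τ := by
  have h1 : MeasurableSet {q : α × ℝ | q.2 ∈ Icc (a q.1) (b q.1)} :=
    (measurableSet_le (ha.comp measurable_fst) measurable_snd).inter
      (measurableSet_le measurable_snd (hb.comp measurable_fst))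
  have h2 : Measurable fun q : α × ℝ =>
      ({q : α × ℝ | q.2 ∈ Icc (a q.1) (b q.1)}).indicator (fun q => f q.1 q.2) q :=
    hf.indicator h1
  have h3 := h2.lintegral_prod_right' (ν := (volume : Measure ℝ))
  convert h3 using 1
  ext x
  rw [← lintegral_indicator measurableSet_Icc]
  refine lintegral_congr fun τ => ?_
  by_cases h : τ ∈ Icc (a x) (b x)
  · have h' : (x, τ) ∈ {q : α × ℝ | q.2 ∈ Icc (a q.1) (b q.1)} := h
    simp only [indicator_of_mem h, indicator_of_mem h']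
  · have h' : (x, τ) ∉ {q : α × ℝ | q.2 ∈ Icc (a q.1) (b q.1)} := h
    simp only [indicator_of_notMem h, indicator_of_notMem h']

/-! ### geometry -/

theorem measurable_vp : Measurable vp := continuous_vp.measurable

theorem measurable_coord (i : Fin 3) : Measurable fun v : V => v i := by
  have : Continuous fun v : V => v i := by fun_prop
  exact this.measurable

theorem measurable_mv3 : Measurable fun p : T3 × V × ℝ => mv p.1 p.2.1 p.2.2 := by
  have h : Measurable fun p : T3 × V × ℝ => ((p.2.2, p.1, p.2.1) : ℝ × T3 × V) :=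
    measurable_snd.snd.prodMk (measurable_fst.prodMk measurable_snd.fst)
  have h2 := measurable_mv.comp h
  exact h2

theorem rr_mv_le' (x : T3) (v : V) (τ : ℝ) : rr (mv x v τ) ≤ rr x + |τ| * ‖v‖ :=
  (rr_mv_le x v τ).trans (add_le_add le_rfl (mul_le_mul_of_nonneg_left (vp_le_norm v) (abs_nonneg τ)))

theorem rr_le_one (x : T3) : rr x ≤ 1 := by
  have h : ∀ y : UnitAddCircle, ‖y‖ ≤ 1 / 2 := fun y => by
    have := AddCircle.norm_le_half_period (1 : ℝ) one_ne_zero (x := y)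
    simpa only [one_div, ge_iff_le, abs_one] using this
  unfold rr
  refine Real.sqrt_le_iff.mpr ⟨by norm_num, ?_⟩
  have h1 := h (x 0)
  have h2 := h (x 1)
  have n1 := norm_nonneg (x 0)
  have n2 := norm_nonneg (x 1)
  nlinarith only [h1, h2, n1, n2]

theorem mv_along (x : T3) (v : V) (s t : ℝ) : mv (mv x v s) v (t - s) = mv x v t := by
  rw [mv_mv]
  congr 1
  ring

/-! ### invariance in the direction of the line -/

theorem zsh_apply0 (x : T3) (a : ℝ) : (zsh x a) 0 = x 0 := by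
  simp only [zsh, Fin.isValue, Pi.add_apply, toTorus, PiLp.smul_apply, ne_eq, Fin.reduceEq, not_false_eq_true, PiLp.single_eq_of_ne, smul_eq_mul, mul_zero, QuotientAddGroup.mk_zero, add_zero]

theorem zsh_apply1 (x : T3) (a : ℝ) : (zsh x a) 1 = x 1 := by
  simp [zsh, toTorus]

theorem rr_zsh (x : T3) (a : ℝ) : rr (zsh x a) = rr x := by
  unfold rr
  rw [zsh_apply0, zsh_apply1]

theorem rep_zsh0 (x : T3) (a : ℝ) : rep (zsh x a) 0 = rep x 0 := by
  unfold rep
  rw [zsh_apply0]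

theorem rep_zsh1 (x : T3) (a : ℝ) : rep (zsh x a) 1 = rep x 1 := by
  unfold rep
  rw [zsh_apply1]

theorem dotE_zsh (x : T3) (a : ℝ) (v : V) : dotE (zsh x a) v = dotE x v := by
  unfold dotE
  rw [rep_zsh0, rep_zsh1, rr_zsh]

theorem crossE_zsh (x : T3) (a : ℝ) (v : V) : crossE (zsh x a) v = crossE x v := by
  unfold crossE
  rw [rep_zsh0, rep_zsh1]

theorem mv_zsh (x : T3) (a : ℝ) (v : V) (τ : ℝ) : mv (zsh x a) v τ = zsh (mv x v τ) a := by
  unfold mv zsh
  abel

variable (P : Par)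

theorem Box_zsh (j : ℕ) (x : T3) (a : ℝ) : Box P j (zsh x a) = Box P j x := by
  unfold Box
  simp only [dotE_zsh, crossE_zsh]

theorem coldj_zsh (j : ℕ) (x : T3) (a : ℝ) (v : V) : coldj P j (zsh x a) v = coldj P j x v := by
  unfold coldj
  rw [rr_zsh, Box_zsh]

theorem coldn_zsh (n : ℕ) (x : T3) (a : ℝ) (v : V) : coldn P n (zsh x a) v = coldn P n x v := by
  unfold coldn
  simp only [coldj_zsh]

theorem cf_zsh (n : ℕ) (t : ℝ) (x : T3) (a : ℝ) (v : V) : cf P n t (zsh x a) v = cf P n t x v := by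
  unfold cf
  rw [mv_zsh, coldn_zsh]

theorem seed_zsh (n : ℕ) (x : T3) (a : ℝ) (v : V) : seed P n (zsh x a) v = seed P n x v := by
  unfold seed
  rw [rr_zsh, dotE_zsh]

theorem dat_zsh (n : ℕ) (κ : ℝ) (x : T3) (a : ℝ) (v : V) :
    dat P n κ (zsh x a) v = dat P n κ x v := by
  unfold dat
  rw [coldn_zsh, seed_zsh]

/-! ### measurability -/

theorem measurableSet_Box (j : ℕ) : MeasurableSet {p : T3 × V | p.2 ∈ Box P j p.1} := by
  have v2 : Measurable fun p : T3 × V => vp p.2 := measurable_vp.comp measurable_snd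
  have z2 : Measurable fun p : T3 × V => |p.2 2 - sg j| :=
    ((((measurable_coord 2).comp measurable_snd).sub_const (sg j))).abs
  have h1 : MeasurableSet {p : T3 × V | P.w ≤ vp p.2} := measurableSet_le measurable_const v2
  have h2 : MeasurableSet {p : T3 × V | vp p.2 ≤ P.w + P.del j} :=
    measurableSet_le v2 measurable_const
  have h3 : MeasurableSet {p : T3 × V | |crossE p.1 p.2| ≤ P.imp j * vp p.2} :=
    measurableSet_le measurable_crossE.abs (v2.const_mul _)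
  have h4 : MeasurableSet {p : T3 × V | 0 < dotE p.1 p.2} :=
    measurableSet_lt measurable_const measurable_dotE
  have h5 : MeasurableSet {p : T3 × V | |p.2 2 - sg j| ≤ P.del j} :=
    measurableSet_le z2 measurable_const
  exact h1.inter (h2.inter (h3.inter (h4.inter h5)))

theorem measurableSet_cell (γ : ℝ) (j : ℕ) : MeasurableSet (P.cell γ j) := measurableSet_Icc

theorem measurable_coldj (j : ℕ) : Measurable fun p : T3 × V => coldj P j p.1 p.2 := by
  unfold coldj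
  refine Measurable.ite ?_ measurable_const measurable_const
  exact ((measurable_rr.comp measurable_fst) (measurableSet_cell P gg j)).inter
    (measurableSet_Box P j)

theorem measurable_coldn (n : ℕ) : Measurable fun p : T3 × V => coldn P n p.1 p.2 := by
  unfold coldn
  exact Finset.measurable_sum _ fun j _ => measurable_coldj P j

theorem coldj_nonneg {j : ℕ} (hc : 0 ≤ P.amp j) (x : T3) (v : V) : 0 ≤ coldj P j x v := by
  unfold coldj
  split_ifs
  · exact hc
  · exact le_rfl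

theorem measurable_back : Measurable fun p : ℝ × T3 × V => (mv p.2.1 p.2.2 (-p.1), p.2.2) :=
  (measurable_mv3.comp (measurable_snd.fst.prodMk (measurable_snd.snd.prodMk measurable_fst.neg))).prodMk
    measurable_snd.snd

theorem measurable_cf (n : ℕ) : Measurable fun p : ℝ × T3 × V => cf P n p.1 p.2.1 p.2.2 := by
  unfold cf
  exact ((measurable_coldn P n).comp measurable_back).ennreal_ofReal

theorem measurable_seed (n : ℕ) : Measurable fun p : T3 × V => seed P n p.1 p.2 := by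
  unfold seed
  refine Measurable.ite ?_ measurable_const measurable_const
  have r : Measurable fun p : T3 × V => rr p.1 := measurable_rr.comp measurable_fst
  exact (measurableSet_le measurable_const r).inter ((measurableSet_le r measurable_const).inter
    ((measurableSet_le measurable_const measurable_dotE).inter
    ((measurableSet_le measurable_dotE measurable_const).inter
    (measurableSet_le measurable_snd.norm measurable_const))))

theorem measurable_dat (n : ℕ) (κ : ℝ) : Measurable fun p : T3 × V => dat P n κ p.1 p.2 := by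
  unfold dat
  exact (measurable_coldn P n).add ((measurable_seed P n).const_mul κ)

theorem measurable_coldInf : Measurable fun p : T3 × V => coldInf P p.1 p.2 := by
  unfold coldInf
  refine Measurable.tsum fun j => ?_
  by_cases h : P.j0 ≤ j
  · simp only [h, if_true]
    exact measurable_coldj P j
  · simp only [h, if_false]
    exact measurable_const

theorem measurable_WW : Measurable fun p : ℝ × T3 × V => WW P p.1 p.2.1 p.2.2 := by
  unfold WW
  refine Measurable.const_add ?_ 1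
  refine Measurable.ite ?_ ?_ measurable_const
  · exact measurableSet_le (measurable_rr.comp measurable_snd.fst)
      ((measurable_fst.const_mul 2).const_add _)
  · have h : ∀ s, Measurable fun p : ℝ × T3 × V => SS P s p.2.1 p.2.2 := fun s =>
      (measurable_SS P s).comp measurable_snd
    exact (((h 1).ennreal_ofReal.pow_const _).sub_const 1).add
      (((h (-1)).ennreal_ofReal.pow_const _).sub_const 1)

theorem measurable_TT (n : ℕ) : Measurable fun t : ℝ => P.TT n t := by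
  unfold Par.TT
  exact measurable_id.add_const _

theorem measurable_yy (n : ℕ) : Measurable fun p : ℝ × T3 × V => yy P n p.1 p.2.1 p.2.2 := by
  unfold yy
  have r : Measurable fun p : ℝ × T3 × V => rr p.2.1 := measurable_rr.comp measurable_snd.fst
  have T : Measurable fun p : ℝ × T3 × V => P.TT n p.1 := (measurable_TT P n).comp measurable_fst
  exact ((r.sub (measurable_snd.snd.norm.mul T)).max measurable_const).div T

theorem measurable_Pi (n : ℕ) (γ : ℝ) :
    Measurable fun p : ℝ × T3 × V => Pi P n γ p.1 p.2.1 p.2.2 := by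
  unfold Pi
  have h := (measurable_yy P n).const_mul 2
  have h2 : Measurable fun p : ℝ × T3 × V => γ * ‖p.2.2‖ ^ 2 :=
    (measurable_snd.snd.norm.pow_const 2).const_mul γ
  exact ((h.neg.sub h2).exp.ennreal_ofReal).mul (measurable_WW P)

theorem measurable_qq (n : ℕ) : Measurable fun p : ℝ × T3 × V => qq P n p.1 p.2.1 p.2.2 := by
  unfold qq
  have r : Measurable fun p : ℝ × T3 × V => rr p.2.1 := measurable_rr.comp measurable_snd.fst
  refine Finset.measurable_sum _ fun j _ => Measurable.ite ?_ ?_ measurable_const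
  · exact (r.sub (measurable_fst.const_mul P.w)) (measurableSet_cell P _ j)
  · exact ((measurable_const.div r).const_mul _).mul
      ((((measurable_SS P (sg j)).comp measurable_snd).sqrt).add_const _)

theorem measurable_pp (n : ℕ) : Measurable fun p : ℝ × T3 × V => pp P n p.1 p.2.1 p.2.2 := by
  unfold pp
  have r : Measurable fun p : ℝ × T3 × V => rr p.2.1 := measurable_rr.comp measurable_snd.fst
  have T : Measurable fun p : ℝ × T3 × V => P.TT n p.1 := (measurable_TT P n).comp measurable_fst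
  have S : ∀ j, Measurable fun p : ℝ × T3 × V => √(SS P (sg j) p.2.1 p.2.2) := fun j =>
    ((measurable_SS P (sg j)).comp measurable_snd).sqrt
  refine Finset.measurable_sum _ fun j _ => Measurable.ite ?_ ?_ measurable_const
  · have a1 : Measurable fun p : ℝ × T3 × V => P.a1 (P.TT n p.1) := by
      unfold Par.a1
      exact (T.const_mul _).div_const _
    exact ((r.sub (measurable_fst.const_mul P.w)) (measurableSet_cell P _ j)).inter
      ((measurableSet_le r (T.const_mul _)).inter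
      ((measurableSet_le measurable_snd.snd.norm measurable_const).inter
      ((measurableSet_le measurable_const (S j)).union
      ((measurableSet_le measurable_const (S j)).inter
      (measurableSet_le a1 (r.sub (T.const_mul _)))))))
  · exact ((measurable_const.div r).const_mul _).mul ((S j).sub_const _)

theorem measurable_qb (n : ℕ) : Measurable fun p : ℝ × T3 × V => qb P n p.1 p.2.1 p.2.2 := by
  unfold qb
  have r : Measurable fun p : ℝ × T3 × V => rr p.2.1 := measurable_rr.comp measurable_snd.fst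
  have T : Measurable fun p : ℝ × T3 × V => P.TT n p.1 := (measurable_TT P n).comp measurable_fst
  have S : ∀ j, Measurable fun p : ℝ × T3 × V => √(SS P (sg j) p.2.1 p.2.2) := fun j =>
    ((measurable_SS P (sg j)).comp measurable_snd).sqrt
  refine Finset.measurable_sum _ fun j _ => Measurable.ite ?_ ?_ measurable_const
  · have a1 : Measurable fun p : ℝ × T3 × V => P.a1 (P.TT n p.1) := by
      unfold Par.a1
      exact (T.const_mul _).div_const _
    exact ((r.sub (measurable_fst.const_mul P.w)) (measurableSet_cell P _ j)).inter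
      ((measurableSet_le measurable_const (S j)).inter
      ((measurableSet_lt (S j) measurable_const).inter
      ((measurableSet_lt (r.sub (T.const_mul _)) a1).inter
      (measurableSet_lt ((measurable_dotE.comp measurable_snd).sub_const _)
        ((S j).div_const 200).neg))))
  · exact ((measurable_const.div r).const_mul _).mul ((S j).add_const _)

theorem measurable_ee (n : ℕ) : Measurable fun p : ℝ × T3 × V => ee P n p.1 p.2.1 p.2.2 := by
  unfold ee
  exact (((measurable_yy P n).add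
    ((measurable_snd.snd.norm.pow_const 2).div_const 16)).exp).const_mul _

/-- the map `((t,x,v),τ) ↦ (τ, x + (τ - t) v, v)` -/
theorem measurable_flight : Measurable fun p : (ℝ × T3 × V) × ℝ =>
    ((p.2, mv p.1.2.1 p.1.2.2 (p.2 - p.1.1), p.1.2.2) : ℝ × T3 × V) :=
  measurable_snd.prodMk ((measurable_mv3.comp (measurable_fst.snd.fst.prodMk
    (measurable_fst.snd.snd.prodMk (measurable_snd.sub measurable_fst.fst)))).prodMk
    measurable_fst.snd.snd)

theorem measurable_wt (n : ℕ) (te : ℝ) :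
    Measurable fun p : ℝ × T3 × V => wt P n te p.1 p.2.1 p.2.2 := by
  unfold wt
  have h1 : Measurable fun p : (ℝ × T3 × V) × ℝ =>
      pp P n p.2 (mv p.1.2.1 p.1.2.2 (p.2 - p.1.1)) p.1.2.2 := by
    have h := (measurable_pp P n).comp measurable_flight
    exact h
  have h2 : Measurable fun p : (ℝ × T3 × V) × ℝ =>
      qq P n p.2 (mv p.1.2.1 p.1.2.2 (p.2 - p.1.1)) p.1.2.2 + P.Lam / P.TT n p.2 := by
    have h := (measurable_qq P n).comp measurable_flight
    have h' := (measurable_TT P n).comp (measurable_snd : Measurable fun p : (ℝ × T3 × V) × ℝ => p.2)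
    exact Measurable.add h (measurable_const.div h')
  have h3 : Measurable fun p : (ℝ × T3 × V) × ℝ => ∫ s in p.1.1..p.2,
      (qq P n s (mv p.1.2.1 p.1.2.2 (s - p.1.1)) p.1.2.2 + P.Lam / P.TT n s) := by
    have h4 : Measurable fun q : ((ℝ × T3 × V) × ℝ) × ℝ => ((q.1.1, q.2) : (ℝ × T3 × V) × ℝ) :=
      measurable_fst.fst.prodMk measurable_snd
    have h5 := h2.comp h4
    exact measurable_intervalIntegral (α := (ℝ × T3 × V) × ℝ)
      (f := fun p s => qq P n s (mv p.1.2.1 p.1.2.2 (s - p.1.1)) p.1.2.2 + P.Lam / P.TT n s)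
      h5 measurable_fst.fst measurable_snd
  exact measurable_intervalIntegral (h1.mul h3.neg.exp) measurable_fst measurable_const

theorem measurable_et (n : ℕ) (te : ℝ) :
    Measurable fun p : ℝ × T3 × V => et P n te p.1 p.2.1 p.2.2 := by
  unfold et
  have h1 : Measurable fun p : (ℝ × T3 × V) × ℝ =>
      qb P n p.2 (mv p.1.2.1 p.1.2.2 (p.2 - p.1.1)) p.1.2.2 := by
    have h := (measurable_qb P n).comp measurable_flight
    exact h
  exact (measurable_ee P n).mul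
    (((measurable_intervalIntegral h1 measurable_fst measurable_const).const_mul 500).const_add 1)

/-! ### collision operators with parameters -/

section

variable {α : Type*} [MeasurableSpace α]

theorem measurable_coll : Measurable fun q : ((α × V) × V) × S2 =>
    (q.1.1.2, q.1.2, q.2) :=
  (measurable_fst.fst.snd).prodMk (measurable_fst.snd.prodMk measurable_snd)

theorem measurable_Gam {f g : α → V → ℝ≥0∞} (hf : Measurable fun q : α × V => f q.1 q.2)
    (hg : Measurable fun q : α × V => g q.1 q.2) :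
    Measurable fun q : α × V => Gam (f q.1) (g q.1) q.2 := by
  unfold Gam
  have h1 : Measurable fun q : ((α × V) × V) × S2 =>
      ENNReal.ofReal |relA q.1.1.2 q.1.2 q.2| * (f q.1.1.1 (post q.1.1.2 q.1.2 q.2)
        * g q.1.1.1 (postStar q.1.1.2 q.1.2 q.2)) := by
    refine Measurable.mul ?_ (Measurable.mul ?_ ?_)
    · exact (measurable_relA.comp measurable_coll).abs.ennreal_ofReal
    · exact hf.comp (measurable_fst.fst.fst.prodMk (measurable_post.comp measurable_coll))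
    · exact hg.comp (measurable_fst.fst.fst.prodMk (measurable_postStar.comp measurable_coll))
  exact (h1.lintegral_prod_right' (ν := surf)).lintegral_prod_right'

theorem measurable_bN (N : ℕ) : Measurable fun p : V × V × S2 => DL.bN N p.1 p.2.1 p.2.2 := by
  unfold DL.bN
  refine Measurable.ite ?_ measurable_relA.abs measurable_const
  exact (measurableSet_le ((measurable_fst.norm.pow_const 2).add
    (measurable_snd.fst.norm.pow_const 2)) measurable_const).inter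
    (measurableSet_le measurable_const (measurable_relA.abs.const_mul _))

theorem measurable_GamN (N : ℕ) {f g : α → V → ℝ≥0∞} (hf : Measurable fun q : α × V => f q.1 q.2)
    (hg : Measurable fun q : α × V => g q.1 q.2) :
    Measurable fun q : α × V => GamN N (f q.1) (g q.1) q.2 := by
  unfold GamN
  have h1 : Measurable fun q : ((α × V) × V) × S2 =>
      ENNReal.ofReal (DL.bN N q.1.1.2 q.1.2 q.2) * (f q.1.1.1 (post q.1.1.2 q.1.2 q.2)
        * g q.1.1.1 (postStar q.1.1.2 q.1.2 q.2)) := by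
    refine Measurable.mul ?_ (Measurable.mul ?_ ?_)
    · exact ((measurable_bN N).comp measurable_coll).ennreal_ofReal
    · exact hf.comp (measurable_fst.fst.fst.prodMk (measurable_post.comp measurable_coll))
    · exact hg.comp (measurable_fst.fst.fst.prodMk (measurable_postStar.comp measurable_coll))
  exact (h1.lintegral_prod_right' (ν := surf)).lintegral_prod_right'

end

theorem measurable_KK (n : ℕ) {f : ℝ → T3 → V → ℝ≥0∞}
    (hf : Measurable fun p : ℝ × T3 × V => f p.1 p.2.1 p.2.2) :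
    Measurable fun p : ℝ × T3 × V => KK P n p.1 (f p.1) p.2.1 p.2.2 := by
  unfold KK
  have h0 : Measurable fun q : (ℝ × T3) × V => ((q.1.1, q.1.2, q.2) : ℝ × T3 × V) :=
    measurable_fst.fst.prodMk (measurable_fst.snd.prodMk measurable_snd)
  have h1 : Measurable fun q : (ℝ × T3) × V => cf P n q.1.1 q.1.2 q.2 := by
    have h := (measurable_cf P n).comp h0
    exact h
  have h2 : Measurable fun q : (ℝ × T3) × V => f q.1.1 q.1.2 q.2 := by
    have h := hf.comp h0
    exact h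
  have h3 := measurable_Gam (α := ℝ × T3) (f := fun a => cf P n a.1 a.2) (g := fun a => f a.1 a.2)
    h1 h2
  have h4 : Measurable fun p : ℝ × T3 × V => (((p.1, p.2.1), p.2.2) : (ℝ × T3) × V) :=
    (measurable_fst.prodMk measurable_snd.fst).prodMk measurable_snd.snd
  have h5 := h3.comp h4
  exact h5.const_mul 2

theorem measurable_UK (n : ℕ) (t1 : ℝ) {f : ℝ → T3 → V → ℝ≥0∞}
    (hf : Measurable fun p : ℝ × T3 × V => f p.1 p.2.1 p.2.2) :
    Measurable fun p : ℝ × T3 × V => UK P n t1 f p.1 p.2.1 p.2.2 := by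
  unfold UK
  have h1 : Measurable fun p : (ℝ × T3 × V) × ℝ =>
      KK P n p.2 (f p.2) (mv p.1.2.1 p.1.2.2 (p.2 - p.1.1)) p.1.2.2 := by
    have h := (measurable_KK P n hf).comp measurable_flight
    exact h
  exact measurable_lintegral_Icc h1 measurable_const measurable_fst

theorem measurable_bf (n : ℕ) : Measurable fun p : ℝ × T3 × V => bf P n p.1 p.2.1 p.2.2 := by
  unfold bf
  have h0 : Measurable fun q : (ℝ × T3) × V => ((q.1.1, q.1.2, q.2) : ℝ × T3 × V) :=
    measurable_fst.fst.prodMk (measurable_fst.snd.prodMk measurable_snd)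
  have h1 : Measurable fun q : (ℝ × T3) × V => cf P n q.1.1 q.1.2 q.2 := by
    have h := (measurable_cf P n).comp h0
    exact h
  have h3 := measurable_Gam (α := ℝ × T3) (f := fun a => cf P n a.1 a.2)
    (g := fun a => cf P n a.1 a.2) h1 h1
  have h4 : Measurable fun p : ℝ × T3 × V => (((p.1, p.2.1), p.2.2) : (ℝ × T3) × V) :=
    (measurable_fst.prodMk measurable_snd.fst).prodMk measurable_snd.snd
  have h6 : Measurable fun p : (ℝ × T3 × V) × ℝ =>
      Gam (cf P n p.2 (mv p.1.2.1 p.1.2.2 (p.2 - p.1.1)))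
        (cf P n p.2 (mv p.1.2.1 p.1.2.2 (p.2 - p.1.1))) p.1.2.2 := by
    have h := (h3.comp h4).comp measurable_flight
    exact h
  exact measurable_lintegral_Icc h6 measurable_const measurable_fst

theorem measurable_Bb : Measurable fun p : ℝ × T3 × V => Bb P p.1 p.2.1 p.2.2 := by
  unfold Bb
  have r : Measurable fun p : ℝ × T3 × V => rr p.2.1 := measurable_rr.comp measurable_snd.fst
  have h1 : Measurable fun p : ℝ × T3 × V => ((P.K : ℝ) + ‖p.2.2‖) * p.1 + rr p.2.1 :=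
    ((measurable_snd.snd.norm.const_add _).mul measurable_fst).add r
  exact ((((h1.min measurable_const).pow_const _).mul
    (((measurable_snd.snd.norm.pow_const 2).div_const 6).neg.exp)).ennreal_ofReal).mul
    (measurable_WW P)

end Vale.Agent.P140.NU
end
end

section

/-!
P140, non-uniqueness: more geometry: the vectors `u_s(x)` and `e_r(x)`.
-/

open MeasureTheory Set Filter
open scoped ENNReal Topology

noncomputable section

namespace Vale.Agent.P140.NU

variable (P : Par)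

/-- radial unit vector -/
def er (x : T3) : V := !₂[rep x 0 / rr x, rep x 1 / rr x, 0]

/-- velocity of the medium -/
def uu (s : ℝ) (x : T3) : V := !₂[P.w * (rep x 0 / rr x), P.w * (rep x 1 / rr x), s]

theorem inner_er (x : T3) (v : V) : inner ℝ v (er x) = dotE x v := by
  unfold er dotE
  simp only [Fin.isValue, PiLp.inner_apply, RCLike.inner_apply, Real.ringHom_apply, Fin.sum_univ_three, Matrix.cons_val_zero, Matrix.cons_val_one, Matrix.cons_val, zero_mul, add_zero]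
  ring

theorem norm_er {x : T3} (hx : 0 < rr x) : ‖er x‖ = 1 := by
  have h : ‖er x‖ ^ 2 = 1 := by
    rw [EuclideanSpace.norm_sq_eq]
    unfold er
    simp only [Fin.isValue, Real.norm_eq_abs, sq_abs, Fin.sum_univ_three, Matrix.cons_val_zero, Matrix.cons_val_one, Matrix.cons_val, ne_eq, OfNat.ofNat_ne_zero, not_false_eq_true, zero_pow, add_zero]
    rw [div_pow, div_pow, ← add_div, ← rr_sq, div_self (by positivity)]
  nlinarith only [h, norm_nonneg (er x)]

theorem SS_eq_norm (s : ℝ) {x : T3} (hx : 0 < rr x) (v : V) :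
    SS P s x v = ‖v - uu P s x‖ ^ 2 := by
  rw [EuclideanSpace.norm_sq_eq]
  unfold uu SS dotE
  simp only [PiLp.sub_apply, Fin.sum_univ_three, Real.norm_eq_abs, sq_abs,
    Matrix.cons_val_zero, Matrix.cons_val_one, Matrix.cons_val]
  rw [vp_sq]
  have h2 : rr x ^ 2 = rep x 0 ^ 2 + rep x 1 ^ 2 := rr_sq x
  have h3 : (rep x 0 / rr x) ^ 2 + (rep x 1 / rr x) ^ 2 = 1 := by
    rw [div_pow, div_pow, ← add_div, ← rr_sq, div_self (by (clear * - hx; positivity))]
  have h4 : P.w ^ 2 * ((rep x 0 / rr x) ^ 2 + (rep x 1 / rr x) ^ 2) = P.w ^ 2 := by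
    rw [h3, mul_one]
  rw [add_div, mul_div_right_comm, mul_div_right_comm]
  linear_combination -h4

theorem sqrt_SS_eq_norm (s : ℝ) {x : T3} (hx : 0 < rr x) (v : V) :
    √(SS P s x v) = ‖v - uu P s x‖ := by
  rw [SS_eq_norm P s hx, Real.sqrt_sq (norm_nonneg _)]

theorem norm_uu_le (s : ℝ) {x : T3} (hx : 0 < rr x) (hw : 0 ≤ P.w) : ‖uu P s x‖ ≤ P.w + |s| := by
  have h : ‖uu P s x‖ ^ 2 = P.w ^ 2 + s ^ 2 := by
    have h1 := SS_eq_norm P s hx 0
    rw [zero_sub, norm_neg] at h1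
    rw [← h1]
    unfold SS dotE vp
    simp only [Fin.isValue, PiLp.zero_apply, ne_eq, OfNat.ofNat_ne_zero, not_false_eq_true, zero_pow, add_zero, Real.sqrt_zero, zero_add, mul_zero, zero_div, sub_zero, zero_sub, even_two, Even.neg_pow]
  apply le_of_sq_le_sq _ (by positivity)
  rw [h]
  linarith only [mul_nonneg hw (abs_nonneg s), sq_abs s]

theorem dotE_sub (x : T3) (v v' : V) : dotE x (v - v') = dotE x v - dotE x v' := by
  rw [← inner_er, ← inner_er, ← inner_er, inner_sub_left]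

/-- convexity of the distance to the line -/
theorem rr_mv_ge {x : T3} {v : V} {τ : ℝ} (h : rr x + |τ| * vp v < 1 / 2) :
    rr x + τ * dotE x v ≤ rr (mv x v τ) := by
  by_cases hx : rr x = 0
  · have : dotE x v = 0 := by unfold dotE; rw [hx]; simp only [Fin.isValue, div_zero]
    rw [hx, this]; simpa only [mul_zero, add_zero, ge_iff_le] using rr_nonneg _
  have hx0 : 0 < rr x := lt_of_le_of_ne (rr_nonneg x) (Ne.symm hx)
  rw [rr_mv h]
  apply Real.le_sqrt_of_sq_le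
  have h1 := rr_sq x
  have h2 := dotE_mul_rr x v
  have h3 := dotE_sq_le x v
  have h4 := vp_sq v
  have h5 : τ ^ 2 * dotE x v ^ 2 ≤ τ ^ 2 * vp v ^ 2 := mul_le_mul_of_nonneg_left h3 (sq_nonneg τ)
  have h6 : (rep x 0 + τ * v 0) ^ 2 + (rep x 1 + τ * v 1) ^ 2
      = rr x ^ 2 + 2 * τ * (dotE x v * rr x) + τ ^ 2 * vp v ^ 2 := by
    rw [h1, h2, h4]; ring
  rw [h6]
  linarith

end Vale.Agent.P140.NU
end
end

section

/-!
P140, non-uniqueness: the functionals `∫∫ wt h` and `∫∫ ẽ h`.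
-/

open MeasureTheory Set Filter
open scoped ENNReal Topology

noncomputable section

namespace Vale.Agent.P140.NU

/-- the main functional `∫∫ wt h` -/
def NN (P : Par) (n : ℕ) (te : ℝ) (h : ℝ → T3 → V → ℝ) (t : ℝ) : ℝ :=
  ∫ p : T3 × V, wt P n te t p.1 p.2 * h t p.1 p.2

/-- the auxiliary functional `∫∫ ẽ h` -/
def NE (P : Par) (n : ℕ) (te : ℝ) (h : ℝ → T3 → V → ℝ) (t : ℝ) : ℝ :=
  ∫ p : T3 × V, et P n te t p.1 p.2 * h t p.1 p.2

end Vale.Agent.P140.NU
end
end

section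

/-!
P140-NU-S: the vertical velocity after the third collision as a function of the second collision
time (positions and cold velocities fixed): derivative and multiplicity.
-/

open MeasureTheory Set Polynomial
open scoped ENNReal NNReal Topology

noncomputable section

namespace Vale.Agent.P140.NU.S

/-- velocity with horizontal part `q` and vertical part `z` -/
def vec (q : ℝ × ℝ) (z : ℝ) : V := !₂[q.1, q.2, z]

@[simp] theorem vec_zero (q : ℝ × ℝ) (z : ℝ) : vec q z 0 = q.1 := rfl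
@[simp] theorem vec_one (q : ℝ × ℝ) (z : ℝ) : vec q z 1 = q.2 := rfl
@[simp] theorem vec_two (q : ℝ × ℝ) (z : ℝ) : vec q z 2 = z := rfl

/-- height above `q` of the plane through `v` orthogonal to `v - u` -/
def hgt (v u : V) (q : ℝ × ℝ) : ℝ :=
  v 2 - ((q.1 - v 0) * (v 0 - u 0) + (q.2 - v 1) * (v 1 - u 1)) / (v 2 - u 2)

/-- derivative of the height -/
def dhgt (v u : V) (q : ℝ × ℝ) (d : V) (e : ℝ × ℝ) : ℝ :=
  d 2 - ((e.1 - d 0) * (v 0 - u 0) + (e.2 - d 1) * (v 1 - u 1) +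
    (q.1 - v 0) * d 0 + (q.2 - v 1) * d 1 + (hgt v u q - v 2) * d 2) / (v 2 - u 2)

theorem hasDerivAt_hgt {w d : ℝ → V} {q e : ℝ → ℝ × ℝ} (u : V) {τ : ℝ}
    (hw : ∀ i, HasDerivAt (fun s => w s i) (d τ i) τ)
    (hq1 : HasDerivAt (fun s => (q s).1) (e τ).1 τ) (hq2 : HasDerivAt (fun s => (q s).2) (e τ).2 τ)
    (hne : w τ 2 ≠ u 2) :
    HasDerivAt (fun s => hgt (w s) u (q s)) (dhgt (w τ) u (q τ) (d τ) (e τ)) τ := by
  have hne' : w τ 2 - u 2 ≠ 0 := sub_ne_zero.2 hne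
  unfold hgt
  have h1 := ((hq1.sub (hw 0)).mul ((hw 0).sub_const (u 0))).add
    ((hq2.sub (hw 1)).mul ((hw 1).sub_const (u 1)))
  have h2 := (hw 2).sub (h1.div ((hw 2).sub_const (u 2)) hne')
  refine HasDerivAt.congr_deriv h2 ?_
  unfold dhgt hgt
  simp only [Pi.add_apply, Pi.mul_apply, Pi.sub_apply]
  field_simp
  ring

/-- the defining property of the height -/
theorem hgt_spec {v u : V} (hne : v 2 ≠ u 2) (q : ℝ × ℝ) :
    (q.1 - v 0) * (v 0 - u 0) + (q.2 - v 1) * (v 1 - u 1) + (hgt v u q - v 2) * (v 2 - u 2) = 0 := by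
  have hne' : v 2 - u 2 ≠ 0 := sub_ne_zero.2 hne
  unfold hgt
  field_simp
  ring

/-- fixed data of the sweep: `v` initial velocity, `u1 u2 u3` cold partners, `X = x₁ - x₂`,
`Y = x₂ - x₃` horizontal displacements, `Z` the final horizontal velocity, `a = τ₁`, `b = τ₃` -/
structure PD where
  v : V
  u1 : V
  u2 : V
  u3 : V
  X : ℝ × ℝ
  Y : ℝ × ℝ
  Z : ℝ × ℝ
  a : ℝ
  b : ℝ

namespace PD

variable (D : PD)

/-- horizontal velocity of the first flight -/
def h1 (τ : ℝ) : ℝ × ℝ := (D.X.1 / (D.a - τ), D.X.2 / (D.a - τ))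
/-- horizontal velocity of the second flight -/
def h2 (τ : ℝ) : ℝ × ℝ := (D.Y.1 / (τ - D.b), D.Y.2 / (τ - D.b))
/-- velocity of the first flight -/
def w1 (τ : ℝ) : V := vec (D.h1 τ) (hgt D.v D.u1 (D.h1 τ))
/-- velocity of the second flight -/
def w2 (τ : ℝ) : V := vec (D.h2 τ) (hgt (D.w1 τ) D.u2 (D.h2 τ))
/-- vertical velocity after the third collision -/
def psi (τ : ℝ) : ℝ := hgt (D.w2 τ) D.u3 D.Z

end PD

/-- derivative of `w1` -/
def dd1 (s1 : ℝ) (v u1 w1 : V) : V :=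
  vec (w1 0 / s1, w1 1 / s1)
    (-(w1 0 / s1 * (v 0 - u1 0) + w1 1 / s1 * (v 1 - u1 1)) / (v 2 - u1 2))

/-- derivative of `w2` -/
def dd (s1 s2 : ℝ) (v u1 w1 u2 w2 : V) : V :=
  vec (-(w2 0) / s2, -(w2 1) / s2)
    ((dd1 s1 v u1 w1) 2 - ((-(w2 0) / s2 - dd1 s1 v u1 w1 0) * (w1 0 - u2 0)
      + (-(w2 1) / s2 - dd1 s1 v u1 w1 1) * (w1 1 - u2 1)
      + (w2 0 - w1 0) * dd1 s1 v u1 w1 0 + (w2 1 - w1 1) * dd1 s1 v u1 w1 1
      + (w2 2 - w1 2) * dd1 s1 v u1 w1 2) / (w1 2 - u2 2))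

namespace PD

variable (D : PD)

/-- derivative of `psi` -/
def dpsi (τ : ℝ) : ℝ :=
  -(inner ℝ (dd (D.a - τ) (τ - D.b) D.v D.u1 (D.w1 τ) D.u2 (D.w2 τ))
    (vec D.Z (D.psi τ) + D.u3 - (2 : ℝ) • D.w2 τ)) / (D.w2 τ 2 - D.u3 2)

theorem hasDerivAt_h1 {τ : ℝ} (h : τ < D.a) :
    HasDerivAt (fun s => (D.h1 s).1) ((D.h1 τ).1 / (D.a - τ)) τ ∧
    HasDerivAt (fun s => (D.h1 s).2) ((D.h1 τ).2 / (D.a - τ)) τ := by
  have hne : D.a - τ ≠ 0 := by (clear * - h; linarith)
  have h0 : HasDerivAt (fun s => D.a - s) (-1) τ := by simpa using (hasDerivAt_id τ).const_sub D.a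
  constructor
  · refine HasDerivAt.congr_deriv ((hasDerivAt_const τ D.X.1).div h0 hne) ?_
    unfold h1
    simp only
    field_simp
    ring
  · refine HasDerivAt.congr_deriv ((hasDerivAt_const τ D.X.2).div h0 hne) ?_
    unfold h1
    simp only
    field_simp
    ring

theorem hasDerivAt_h2 {τ : ℝ} (h : D.b < τ) :
    HasDerivAt (fun s => (D.h2 s).1) (-(D.h2 τ).1 / (τ - D.b)) τ ∧
    HasDerivAt (fun s => (D.h2 s).2) (-(D.h2 τ).2 / (τ - D.b)) τ := by
  have hne : τ - D.b ≠ 0 := by linarith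
  have h0 : HasDerivAt (fun s => s - D.b) 1 τ := by simpa using (hasDerivAt_id τ).sub_const D.b
  constructor
  · refine HasDerivAt.congr_deriv ((hasDerivAt_const τ D.Y.1).div h0 hne) ?_
    unfold h2
    simp only
    field_simp
    ring
  · refine HasDerivAt.congr_deriv ((hasDerivAt_const τ D.Y.2).div h0 hne) ?_
    unfold h2
    simp only
    field_simp
    ring

theorem hasDerivAt_w1 {τ : ℝ} (h : τ < D.a) (hv : D.v 2 ≠ D.u1 2) (i : Fin 3) :
    HasDerivAt (fun s => D.w1 s i) (dd1 (D.a - τ) D.v D.u1 (D.w1 τ) i) τ := by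
  obtain ⟨h1, h2⟩ := D.hasDerivAt_h1 h
  fin_cases i
  · exact h1
  · exact h2
  · show HasDerivAt (fun s => hgt D.v D.u1 (D.h1 s)) _ τ
    have := hasDerivAt_hgt (w := fun _ => D.v) (d := fun _ => 0) (q := D.h1)
      (e := fun s => ((D.h1 s).1 / (D.a - s), (D.h1 s).2 / (D.a - s))) D.u1 (τ := τ)
      (fun i => by simpa using hasDerivAt_const τ (D.v i)) h1 h2 hv
    refine HasDerivAt.congr_deriv this ?_
    show _ = dd1 (D.a - τ) D.v D.u1 (D.w1 τ) 2
    simp only [dd1, dhgt, w1, vec_zero, vec_one, vec_two, PiLp.zero_apply]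
    ring

theorem hasDerivAt_w2 {τ : ℝ} (h : τ < D.a) (h' : D.b < τ) (hv : D.v 2 ≠ D.u1 2)
    (hw : D.w1 τ 2 ≠ D.u2 2) (i : Fin 3) :
    HasDerivAt (fun s => D.w2 s i)
      (dd (D.a - τ) (τ - D.b) D.v D.u1 (D.w1 τ) D.u2 (D.w2 τ) i) τ := by
  obtain ⟨h1, h2⟩ := D.hasDerivAt_h2 h'
  fin_cases i
  · exact h1
  · exact h2
  · show HasDerivAt (fun s => hgt (D.w1 s) D.u2 (D.h2 s)) _ τ
    have := hasDerivAt_hgt (w := D.w1)
      (d := fun s => dd1 (D.a - s) D.v D.u1 (D.w1 s)) (q := D.h2)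
      (e := fun s => (-(D.h2 s).1 / (s - D.b), -(D.h2 s).2 / (s - D.b))) D.u2 (τ := τ)
      (fun i => D.hasDerivAt_w1 h hv i) h1 h2 hw
    exact this

theorem hasDerivAt_psi {τ : ℝ} (h : τ < D.a) (h' : D.b < τ) (hv : D.v 2 ≠ D.u1 2)
    (hw : D.w1 τ 2 ≠ D.u2 2) (hw2 : D.w2 τ 2 ≠ D.u3 2) :
    HasDerivAt D.psi (D.dpsi τ) τ := by
  have := hasDerivAt_hgt (w := D.w2)
      (d := fun s => dd (D.a - s) (s - D.b) D.v D.u1 (D.w1 s) D.u2 (D.w2 s)) (q := fun _ => D.Z)
      (e := fun _ => 0) D.u3 (τ := τ)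
      (fun i => D.hasDerivAt_w2 h h' hv hw i) (by simpa using hasDerivAt_const τ D.Z.1)
      (by simpa only [Prod.snd_zero] using hasDerivAt_const τ D.Z.2) hw2
  refine HasDerivAt.congr_deriv this ?_
  unfold dpsi
  generalize dd (D.a - τ) (τ - D.b) D.v D.u1 (D.w1 τ) D.u2 (D.w2 τ) = d
  have hne' : D.w2 τ 2 - D.u3 2 ≠ 0 := sub_ne_zero.2 hw2
  rw [EuclideanSpace.inner_eq_star_dotProduct]
  simp only [dotProduct, Fin.sum_univ_three, dhgt, psi, PiLp.add_apply, PiLp.sub_apply,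
    PiLp.smul_apply, vec_zero, vec_one, vec_two, smul_eq_mul, Pi.star_apply, star_trivial]
  field_simp
  simp only [Fin.isValue, Prod.fst_zero, zero_sub, neg_mul, Prod.snd_zero, neg_add_rev]
  ring

/-! ### multiplicity -/

/-- `p = τ₁ - τ` -/
def pp : ℝ[X] := C D.a - Polynomial.X
/-- `q = τ - τ₃` -/
def pq : ℝ[X] := Polynomial.X - C D.b
/-- `p w₁_z` is the value of `αl p + be` -/
def al : ℝ := D.v 2 + (D.v 0 * (D.v 0 - D.u1 0) + D.v 1 * (D.v 1 - D.u1 1)) / (D.v 2 - D.u1 2)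
def be : ℝ := -(D.X.1 * (D.v 0 - D.u1 0) + D.X.2 * (D.v 1 - D.u1 1)) / (D.v 2 - D.u1 2)
/-- `p (w₁_z - u₂_z)` -/
def pr : ℝ[X] := C (D.al - D.u2 2) * D.pp + C D.be
/-- `p q r` -/
def pM : ℝ[X] := D.pp * D.pq * D.pr
/-- `p q r w₂_z` -/
def pN : ℝ[X] := (C D.al * D.pp + C D.be) * D.pq * D.pr
  - ((C D.Y.1 * D.pp - C D.X.1 * D.pq) * (C D.X.1 - C (D.u2 0) * D.pp)
    + (C D.Y.2 * D.pp - C D.X.2 * D.pq) * (C D.X.2 - C (D.u2 1) * D.pp))
/-- the polynomial whose roots are the solutions of `psi τ = y` -/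
def pF (y : ℝ) : ℝ[X] :=
  (C D.Z.1 * D.pM - C D.Y.1 * D.pp * D.pr) * (C D.Y.1 * D.pp * D.pr - C (D.u3 0) * D.pM)
  + (C D.Z.2 * D.pM - C D.Y.2 * D.pp * D.pr) * (C D.Y.2 * D.pp * D.pr - C (D.u3 1) * D.pM)
  + (C y * D.pM - D.pN) * (D.pN - C (D.u3 2) * D.pM)

theorem deg_pp : D.pp.natDegree ≤ 1 := by
  unfold pp; compute_degree

theorem deg_pq : D.pq.natDegree ≤ 1 := by
  unfold pq; compute_degree

theorem deg_C_mul (a : ℝ) {P : ℝ[X]} {n : ℕ} (h : P.natDegree ≤ n) : (C a * P).natDegree ≤ n :=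
  (natDegree_C_mul_le a P).trans h

theorem deg_mul {P Q : ℝ[X]} {m n : ℕ} (h : P.natDegree ≤ m) (h' : Q.natDegree ≤ n) :
    (P * Q).natDegree ≤ m + n := natDegree_mul_le.trans (add_le_add h h')

theorem deg_add {P Q : ℝ[X]} {n : ℕ} (h : P.natDegree ≤ n) (h' : Q.natDegree ≤ n) :
    (P + Q).natDegree ≤ n := natDegree_add_le_of_degree_le h h'

theorem deg_sub {P Q : ℝ[X]} {n : ℕ} (h : P.natDegree ≤ n) (h' : Q.natDegree ≤ n) :
    (P - Q).natDegree ≤ n := natDegree_sub_le_of_le h h' |>.trans (by simp)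

theorem deg_C (a : ℝ) (n : ℕ) : (C a).natDegree ≤ n := by simp only [natDegree_C, zero_le]

theorem deg_pr : D.pr.natDegree ≤ 1 :=
  deg_add (deg_C_mul _ D.deg_pp) (deg_C _ _)

theorem deg_pM : D.pM.natDegree ≤ 3 := deg_mul (deg_mul D.deg_pp D.deg_pq) D.deg_pr

theorem deg_pN : D.pN.natDegree ≤ 3 := by
  have h1 : ((C D.al * D.pp + C D.be) * D.pq * D.pr).natDegree ≤ 3 :=
    deg_mul (deg_mul (deg_add (deg_C_mul _ D.deg_pp) (deg_C _ _)) D.deg_pq) D.deg_pr
  have h2 : ∀ x y u : ℝ, ((C y * D.pp - C x * D.pq) * (C x - C u * D.pp)).natDegree ≤ 3 :=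
    fun x y u => (deg_mul (deg_sub (deg_C_mul _ D.deg_pp) (deg_C_mul _ D.deg_pq))
      (deg_sub (deg_C _ _) (deg_C_mul _ D.deg_pp))).trans (by norm_num)
  exact deg_sub h1 (deg_add (h2 _ _ _) (h2 _ _ _))

theorem deg_pF (y : ℝ) : (D.pF y).natDegree ≤ 6 := by
  have h1 : ∀ z Y u : ℝ, ((C z * D.pM - C Y * D.pp * D.pr) *
      (C Y * D.pp * D.pr - C u * D.pM)).natDegree ≤ 3 + 3 := fun z Y u => by
    have h2 : (C Y * D.pp * D.pr).natDegree ≤ 3 :=
      (deg_mul (deg_C_mul _ D.deg_pp) D.deg_pr).trans (by norm_num)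
    exact deg_mul (deg_sub (deg_C_mul _ D.deg_pM) h2) (deg_sub h2 (deg_C_mul _ D.deg_pM))
  have h3 : ((C y * D.pM - D.pN) * (D.pN - C (D.u3 2) * D.pM)).natDegree ≤ 3 + 3 :=
    deg_mul (deg_sub (deg_C_mul _ D.deg_pM) D.deg_pN) (deg_sub D.deg_pN (deg_C_mul _ D.deg_pM))
  exact deg_add (deg_add (h1 _ _ _) (h1 _ _ _)) h3

theorem w1_two {τ : ℝ} (h : τ < D.a) : D.w1 τ 2 * (D.a - τ) = D.al * (D.a - τ) + D.be := by
  have hne : D.a - τ ≠ 0 := by linarith only [h]
  show hgt D.v D.u1 (D.h1 τ) * (D.a - τ) = _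
  unfold hgt h1 al be
  simp only
  field_simp
  ring

theorem eval_pr {τ : ℝ} (h : τ < D.a) :
    D.pr.eval τ = (D.a - τ) * (D.w1 τ 2 - D.u2 2) := by
  have := D.w1_two h
  unfold pr pp
  simp only [eval_add, eval_mul, eval_C, eval_sub, eval_X]
  linarith

theorem eval_pM {τ : ℝ} (h : τ < D.a) :
    D.pM.eval τ = (D.a - τ) * (τ - D.b) * ((D.a - τ) * (D.w1 τ 2 - D.u2 2)) := by
  unfold pM
  rw [eval_mul, eval_mul, D.eval_pr h]
  simp only [pp, eval_sub, eval_C, eval_X, pq, Fin.isValue]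

theorem eval_pN {τ : ℝ} (h : τ < D.a) (h' : D.b < τ) (hw : D.w1 τ 2 ≠ D.u2 2) :
    D.pN.eval τ = D.pM.eval τ * D.w2 τ 2 := by
  have hne : D.a - τ ≠ 0 := by linarith
  have hne' : τ - D.b ≠ 0 := by linarith only [h']
  have hne2 : D.w1 τ 2 - D.u2 2 ≠ 0 := sub_ne_zero.2 hw
  have e1 := D.w1_two h
  rw [D.eval_pM h]
  unfold pN
  simp only [eval_sub, eval_add, eval_mul, eval_C, D.eval_pr h]
  have ep : D.pp.eval τ = D.a - τ := by simp only [pp, eval_sub, eval_C, eval_X]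
  have eq : D.pq.eval τ = τ - D.b := by simp only [pq, eval_sub, eval_X, eval_C]
  rw [ep, eq, ← e1]
  show _ = _ * hgt (D.w1 τ) D.u2 (D.h2 τ)
  unfold hgt h2
  have e2 : D.w1 τ 0 = D.X.1 / (D.a - τ) := rfl
  have e3 : D.w1 τ 1 = D.X.2 / (D.a - τ) := rfl
  rw [e2, e3]
  generalize D.w1 τ 2 = z at *
  simp only
  (clear * - hne2 hne' hne; field_simp)

theorem eval_pF {τ : ℝ} (h : τ < D.a) (h' : D.b < τ) (hw : D.w1 τ 2 ≠ D.u2 2)
    (hw2 : D.w2 τ 2 ≠ D.u3 2) (y : ℝ) :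
    (D.pF y).eval τ = (D.pM.eval τ) ^ 2 * ((y - D.psi τ) * (D.w2 τ 2 - D.u3 2)) := by
  have hne' : τ - D.b ≠ 0 := by linarith
  have e1 := hgt_spec hw2 D.Z
  have e0 : D.Y.1 * D.pp.eval τ * D.pr.eval τ = D.pM.eval τ * D.w2 τ 0 := by
    show _ = _ * (D.Y.1 / (τ - D.b))
    have eq : D.pq.eval τ = τ - D.b := by simp only [pq, eval_sub, eval_X, eval_C]
    unfold pM
    rw [eval_mul, eval_mul, eq]
    (clear * - hne'; field_simp)
  have e0' : D.Y.2 * D.pp.eval τ * D.pr.eval τ = D.pM.eval τ * D.w2 τ 1 := by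
    show _ = _ * (D.Y.2 / (τ - D.b))
    have eq : D.pq.eval τ = τ - D.b := by simp only [pq, eval_sub, eval_X, eval_C]
    unfold pM
    rw [eval_mul, eval_mul, eq]
    (clear * - hne'; field_simp)
  unfold pF
  simp only [eval_add, eval_mul, eval_sub, eval_C]
  rw [e0, e0', D.eval_pN h h' hw]
  have e2 : (D.Z.1 - D.w2 τ 0) * (D.w2 τ 0 - D.u3 0) + (D.Z.2 - D.w2 τ 1) * (D.w2 τ 1 - D.u3 1)
      = -((D.psi τ - D.w2 τ 2) * (D.w2 τ 2 - D.u3 2)) := by
    have : D.psi τ = hgt (D.w2 τ) D.u3 D.Z := rfl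
    rw [this]
    linarith only [e1]
  have e3 : (y - D.psi τ) * (D.w2 τ 2 - D.u3 2) = (D.Z.1 - D.w2 τ 0) * (D.w2 τ 0 - D.u3 0)
      + (D.Z.2 - D.w2 τ 1) * (D.w2 τ 1 - D.u3 1) + (y - D.w2 τ 2) * (D.w2 τ 2 - D.u3 2) := by
    rw [e2]; ring
  rw [e3]
  ring

theorem encard_fibre {G : Set ℝ} (hv : D.v 2 ≠ D.u1 2)
    (hG : ∀ τ ∈ G, D.b < τ ∧ τ < D.a ∧ D.w1 τ 2 ≠ D.u2 2 ∧ D.w2 τ 2 ≠ D.u3 2)
    (hd : ∀ τ ∈ G, D.dpsi τ ≠ 0) (y : ℝ) : ({τ ∈ G | D.psi τ = y}).encard ≤ (6 : ℕ) := by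
  rcases ({τ ∈ G | D.psi τ = y}).eq_empty_or_nonempty with he | ⟨τ0, hτ0, hy0⟩
  · rw [he]; simp only [encard_empty, Nat.cast_ofNat, zero_le]
  have hne : D.pF y ≠ 0 := by
    intro h0
    obtain ⟨hb, ha, hw, hw2⟩ := hG τ0 hτ0
    have hder := D.hasDerivAt_psi ha hb hv hw hw2
    have c1 : ContinuousAt (fun s => D.w1 s 2) τ0 := (D.hasDerivAt_w1 ha hv 2).continuousAt
    have c2 : ContinuousAt (fun s => D.w2 s 2) τ0 := (D.hasDerivAt_w2 ha hb hv hw 2).continuousAt
    have hev : ∀ᶠ τ in 𝓝 τ0, D.psi τ = y := by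
      filter_upwards [c1.eventually_ne hw, c2.eventually_ne hw2, Ioi_mem_nhds hb,
        Iio_mem_nhds ha] with τ h1 h2 h3 h4
      have e := D.eval_pF h4 h3 h1 h2 y
      rw [h0, eval_zero] at e
      have hM : D.pM.eval τ ≠ 0 := by
        rw [D.eval_pM h4]
        have : D.a - τ ≠ 0 := (sub_pos.2 h4).ne'
        have h5 : τ - D.b ≠ 0 := (sub_pos.2 h3).ne'
        have h6 : D.w1 τ 2 - D.u2 2 ≠ 0 := sub_ne_zero.2 h1
        (clear * - this h5 h1; positivity)
      have h7 : D.w2 τ 2 - D.u3 2 ≠ 0 := sub_ne_zero.2 h2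
      rcases mul_eq_zero.1 e.symm with h | h
      · exact absurd (pow_eq_zero_iff (by norm_num) |>.1 h) hM
      · rcases mul_eq_zero.1 h with h | h
        · linarith only [h]
        · exact absurd h h7
    have h8 : HasDerivAt D.psi 0 τ0 :=
      (hasDerivAt_const τ0 y).congr_of_eventuallyEq (hev.mono fun τ h => h)
    exact hd τ0 hτ0 (hder.unique h8)
  have hsub : {τ ∈ G | D.psi τ = y} ⊆ ((D.pF y).roots.toFinset : Set ℝ) := by
    rintro τ ⟨hτ, hy⟩
    obtain ⟨hb, ha, hw, hw2⟩ := hG τ hτ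
    simp only [Finset.mem_coe, Multiset.mem_toFinset]
    rw [mem_roots hne, IsRoot.def, D.eval_pF ha hb hw hw2, hy]
    ring
  calc ({τ ∈ G | D.psi τ = y}).encard ≤ ((D.pF y).roots.toFinset : Set ℝ).encard :=
        encard_le_encard hsub
    _ = ((D.pF y).roots.toFinset.card : ℕ∞) := encard_coe_eq_coe_finsetCard _
    _ ≤ (6 : ℕ) := by
        have h1 := Multiset.toFinset_card_le (D.pF y).roots
        have h2 := (D.pF y).card_roots'
        have h3 := D.deg_pF y
        exact_mod_cast (h1.trans (h2.trans h3))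

/-- the sweep over the second collision time -/
theorem psi_sweep {G : Set ℝ} (hGm : MeasurableSet G) (hv : D.v 2 ≠ D.u1 2)
    (hG : ∀ τ ∈ G, D.b < τ ∧ τ < D.a ∧ D.w1 τ 2 ≠ D.u2 2 ∧ D.w2 τ 2 ≠ D.u3 2)
    {l : ℝ} (hl : 0 < l) (hd : ∀ τ ∈ G, l ≤ |D.dpsi τ|) {g : ℝ → ℝ≥0∞} (hg : Measurable g) :
    ∫⁻ τ in G, g (D.psi τ) ≤ ENNReal.ofReal (6 / l) * ∫⁻ y, g y := by
  have h := sweep G hGm D.psi D.dpsi (fun τ hτ => D.hasDerivAt_psi (hG τ hτ).2.1 (hG τ hτ).1 hv
    (hG τ hτ).2.2.1 (hG τ hτ).2.2.2) l hl hd 6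
    (D.encard_fibre hv hG fun τ hτ h0 => by have := hd τ hτ; rw [h0, abs_zero] at this; linarith only [hl, this])
    g hg
  exact_mod_cast h

end PD

/-- lower bound for the derivative -/
theorem dpsi_ge {D : PD} {τ l l2 V' T : ℝ} (hl : 0 < l) (hl2 : 0 < l2) (hb : D.b < τ)
    (hT : τ - D.b ≤ T) (hw2 : D.w2 τ 2 ≠ D.u3 2) (hV : |D.w2 τ 2 - D.u3 2| ≤ V')
    (hvp : l2 ≤ vp (D.w2 τ))
    (hin : l * ‖dd (D.a - τ) (τ - D.b) D.v D.u1 (D.w1 τ) D.u2 (D.w2 τ)‖ ≤
      |inner ℝ (dd (D.a - τ) (τ - D.b) D.v D.u1 (D.w1 τ) D.u2 (D.w2 τ))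
        (vec D.Z (D.psi τ) + D.u3 - (2 : ℝ) • D.w2 τ)|) :
    l * l2 / (T * V') ≤ |D.dpsi τ| := by
  have hs : 0 < τ - D.b := by linarith
  have hT0 : 0 < T := by linarith only [hb, hT]
  have hne : D.w2 τ 2 - D.u3 2 ≠ 0 := sub_ne_zero.2 hw2
  have hV0 : 0 < V' := lt_of_lt_of_le (abs_pos.2 hne) hV
  set d := dd (D.a - τ) (τ - D.b) D.v D.u1 (D.w1 τ) D.u2 (D.w2 τ) with hd
  have h1 : vp d = vp (D.w2 τ) / (τ - D.b) := by
    have e0 : d 0 = -(D.w2 τ 0) / (τ - D.b) := rfl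
    have e1 : d 1 = -(D.w2 τ 1) / (τ - D.b) := rfl
    unfold vp
    rw [e0, e1]
    have : (-(D.w2 τ 0) / (τ - D.b)) ^ 2 + (-(D.w2 τ 1) / (τ - D.b)) ^ 2
        = (D.w2 τ 0 ^ 2 + D.w2 τ 1 ^ 2) / (τ - D.b) ^ 2 := by
      rw [div_pow, div_pow, neg_sq, neg_sq, add_div]
    rw [this, Real.sqrt_div (by (clear * -; positivity)), Real.sqrt_sq hs.le]
  have h2 : l2 / T ≤ ‖d‖ := by
    refine le_trans ?_ (vp_le_norm d)
    rw [h1]
    exact div_le_div₀ (vp_nonneg _) hvp hs hT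
  have h3 : l * (l2 / T) ≤ |inner ℝ d (vec D.Z (D.psi τ) + D.u3 - (2 : ℝ) • D.w2 τ)| :=
    (mul_le_mul_of_nonneg_left h2 hl.le).trans hin
  unfold PD.dpsi
  rw [← hd, abs_div, abs_neg]
  calc l * l2 / (T * V') = l * (l2 / T) / V' := by (clear * - hV0 hT0 hl2 hl; field_simp)
    _ ≤ |inner ℝ d (vec D.Z (D.psi τ) + D.u3 - (2 : ℝ) • D.w2 τ)| / V' :=
        div_le_div_of_nonneg_right h3 hV0.le
    _ ≤ _ := div_le_div_of_nonneg_left (abs_nonneg _) (abs_pos.2 hne) hV

end Vale.Agent.P140.NU.S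
end
end

section

/-!
P140, module S (smoothing): definitions.  See `Vale/Agent/P140/NU/doc/S.txt`.
-/

open MeasureTheory Set Filter
open scoped ENNReal Topology

noncomputable section

namespace Vale.Agent.P140.NU.S

/-- horizontal coordinates -/
def hz (v : V) : ℝ × ℝ := (v 0, v 1)

/-- the point of the torus with horizontal coordinates `X` and height `0` -/
def tor (X : ℝ × ℝ) : T3 := toTorus (vec X 0)

/-- point over `q` of the plane through `v` orthogonal to `v - u` -/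
def gr (v u : V) (q : ℝ × ℝ) : V := vec q (hgt v u q)

/-- `|v - u|⁻¹` times the integral over the plane through `v` orthogonal to `v - u`,
in horizontal coordinates -/
def pl (v u : V) (f : V → ℝ≥0∞) : ℝ≥0∞ :=
  ENNReal.ofReal |v 2 - u 2|⁻¹ * ∫⁻ q : ℝ × ℝ, f (gr v u q)

/-- generalized gain operator: `G u w` may depend on the cold velocity `u` and on the
precollisional velocity `w` -/
def KG (P : Par) (n : ℕ) (t : ℝ) (x : T3) (v : V) (G : V → V → ℝ≥0∞) : ℝ≥0∞ :=
  4 * ∫⁻ u, cf P n t x u * pl v u (G u)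

/-- exact cold velocities -/
def us (P : Par) (s : ℝ) (x : T3) : V := vec (P.w * (rep x 0 / rr x), P.w * (rep x 1 / rr x)) s

/-- singular weight -/
def Wt (a b w : V) : ℝ≥0∞ :=
  1 + (ENNReal.ofReal ‖w - a‖ ^ (-(3 / 2) : ℝ) + ENNReal.ofReal ‖w - b‖ ^ (-(3 / 2) : ℝ))

/-- Gaussian with singular weight -/
def Ga (a b w : V) : ℝ≥0∞ := ENNReal.ofReal (Real.exp (-(‖w‖ ^ 2 / 8))) * Wt a b w

/-- majorant of the profile -/
def Ph (P : Par) (x : T3) (w : V) : ℝ≥0∞ := Ga (us P 1 x) (us P (-1) x) w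

/-- the height of `v` is away from `1` and `-1` -/
def Reg (a : ℝ) (v : V) : Prop := a ≤ |v 2 - 1| ∧ a ≤ |v 2 + 1|

/-- parameters of the good set -/
structure Gp where
  /-- bound for all velocities -/
  Vm : ℝ
  /-- heights are `a`-regular -/
  a : ℝ
  /-- lower bound for the horizontal part of `w₂` -/
  b : ℝ
  /-- time gaps are at least `k T` -/
  k : ℝ
  /-- labels are at least `e T` -/
  e : ℝ
  /-- strip parameter -/
  l : ℝ

/-- all parameters are positive -/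
structure Gp.Pos (g : Gp) : Prop where
  Vm : 0 < g.Vm
  a : 0 < g.a
  b : 0 < g.b
  k : 0 < g.k
  e : 0 < g.e
  l : 0 < g.l

/-- good first velocity -/
def R1 (g : Gp) (w1 : V) : Prop := ‖w1‖ ≤ g.Vm ∧ Reg g.a w1

/-- good second velocity -/
def R2 (g : Gp) (w2 : V) : Prop := ‖w2‖ ≤ g.Vm ∧ Reg g.a w2 ∧ g.b ^ 2 ≤ w2 0 ^ 2 + w2 1 ^ 2

/-- good third velocity; `d` is the derivative of `w₂` with respect to `τ₂` -/
def R3 (g : Gp) (d w2 u3 w3 : V) : Prop :=
  ‖w3‖ ≤ g.Vm ∧ g.l * ‖d‖ ≤ |inner ℝ d (w3 + u3 - (2 : ℝ) • w2)|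

open Classical in
/-- indicator function of a proposition -/
def ind (p : Prop) : ℝ≥0∞ := if p then 1 else 0

/-- the innermost layer of the good part: integral over `τ₃, u₃, w₃` -/
def good3 (P : Par) (n : ℕ) (g : Gp) (T t1 : ℝ) (f : ℝ → T3 → V → ℝ≥0∞)
    (v u1 w1 u2 w2 : V) (s1 τ2 : ℝ) (x2 : T3) : ℝ≥0∞ :=
  ∫⁻ τ3 in Icc t1 (τ2 - g.k * T), KG P n τ3 (mv x2 w2 (τ3 - τ2)) w2 fun u3 w3 =>
    ind (R3 g (dd s1 (τ2 - τ3) v u1 w1 u2 w2) w2 u3 w3) * f τ3 (mv x2 w2 (τ3 - τ2)) w3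

/-- the second layer of the good part: integral over `τ₂, u₂, w₂` -/
def good2 (P : Par) (n : ℕ) (g : Gp) (T t1 : ℝ) (f : ℝ → T3 → V → ℝ≥0∞)
    (v u1 w1 : V) (τ1 : ℝ) (x1 : T3) : ℝ≥0∞ :=
  ∫⁻ τ2 in Icc t1 (τ1 - g.k * T), ind (g.e * T ≤ rr (mv x1 w1 (τ2 - τ1)) - P.w * τ2) *
    KG P n τ2 (mv x1 w1 (τ2 - τ1)) w1 fun u2 w2 =>
      ind (R2 g w2) * good3 P n g T t1 f v u1 w1 u2 w2 (τ1 - τ2) τ2 (mv x1 w1 (τ2 - τ1))

/-- the good part -/
def good1 (P : Par) (n : ℕ) (g : Gp) (T t1 : ℝ) (f : ℝ → T3 → V → ℝ≥0∞)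
    (t : ℝ) (x : T3) (v : V) : ℝ≥0∞ :=
  ∫⁻ τ1 in Icc t1 t, KG P n τ1 (mv x v (τ1 - t)) v fun u1 w1 =>
    ind (R1 g w1) * good2 P n g T t1 f v u1 w1 τ1 (mv x v (τ1 - t))

/-- the facts on the medium and on `K` used in this module (for fixed parameters) -/
structure Nice (P : Par) : Prop where
  c1 : 1 ≤ P.c
  lam0 : 0 < P.lam
  lam1 : P.lam < 1
  kdel0 : 0 < P.kdel
  j0 : P.lam ^ P.j0 ≤ 1 / 64
  supp : ∀ᶠ t0 in 𝓝[>] (0 : ℝ), ∀ n, ∀ t ∈ Icc 0 (2 * t0), ∀ x v,
    cf P n t x v ≠ 0 → ∃ j ∈ Finset.Icc P.j0 n, rr x - P.w * t ∈ P.cell (gg / 2) j ∧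
      v ∈ Box P j x ∧ √(SS P (sg j) x v) ≤ 4 * P.del j ∧
      cf P n t x v ≤ ENNReal.ofReal (P.amp j)
  mass : ∀ᶠ t0 in 𝓝[>] (0 : ℝ), ∀ n, ∀ t ∈ Icc 0 (2 * t0), ∀ x,
    ∫⁻ v, cf P n t x v ≤ ENNReal.ofReal ((1 + 1 / 1000) * P.c / rr x)
  box : ∀ j, P.j0 ≤ j → ∀ x, P.lam ^ (j + 1) ≤ rr x →
    ENNReal.ofReal (P.amp j) * volume (Box P j x) ≤ ENNReal.ofReal (2 * P.c / rr x)
  kpi : ∃ CK : ℝ, 0 < CK ∧ ∀ᶠ t0 in 𝓝[>] (0 : ℝ), ∀ n, P.j0 ≤ n →
    ∀ γ ∈ Icc (1 / 8 : ℝ) (1 / 6), ∀ t ∈ Icc 0 (2 * t0), ∀ x v,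
    KK P n t (Pi P n γ t) x v ≤ ENNReal.ofReal (CK * (P.c / rr x) / (1 + ‖v‖)) * Pi P n γ t x v ∧
    (KK P n t (Pi P n γ t) x v ≠ 0 → P.w * P.TT n t ≤ rr x)
  ksm : ∃ CK : ℝ, 0 < CK ∧ ∀ ρ : ℝ, 0 < ρ → ∀ M : ℝ, 0 < M → ∀ᶠ t0 in 𝓝[>] (0 : ℝ),
    ∀ n, P.j0 ≤ n → P.ss n ≤ t0 → ∀ γ ∈ Icc (1 / 8 : ℝ) (1 / 6), ∀ t ∈ Icc 0 t0,
    ∀ x v, rr x ≤ M * P.TT n t → (SS P 1 x v ≤ ρ ^ 2 ∨ SS P (-1) x v ≤ ρ ^ 2) →
    KK P n t (Pi P n γ t) x v ≤ ENNReal.ofReal (CK * (P.c / rr x) * √ρ) * Pi P n γ t x v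
  pmono : ∀ᶠ t0 in 𝓝[>] (0 : ℝ), ∀ n, ∀ γ, ∀ t ∈ Icc 0 (2 * t0),
    ∀ t' ∈ Icc t (2 * t0), ∀ x v, Pi P n γ t x v ≤ Pi P n γ t' (mv x v (t' - t)) v
  upi : ∃ A : ℝ, 0 < A ∧ ∀ᶠ t0 in 𝓝[>] (0 : ℝ), ∀ n, P.j0 ≤ n →
    ∀ γ ∈ Icc (1 / 8 : ℝ) (1 / 6), ∀ t1 t, 0 ≤ t1 → t1 ≤ t → t ≤ t0 →
    P.TT n t ≤ 2 * P.TT n t1 → ∀ H : ℝ≥0∞, ∀ x v,
    UK P n t1 (fun τ x v => H * Pi P n γ τ x v) t x v ≤
      ENNReal.ofReal A * H * Pi P n γ t x v

end Vale.Agent.P140.NU.S
end
end

section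

/-!
P140, module S: facts on the cold gas for fixed parameters.
-/

open MeasureTheory Set Filter
open scoped ENNReal Topology

noncomputable section

namespace Vale.Agent.P140.NU.S

theorem us_eq_uu (P : Par) (s : ℝ) (x : T3) : us P s x = uu P s x := rfl

/-- exact cold velocities and `SS` -/
theorem norm_sub_us (P : Par) {x : T3} (hx : rr x ≠ 0) (s : ℝ) (v : V) :
    ‖v - us P s x‖ ^ 2 = SS P s x v := by
  rw [us_eq_uu, SS_eq_norm P s (lt_of_le_of_ne (rr_nonneg x) (Ne.symm hx))]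

theorem us_sq {P : Par} (hw : 0 ≤ P.w) (x : T3) (s : ℝ) :
    us P s x 0 ^ 2 + us P s x 1 ^ 2 ≤ P.w ^ 2 := by
  have h0 : us P s x 0 = P.w * (rep x 0 / rr x) := rfl
  have h1 : us P s x 1 = P.w * (rep x 1 / rr x) := rfl
  rw [h0, h1]
  rcases eq_or_ne (rr x) 0 with h | h
  · rw [h]
    simp only [Fin.isValue, div_zero, mul_zero, ne_eq, OfNat.ofNat_ne_zero, not_false_eq_true, zero_pow, add_zero, ge_iff_le]
    (clear * -; positivity)
  · have h2 : (rep x 0 / rr x) ^ 2 + (rep x 1 / rr x) ^ 2 = 1 := by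
      rw [div_pow, div_pow, ← add_div, ← rr_sq, div_self (pow_ne_zero 2 h)]
    have h3 : (P.w * (rep x 0 / rr x)) ^ 2 + (P.w * (rep x 1 / rr x)) ^ 2
        = P.w ^ 2 * ((rep x 0 / rr x) ^ 2 + (rep x 1 / rr x) ^ 2) := by ring
    rw [h3, h2, mul_one]

theorem Nice.wpos {P : Par} (hP : Nice P) : 0 < P.w := by
  have := hP.c1
  unfold Par.w
  positivity

theorem Nice.sspos {P : Par} (hP : Nice P) (n : ℕ) : 0 < P.ss n := by
  have h1 := hP.wpos
  have h2 := hP.lam0
  unfold Par.ss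
  positivity

theorem Nice.TTpos {P : Par} (hP : Nice P) (n : ℕ) {t : ℝ} (ht : 0 ≤ t) : 0 < P.TT n t := by
  have := hP.sspos n
  unfold Par.TT
  linarith only [ht, this]

theorem yy_nonneg {P : Par} {n : ℕ} {t : ℝ} (h : 0 ≤ P.TT n t) (x : T3) (v : V) :
    0 ≤ yy P n t x v := by
  unfold yy
  exact div_nonneg (le_max_right _ _) h

/-- the singular weights -/
theorem SS_rpow {P : Par} {x : T3} (hx : rr x ≠ 0) (s : ℝ) (v : V) :
    ENNReal.ofReal (SS P s x v) ^ (-(3 / 4) : ℝ)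
      = ENNReal.ofReal ‖v - us P s x‖ ^ (-(3 / 2) : ℝ) := by
  rw [← norm_sub_us P hx, ENNReal.ofReal_pow (norm_nonneg _), ← ENNReal.rpow_natCast,
    ← ENNReal.rpow_mul]
  norm_num

/-- the profile is at most its majorant -/
theorem Pi_le_Ph {P : Par} (hP : Nice P) {n : ℕ} {γ : ℝ} (hγ : 1 / 8 ≤ γ) {t : ℝ} (ht : 0 ≤ t)
    {x : T3} (hx : rr x ≠ 0) (v : V) : Pi P n γ t x v ≤ Ph P x v := by
  unfold Pi Ph Ga
  refine mul_le_mul' ?_ ?_
  · refine ENNReal.ofReal_le_ofReal (Real.exp_le_exp.2 ?_)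
    have h1 := yy_nonneg (hP.TTpos n ht).le x v
    linarith only [mul_nonneg (sq_nonneg (1 * ‖v‖ : ℝ)) (sub_nonneg.2 hγ), mul_nonneg (mul_self_nonneg (1 : ℝ)) (sub_nonneg.2 h1)]
  · unfold WW Wt
    refine add_le_add le_rfl ?_
    split_ifs
    · rw [SS_rpow hx, SS_rpow hx]
      exact add_le_add tsub_le_self tsub_le_self
    · exact bot_le

/-- the label of a point in the support of the cold gas -/
theorem cell_bounds {P : Par} (hP : Nice P) {n j : ℕ} {t : ℝ} {x : T3}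
    (hj : j ∈ Finset.Icc P.j0 n) (h : rr x - P.w * t ∈ P.cell (gg / 2) j) :
    P.w * P.TT n t ≤ rr x ∧ P.lam ^ (j + 1) ≤ rr x - P.w * t := by
  have hw := hP.wpos
  have h1 : P.lam ^ ((j : ℝ) + 1) ≤ P.lam ^ ((j : ℝ) + 1 - gg / 2) :=
    Real.rpow_le_rpow_of_exponent_ge hP.lam0 hP.lam1.le (by unfold gg; norm_num)
  have h2 : P.lam ^ ((j : ℝ) + 1) = P.lam ^ (j + 1) := by
    rw [← Real.rpow_natCast]
    push_cast
    rfl
  have h3 : P.lam ^ (n + 1) ≤ P.lam ^ (j + 1) :=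
    pow_le_pow_of_le_one hP.lam0.le hP.lam1.le (by
      have := (Finset.mem_Icc.1 hj).2
      omega)
  have h4 : P.lam ^ ((j : ℝ) + 1 - gg / 2) ≤ rr x - P.w * t := h.1
  have h5 : P.w * P.TT n t = P.w * t + P.lam ^ (n + 1) := by
    unfold Par.TT Par.ss
    field_simp
  constructor
  · rw [h5]
    linarith only [h1, h2, h3, h4]
  · linarith

/-- near the line at scale `T` the cold velocities are as close as we like to the exact ones,
and `rr x ≥ w T` in the support of the cold gas -/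
theorem cold_near {P : Par} (hP : Nice P) {δ M : ℝ} (hδ : 0 < δ) (hM : 0 < M) :
    ∀ᶠ t0 in 𝓝[>] (0 : ℝ), ∀ n, P.ss n ≤ t0 → ∀ t ∈ Icc 0 t0, ∀ x, rr x ≤ M * P.TT n t →
      ∀ u, cf P n t x u ≠ 0 →
        P.w * P.TT n t ≤ rr x ∧ (‖u - us P 1 x‖ ≤ δ ∨ ‖u - us P (-1) x‖ ≤ δ) := by
  have hw := hP.wpos
  have hl := hP.lam0
  have hk := hP.kdel0
  have hlim : Tendsto (fun t0 : ℝ => 4 * (P.kdel * (2 * M * t0 / P.lam) ^ P.Q)) (𝓝[>] (0 : ℝ))
      (𝓝 (4 * (P.kdel * (2 * M * 0 / P.lam) ^ P.Q))) := by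
    apply Tendsto.mono_left _ nhdsWithin_le_nhds
    exact (by fun_prop : Continuous fun t0 : ℝ =>
      4 * (P.kdel * (2 * M * t0 / P.lam) ^ P.Q)).tendsto 0
  have hQ : P.Q ≠ 0 := by
    unfold Par.Q
    omega
  rw [mul_zero, zero_div, zero_pow hQ, mul_zero, mul_zero] at hlim
  filter_upwards [hP.supp, hlim.eventually (gt_mem_nhds hδ), self_mem_nhdsWithin]
    with t0 h1 h2 h3 n hn t ht x hx u hu
  have h3' : 0 < t0 := h3
  obtain ⟨j, hj, hc, -, hs, -⟩ := h1 n t ⟨ht.1, by linarith only [h3', ht.2]⟩ x u hu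
  obtain ⟨hb1, hb2⟩ := cell_bounds hP hj hc
  have hT := hP.TTpos n ht.1
  have hr : 0 < rr x := lt_of_lt_of_le (by (clear * - hw hT; positivity)) hb1
  refine ⟨hb1, ?_⟩
  have h4 : P.TT n t ≤ 2 * t0 := by
    unfold Par.TT
    linarith only [hn, ht.2]
  have h5 : P.lam ^ j ≤ 2 * M * t0 / P.lam := by
    rw [le_div_iff₀ hl, ← pow_succ]
    have h6 : 0 ≤ P.w * t := mul_nonneg hw.le ht.1
    have h7 : M * P.TT n t ≤ M * (2 * t0) := mul_le_mul_of_nonneg_left h4 hM.le
    linarith only [hx, hb2, h6, h7]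
  have h6 : 4 * P.del j ≤ δ := by
    refine le_trans ?_ h2.le
    unfold Par.del
    have h7 : (P.lam ^ j) ^ P.Q ≤ (2 * M * t0 / P.lam) ^ P.Q :=
      pow_le_pow_left₀ (by (clear * - hl; positivity)) h5 _
    have h8 := mul_le_mul_of_nonneg_left h7 hk.le
    linarith only [h8]
  have h7 : ∀ s, √(SS P s x u) = ‖u - us P s x‖ := fun s => by
    rw [← norm_sub_us P hr.ne', Real.sqrt_sq (norm_nonneg _)]
  rw [h7] at hs
  rcases neg_one_pow_eq_or ℝ j with h8 | h8
  · left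
    have h9 : sg j = 1 := h8
    rw [h9] at hs
    linarith only [hs, h6]
  · right
    have h9 : sg j = -1 := h8
    rw [h9] at hs
    linarith only [hs, h6]

/-- mass of the cold gas -/
theorem cold_mass {P : Par} (hP : Nice P) : ∃ C : ℝ, 0 < C ∧ ∀ᶠ t0 in 𝓝[>] (0 : ℝ), ∀ n,
    ∀ t ∈ Icc 0 t0, ∀ x, ∫⁻ u, cf P n t x u ≤ ENNReal.ofReal (C / P.TT n t) := by
  have hw := hP.wpos
  have hc := hP.c1
  refine ⟨(1 + 1 / 1000) * P.c / P.w, by positivity, ?_⟩
  filter_upwards [hP.supp, hP.mass, self_mem_nhdsWithin] with t0 h1 h2 h3 n t ht x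
  have h3' : 0 < t0 := h3
  have ht' : t ∈ Icc 0 (2 * t0) := ⟨ht.1, by linarith [ht.2]⟩
  by_cases h : ∀ u, cf P n t x u = 0
  · simp only [h, lintegral_zero]
    exact bot_le
  · push Not at h
    obtain ⟨u, hu⟩ := h
    obtain ⟨j, hj, hcell, -⟩ := h1 n t ht' x u hu
    obtain ⟨hb1, -⟩ := cell_bounds hP hj hcell
    have hT := hP.TTpos n ht.1
    refine (h2 n t ht' x).trans (ENNReal.ofReal_le_ofReal ?_)
    rw [div_div]
    exact div_le_div_of_nonneg_left (by (clear * - hc; positivity)) (by positivity) hb1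

/-- horizontal planes are null sets -/
theorem volume_plane (a : ℝ) : (volume : Measure V) {u : V | u 2 = a} = 0 := by
  have h1 : (volume : Measure (Fin 3 → ℝ)) {f : Fin 3 → ℝ | f 2 = a} = 0 := by
    rw [volume_pi]
    exact Measure.pi_hyperplane (μ := fun _ : Fin 3 => (volume : Measure ℝ)) 2 a
  have h2 : {u : V | u 2 = a} = (WithLp.ofLp : V → Fin 3 → ℝ) ⁻¹' {f : Fin 3 → ℝ | f 2 = a} := rfl
  rw [h2, (PiLp.volume_preserving_ofLp (Fin 3)).measure_preimage]
  · exact h1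
  · exact (measurableSet_eq_fun (measurable_pi_apply 2) measurable_const).nullMeasurableSet

/-- reduction of a bound for `KG` to a bound for plane integrals -/
theorem KG_le {P : Par} (hP : Nice P) : ∃ C : ℝ, 0 < C ∧ ∀ᶠ t0 in 𝓝[>] (0 : ℝ), ∀ n,
    ∀ t ∈ Icc 0 t0, ∀ x v, ∀ G : V → V → ℝ≥0∞, ∀ ε : ℝ≥0∞,
      (∀ u, cf P n t x u ≠ 0 → v 2 ≠ u 2 → pl v u (G u) ≤ ε) →
      KG P n t x v G ≤ ENNReal.ofReal (C / P.TT n t) * ε := by
  obtain ⟨C, hC, h⟩ := cold_mass hP
  refine ⟨4 * C, by (clear * - hC; positivity), ?_⟩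
  filter_upwards [h] with t0 h1 n t ht x v G ε hG
  have h2 : ∫⁻ u, cf P n t x u * pl v u (G u) ≤ ∫⁻ u, cf P n t x u * ε := by
    refine lintegral_mono_ae ?_
    have h3 : ∀ᵐ u : V, u 2 ≠ v 2 := by
      rw [ae_iff]
      simp only [not_not]
      exact volume_plane (v 2)
    filter_upwards [h3] with u hu
    by_cases h4 : cf P n t x u = 0
    · rw [h4, zero_mul, zero_mul]
    · exact mul_le_mul' le_rfl (hG u h4 (Ne.symm hu))
  have hm : Measurable (fun u : V => ((t, x, u) : ℝ × T3 × V)) :=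
    measurable_const.prodMk (measurable_const.prodMk measurable_id)
  have hm' : Measurable (fun u : V => cf P n t x u) := by
    have h5 := Measurable.comp (g := fun p : ℝ × T3 × V => cf P n p.1 p.2.1 p.2.2)
      (measurable_cf P n) hm
    simpa only [Function.comp_def] using h5
  have h3 : ∫⁻ u, cf P n t x u * ε = (∫⁻ u, cf P n t x u) * ε := lintegral_mul_const ε hm'
  unfold KG
  calc 4 * ∫⁻ u, cf P n t x u * pl v u (G u) ≤ 4 * ((∫⁻ u, cf P n t x u) * ε) := by
        rw [← h3]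
        exact mul_le_mul' le_rfl h2
    _ ≤ 4 * (ENNReal.ofReal (C / P.TT n t) * ε) :=
        mul_le_mul' le_rfl (mul_le_mul' (h1 n t ht x) le_rfl)
    _ = ENNReal.ofReal (4 * C / P.TT n t) * ε := by
        rw [← mul_assoc, mul_div_assoc, ENNReal.ofReal_mul (by norm_num)]
        norm_num

end Vale.Agent.P140.NU.S
end
end

section

/-!
P140, module S: the plane integral in orthonormal coordinates.
-/

open MeasureTheory Set Filter
open scoped ENNReal Topology

noncomputable section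

namespace Vale.Agent.P140.NU.S

/-- `e1, e2` is an orthonormal basis of the plane orthogonal to `y` -/
structure IsFr (y e1 e2 : V) : Prop where
  n1 : ‖e1‖ = 1
  n2 : ‖e2‖ = 1
  o12 : inner ℝ e1 e2 = (0 : ℝ)
  o1 : inner ℝ y e1 = (0 : ℝ)
  o2 : inner ℝ y e2 = (0 : ℝ)

theorem fr_inner (x y : V) : inner ℝ x y = x 0 * y 0 + x 1 * y 1 + x 2 * y 2 := by
  simp only [PiLp.inner_apply, Fin.sum_univ_three, RCLike.inner_apply, conj_trivial]
  ring

theorem fr_norm_sq (x : V) : ‖x‖ ^ 2 = x 0 ^ 2 + x 1 ^ 2 + x 2 ^ 2 := by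
  rw [← real_inner_self_eq_norm_sq, fr_inner]
  ring

/-- Jacobian of the projection of the plane to the horizontal plane -/
theorem fr_det {y e1 e2 : V} (hf : IsFr y e1 e2) :
    (e1 0 * e2 1 - e1 1 * e2 0) ^ 2 * ‖y‖ ^ 2 = y 2 ^ 2 := by
  have h1 : e1 0 ^ 2 + e1 1 ^ 2 + e1 2 ^ 2 = 1 := by rw [← fr_norm_sq, hf.n1]; norm_num
  have h2 : e2 0 ^ 2 + e2 1 ^ 2 + e2 2 ^ 2 = 1 := by rw [← fr_norm_sq, hf.n2]; norm_num
  have h3 := hf.o12
  have h4 := hf.o1
  have h5 := hf.o2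
  rw [fr_inner] at h3 h4 h5
  rw [fr_norm_sq]
  have hA : y 0 * (e1 0 * e2 1 - e1 1 * e2 0) = -(y 2 * (e1 2 * e2 1 - e2 2 * e1 1)) := by
    linear_combination e2 1 * h4 - e1 1 * h5
  have hB : y 1 * (e1 0 * e2 1 - e1 1 * e2 0) = -(y 2 * (e1 0 * e2 2 - e2 0 * e1 2)) := by
    linear_combination e1 0 * h5 - e2 0 * h4
  have hL : (e1 0 * e2 1 - e1 1 * e2 0) ^ 2 + (e1 2 * e2 1 - e2 2 * e1 1) ^ 2 +
      (e1 0 * e2 2 - e2 0 * e1 2) ^ 2 = 1 := by
    have e : (e1 0 * e2 1 - e1 1 * e2 0) ^ 2 + (e1 2 * e2 1 - e2 2 * e1 1) ^ 2 +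
      (e1 0 * e2 2 - e2 0 * e1 2) ^ 2 = (e1 0 ^ 2 + e1 1 ^ 2 + e1 2 ^ 2) *
      (e2 0 ^ 2 + e2 1 ^ 2 + e2 2 ^ 2) - (e1 0 * e2 0 + e1 1 * e2 1 + e1 2 * e2 2) ^ 2 := by ring
    rw [e, h1, h2, h3]; norm_num
  have hA2 : (y 0 * (e1 0 * e2 1 - e1 1 * e2 0)) ^ 2 =
      (y 2 * (e1 2 * e2 1 - e2 2 * e1 1)) ^ 2 := by rw [hA]; ring
  have hB2 : (y 1 * (e1 0 * e2 1 - e1 1 * e2 0)) ^ 2 =
      (y 2 * (e1 0 * e2 2 - e2 0 * e1 2)) ^ 2 := by rw [hB]; ring
  linear_combination hA2 + hB2 + y 2 ^ 2 * hL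

theorem fr_point {v u e1 e2 : V} (h : v 2 ≠ u 2) (hf : IsFr (v - u) e1 e2) (p : ℝ × ℝ) :
    gr v u ((v 0, v 1) + (e1 0 * p.1 + e2 0 * p.2, e1 1 * p.1 + e2 1 * p.2)) =
      v + p.1 • e1 + p.2 • e2 := by
  have h4 := hf.o1
  have h5 := hf.o2
  rw [fr_inner] at h4 h5
  simp only [PiLp.sub_apply] at h4 h5
  have hne : v 2 - u 2 ≠ 0 := sub_ne_zero.2 h
  ext i
  fin_cases i
  · simp [gr]; ring
  · simp only [gr, Fin.isValue, Prod.mk_add_mk, Fin.mk_one, vec_one, PiLp.add_apply, PiLp.smul_apply, smul_eq_mul]; ring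
  · simp only [gr, hgt, Fin.reduceFinMk, vec_two, PiLp.add_apply, PiLp.smul_apply, smul_eq_mul,
      Prod.fst_add, Prod.snd_add, add_sub_cancel_left]
    field_simp
    linear_combination -p.1 * h4 - p.2 * h5

/-- Linear change of variables in the plane. -/
theorem lintegral_linear {a b c d : ℝ} (hD : a * d - b * c ≠ 0) {g : ℝ × ℝ → ℝ≥0∞}
    (hg : Measurable g) :
    ∫⁻ q : ℝ × ℝ, g q = ENNReal.ofReal |a * d - b * c| *
      ∫⁻ p : ℝ × ℝ, g (a * p.1 + b * p.2, c * p.1 + d * p.2) := by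
  set L : ℝ × ℝ →ₗ[ℝ] ℝ × ℝ := Matrix.toLin (Module.Basis.finTwoProd ℝ) (Module.Basis.finTwoProd ℝ)
    !![a, b; c, d] with hL
  have hdet : LinearMap.det L = a * d - b * c := by
    rw [hL, LinearMap.det_toLin, Matrix.det_fin_two_of]
  have hap : ∀ p : ℝ × ℝ, L p = (a * p.1 + b * p.2, c * p.1 + d * p.2) := by
    intro p
    rw [hL, Matrix.toLin_finTwoProd_apply]
  have hmap := Measure.map_linearMap_addHaar_eq_smul_addHaar (volume : Measure (ℝ × ℝ))
    (f := L) (by rw [hdet]; exact hD)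
  have hLm : Measurable L := L.continuous_of_finiteDimensional.measurable
  have h1 : ∫⁻ q, g q ∂(Measure.map L volume) = ∫⁻ p, g (L p) := lintegral_map hg hLm
  rw [hmap, lintegral_smul_measure, hdet] at h1
  simp only [hap] at h1
  rw [← h1, smul_eq_mul, ← mul_assoc, ← ENNReal.ofReal_mul (abs_nonneg _), ← abs_mul,
    mul_inv_cancel₀ hD]
  simp

theorem measurable_gr (v u : V) : Measurable (gr v u) := by
  unfold gr vec hgt
  have : Continuous (fun q : ℝ × ℝ => (!₂[q.1, q.2,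
    v 2 - ((q.1 - v 0) * (v 0 - u 0) + (q.2 - v 1) * (v 1 - u 1)) / (v 2 - u 2)] : V)) := by
    apply (PiLp.continuous_toLp 2 _).comp
    apply continuous_pi
    intro i
    fin_cases i
    · exact continuous_fst
    · exact continuous_snd
    · show Continuous fun q : ℝ × ℝ =>
        v 2 - ((q.1 - v 0) * (v 0 - u 0) + (q.2 - v 1) * (v 1 - u 1)) / (v 2 - u 2)
      fun_prop
  exact this.measurable

/-- Linear change of variables `q = (v + a e1 + b e2)_perp`, with Jacobian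
`|det(e1_perp, e2_perp)| = |(v-u)_z| / ‖v - u‖`. -/
theorem pl_frame {v u e1 e2 : V} (h : v 2 ≠ u 2) (hf : IsFr (v - u) e1 e2) {f : V → ℝ≥0∞}
    (hm : Measurable f) :
    pl v u f = ENNReal.ofReal ‖v - u‖⁻¹ * ∫⁻ p : ℝ × ℝ, f (v + p.1 • e1 + p.2 • e2) := by
  have hne : v 2 - u 2 ≠ 0 := sub_ne_zero.2 h
  have hy : v - u ≠ 0 := by
    intro h0
    apply hne
    have := congrFun (congrArg (fun z : V => (z : Fin 3 → ℝ)) h0) 2
    simpa only [Fin.isValue, PiLp.sub_apply, PiLp.zero_apply] using this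
  have hyn : 0 < ‖v - u‖ := norm_pos_iff.2 hy
  have hd := fr_det hf
  simp only [PiLp.sub_apply] at hd
  have hD : e1 0 * e2 1 - e2 0 * e1 1 ≠ 0 := by
    intro h0
    have : e1 0 * e2 1 - e1 1 * e2 0 = 0 := by linarith only [h0]
    rw [this] at hd
    have : (v 2 - u 2) ^ 2 = 0 := by rw [← hd]; ring
    exact hne (by simpa only [Fin.isValue, ne_eq, OfNat.ofNat_ne_zero, not_false_eq_true, pow_eq_zero_iff] using this)
  have habs : |e1 0 * e2 1 - e2 0 * e1 1| = |v 2 - u 2| * ‖v - u‖⁻¹ := by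
    have h1 : (|e1 0 * e2 1 - e2 0 * e1 1| * ‖v - u‖) ^ 2 = |v 2 - u 2| ^ 2 := by
      rw [mul_pow, sq_abs, sq_abs, ← hd]; ring
    have h2 := (pow_left_inj₀ (by (clear * - hD hy; positivity)) (abs_nonneg _) (by norm_num : (2:ℕ) ≠ 0)).1 h1
    rw [← h2]
    field_simp
  have hg : Measurable fun q : ℝ × ℝ => f (gr v u ((v 0, v 1) + q)) :=
    hm.comp ((measurable_gr v u).comp (measurable_const_add _))
  unfold pl
  have e : ∫⁻ q : ℝ × ℝ, f (gr v u q) = ∫⁻ q : ℝ × ℝ, f (gr v u ((v 0, v 1) + q)) :=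
    (lintegral_add_left_eq_self (μ := (volume : Measure (ℝ × ℝ)))
      (fun q => f (gr v u q)) (v 0, v 1)).symm
  rw [e, lintegral_linear hD hg, habs, ← mul_assoc, ← ENNReal.ofReal_mul (by (clear * - h; positivity))]
  have e2 : |v 2 - u 2|⁻¹ * (|v 2 - u 2| * ‖v - u‖⁻¹) = ‖v - u‖⁻¹ := by
    have : |v 2 - u 2| ≠ 0 := abs_ne_zero.2 hne
    field_simp
  rw [e2]
  congr 1
  refine lintegral_congr fun p => ?_
  rw [fr_point h hf p]

/-- frame adapted to horizontal strips: `e1` is horizontal -/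
theorem exists_hframe {y : V} (hy : y 2 ≠ 0) : ∃ e1 e2 : V, IsFr y e1 e2 ∧ e1 2 = 0 ∧
    |e2 2| * ‖y‖ = √(y 0 ^ 2 + y 1 ^ 2) := by
  have hy0 : y ≠ 0 := by
    intro h0; apply hy; rw [h0]; simp
  have hyn : 0 < ‖y‖ := norm_pos_iff.2 hy0
  by_cases h : y 0 ^ 2 + y 1 ^ 2 = 0
  · have h0 : y 0 = 0 := by
      have : y 0 ^ 2 ≤ 0 := by nlinarith only [h]
      exact pow_eq_zero_iff (two_ne_zero) |>.1 (le_antisymm this (sq_nonneg _))
    have h1 : y 1 = 0 := by
      have : y 1 ^ 2 ≤ 0 := by nlinarith only [h]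
      exact pow_eq_zero_iff (two_ne_zero) |>.1 (le_antisymm this (sq_nonneg _))
    refine ⟨!₂[1, 0, 0], !₂[0, 1, 0], ⟨?_, ?_, ?_, ?_, ?_⟩, by simp, ?_⟩
    · have : ‖(!₂[1, 0, 0] : V)‖ ^ 2 = 1 := by rw [fr_norm_sq]; simp
      exact (pow_eq_one_iff_of_nonneg (norm_nonneg _) two_ne_zero).1 this
    · have : ‖(!₂[0, 1, 0] : V)‖ ^ 2 = 1 := by rw [fr_norm_sq]; simp
      exact (pow_eq_one_iff_of_nonneg (norm_nonneg _) two_ne_zero).1 this
    · rw [fr_inner]; simp
    · rw [fr_inner]; simp only [Fin.isValue, h0, Matrix.cons_val_zero, mul_one, Matrix.cons_val_one, mul_zero, add_zero, Matrix.cons_val]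
    · rw [fr_inner]; simp [h1]
    · rw [h]; simp only [Fin.isValue, Matrix.cons_val, abs_zero, zero_mul, Real.sqrt_zero]
  · set r := √(y 0 ^ 2 + y 1 ^ 2) with hr
    have hpos : 0 < y 0 ^ 2 + y 1 ^ 2 := lt_of_le_of_ne (by (clear * - h; positivity)) (Ne.symm h)
    have hr0 : 0 < r := Real.sqrt_pos.2 hpos
    have hr2 : r ^ 2 = y 0 ^ 2 + y 1 ^ 2 := Real.sq_sqrt hpos.le
    have hn2 := fr_norm_sq y
    refine ⟨!₂[-y 1 / r, y 0 / r, 0],
      !₂[-(y 0 * y 2) / (r * ‖y‖), -(y 1 * y 2) / (r * ‖y‖), r / ‖y‖],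
      ⟨?_, ?_, ?_, ?_, ?_⟩, by simp only [Fin.isValue, Matrix.cons_val], ?_⟩
    · have : ‖(!₂[-y 1 / r, y 0 / r, 0] : V)‖ ^ 2 = 1 := by
        rw [fr_norm_sq]
        simp only [Matrix.cons_val_zero, Matrix.cons_val_one, Matrix.cons_val]
        field_simp
        linarith only [hr2]
      exact (pow_eq_one_iff_of_nonneg (norm_nonneg _) two_ne_zero).1 this
    · have : ‖(!₂[-(y 0 * y 2) / (r * ‖y‖), -(y 1 * y 2) / (r * ‖y‖), r / ‖y‖] : V)‖ ^ 2 = 1 := by
        rw [fr_norm_sq]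
        simp only [Matrix.cons_val_zero, Matrix.cons_val_one, Matrix.cons_val]
        field_simp
        rw [hn2]
        linear_combination (y 2 ^ 2) * (-hr2) + (r ^ 2) * hr2
      exact (pow_eq_one_iff_of_nonneg (norm_nonneg _) two_ne_zero).1 this
    · rw [fr_inner]
      simp only [Matrix.cons_val_zero, Matrix.cons_val_one, Matrix.cons_val]
      field_simp
      ring
    · rw [fr_inner]
      simp only [Matrix.cons_val_zero, Matrix.cons_val_one, Matrix.cons_val]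
      field_simp
      ring
    · rw [fr_inner]
      simp only [Matrix.cons_val_zero, Matrix.cons_val_one, Matrix.cons_val]
      field_simp
      linear_combination (y 2) * hr2
    · simp only [Matrix.cons_val]
      rw [abs_of_pos (by (clear * - h hy0; positivity))]
      field_simp

/-- Parseval for a frame -/
theorem frame_parseval {y e1 e2 : V} (hy : y ≠ 0) (hf : IsFr y e1 e2) (d : V) :
    ‖d‖ ^ 2 = inner ℝ d e1 ^ 2 + inner ℝ d e2 ^ 2 + inner ℝ d y ^ 2 / ‖y‖ ^ 2 := by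
  have hyn : ‖y‖ ≠ 0 := norm_ne_zero_iff.2 hy
  have hn : ‖‖y‖⁻¹ • y‖ = 1 := by
    rw [norm_smul, norm_inv, norm_norm, inv_mul_cancel₀ hyn]
  have h1 : inner ℝ e1 y = (0 : ℝ) := by rw [real_inner_comm]; exact hf.o1
  have h2 : inner ℝ e2 y = (0 : ℝ) := by rw [real_inner_comm]; exact hf.o2
  have h3 : inner ℝ e2 e1 = (0 : ℝ) := by rw [real_inner_comm]; exact hf.o12
  have hon : Orthonormal ℝ ![e1, e2, ‖y‖⁻¹ • y] := by
    refine ⟨fun i => ?_, fun i j hij => ?_⟩
    · fin_cases i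
      · exact hf.n1
      · exact hf.n2
      · exact hn
    · fin_cases i <;> fin_cases j <;>
        first
        | exact absurd rfl hij
        | simp [inner_smul_left, inner_smul_right, h1, h2, h3, hf.o12, hf.o1, hf.o2]
  have hcard : Fintype.card (Fin 3) = Module.finrank ℝ V := by simp only [Fintype.card_fin, finrank_euclideanSpace]
  have hsp : ⊤ ≤ Submodule.span ℝ (Set.range ![e1, e2, ‖y‖⁻¹ • y]) :=
    (hon.linearIndependent.span_eq_top_of_card_eq_finrank hcard).ge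
  have hb := (OrthonormalBasis.mk hon hsp).sum_sq_norm_inner_left d
  rw [← hb]
  simp only [OrthonormalBasis.coe_mk, Fin.sum_univ_three, Matrix.cons_val_zero,
    Matrix.cons_val_one, Matrix.cons_val, inner_smul_right, Real.norm_eq_abs, sq_abs]
  ring

/-- in particular distances in the plane are at least the distances of the coordinates -/
theorem frame_dist {v y e1 e2 : V} (hf : IsFr y e1 e2) (a : V) (p : ℝ × ℝ) :
    (p.1 - inner ℝ (a - v) e1) ^ 2 + (p.2 - inner ℝ (a - v) e2) ^ 2 ≤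
      ‖v + p.1 • e1 + p.2 • e2 - a‖ ^ 2 := by
  have h3 : inner ℝ e2 e1 = (0 : ℝ) := by rw [real_inner_comm]; exact hf.o12
  have n1 : inner ℝ e1 e1 = (1 : ℝ) := by rw [real_inner_self_eq_norm_sq, hf.n1]; norm_num
  have n2 : inner ℝ e2 e2 = (1 : ℝ) := by rw [real_inner_self_eq_norm_sq, hf.n2]; norm_num
  set z := v + p.1 • e1 + p.2 • e2 - a with hz
  have hz' : z = p.1 • e1 + p.2 • e2 - (a - v) := by rw [hz]; abel
  have i1 : inner ℝ z e1 = p.1 - inner ℝ (a - v) e1 := by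
    rw [hz', inner_sub_left, inner_add_left, inner_smul_left, inner_smul_left, n1, h3]
    simp only [Real.ringHom_apply, mul_one, mul_zero, add_zero]
  have i2 : inner ℝ z e2 = p.2 - inner ℝ (a - v) e2 := by
    rw [hz', inner_sub_left, inner_add_left, inner_smul_left, inner_smul_left, n2, hf.o12]
    simp only [Real.ringHom_apply, mul_zero, mul_one, zero_add]
  rw [← i1, ← i2]
  have key : ‖z - (inner ℝ z e1 • e1 + inner ℝ z e2 • e2)‖ ^ 2 =
      ‖z‖ ^ 2 - inner ℝ z e1 ^ 2 - inner ℝ z e2 ^ 2 := by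
    rw [norm_sub_sq_real, inner_add_right, inner_smul_right, inner_smul_right,
      ← real_inner_self_eq_norm_sq (inner ℝ z e1 • e1 + inner ℝ z e2 • e2), inner_add_left,
      inner_add_right, inner_add_right]
    simp only [inner_smul_left, inner_smul_right, n1, n2, h3, hf.o12, conj_trivial]
    ring
  have := sq_nonneg ‖z - (inner ℝ z e1 • e1 + inner ℝ z e2 • e2)‖
  linarith only [key, this]

end Vale.Agent.P140.NU.S
end
end

section

end

section

open MeasureTheory Set Filter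
open scoped ENNReal Topology NNReal

noncomputable section

namespace Vale.Agent.P140.DL

variable {α β ι κ : Type*} [MeasurableSpace α] [MeasurableSpace β] {μ : Measure α} {ν : Measure β}

/-- tails of one integrable function -/
theorem w1b_const {f : α → ℝ≥0∞} (hf : Measurable f) (h : ∫⁻ a, f a ∂μ < ⊤) {ε : ℝ≥0∞}
    (hε : 0 < ε) : ∃ K : ℝ≥0, ∫⁻ a, (f a - K) ∂μ ≤ ε := by
  have h1 : Tendsto (fun n : ℕ => ∫⁻ a, (f a - (n : ℝ≥0∞)) ∂μ) atTop (𝓝 (∫⁻ _a, 0 ∂μ)) := by
    refine tendsto_lintegral_of_dominated_convergence f (fun n => hf.sub_const _)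
      (fun n => Eventually.of_forall fun a => tsub_le_self) h.ne ?_
    filter_upwards [ae_lt_top hf h.ne] with a ha
    obtain ⟨N, hN⟩ := ENNReal.exists_nat_gt ha.ne
    refine tendsto_const_nhds.congr' ?_
    filter_upwards [eventually_ge_atTop N] with n hn
    have h2 : (N : ℝ≥0∞) ≤ n := by exact_mod_cast hn
    exact (tsub_eq_zero_of_le (hN.le.trans h2)).symm
  rw [lintegral_zero, ENNReal.tendsto_atTop_zero] at h1
  obtain ⟨N, hN⟩ := h1 ε hε
  exact ⟨N, by simpa only [ENNReal.coe_natCast] using hN N le_rfl⟩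

/-- marginals -/
theorem UI.marginal [SFinite μ] [IsFiniteMeasure ν] {g : ι → α × β → ℝ≥0∞} (hg : UI (μ.prod ν) g)
    (mg : ∀ i, Measurable (g i)) : UI μ fun i a => ∫⁻ b, g i (a, b) ∂ν := by
  intro ε hε
  obtain ⟨K, hK⟩ := hg ε hε
  refine ⟨K * (ν univ).toNNReal, fun i => ?_⟩
  refine le_trans ?_ (hK i)
  rw [lintegral_prod _ ((mg i).sub_const _).aemeasurable]
  refine lintegral_mono fun a => ?_
  rw [ENNReal.coe_mul, ENNReal.coe_toNNReal (measure_ne_top ν univ), tsub_le_iff_right]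
  calc ∫⁻ b, g i (a, b) ∂ν ≤ ∫⁻ b, (g i (a, b) - K + K) ∂ν :=
        lintegral_mono fun b => le_tsub_add
    _ = ∫⁻ b, (g i (a, b) - K) ∂ν + K * ν univ := by
        rw [lintegral_add_right _ measurable_const, lintegral_const]

theorem UI.prod_mul [IsFiniteMeasure μ] [SFinite ν] {g : ι → α → ℝ≥0∞} (hg : UI μ g)
    (mg : ∀ i, Measurable (g i)) {f : β → ℝ≥0∞} (mf : Measurable f) (hf : ∫⁻ b, f b ∂ν < ⊤) :
    UI (μ.prod ν) fun i p => g i p.1 * f p.2 := by
  intro ε hε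
  set F := ∫⁻ b, f b ∂ν with hF
  have hF1 : F + 1 ≠ 0 := by simp only [ne_eq, add_eq_zero, one_ne_zero, and_false, not_false_eq_true]
  have hF2 : F + 1 ≠ ⊤ := by
    rw [ENNReal.add_ne_top]
    exact ⟨hf.ne, ENNReal.one_ne_top⟩
  have hε2 : 0 < ε / 2 := ENNReal.div_pos hε.ne' (by norm_num)
  obtain ⟨K, hK⟩ := hg (ε / 2 / (F + 1)) (ENNReal.div_pos hε2.ne' hF2)
  have m1 : Measurable fun p : α × β => (K : ℝ≥0∞) * f p.2 :=
    (mf.comp measurable_snd).const_mul _
  have hfix : ∫⁻ p : α × β, (K : ℝ≥0∞) * f p.2 ∂(μ.prod ν) < ⊤ := by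
    rw [lintegral_prod _ m1.aemeasurable]
    simp only
    rw [lintegral_const, lintegral_const_mul _ mf]
    exact ENNReal.mul_lt_top (ENNReal.mul_lt_top ENNReal.coe_lt_top hf) (measure_lt_top μ univ)
  obtain ⟨L, hL⟩ := w1b_const (μ := μ.prod ν) m1 hfix hε2
  refine ⟨L, fun i => ?_⟩
  have hpt : ∀ p : α × β, g i p.1 * f p.2 - L ≤
      ((K : ℝ≥0∞) * f p.2 - L) + (g i p.1 - K) * f p.2 := by
    intro p
    rw [tsub_le_iff_right]
    calc g i p.1 * f p.2 ≤ (g i p.1 - K + K) * f p.2 :=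
          mul_le_mul_left le_tsub_add _
      _ = (K : ℝ≥0∞) * f p.2 + (g i p.1 - K) * f p.2 := by ring
      _ ≤ ((K : ℝ≥0∞) * f p.2 - L + L) + (g i p.1 - K) * f p.2 :=
          add_le_add le_tsub_add le_rfl
      _ = _ := by ring
  have h2 : ∫⁻ p : α × β, (g i p.1 - K) * f p.2 ∂(μ.prod ν) ≤ ε / 2 := by
    rw [lintegral_prod_mul ((mg i).sub_const _).aemeasurable mf.aemeasurable]
    calc (∫⁻ a, (g i a - K) ∂μ) * F ≤ (ε / 2 / (F + 1)) * (F + 1) :=
          mul_le_mul' (hK i) le_self_add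
      _ = ε / 2 := ENNReal.div_mul_cancel hF1 hF2
  calc ∫⁻ p, (g i p.1 * f p.2 - L) ∂(μ.prod ν) ≤
        ∫⁻ p : α × β, (((K : ℝ≥0∞) * f p.2 - L) + (g i p.1 - K) * f p.2) ∂(μ.prod ν) :=
        lintegral_mono hpt
    _ = ∫⁻ p : α × β, ((K : ℝ≥0∞) * f p.2 - L) ∂(μ.prod ν) +
        ∫⁻ p : α × β, (g i p.1 - K) * f p.2 ∂(μ.prod ν) :=
        lintegral_add_left (m1.sub_const _) _
    _ ≤ ε / 2 + ε / 2 := add_le_add hL h2
    _ = ε := ENNReal.add_halves ε

/-- uniform integrability of all slices -/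
theorem UI.of_slices [IsFiniteMeasure ν] [SFinite μ] {g : ι → β → α → ℝ≥0∞} {S : Set β}
    (hS : ∀ᵐ b ∂ν, b ∈ S) (hg : UI μ fun i : ι × S => g i.1 i.2)
    (mg : ∀ i, Measurable fun q : β × α => g i q.1 q.2) :
    UI (ν.prod μ) fun i q => g i q.1 q.2 := by
  intro ε hε
  have h1 : ν univ + 1 ≠ 0 := by simp only [ne_eq, add_eq_zero, Measure.measure_univ_eq_zero, one_ne_zero, and_false, not_false_eq_true]
  have h2 : ν univ + 1 ≠ ⊤ := by
    rw [ENNReal.add_ne_top]
    exact ⟨measure_ne_top ν univ, ENNReal.one_ne_top⟩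
  obtain ⟨K, hK⟩ := hg (ε / (ν univ + 1)) (ENNReal.div_pos hε.ne' h2)
  refine ⟨K, fun i => ?_⟩
  rw [lintegral_prod _ ((mg i).sub_const _).aemeasurable]
  calc ∫⁻ b, ∫⁻ a, (g i b a - K) ∂μ ∂ν ≤ ∫⁻ _b, ε / (ν univ + 1) ∂ν := by
        refine lintegral_mono_ae ?_
        filter_upwards [hS] with b hb
        exact hK (i, ⟨b, hb⟩)
    _ = ε / (ν univ + 1) * ν univ := by rw [lintegral_const]
    _ ≤ ε / (ν univ + 1) * (ν univ + 1) := mul_le_mul' le_rfl le_self_add
    _ = ε := ENNReal.div_mul_cancel h1 h2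

/-- a change to a smaller measure -/
theorem UI.of_le_smul {g : ι → α → ℝ≥0∞} {μ' : Measure α} (hg : UI μ g) (c : ℝ≥0)
    (h : μ' ≤ (c : ℝ≥0∞) • μ) : UI μ' g := by
  intro ε hε
  have h1 : (c : ℝ≥0∞) + 1 ≠ 0 := by simp only [ne_eq, add_eq_zero, ENNReal.coe_eq_zero, one_ne_zero, and_false, not_false_eq_true]
  have h2 : (c : ℝ≥0∞) + 1 ≠ ⊤ := by
    rw [ENNReal.add_ne_top]
    exact ⟨ENNReal.coe_ne_top, ENNReal.one_ne_top⟩
  obtain ⟨K, hK⟩ := hg (ε / (c + 1)) (ENNReal.div_pos hε.ne' h2)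
  refine ⟨K, fun i => ?_⟩
  calc ∫⁻ a, (g i a - K) ∂μ' ≤ ∫⁻ a, (g i a - K) ∂((c : ℝ≥0∞) • μ) :=
        lintegral_mono' h le_rfl
    _ = (c : ℝ≥0∞) * ∫⁻ a, (g i a - K) ∂μ := by rw [lintegral_smul_measure, smul_eq_mul]
    _ ≤ (c + 1) * (ε / (c + 1)) := mul_le_mul' le_self_add (hK i)
    _ = ε := by rw [mul_comm, ENNReal.div_mul_cancel h1 h2]

theorem hE_nonneg {z : ℝ} (hz : 0 ≤ z) : 0 ≤ hE z := by
  unfold hE
  rcases hz.eq_or_lt with h | h
  · rw [← h]
    simp only [Real.log_zero, mul_zero, sub_self, zero_add, zero_le_one]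
  · have h1 := Real.log_le_sub_one_of_pos (inv_pos.2 h)
    rw [Real.log_inv] at h1
    have h2 := mul_le_mul_of_nonneg_left h1 h.le
    have h3 : z * (z⁻¹ - 1) = 1 - z := by
      rw [mul_sub, mul_inv_cancel₀ h.ne', mul_one]
    rw [h3] at h2
    linarith only [h2]

/-- `(z - K)⁺ ≤ h(z) / (log K - 1)` for `K > e` -/
theorem sub_le_hE {z K : ℝ} (hz : 0 ≤ z) (hK : 1 < Real.log K) (hK0 : 0 < K) :
    max (z - K) 0 ≤ hE z / (Real.log K - 1) := by
  have hL : 0 < Real.log K - 1 := by linarith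
  rw [le_div_iff₀ hL]
  rcases le_or_gt z K with h | h
  · rw [max_eq_right (by linarith only [h]), zero_mul]
    exact hE_nonneg hz
  · rw [max_eq_left (by linarith)]
    have h1 : Real.log K ≤ Real.log z := Real.log_le_log hK0 h.le
    have h2 : z * (Real.log K - 1) ≤ z * (Real.log z - 1) :=
      mul_le_mul_of_nonneg_left (by linarith) hz
    have h3 : 0 ≤ K * (Real.log K - 1) := by positivity
    unfold hE
    linarith only [h2, h3]

/-- the entropy bound implies uniform integrability -/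
theorem UI.of_hE {g : ι → α → ℝ} (mg : ∀ i, Measurable (g i)) (h0 : ∀ i a, 0 ≤ g i a) {C : ℝ≥0}
    (h : ∀ i, ∫⁻ a, ENNReal.ofReal (hE (g i a)) ∂μ ≤ C) :
    UI μ fun i a => ENNReal.ofReal (g i a) := by
  intro ε hε
  rcases eq_or_ne ε ⊤ with rfl | hε'
  · exact ⟨0, fun i => le_top⟩
  have he : 0 < ε.toReal := ENNReal.toReal_pos hε.ne' hε'
  have hC : (0 : ℝ) ≤ C := C.2
  set L : ℝ := (C + 1) / ε.toReal with hL
  have hL0 : 0 < L := by (clear * - he; positivity)
  set K : ℝ := Real.exp (1 + L) with hKd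
  have hK0 : 0 < K := Real.exp_pos _
  have hlog : Real.log K = 1 + L := Real.log_exp _
  refine ⟨K.toNNReal, fun i => ?_⟩
  have hpt : ∀ a, ENNReal.ofReal (g i a) - (K.toNNReal : ℝ≥0∞) ≤
      ENNReal.ofReal L⁻¹ * ENNReal.ofReal (hE (g i a)) := by
    intro a
    have h1 := sub_le_hE (h0 i a) (K := K) (by rw [hlog]; linarith only [hL0]) hK0
    rw [hlog, add_sub_cancel_left] at h1
    rw [← ENNReal.ofReal_mul (by (clear * - he; positivity)), ← ENNReal.ofReal, ← ENNReal.ofReal_sub _ hK0.le]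
    refine ENNReal.ofReal_le_ofReal ?_
    refine (le_max_left _ 0).trans (h1.trans (le_of_eq ?_))
    rw [div_eq_inv_mul]
  have mh : Measurable fun a => ENNReal.ofReal (hE (g i a)) := by
    have mg' := mg i
    unfold hE
    fun_prop
  calc ∫⁻ a, (ENNReal.ofReal (g i a) - (K.toNNReal : ℝ≥0∞)) ∂μ ≤
        ∫⁻ a, ENNReal.ofReal L⁻¹ * ENNReal.ofReal (hE (g i a)) ∂μ := lintegral_mono hpt
    _ = ENNReal.ofReal L⁻¹ * ∫⁻ a, ENNReal.ofReal (hE (g i a)) ∂μ :=
        lintegral_const_mul _ mh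
    _ ≤ ENNReal.ofReal L⁻¹ * C := mul_le_mul' le_rfl (h i)
    _ = ENNReal.ofReal (L⁻¹ * C) := by
        rw [ENNReal.ofReal_mul (by (clear * - he; positivity)), ENNReal.ofReal_coe_nnreal]
    _ ≤ ENNReal.ofReal ε.toReal := by
        refine ENNReal.ofReal_le_ofReal ?_
        rw [hL, inv_div, div_mul_eq_mul_div, div_le_iff₀ (by (clear * -; positivity))]
        refine mul_le_mul_of_nonneg_left ?_ he.le
        linarith only []
    _ = ε := ENNReal.ofReal_toReal hε'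

/-- Vitali: bounded functions times uniformly integrable ones -/
theorem UI.mul_tendsto_zero [IsFiniteMeasure μ] {g : ℕ → α → ℝ≥0∞} (hg : UI μ g)
    (mg : ∀ i, Measurable (g i)) {θ : ℕ → α → ℝ≥0∞} (mθ : ∀ i, Measurable (θ i))
    (bθ : ∀ i a, θ i a ≤ 1) (hθ : Tendsto (fun n => ∫⁻ a, θ n a ∂μ) atTop (𝓝 0)) :
    Tendsto (fun n => ∫⁻ a, g n a * θ n a ∂μ) atTop (𝓝 0) := by
  rw [ENNReal.tendsto_atTop_zero] at hθ ⊢
  intro ε hε
  have hε2 : 0 < ε / 2 := ENNReal.div_pos hε.ne' (by norm_num)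
  obtain ⟨K, hK⟩ := hg (ε / 2) hε2
  have h1 : (K : ℝ≥0∞) + 1 ≠ 0 := by simp only [ne_eq, add_eq_zero, ENNReal.coe_eq_zero, one_ne_zero, and_false, not_false_eq_true]
  have h2 : (K : ℝ≥0∞) + 1 ≠ ⊤ := by
    rw [ENNReal.add_ne_top]
    exact ⟨ENNReal.coe_ne_top, ENNReal.one_ne_top⟩
  obtain ⟨N, hN⟩ := hθ (ε / 2 / (K + 1)) (ENNReal.div_pos hε2.ne' h2)
  refine ⟨N, fun n hn => ?_⟩
  have hpt : ∀ a, g n a * θ n a ≤ (g n a - K) + K * θ n a := by
    intro a
    calc g n a * θ n a ≤ (g n a - K + K) * θ n a := mul_le_mul' le_tsub_add le_rfl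
      _ = (g n a - K) * θ n a + K * θ n a := by ring
      _ ≤ (g n a - K) * 1 + K * θ n a := add_le_add (mul_le_mul' le_rfl (bθ n a)) le_rfl
      _ = _ := by rw [mul_one]
  calc ∫⁻ a, g n a * θ n a ∂μ ≤ ∫⁻ a, ((g n a - K) + K * θ n a) ∂μ := lintegral_mono hpt
    _ = ∫⁻ a, (g n a - K) ∂μ + ∫⁻ a, K * θ n a ∂μ :=
        lintegral_add_left ((mg n).sub_const _) _
    _ = ∫⁻ a, (g n a - K) ∂μ + K * ∫⁻ a, θ n a ∂μ := by rw [lintegral_const_mul _ (mθ n)]
    _ ≤ ε / 2 + (K + 1) * (ε / 2 / (K + 1)) :=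
        add_le_add (hK n) (mul_le_mul' le_self_add (hN n hn))
    _ = ε := by rw [mul_comm, ENNReal.div_mul_cancel h1 h2, ENNReal.add_halves]

end Vale.Agent.P140.DL
end
end

section

open MeasureTheory Set Filter
open scoped ENNReal Topology NNReal

noncomputable section

namespace Vale.Agent.P140.DL

variable {α β ι κ : Type*} [MeasurableSpace α] [MeasurableSpace β] {μ : Measure α} {ν : Measure β}

theorem UI.mono {g : ι → α → ℝ≥0∞} {h : ι → α → ℝ≥0∞} (hh : UI μ h)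
    (hle : ∀ i, ∀ᵐ a ∂μ, g i a ≤ h i a) : UI μ g := by
  intro ε hε
  obtain ⟨K, hK⟩ := hh ε hε
  refine ⟨K, fun i => le_trans (lintegral_mono_ae ?_) (hK i)⟩
  filter_upwards [hle i] with a ha
  exact tsub_le_tsub_right ha _

theorem UI.reindex {g : ι → α → ℝ≥0∞} (hg : UI μ g) (e : κ → ι) : UI μ fun k => g (e k) := by
  intro ε hε
  obtain ⟨K, hK⟩ := hg ε hε
  exact ⟨K, fun k => hK (e k)⟩

theorem UI.add {g h : ι → α → ℝ≥0∞} (hg : UI μ g) (hh : UI μ h)
    (mg : ∀ i, Measurable (g i)) : UI μ fun i a => g i a + h i a := by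
  intro ε hε
  obtain ⟨K, hK⟩ := hg (ε / 2) (ENNReal.half_pos hε.ne')
  obtain ⟨L, hL⟩ := hh (ε / 2) (ENNReal.half_pos hε.ne')
  refine ⟨K + L, fun i => ?_⟩
  calc ∫⁻ a, (g i a + h i a - ((K + L : ℝ≥0) : ℝ≥0∞)) ∂μ
      ≤ ∫⁻ a, ((g i a - K) + (h i a - L)) ∂μ := by
        refine lintegral_mono fun a => ?_
        rw [ENNReal.coe_add]
        exact add_tsub_add_le_tsub_add_tsub
    _ = ∫⁻ a, (g i a - K) ∂μ + ∫⁻ a, (h i a - L) ∂μ :=
        lintegral_add_left ((mg i).sub_const _) _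
    _ ≤ ε / 2 + ε / 2 := add_le_add (hK i) (hL i)
    _ = ε := ENNReal.add_halves ε

theorem UI.const_mul {g : ι → α → ℝ≥0∞} (hg : UI μ g) (c : ℝ≥0) :
    UI μ fun i a => (c : ℝ≥0∞) * g i a := by
  intro ε hε
  obtain ⟨K, hK⟩ := hg (ε / c) (ENNReal.div_pos hε.ne' ENNReal.coe_ne_top)
  refine ⟨c * K, fun i => ?_⟩
  calc ∫⁻ a, ((c : ℝ≥0∞) * g i a - ((c * K : ℝ≥0) : ℝ≥0∞)) ∂μ
      = ∫⁻ a, (c : ℝ≥0∞) * (g i a - K) ∂μ := by
        refine lintegral_congr fun a => ?_
        rw [ENNReal.coe_mul, ENNReal.mul_sub fun _ _ => ENNReal.coe_ne_top]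
    _ = c * ∫⁻ a, (g i a - K) ∂μ := lintegral_const_mul' _ _ ENNReal.coe_ne_top
    _ ≤ c * (ε / c) := mul_le_mul_right (hK i) _
    _ ≤ ε := ENNReal.mul_div_le

/-- a fixed integrable function is uniformly integrable -/
theorem UI.const {f : α → ℝ≥0∞} (hf : Measurable f) (h : ∫⁻ a, f a ∂μ < ⊤) :
    UI μ fun (_ : ι) a => f a := by
  intro ε hε
  have h1 : Tendsto (fun n : ℕ => ∫⁻ a, (f a - n) ∂μ) atTop (𝓝 (∫⁻ _ : α, 0 ∂μ)) := by
    refine tendsto_lintegral_of_dominated_convergence f (fun n => hf.sub_const _)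
      (fun n => Eventually.of_forall fun a => tsub_le_self) h.ne ?_
    filter_upwards [ae_lt_top hf h.ne] with a ha
    obtain ⟨n, hn⟩ := ENNReal.exists_nat_gt ha.ne
    refine tendsto_const_nhds.congr' ?_
    filter_upwards [eventually_ge_atTop n] with m hm
    symm
    rw [tsub_eq_zero_iff_le]
    exact hn.le.trans (by exact_mod_cast hm)
  rw [lintegral_zero] at h1
  obtain ⟨n, hn⟩ := (h1.eventually_lt_const hε).exists
  refine ⟨(n : ℝ≥0), fun _ => ?_⟩
  simpa only [ENNReal.coe_natCast] using hn.le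

/-- splitting criterion -/
theorem UI.of_split {g : ι → α → ℝ≥0∞}
    (h : ∀ ε : ℝ≥0∞, 0 < ε → ∃ f : α → ℝ≥0∞, Measurable f ∧ ∫⁻ a, f a ∂μ < ⊤ ∧
      ∃ r : ι → α → ℝ≥0∞, (∀ i, ∀ᵐ a ∂μ, g i a ≤ f a + r i a) ∧ ∀ i, ∫⁻ a, r i a ∂μ ≤ ε) :
    UI μ g := by
  intro ε hε
  obtain ⟨f, hf, hfi, r, hr, hri⟩ := h (ε / 2) (ENNReal.half_pos hε.ne')
  obtain ⟨K, hK⟩ := (UI.const (ι := Unit) hf hfi) (ε / 2) (ENNReal.half_pos hε.ne')
  refine ⟨K, fun i => ?_⟩
  calc ∫⁻ a, (g i a - K) ∂μ ≤ ∫⁻ a, ((f a - K) + r i a) ∂μ := by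
        refine lintegral_mono_ae ?_
        filter_upwards [hr i] with a ha
        rw [tsub_le_iff_right]
        calc g i a ≤ f a + r i a := ha
          _ ≤ (f a - K + K) + r i a := add_le_add le_tsub_add le_rfl
          _ = f a - K + r i a + K := by ring
    _ = ∫⁻ a, (f a - K) ∂μ + ∫⁻ a, r i a ∂μ := lintegral_add_left (hf.sub_const _) _
    _ ≤ ε / 2 + ε / 2 := add_le_add (hK ()) (hri i)
    _ = ε := ENNReal.add_halves ε

theorem UI.lintegral_le [IsFiniteMeasure μ] {g : ι → α → ℝ≥0∞} (hg : UI μ g) :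
    ∃ C : ℝ≥0, ∀ i, ∫⁻ a, g i a ∂μ ≤ C := by
  obtain ⟨K, hK⟩ := hg 1 one_pos
  have hfin : (1 + K * μ univ : ℝ≥0∞) ≠ ⊤ :=
    ENNReal.add_ne_top.2 ⟨ENNReal.one_ne_top, ENNReal.mul_ne_top ENNReal.coe_ne_top
      (measure_ne_top μ univ)⟩
  refine ⟨(1 + K * μ univ : ℝ≥0∞).toNNReal, fun i => ?_⟩
  rw [ENNReal.coe_toNNReal hfin]
  calc ∫⁻ a, g i a ∂μ ≤ ∫⁻ a, ((g i a - K) + K) ∂μ := lintegral_mono fun a => le_tsub_add
    _ = ∫⁻ a, (g i a - K) ∂μ + ∫⁻ _ : α, (K : ℝ≥0∞) ∂μ := lintegral_add_right _ measurable_const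
    _ ≤ 1 + K * μ univ := by
        rw [lintegral_const]
        exact add_le_add (hK i) le_rfl

/-- uniform absolute continuity -/
theorem UI.small_set {g : ι → α → ℝ≥0∞} (hg : UI μ g) {ε : ℝ≥0∞} (hε : 0 < ε) :
    ∃ δ : ℝ≥0∞, 0 < δ ∧ ∀ i, ∀ s, MeasurableSet s → μ s ≤ δ → ∫⁻ a in s, g i a ∂μ ≤ ε := by
  obtain ⟨K, hK⟩ := hg (ε / 2) (ENNReal.half_pos hε.ne')
  refine ⟨ε / 2 / (K + 1 : ℝ≥0), ENNReal.div_pos (ENNReal.half_pos hε.ne').ne'
    ENNReal.coe_ne_top, fun i s _ hs' => ?_⟩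
  calc ∫⁻ a in s, g i a ∂μ ≤ ∫⁻ a in s, ((g i a - K) + K) ∂μ := lintegral_mono fun a => le_tsub_add
    _ = ∫⁻ a in s, (g i a - K) ∂μ + ∫⁻ _ in s, (K : ℝ≥0∞) ∂μ :=
        lintegral_add_right _ measurable_const
    _ ≤ ∫⁻ a, (g i a - K) ∂μ + (K + 1 : ℝ≥0) * (ε / 2 / (K + 1 : ℝ≥0)) := by
        refine add_le_add (setLIntegral_le_lintegral _ _) ?_
        rw [setLIntegral_const]
        refine mul_le_mul' ?_ hs'
        exact ENNReal.coe_le_coe.2 (le_add_of_nonneg_right zero_le_one)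
    _ ≤ ε / 2 + ε / 2 := add_le_add (hK i) ENNReal.mul_div_le
    _ = ε := ENNReal.add_halves ε

theorem UI.comp_mp {g : ι → α → ℝ≥0∞} (hg : UI μ g) (mg : ∀ i, Measurable (g i))
    {T : β → α} (hT : MeasurePreserving T ν μ) : UI ν fun i b => g i (T b) := by
  intro ε hε
  obtain ⟨K, hK⟩ := hg ε hε
  refine ⟨K, fun i => ?_⟩
  have h1 : ∫⁻ b, (g i (T b) - K) ∂ν = ∫⁻ a, (g i a - K) ∂μ :=
    hT.lintegral_comp (f := fun a => g i a - K) ((mg i).sub_const _)
  rw [h1]
  exact hK i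

end Vale.Agent.P140.DL
end
end

section

open MeasureTheory Set Filter
open scoped ENNReal Topology NNReal

noncomputable section

namespace Vale.Agent.P140.DL

variable {α β : Type*} [MeasurableSpace α] [MeasurableSpace β] {μ : Measure α} {ν : Measure β}
  {g k : ℕ → α → ℝ} {G K : α → ℝ}

/-- tests bounded by an arbitrary constant -/
theorem WConv.test (hg : WConv μ g G) {θ : α → ℝ} (mθ : Measurable θ) {C : ℝ}
    (bθ : ∀ a, |θ a| ≤ C) :
    Tendsto (fun n => ∫ a, g n a * θ a ∂μ) atTop (𝓝 (∫ a, G a * θ a ∂μ)) := by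
  have hD : 0 < |C| + 1 := by (clear * -; positivity)
  have hDne : |C| + 1 ≠ 0 := hD.ne'
  have h1 := hg (fun a => θ a / (|C| + 1)) (mθ.div_const _) (fun a => by
    rw [abs_div, abs_of_pos hD, div_le_one hD]
    exact (bθ a).trans ((le_abs_self C).trans (by linarith)))
  have h2 := h1.const_mul (|C| + 1)
  have e : ∀ f : α → ℝ, (|C| + 1) * ∫ a, f a * (θ a / (|C| + 1)) ∂μ = ∫ a, f a * θ a ∂μ := by
    intro f
    rw [← integral_const_mul]
    refine integral_congr_ae (Eventually.of_forall fun a => ?_)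
    simp only
    (clear * - hDne; field_simp)
  simpa only [e] using h2

theorem WConv.comp_sub (hg : WConv μ g G) {φ : ℕ → ℕ} (hφ : Tendsto φ atTop atTop) :
    WConv μ (fun n => g (φ n)) G := fun θ mθ bθ => (hg θ mθ bθ).comp hφ

theorem WConv.congr {g' : ℕ → α → ℝ} {G' : α → ℝ} (hg : WConv μ g G)
    (h : ∀ n, ∀ᵐ a ∂μ, g n a = g' n a) (h' : ∀ᵐ a ∂μ, G a = G' a) : WConv μ g' G' := by
  intro θ mθ bθ
  have h1 := hg θ mθ bθ
  have e : ∀ n, ∫ a, g n a * θ a ∂μ = ∫ a, g' n a * θ a ∂μ := fun n =>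
    integral_congr_ae ((h n).mono fun a ha => by simp only [ha])
  have e' : ∫ a, G a * θ a ∂μ = ∫ a, G' a * θ a ∂μ :=
    integral_congr_ae (h'.mono fun a ha => by simp only [ha])
  simpa only [e, e'] using h1

theorem w3_int_mul {f θ : α → ℝ} (i : Integrable f μ) (mθ : Measurable θ) {C : ℝ}
    (bθ : ∀ a, |θ a| ≤ C) : Integrable (fun a => f a * θ a) μ :=
  i.mul_bdd (c := C) mθ.aestronglyMeasurable (Eventually.of_forall fun a => by
    rw [Real.norm_eq_abs]; exact bθ a)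

theorem WConv.add (hg : WConv μ g G) (hk : WConv μ k K) (ig : ∀ n, Integrable (g n) μ)
    (ik : ∀ n, Integrable (k n) μ) (iG : Integrable G μ) (iK : Integrable K μ) :
    WConv μ (fun n a => g n a + k n a) fun a => G a + K a := by
  intro θ mθ bθ
  have e : ∀ {f f' : α → ℝ}, Integrable f μ → Integrable f' μ →
      ∫ a, (f a + f' a) * θ a ∂μ = ∫ a, f a * θ a ∂μ + ∫ a, f' a * θ a ∂μ := by
    intro f f' hf hf'
    rw [← integral_add (w3_int_mul hf mθ bθ) (w3_int_mul hf' mθ bθ)]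
    simp only [add_mul]
  rw [e iG iK]
  have e2 : ∀ n, ∫ a, (g n a + k n a) * θ a ∂μ = ∫ a, g n a * θ a ∂μ + ∫ a, k n a * θ a ∂μ :=
    fun n => e (ig n) (ik n)
  simp only [e2]
  exact (hg θ mθ bθ).add (hk θ mθ bθ)

theorem WConv.const_mul (hg : WConv μ g G) (c : ℝ) :
    WConv μ (fun n a => c * g n a) fun a => c * G a := by
  intro θ mθ bθ
  have e : ∀ f : α → ℝ, ∫ a, c * f a * θ a ∂μ = c * ∫ a, f a * θ a ∂μ := by
    intro f
    rw [← integral_const_mul]
    simp only [mul_assoc]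
  simp only [e]
  exact (hg θ mθ bθ).const_mul c

theorem WConv.sub (hg : WConv μ g G) (hk : WConv μ k K) (ig : ∀ n, Integrable (g n) μ)
    (ik : ∀ n, Integrable (k n) μ) (iG : Integrable G μ) (iK : Integrable K μ) :
    WConv μ (fun n a => g n a - k n a) fun a => G a - K a := by
  have h := hg.add (hk.const_mul (-1)) ig (fun n => (ik n).const_mul (-1)) iG (iK.const_mul (-1))
  refine h.congr (fun n => Eventually.of_forall fun a => ?_) (Eventually.of_forall fun a => ?_)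
  · ring
  · ring

/-- multiplication by a fixed bounded function -/
theorem WConv.mul_fixed (hg : WConv μ g G) {θ : α → ℝ} (mθ : Measurable θ) {C : ℝ}
    (bθ : ∀ a, |θ a| ≤ C) : WConv μ (fun n a => g n a * θ a) fun a => G a * θ a := by
  intro η mη bη
  have h := hg.test (mθ.mul mη) (C := C) (fun a => by
    rw [Pi.mul_apply, abs_mul]
    have h0 : 0 ≤ C := (abs_nonneg _).trans (bθ a)
    calc |θ a| * |η a| ≤ C * 1 := mul_le_mul (bθ a) (bη a) (abs_nonneg _) h0
      _ = C := mul_one C)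
  simpa only [Pi.mul_apply, mul_assoc] using h

theorem w3_null_of_int_le (iG : Integrable G μ) (iK : Integrable K μ)
    (h : ∀ θ : α → ℝ, Measurable θ → (∀ a, 0 ≤ θ a ∧ θ a ≤ 1) →
      ∫ a, G a * θ a ∂μ ≤ ∫ a, K a * θ a ∂μ) : ∀ᵐ a ∂μ, G a ≤ K a := by
  classical
  set G' := iG.1.mk G with hG'
  set K' := iK.1.mk K with hK'
  have mG' : Measurable G' := iG.1.stronglyMeasurable_mk.measurable
  have mK' : Measurable K' := iK.1.stronglyMeasurable_mk.measurable
  have eG : G =ᵐ[μ] G' := iG.1.ae_eq_mk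
  have eK : K =ᵐ[μ] K' := iK.1.ae_eq_mk
  set S : Set α := {a | K' a < G' a} with hS
  have mS : MeasurableSet S := measurableSet_lt mK' mG'
  set θ : α → ℝ := S.indicator (fun _ => 1) with hθ
  have mθ : Measurable θ := measurable_const.indicator mS
  have bθ : ∀ a, 0 ≤ θ a ∧ θ a ≤ 1 := by
    intro a
    by_cases ha : a ∈ S
    · simp only [hθ, ha, indicator_of_mem, zero_le_one, Std.le_refl, and_self]
    · simp only [hθ, ha, not_false_eq_true, indicator_of_notMem, Std.le_refl, zero_le_one, and_self]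
  have bθ' : ∀ a, |θ a| ≤ 1 := fun a => abs_le.2 ⟨by linarith only [(bθ a).1], (bθ a).2⟩
  have h1 := h θ mθ bθ
  have iGθ := w3_int_mul iG mθ bθ'
  have iKθ := w3_int_mul iK mθ bθ'
  have h2 : ∫ a, (G a * θ a - K a * θ a) ∂μ ≤ 0 := by
    rw [integral_sub iGθ iKθ]; linarith only [h1]
  have h3 : 0 ≤ᵐ[μ] fun a => G a * θ a - K a * θ a := by
    filter_upwards [eG, eK] with a h4 h5
    simp only [Pi.zero_apply]
    rw [h4, h5, ← sub_mul]
    by_cases ha : a ∈ S
    · have : K' a < G' a := ha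
      exact mul_nonneg (by linarith only [this]) (bθ a).1
    · simp [hθ, ha]
  have h4 : ∫ a, (G a * θ a - K a * θ a) ∂μ = 0 := le_antisymm h2 (integral_nonneg_of_ae h3)
  rw [integral_eq_zero_iff_of_nonneg_ae h3 (iGθ.sub iKθ)] at h4
  filter_upwards [eG, eK, h4] with a h5 h6 h7
  by_contra hlt
  push Not at hlt
  have ha : a ∈ S := by
    change K' a < G' a
    rw [← h5, ← h6]; exact hlt
  simp only [hθ, Set.indicator_of_mem ha, mul_one, Pi.zero_apply] at h7
  linarith only [hlt, h7]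

theorem WConv.ae_le (hg : WConv μ g G) (hk : WConv μ k K) (ig : ∀ n, Integrable (g n) μ)
    (ik : ∀ n, Integrable (k n) μ) (iG : Integrable G μ) (iK : Integrable K μ)
    (h : ∀ n, ∀ᵐ a ∂μ, g n a ≤ k n a) : ∀ᵐ a ∂μ, G a ≤ K a := by
  refine w3_null_of_int_le iG iK fun θ mθ bθ => ?_
  have bθ' : ∀ a, |θ a| ≤ 1 := fun a => abs_le.2 ⟨by linarith only [(bθ a).1], (bθ a).2⟩
  refine le_of_tendsto_of_tendsto' (hg θ mθ bθ') (hk θ mθ bθ') fun n => ?_
  refine integral_mono_ae (w3_int_mul (ig n) mθ bθ') (w3_int_mul (ik n) mθ bθ') ?_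
  filter_upwards [h n] with a ha
  exact mul_le_mul_of_nonneg_right ha (bθ a).1

theorem WConv.unique (hg : WConv μ g G) (hk : WConv μ g K) (iG : Integrable G μ)
    (iK : Integrable K μ) : ∀ᵐ a ∂μ, G a = K a := by
  have e : ∀ θ : α → ℝ, Measurable θ → (∀ a, 0 ≤ θ a ∧ θ a ≤ 1) →
      ∫ a, G a * θ a ∂μ = ∫ a, K a * θ a ∂μ := fun θ mθ bθ => by
    have bθ' : ∀ a, |θ a| ≤ 1 := fun a => abs_le.2 ⟨by linarith only [(bθ a).1], (bθ a).2⟩
    exact tendsto_nhds_unique (hg θ mθ bθ') (hk θ mθ bθ')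
  filter_upwards [w3_null_of_int_le iG iK fun θ mθ bθ => (e θ mθ bθ).le,
    w3_null_of_int_le iK iG fun θ mθ bθ => (e θ mθ bθ).ge] with a h1 h2
  exact le_antisymm h1 h2

theorem WConv.ae_bdd [IsFiniteMeasure μ] (hg : WConv μ g G) (ig : ∀ n, Integrable (g n) μ)
    (iG : Integrable G μ) {B : ℝ} (h : ∀ n, ∀ᵐ a ∂μ, |g n a| ≤ B) : ∀ᵐ a ∂μ, |G a| ≤ B := by
  have hc : ∀ c : ℝ, WConv μ (fun _ _ => c) (fun _ : α => c) := fun c θ _ _ =>
    tendsto_const_nhds
  have h1 := hg.ae_le (hc B) ig (fun _ => integrable_const _) iG (integrable_const _)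
    fun n => (h n).mono fun a ha => (abs_le.1 ha).2
  have h2 := (hc (-B)).ae_le hg (fun _ => integrable_const _) ig (integrable_const _) iG
    fun n => (h n).mono fun a ha => (abs_le.1 ha).1
  filter_upwards [h1, h2] with a h3 h4
  exact abs_le.2 ⟨h4, h3⟩

/-- lower semicontinuity of the norm -/
theorem WConv.lintegral_le (hg : WConv μ g G) (ig : ∀ n, Integrable (g n) μ)
    (mG : Measurable G) (iG : Integrable G μ) :
    ∫⁻ a, ENNReal.ofReal |G a| ∂μ ≤ liminf (fun n => ∫⁻ a, ENNReal.ofReal |g n a| ∂μ) atTop := by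
  classical
  set θ : α → ℝ := fun a => if 0 ≤ G a then 1 else -1 with hθ
  have mθ : Measurable θ :=
    Measurable.ite (measurableSet_le measurable_const mG) measurable_const measurable_const
  have bθ : ∀ a, |θ a| ≤ 1 := by
    intro a
    simp only [hθ]
    split_ifs <;> simp
  have h1 := hg θ mθ bθ
  have e1 : ∫ a, G a * θ a ∂μ = ∫ a, |G a| ∂μ := by
    refine integral_congr_ae (Eventually.of_forall fun a => ?_)
    simp only [hθ]
    split_ifs with h
    · rw [mul_one, abs_of_nonneg h]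
    · rw [abs_of_neg (not_le.1 h)]; ring
  rw [e1] at h1
  have h2 := (ENNReal.continuous_ofReal.tendsto _).comp h1
  rw [← ofReal_integral_eq_lintegral_ofReal iG.abs (Eventually.of_forall fun a => abs_nonneg _),
    ← h2.liminf_eq]
  refine liminf_le_liminf (Eventually.of_forall fun n => ?_)
  rw [← ofReal_integral_eq_lintegral_ofReal (ig n).abs
    (Eventually.of_forall fun a => abs_nonneg _)]
  refine ENNReal.ofReal_le_ofReal ?_
  refine integral_mono (w3_int_mul (ig n) mθ bθ) (ig n).abs fun a => ?_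
  calc g n a * θ a ≤ |g n a * θ a| := le_abs_self _
    _ = |g n a| * |θ a| := abs_mul _ _
    _ ≤ |g n a| * 1 := mul_le_mul_of_nonneg_left (bθ a) (abs_nonneg _)
    _ = |g n a| := mul_one _

/-- lower semicontinuity of weighted integrals of nonnegative functions -/
theorem WConv.lintegral_weight_le (hg : WConv μ g G) (ig : ∀ n, Integrable (g n) μ)
    (h0 : ∀ n a, 0 ≤ g n a) (iG : Integrable G μ) (hG0 : ∀ᵐ a ∂μ, 0 ≤ G a) {w : α → ℝ≥0∞}
    (mw : Measurable w) (w_top : ∀ a, w a ≠ ⊤) :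
    ∫⁻ a, w a * ENNReal.ofReal (G a) ∂μ
      ≤ liminf (fun n => ∫⁻ a, w a * ENNReal.ofReal (g n a) ∂μ) atTop := by
  have key : ∀ m : ℕ, ∫⁻ a, min (w a) m * ENNReal.ofReal (G a) ∂μ
      ≤ liminf (fun n => ∫⁻ a, w a * ENNReal.ofReal (g n a) ∂μ) atTop := by
    intro m
    set θ : α → ℝ := fun a => (min (w a) m).toReal with hθ
    have mθ : Measurable θ := (mw.min measurable_const).ennreal_toReal
    have hmin : ∀ a, min (w a) (m : ℝ≥0∞) ≠ ⊤ := fun a =>
      ne_top_of_le_ne_top (ENNReal.natCast_ne_top m) (min_le_right _ _)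
    have bθ : ∀ a, |θ a| ≤ (m : ℝ) := by
      intro a
      rw [abs_of_nonneg ENNReal.toReal_nonneg]
      calc θ a ≤ ((m : ℝ≥0∞)).toReal :=
            ENNReal.toReal_mono (ENNReal.natCast_ne_top m) (min_le_right _ _)
        _ = m := ENNReal.toReal_natCast m
    have hθ0 : ∀ a, 0 ≤ θ a := fun a => ENNReal.toReal_nonneg
    have e : ∀ {f : α → ℝ}, Integrable f μ → (∀ᵐ a ∂μ, 0 ≤ f a) →
        ∫⁻ a, min (w a) m * ENNReal.ofReal (f a) ∂μ = ENNReal.ofReal (∫ a, f a * θ a ∂μ) := by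
      intro f hf hf0
      rw [ofReal_integral_eq_lintegral_ofReal (w3_int_mul hf mθ bθ)
        (hf0.mono fun a ha => mul_nonneg ha (hθ0 a))]
      refine lintegral_congr fun a => ?_
      rw [ENNReal.ofReal_mul' (hθ0 a), mul_comm, ENNReal.ofReal_toReal (hmin a)]
    rw [e iG hG0]
    have h2 := (ENNReal.continuous_ofReal.tendsto _).comp (hg.test mθ bθ)
    rw [← h2.liminf_eq]
    refine liminf_le_liminf (Eventually.of_forall fun n => ?_)
    change ENNReal.ofReal (∫ a, g n a * θ a ∂μ) ≤ _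
    rw [← e (ig n) (Eventually.of_forall (h0 n))]
    exact lintegral_mono fun a => mul_le_mul' (min_le_left _ _) le_rfl
  have e : ∀ a, w a * ENNReal.ofReal (G a) = ⨆ m : ℕ, min (w a) m * ENNReal.ofReal (G a) := by
    intro a
    rw [← ENNReal.iSup_mul]
    congr 1
    refine le_antisymm ?_ (iSup_le fun m => min_le_left _ _)
    obtain ⟨m, hm⟩ := ENNReal.exists_nat_gt (w_top a)
    exact le_iSup_of_le m (le_min le_rfl hm.le)
  simp only [e]
  rw [lintegral_iSup']
  · exact iSup_le key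
  · intro m
    exact (mw.min measurable_const).aemeasurable.mul iG.1.aemeasurable.ennreal_ofReal
  · refine Eventually.of_forall fun a m m' hmm => ?_
    exact mul_le_mul' (min_le_min le_rfl (by exact_mod_cast hmm)) le_rfl

theorem SConv.comp_sub (hg : SConv μ g G) {φ : ℕ → ℕ} (hφ : Tendsto φ atTop atTop) :
    SConv μ (fun n => g (φ n)) G := by
  unfold SConv at hg ⊢
  exact hg.comp hφ

theorem SConv.wconv (hg : SConv μ g G) (ig : ∀ n, Integrable (g n) μ) (iG : Integrable G μ) :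
    WConv μ g G := by
  intro θ mθ bθ
  rw [tendsto_iff_norm_sub_tendsto_zero]
  have h1 : Tendsto (fun n => (∫⁻ a, ENNReal.ofReal |g n a - G a| ∂μ).toReal) atTop (𝓝 0) := by
    have h2 := (ENNReal.tendsto_toReal ENNReal.zero_ne_top).comp hg
    rw [ENNReal.toReal_zero] at h2
    exact h2
  refine squeeze_zero (fun n => norm_nonneg _) (fun n => ?_) h1
  have e : (∫⁻ a, ENNReal.ofReal |g n a - G a| ∂μ).toReal = ∫ a, |g n a - G a| ∂μ := by
    have h3 : Integrable (fun a => |g n a - G a|) μ := ((ig n).sub iG).abs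
    rw [← ofReal_integral_eq_lintegral_ofReal h3 (Eventually.of_forall fun a => abs_nonneg _)]
    exact ENNReal.toReal_ofReal (integral_nonneg fun a => abs_nonneg _)
  rw [e, ← integral_sub (w3_int_mul (ig n) mθ bθ) (w3_int_mul iG mθ bθ)]
  refine (norm_integral_le_integral_norm _).trans ?_
  refine integral_mono ((w3_int_mul (ig n) mθ bθ).sub (w3_int_mul iG mθ bθ)).norm
    ((ig n).sub iG).abs fun a => ?_
  simp only [Real.norm_eq_abs, ← sub_mul, abs_mul]
  calc |g n a - G a| * |θ a| ≤ |g n a - G a| * 1 :=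
        mul_le_mul_of_nonneg_left (bθ a) (abs_nonneg _)
    _ = |g n a - G a| := mul_one _

/-- bounded almost everywhere convergence implies strong convergence -/
theorem SConv.of_ae [IsFiniteMeasure μ] (mg : ∀ n, Measurable (g n)) (mG : Measurable G) {B : ℝ}
    (bg : ∀ n a, |g n a| ≤ B) (h : ∀ᵐ a ∂μ, Tendsto (fun n => g n a) atTop (𝓝 (G a))) :
    SConv μ g G := by
  have hG : ∀ᵐ a ∂μ, |G a| ≤ B := by
    filter_upwards [h] with a ha
    exact le_of_tendsto ((continuous_abs.tendsto _).comp ha) (Eventually.of_forall fun n => bg n a)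
  have h1 := tendsto_lintegral_of_dominated_convergence (μ := μ)
    (F := fun n a => ENNReal.ofReal |g n a - G a|) (f := fun _ => 0)
    (fun _ => ENNReal.ofReal (B + B)) (fun n => ((mg n).sub mG).abs.ennreal_ofReal)
    (fun n => by
      filter_upwards [hG] with a ha
      refine ENNReal.ofReal_le_ofReal ?_
      exact (abs_sub _ _).trans (add_le_add (bg n a) ha))
    (by
      rw [lintegral_const]
      exact ENNReal.mul_ne_top ENNReal.ofReal_ne_top (measure_ne_top _ _))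
    (by
      filter_upwards [h] with a ha
      have h2 : Tendsto (fun n => |g n a - G a|) atTop (𝓝 |G a - G a|) :=
        (continuous_abs.tendsto _).comp (ha.sub_const (G a))
      rw [sub_self, abs_zero] at h2
      have h4 : Tendsto (fun n => ENNReal.ofReal |g n a - G a|) atTop (𝓝 (ENNReal.ofReal 0)) :=
        (ENNReal.continuous_ofReal.tendsto _).comp h2
      rw [ENNReal.ofReal_zero] at h4
      exact h4)
  simpa only [SConv, lintegral_const, zero_mul] using h1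

/-- composition with a function which is Lipschitz -/
theorem SConv.lip (hg : SConv μ g G) {f : ℝ → ℝ} {L : ℝ} 
    (hf : ∀ x y, |f x - f y| ≤ L * |x - y|) :
    SConv μ (fun n a => f (g n a)) fun a => f (G a) := by
  have h1 : ∀ n, ∫⁻ a, ENNReal.ofReal |f (g n a) - f (G a)| ∂μ ≤
      ENNReal.ofReal L * ∫⁻ a, ENNReal.ofReal |g n a - G a| ∂μ := by
    intro n
    rw [← lintegral_const_mul' _ _ ENNReal.ofReal_ne_top]
    refine lintegral_mono fun a => ?_
    rw [← ENNReal.ofReal_mul' (abs_nonneg _)]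
    exact ENNReal.ofReal_le_ofReal (hf _ _)
  have h2 : Tendsto (fun n => ENNReal.ofReal L * ∫⁻ a, ENNReal.ofReal |g n a - G a| ∂μ) atTop
      (𝓝 0) := by
    have := ENNReal.Tendsto.const_mul (a := ENNReal.ofReal L) hg (Or.inr ENNReal.ofReal_ne_top)
    simpa only [mul_zero] using this
  exact tendsto_of_tendsto_of_tendsto_of_le_of_le tendsto_const_nhds h2 (fun n => zero_le) h1

theorem SConv.mul_bdd (mg : ∀ n, Measurable (g n)) (mG : Measurable G)
    (mk : ∀ n, Measurable (k n)) (mK : Measurable K) (hg : SConv μ g G) (hk : SConv μ k K)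
    {B : ℝ} (bg : ∀ n a, |g n a| ≤ B) (bK : ∀ a, |K a| ≤ B) :
    SConv μ (fun n a => g n a * k n a) fun a => G a * K a := by
  have h1 : ∀ n, ∫⁻ a, ENNReal.ofReal |g n a * k n a - G a * K a| ∂μ ≤
      ENNReal.ofReal B * ∫⁻ a, ENNReal.ofReal |k n a - K a| ∂μ +
        ENNReal.ofReal B * ∫⁻ a, ENNReal.ofReal |g n a - G a| ∂μ := by
    intro n
    have m1 : Measurable fun a => ENNReal.ofReal B * ENNReal.ofReal |k n a - K a| :=
      ((mk n).sub mK).abs.ennreal_ofReal.const_mul _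
    rw [← lintegral_const_mul' _ _ ENNReal.ofReal_ne_top,
      ← lintegral_const_mul' _ _ ENNReal.ofReal_ne_top, ← lintegral_add_left m1]
    refine lintegral_mono fun a => ?_
    have hB : 0 ≤ B := (abs_nonneg _).trans (bg n a)
    simp only
    rw [← ENNReal.ofReal_mul hB, ← ENNReal.ofReal_mul hB,
      ← ENNReal.ofReal_add (by (clear * - hB; positivity)) (by (clear * - hB; positivity))]
    refine ENNReal.ofReal_le_ofReal ?_
    have e : g n a * k n a - G a * K a = g n a * (k n a - K a) + (g n a - G a) * K a := by ring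
    rw [e]
    refine (abs_add_le _ _).trans (add_le_add ?_ ?_)
    · rw [abs_mul]
      exact mul_le_mul_of_nonneg_right (bg n a) (abs_nonneg _)
    · rw [abs_mul, mul_comm]
      exact mul_le_mul_of_nonneg_right (bK a) (abs_nonneg _)
  have h2 : Tendsto (fun n => ENNReal.ofReal B * ∫⁻ a, ENNReal.ofReal |k n a - K a| ∂μ +
      ENNReal.ofReal B * ∫⁻ a, ENNReal.ofReal |g n a - G a| ∂μ) atTop (𝓝 0) := by
    have h3 := ENNReal.Tendsto.const_mul (a := ENNReal.ofReal B) hk (Or.inr ENNReal.ofReal_ne_top)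
    have h4 := ENNReal.Tendsto.const_mul (a := ENNReal.ofReal B) hg (Or.inr ENNReal.ofReal_ne_top)
    simpa only [mul_zero, add_zero] using h3.add h4
  exact tendsto_of_tendsto_of_tendsto_of_le_of_le tendsto_const_nhds h2 (fun n => zero_le) h1

/-- Vitali's theorem for products. -/
theorem w3b_vitali [IsFiniteMeasure μ] {g : ℕ → α → ℝ} (mg : ∀ n, Measurable (g n))
    (ui : UI μ fun n a => ENNReal.ofReal |g n a|) {θ : ℕ → α → ℝ} {Θ : α → ℝ}
    (mθ : ∀ n, Measurable (θ n)) (mΘ : Measurable Θ) {C : ℝ} (bθ : ∀ n a, |θ n a| ≤ C)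
    (bΘ : ∀ a, |Θ a| ≤ C) (hθ : SConv μ θ Θ) :
    Tendsto (fun n => ∫⁻ a, ENNReal.ofReal (|g n a| * |θ n a - Θ a|) ∂μ) atTop (𝓝 0) := by
  set c : ℝ := 2 * |C| + 1 with hc
  have hc0 : 0 < c := by (clear * -; positivity)
  have h1 : Tendsto (fun n => ∫⁻ a, ENNReal.ofReal (c⁻¹ * |θ n a - Θ a|) ∂μ) atTop (𝓝 0) := by
    have h2 := ENNReal.Tendsto.const_mul (a := ENNReal.ofReal c⁻¹) hθ
      (Or.inr ENNReal.ofReal_ne_top)
    rw [mul_zero] at h2
    refine h2.congr fun n => ?_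
    rw [← lintegral_const_mul' _ _ ENNReal.ofReal_ne_top]
    exact lintegral_congr fun a => (ENNReal.ofReal_mul (by (clear * -; positivity))).symm
  have h3 := ui.mul_tendsto_zero (fun n => (mg n).abs.ennreal_ofReal)
    (θ := fun n a => ENNReal.ofReal (c⁻¹ * |θ n a - Θ a|))
    (fun n => (((mθ n).sub mΘ).abs.const_mul _).ennreal_ofReal) (fun n a => by
      rw [← ENNReal.ofReal_one]
      refine ENNReal.ofReal_le_ofReal ?_
      rw [inv_mul_le_iff₀ hc0, mul_one]
      have h4 := abs_sub (θ n a) (Θ a)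
      have h5 := bθ n a
      have h6 := bΘ a
      have h7 := le_abs_self C
      linarith) h1
  have h4 := ENNReal.Tendsto.const_mul (a := ENNReal.ofReal c) h3 (Or.inr ENNReal.ofReal_ne_top)
  rw [mul_zero] at h4
  refine h4.congr fun n => ?_
  rw [← lintegral_const_mul' _ _ ENNReal.ofReal_ne_top]
  refine lintegral_congr fun a => ?_
  rw [← ENNReal.ofReal_mul (abs_nonneg _), ← ENNReal.ofReal_mul hc0.le]
  congr 1
  (clear * - hc0; field_simp)

/-- product of a strongly `L¹` convergent sequence and a bounded strongly convergent one -/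
theorem SConv.mul_strong [IsFiniteMeasure μ] (mg : ∀ n, Measurable (g n)) (mG : Measurable G)
    (mk : ∀ n, Measurable (k n)) (mK : Measurable K) (iG : Integrable G μ)
    (hg : SConv μ g G) (hk : SConv μ k K) {B : ℝ} (bk : ∀ n a, |k n a| ≤ B)
    (bK : ∀ a, |K a| ≤ B) : SConv μ (fun n a => g n a * k n a) fun a => G a * K a := by
  have ui : UI μ fun (_ : ℕ) a => ENNReal.ofReal |G a| := by
    refine UI.const mG.abs.ennreal_ofReal ?_
    have := iG.2
    rwa [HasFiniteIntegral, show (fun a => ‖G a‖ₑ) = fun a => ENNReal.ofReal |G a| from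
      funext fun a => by rw [← ofReal_norm, Real.norm_eq_abs]] at this
  have h0 := w3b_vitali (g := fun _ => G) (fun _ => mG) ui mk mK bk bK hk
  have h1 : ∀ n, ∫⁻ a, ENNReal.ofReal |g n a * k n a - G a * K a| ∂μ ≤
      ENNReal.ofReal B * ∫⁻ a, ENNReal.ofReal |g n a - G a| ∂μ +
        ∫⁻ a, ENNReal.ofReal (|G a| * |k n a - K a|) ∂μ := by
    intro n
    have m1 : Measurable fun a => ENNReal.ofReal B * ENNReal.ofReal |g n a - G a| :=
      ((mg n).sub mG).abs.ennreal_ofReal.const_mul _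
    rw [← lintegral_const_mul' _ _ ENNReal.ofReal_ne_top, ← lintegral_add_left m1]
    refine lintegral_mono fun a => ?_
    have hB : 0 ≤ B := (abs_nonneg _).trans (bk n a)
    simp only
    rw [← ENNReal.ofReal_mul hB, ← ENNReal.ofReal_add (by (clear * - hB; positivity)) (by (clear * -; positivity))]
    refine ENNReal.ofReal_le_ofReal ?_
    have e : g n a * k n a - G a * K a = (g n a - G a) * k n a + G a * (k n a - K a) := by ring
    rw [e]
    refine (abs_add_le _ _).trans (add_le_add ?_ ?_)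
    · rw [abs_mul, mul_comm]
      exact mul_le_mul_of_nonneg_right (bk n a) (abs_nonneg _)
    · rw [abs_mul]
  have h2 : Tendsto (fun n => ENNReal.ofReal B * ∫⁻ a, ENNReal.ofReal |g n a - G a| ∂μ +
      ∫⁻ a, ENNReal.ofReal (|G a| * |k n a - K a|) ∂μ) atTop (𝓝 0) := by
    have h3 := ENNReal.Tendsto.const_mul (a := ENNReal.ofReal B) hg (Or.inr ENNReal.ofReal_ne_top)
    simpa only [abs_nonneg, ENNReal.ofReal_mul, mul_zero, add_zero] using h3.add h0
  exact tendsto_of_tendsto_of_tendsto_of_le_of_le tendsto_const_nhds h2 (fun n => zero_le) h1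

/-- weakly convergent uniformly integrable times bounded strongly convergent -/
theorem WConv.mul [IsFiniteMeasure μ] (hg : WConv μ g G) (mg : ∀ n, Measurable (g n))
    (ui : UI μ fun n a => ENNReal.ofReal |g n a|) (mG : Measurable G) (iG : Integrable G μ)
    {θ : ℕ → α → ℝ} {Θ : α → ℝ} (mθ : ∀ n, Measurable (θ n)) (mΘ : Measurable Θ) {C : ℝ}
    (bθ : ∀ n a, |θ n a| ≤ C) (bΘ : ∀ a, |Θ a| ≤ C) (hθ : SConv μ θ Θ) :
    WConv μ (fun n a => g n a * θ n a) fun a => G a * Θ a := by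
  have ig : ∀ n, Integrable (g n) μ := by
    intro n
    obtain ⟨D, hD⟩ := ui.lintegral_le
    refine ⟨(mg n).aestronglyMeasurable, ?_⟩
    rw [HasFiniteIntegral, show (fun a => ‖g n a‖ₑ) = fun a => ENNReal.ofReal |g n a| from
      funext fun a => by rw [← ofReal_norm, Real.norm_eq_abs]]
    exact (hD n).trans_lt ENNReal.coe_lt_top
  intro φ mφ bφ
  have hC0 : ∀ a : α, 0 ≤ C := fun a => (abs_nonneg _).trans (bΘ a)
  have b1 : ∀ a, |Θ a * φ a| ≤ C := fun a => by
    rw [abs_mul]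
    have := mul_le_mul (bΘ a) (bφ a) (abs_nonneg _) (hC0 a)
    rwa [mul_one] at this
  have b2 : ∀ n a, |θ n a * φ a| ≤ C := fun n a => by
    rw [abs_mul]
    have := mul_le_mul (bθ n a) (bφ a) (abs_nonneg _) (hC0 a)
    rwa [mul_one] at this
  have h1 : Tendsto (fun n => ∫ a, g n a * (Θ a * φ a) ∂μ) atTop
      (𝓝 (∫ a, G a * (Θ a * φ a) ∂μ)) := hg.test (mΘ.mul mφ) b1
  have h2 : Tendsto (fun n => (∫⁻ a, ENNReal.ofReal (|g n a| * |θ n a - Θ a|) ∂μ).toReal) atTop
      (𝓝 0) := by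
    have h3 := (ENNReal.tendsto_toReal ENNReal.zero_ne_top).comp
      (w3b_vitali mg ui mθ mΘ bθ bΘ hθ)
    rw [ENNReal.toReal_zero] at h3
    exact h3
  have h4 : ∀ n, |∫ a, g n a * θ n a * φ a ∂μ - ∫ a, g n a * (Θ a * φ a) ∂μ| ≤
      (∫⁻ a, ENNReal.ofReal (|g n a| * |θ n a - Θ a|) ∂μ).toReal := by
    intro n
    have i1 : Integrable (fun a => g n a * (θ n a * φ a)) μ :=
      w3_int_mul (ig n) ((mθ n).mul mφ) (b2 n)
    have i2 : Integrable (fun a => g n a * (Θ a * φ a)) μ := w3_int_mul (ig n) (mΘ.mul mφ) b1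
    have i1' : Integrable (fun a => g n a * θ n a * φ a) μ := by
      simpa only [mul_assoc] using i1
    have i3 : Integrable (fun a => |g n a| * |θ n a - Θ a|) μ := by
      have i4 : Integrable (fun a => g n a * (θ n a - Θ a)) μ :=
        w3_int_mul (ig n) ((mθ n).sub mΘ) (C := C + C) fun a =>
          (abs_sub _ _).trans (add_le_add (bθ n a) (bΘ a))
      refine i4.abs.congr (Eventually.of_forall fun a => ?_)
      simp only [abs_mul]
    have e : (∫⁻ a, ENNReal.ofReal (|g n a| * |θ n a - Θ a|) ∂μ).toReal =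
        ∫ a, |g n a| * |θ n a - Θ a| ∂μ := by
      rw [← ofReal_integral_eq_lintegral_ofReal i3 (Eventually.of_forall fun a => by (clear * -; positivity))]
      exact ENNReal.toReal_ofReal (integral_nonneg fun a => by (clear * -; positivity))
    rw [e, ← integral_sub i1' i2]
    rw [← Real.norm_eq_abs]
    refine (norm_integral_le_integral_norm _).trans ?_
    refine integral_mono (i1'.sub i2).norm i3 fun a => ?_
    simp only [Real.norm_eq_abs]
    rw [show g n a * θ n a * φ a - g n a * (Θ a * φ a) = g n a * (θ n a - Θ a) * φ a by ring,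
      abs_mul, abs_mul]
    calc |g n a| * |θ n a - Θ a| * |φ a| ≤ |g n a| * |θ n a - Θ a| * 1 :=
          mul_le_mul_of_nonneg_left (bφ a) (by (clear * -; positivity))
      _ = _ := mul_one _
  have h5 : Tendsto (fun n => ∫ a, g n a * θ n a * φ a ∂μ - ∫ a, g n a * (Θ a * φ a) ∂μ) atTop
      (𝓝 0) := squeeze_zero_norm h4 h2
  have h6 := h5.add h1
  simp only [sub_add_cancel, zero_add] at h6
  have e2 : ∫ a, G a * (Θ a * φ a) ∂μ = ∫ a, G a * Θ a * φ a ∂μ := by
    simp only [mul_assoc]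
  rw [← e2]
  exact h6

/-- Weak convergence of a bounded sequence, tested with an integrable function. -/
theorem w3b_test_int [IsFiniteMeasure μ] (hg : WConv μ g G) (mg : ∀ n, Measurable (g n))
    (mG : Measurable G) {B : ℝ} (bg : ∀ n a, |g n a| ≤ B) (bG : ∀ a, |G a| ≤ B)
    (iK : Integrable K μ) :
    Tendsto (fun n => ∫ a, g n a * K a ∂μ) atTop (𝓝 (∫ a, G a * K a ∂μ)) := by
  obtain ⟨K', mK', eK⟩ : ∃ K' : α → ℝ, Measurable K' ∧ K =ᵐ[μ] K' :=
    ⟨iK.1.aemeasurable.mk K, iK.1.aemeasurable.measurable_mk, iK.1.aemeasurable.ae_eq_mk⟩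
  have iK' : Integrable K' μ := iK.congr eK
  have e1 : ∀ f : α → ℝ, ∫ a, f a * K a ∂μ = ∫ a, f a * K' a ∂μ := fun f =>
    integral_congr_ae (eK.mono fun a ha => by simp only [ha])
  simp only [e1]
  -- truncations
  set T : ℕ → α → ℝ := fun m a => max (-(m : ℝ)) (min (K' a) m) with hT
  have mT : ∀ m, Measurable (T m) := fun m =>
    measurable_const.max (mK'.min measurable_const)
  have bT : ∀ m a, |T m a| ≤ m := by
    intro m a
    have hm : (0 : ℝ) ≤ m := Nat.cast_nonneg m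
    rw [abs_le]
    exact ⟨le_max_left _ _, max_le (by linarith) (min_le_right _ _)⟩
  have bT2 : ∀ m a, |T m a - K' a| ≤ |K' a| := by
    intro m a
    have hm : (0 : ℝ) ≤ m := Nat.cast_nonneg m
    simp only [hT]
    rcases le_total (K' a) m with h | h
    · rw [min_eq_left h]
      rcases le_total (-(m : ℝ)) (K' a) with h2 | h2
      · rw [max_eq_right h2, sub_self, abs_zero]; exact abs_nonneg _
      · rw [max_eq_left h2, abs_of_nonneg (by linarith only [h2]), abs_of_nonpos (by linarith only [h2])]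
        linarith only []
    · rw [min_eq_right h, max_eq_right (by linarith only []), abs_of_nonpos (by linarith),
        abs_of_nonneg (by linarith only [h])]
      linarith
  have hTlim : Tendsto (fun m => ∫ a, |T m a - K' a| ∂μ) atTop (𝓝 0) := by
    have := tendsto_integral_of_dominated_convergence (μ := μ)
      (F := fun m a => |T m a - K' a|) (f := fun _ => 0) (fun a => |K' a|)
      (fun m => ((mT m).sub mK').abs.aestronglyMeasurable) iK'.abs
      (fun m => Eventually.of_forall fun a => by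
        rw [Real.norm_eq_abs, abs_abs]; exact bT2 m a)
      (Eventually.of_forall fun a => by
        obtain ⟨m₀, hm₀⟩ := exists_nat_ge |K' a|
        refine tendsto_const_nhds.congr' ?_
        filter_upwards [eventually_ge_atTop m₀] with m hm
        have h1 : |K' a| ≤ m := hm₀.trans (by exact_mod_cast hm)
        have h2 := abs_le.1 h1
        simp only [hT]
        rw [min_eq_left h2.2, max_eq_right h2.1, sub_self, abs_zero])
    simpa only [integral_zero] using this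
  have hB0 : ∀ a : α, 0 ≤ B := fun a => (abs_nonneg _).trans (bG a)
  have hdiff : ∀ (f : α → ℝ), Measurable f → (∀ a, |f a| ≤ B) → ∀ m,
      |∫ a, f a * K' a ∂μ - ∫ a, f a * T m a ∂μ| ≤ |B| * ∫ a, |T m a - K' a| ∂μ := by
    intro f mf bf m
    have iT : Integrable (T m) μ :=
      Integrable.of_bound (mT m).aestronglyMeasurable m (Eventually.of_forall fun a => bT m a)
    have i1 : Integrable (fun a => f a * K' a) μ := by
      simpa only [mul_comm] using w3_int_mul iK' mf bf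
    have i2 : Integrable (fun a => f a * T m a) μ := by
      simpa only [mul_comm] using w3_int_mul iT mf bf
    rw [← integral_sub i1 i2, ← integral_const_mul]
    rw [← Real.norm_eq_abs]
    refine (norm_integral_le_integral_norm _).trans ?_
    refine integral_mono (i1.sub i2).norm ((iT.sub iK').abs.const_mul _) fun a => ?_
    simp only [Real.norm_eq_abs]
    rw [← mul_sub, abs_mul, abs_sub_comm (K' a)]
    exact mul_le_mul_of_nonneg_right ((bf a).trans (le_abs_self B)) (abs_nonneg _)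
  rw [Metric.tendsto_atTop]
  intro ε hε
  have hc : 0 < |B| + 1 := by (clear * -; positivity)
  obtain ⟨m, hm⟩ := ((Metric.tendsto_atTop.1 hTlim) (ε / (4 * (|B| + 1))) (by positivity))
  have hm' := hm m le_rfl
  rw [Real.dist_eq, sub_zero, abs_of_nonneg (integral_nonneg fun a => abs_nonneg _)] at hm'
  obtain ⟨n₀, hn₀⟩ := ((Metric.tendsto_atTop.1 (hg.test (mT m) (bT m))) (ε / 4) (by positivity))
  refine ⟨n₀, fun n hn => ?_⟩
  have h1 := hn₀ n hn
  rw [Real.dist_eq] at h1 ⊢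
  have h2 := hdiff (g n) (mg n) (bg n) m
  have h3 := hdiff G mG bG m
  have h4 : |B| * ∫ a, |T m a - K' a| ∂μ ≤ ε / 4 := by
    have h5 : |B| * ∫ a, |T m a - K' a| ∂μ ≤ (|B| + 1) * (ε / (4 * (|B| + 1))) :=
      mul_le_mul (by linarith only []) hm'.le (integral_nonneg fun a => abs_nonneg _) hc.le
    have h6 : (|B| + 1) * (ε / (4 * (|B| + 1))) = ε / 4 := by (clear * - hε; field_simp)
    linarith only [h5, h6]
  have h5 : ∫ a, g n a * K' a ∂μ - ∫ a, G a * K' a ∂μ =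
      (∫ a, g n a * K' a ∂μ - ∫ a, g n a * T m a ∂μ) +
      (∫ a, g n a * T m a ∂μ - ∫ a, G a * T m a ∂μ) -
      (∫ a, G a * K' a ∂μ - ∫ a, G a * T m a ∂μ) := by ring
  rw [h5]
  have h6 := abs_sub ((∫ a, g n a * K' a ∂μ - ∫ a, g n a * T m a ∂μ) +
      (∫ a, g n a * T m a ∂μ - ∫ a, G a * T m a ∂μ)) (∫ a, G a * K' a ∂μ - ∫ a, G a * T m a ∂μ)
  have h7 := abs_add_le (∫ a, g n a * K' a ∂μ - ∫ a, g n a * T m a ∂μ)
      (∫ a, g n a * T m a ∂μ - ∫ a, G a * T m a ∂μ)
  linarith only [hε, h1, h2, h3, h4, h6, h7]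

/-- bounded weakly convergent times strongly `L¹` convergent -/
theorem WConv.mul_of_bdd [IsFiniteMeasure μ] (hg : WConv μ g G) (mg : ∀ n, Measurable (g n))
    (mG : Measurable G) {B : ℝ} (bg : ∀ n a, |g n a| ≤ B) (bG : ∀ a, |G a| ≤ B)
    (hk : SConv μ k K) (ik : ∀ n, Integrable (k n) μ) (iK : Integrable K μ) :
    WConv μ (fun n a => g n a * k n a) fun a => G a * K a := by
  intro φ mφ bφ
  have iKφ : Integrable (fun a => K a * φ a) μ := w3_int_mul iK mφ bφ
  have h1 := w3b_test_int hg mg mG bg bG iKφ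
  have h2 : Tendsto (fun n => |B| * (∫⁻ a, ENNReal.ofReal |k n a - K a| ∂μ).toReal) atTop
      (𝓝 0) := by
    have h3 := (ENNReal.tendsto_toReal ENNReal.zero_ne_top).comp hk
    rw [ENNReal.toReal_zero] at h3
    simpa only [Function.comp_apply, mul_zero] using h3.const_mul |B|
  have h4 : ∀ n, |∫ a, g n a * k n a * φ a ∂μ - ∫ a, g n a * (K a * φ a) ∂μ| ≤
      |B| * (∫⁻ a, ENNReal.ofReal |k n a - K a| ∂μ).toReal := by
    intro n
    have i0 : Integrable (fun a => k n a * φ a) μ := w3_int_mul (ik n) mφ bφ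
    have i1 : Integrable (fun a => g n a * k n a * φ a) μ := by
      refine (w3_int_mul i0 (mg n) (bg n)).congr (Eventually.of_forall fun a => ?_)
      simp only
      ring
    have i2 : Integrable (fun a => g n a * (K a * φ a)) μ := by
      refine (w3_int_mul iKφ (mg n) (bg n)).congr (Eventually.of_forall fun a => ?_)
      simp only
      ring
    have i3 : Integrable (fun a => |k n a - K a|) μ := ((ik n).sub iK).abs
    have e : (∫⁻ a, ENNReal.ofReal |k n a - K a| ∂μ).toReal = ∫ a, |k n a - K a| ∂μ := by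
      rw [← ofReal_integral_eq_lintegral_ofReal i3 (Eventually.of_forall fun a => abs_nonneg _)]
      exact ENNReal.toReal_ofReal (integral_nonneg fun a => abs_nonneg _)
    rw [e, ← integral_sub i1 i2, ← integral_const_mul]
    rw [← Real.norm_eq_abs]
    refine (norm_integral_le_integral_norm _).trans ?_
    refine integral_mono (i1.sub i2).norm (i3.const_mul _) fun a => ?_
    simp only [Real.norm_eq_abs]
    rw [show g n a * k n a * φ a - g n a * (K a * φ a) = g n a * (k n a - K a) * φ a by ring,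
      abs_mul, abs_mul]
    calc |g n a| * |k n a - K a| * |φ a| ≤ |g n a| * |k n a - K a| * 1 :=
          mul_le_mul_of_nonneg_left (bφ a) (by (clear * -; positivity))
      _ ≤ |B| * |k n a - K a| := by
          rw [mul_one]
          exact mul_le_mul_of_nonneg_right ((bg n a).trans (le_abs_self B)) (abs_nonneg _)
  have h5 : Tendsto (fun n => ∫ a, g n a * k n a * φ a ∂μ - ∫ a, g n a * (K a * φ a) ∂μ) atTop
      (𝓝 0) := squeeze_zero_norm h4 h2
  have h6 := h5.add h1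
  simp only [sub_add_cancel, zero_add] at h6
  have e2 : ∫ a, G a * (K a * φ a) ∂μ = ∫ a, G a * K a * φ a ∂μ := by
    simp only [mul_assoc]
  rw [← e2]
  exact h6

/-- change of variables -/
theorem WConv.comp_equiv (hg : WConv μ g G) (e : β ≃ᵐ α) (he : MeasurePreserving e ν μ) :
    WConv ν (fun n b => g n (e b)) fun b => G (e b) := by
  intro θ mθ bθ
  have h1 := hg (fun a => θ (e.symm a)) (mθ.comp e.symm.measurable) fun a => bθ _
  have h2 : ∀ f : α → ℝ, ∫ b, f (e b) * θ b ∂ν = ∫ a, f a * θ (e.symm a) ∂μ := by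
    intro f
    rw [← he.integral_comp' (fun a => f a * θ (e.symm a))]
    refine integral_congr_ae (Eventually.of_forall fun b => ?_)
    simp only [MeasurableEquiv.symm_apply_apply]
  simp only [h2]
  exact h1

/-- marginals -/
theorem WConv.marginal [SFinite μ] [SFinite ν] {g : ℕ → α × β → ℝ} {G : α × β → ℝ}
    (hg : WConv (μ.prod ν) g G) (ig : ∀ n, Integrable (g n) (μ.prod ν))
    (iG : Integrable G (μ.prod ν)) :
    WConv μ (fun n a => ∫ b, g n (a, b) ∂ν) fun a => ∫ b, G (a, b) ∂ν := by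
  intro θ mθ bθ
  have h1 := hg (fun p => θ p.1) (mθ.comp measurable_fst) fun p => bθ _
  have h2 : ∀ f : α × β → ℝ, Integrable f (μ.prod ν) →
      ∫ p, f p * θ p.1 ∂(μ.prod ν) = ∫ a, (∫ b, f (a, b) ∂ν) * θ a ∂μ := by
    intro f hf
    have i1 : Integrable (fun p : α × β => f p * θ p.1) (μ.prod ν) :=
      w3_int_mul hf (mθ.comp measurable_fst) fun p => bθ _
    rw [integral_prod _ i1]
    refine integral_congr_ae (Eventually.of_forall fun a => ?_)
    simp only
    rw [integral_mul_const]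
  rw [h2 G iG] at h1
  refine h1.congr fun n => ?_
  exact h2 (g n) (ig n)

end Vale.Agent.P140.DL
end
end
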