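import Vale.Agent.P140.MathlibUsed
import Vale.Agent.P140.Bd3.B1
import Vale.Agent.P140.Stt

set_option linter.all false

attribute [local instance 5000] Vale.Agent.P140.Sc.a01 Vale.Agent.P140.Sc.a02 Vale.Agent.P140.Sc.a03 Vale.Agent.P140.Sc.a04 Vale.Agent.P140.Sc.a05 Vale.Agent.P140.Sc.a06 Vale.Agent.P140.Sc.a07 Vale.Agent.P140.Sc.a08 Vale.Agent.P140.Sc.a09 Vale.Agent.P140.Sc.a10 Vale.Agent.P140.Sc.a11 Vale.Agent.P140.Sc.a12 Vale.Agent.P140.Sc.a13 Vale.Agent.P140.Sc.a14 Vale.Agent.P140.Sc.a15 Vale.Agent.P140.Sc.a16 Vale.Agent.P140.Sc.a17 Vale.Agent.P140.Sc.a18 Vale.Agent.P140.Sc.a19 Vale.Agent.P140.Sc.a20 Vale.Agent.P140.Sc.a21 Vale.Agent.P140.Sc.a22 Vale.Agent.P140.Sc.a23 Vale.Agent.P140.Sc.a24 Vale.Agent.P140.Sc.a25 Vale.Agent.P140.Sc.a26 Vale.Agent.P140.Sc.a27 Vale.Agent.P140.Sc.a28 Vale.Agent.P140.Sc.a29 Vale.Agent.P140.Sc.a30 Vale.Agent.P140.Sc.a31 Vale.Agent.P140.Sc.a32 Vale.Agent.P140.Sc.a33 Vale.Agent.P140.Sc.r01 Vale.Agent.P140.Sc.r02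 Vale.Agent.P140.Sc.r03 Vale.Agent.P140.Sc.r04 Vale.Agent.P140.Sc.r05 Vale.Agent.P140.Sc.r06 Vale.Agent.P140.Sc.r07 Vale.Agent.P140.Sc.r08 Vale.Agent.P140.Sc.r09 Vale.Agent.P140.Sc.r10 Vale.Agent.P140.Sc.r11 Vale.Agent.P140.Sc.r12 Vale.Agent.P140.Sc.r13 Vale.Agent.P140.Sc.r14 Vale.Agent.P140.Sc.r15 Vale.Agent.P140.Sc.r16 Vale.Agent.P140.Sc.r17 Vale.Agent.P140.Sc.r18

section

open MeasureTheory Set Filter
open scoped ENNReal Topology NNReal

noncomputable section

namespace Vale.Agent.P140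

variable {T : ℝ} {F0 G0 : T3 → V → ℝ} {F G : ℝ → T3 → V → ℝ} {ψ : V → ℝ≥0∞}

end Vale.Agent.P140
end
end

section

open MeasureTheory Set Filter
open scoped ENNReal Topology NNReal

noncomputable section

namespace Vale.Agent.P140

variable {T : ℝ} {F0 G0 : T3 → V → ℝ} {F G : ℝ → T3 → V → ℝ} {ψ : V → ℝ≥0∞}

theorem measurable_slice2 {F : ℝ → T3 → V → ℝ}
    (hF : Measurable fun p : ℝ × T3 × V => F p.1 p.2.1 p.2.2) (t : ℝ) :
    Measurable fun p : T3 × V => F t p.1 p.2 :=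
  hF.comp (by fun_prop : Measurable fun p : T3 × V => (t, p))

end Vale.Agent.P140
end
end

section

/-! Integrals over balls of functions on the torus. -/

open MeasureTheory Set Filter
open scoped ENNReal Topology NNReal

noncomputable section

namespace Vale.Agent.P140

end Vale.Agent.P140
end
end

section

/-! Consequences of the definition of renormalized entropy solutions used in the uniqueness proof. -/

open MeasureTheory Set Filter
open scoped ENNReal Topology NNReal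

noncomputable section

namespace Vale.Agent.P140

variable {T : ℝ} {F0 G0 : T3 → V → ℝ} {F G : ℝ → T3 → V → ℝ}

end Vale.Agent.P140
end
end

section

open MeasureTheory Set
open scoped ENNReal

namespace Vale.Agent.P140

/-- the surface area of the unit sphere is `4π` -/
theorem surf_univ : surf univ = ENNReal.ofReal (4 * Real.pi) := by
  unfold surf
  rw [Measure.toSphere_apply_univ]
  have h : volume (Metric.ball (0 : V) 1) = ENNReal.ofReal (Real.pi * 4 / 3) := by
    rw [EuclideanSpace.volume_ball_fin_three]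
    simp
  rw [h]
  have h2 : Module.finrank ℝ V = 3 := by simp
  rw [h2, show ((3 : ℕ) : ℝ≥0∞) = ENNReal.ofReal 3 by simp, ← ENNReal.ofReal_mul (by norm_num)]
  congr 1
  ring

end Vale.Agent.P140
end

section

/-!
P140-NU, module G: elementary facts on the parameters.
-/

open MeasureTheory Set Filter
open scoped ENNReal Topology

noncomputable section

namespace Vale.Agent.P140.NU

/-- smallness of the thermal constant -/
theorem EvP.kdel (k0 : ℝ → ℝ → ℕ → ℝ)
    (h0 : ∀ c lam : ℝ, 1 ≤ c → 0 < lam → lam < 1 → ∀ K : ℕ, 0 < k0 c lam K) :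
    EvP fun P => P.kdel < k0 P.c P.lam P.K := by
  unfold EvP
  filter_upwards [eventually_ge_atTop 1] with c hc
  have e1 : ∀ᶠ lam in 𝓝[<] (1 : ℝ), 0 < lam :=
    eventually_nhdsWithin_of_eventually_nhds (eventually_gt_nhds zero_lt_one)
  filter_upwards [e1, self_mem_nhdsWithin] with lam h1 h2
  filter_upwards with K
  have e2 : ∀ᶠ kdel in 𝓝[>] (0 : ℝ), kdel < k0 c lam K :=
    eventually_nhdsWithin_of_eventually_nhds (eventually_lt_nhds (h0 c lam hc h1 h2 K))
  filter_upwards [e2] with kdel h3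
  intro j0 _
  exact h3

/-- basic facts on the parameters -/
structure Par.Good (P : Par) : Prop where
  hc : 100 ≤ P.c
  hl0 : 1 / 2 < P.lam
  hl1 : P.lam < 1
  hk0 : 0 < P.kdel
  hk1 : P.kdel < (P.w * P.lam) ^ 2 * (P.lam ^ (-(gg / 4)) - 1) / 10 ^ 4
  hj : P.lam ^ P.j0 ≤ 1 / 64

theorem evP_good : EvP Par.Good := by
  have hk := EvP.kdel (fun c lam K => (1 / (10 ^ 20 * c ^ 2) * lam) ^ 2 * (lam ^ (-(gg / 4)) - 1) / 10 ^ 4)
    (by
      intro c lam hc h1 h2 K
      have : 1 < lam ^ (-(gg / 4)) := by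
        apply Real.one_lt_rpow_of_pos_of_lt_one_of_neg h1 h2
        unfold gg
        norm_num
      have : 0 < lam ^ (-(gg / 4)) - 1 := by linarith
      positivity)
  unfold EvP at *
  filter_upwards [hk, eventually_ge_atTop 100] with c hk1 hc
  have e1 : ∀ᶠ lam in 𝓝[<] (1 : ℝ), 1 / 2 < lam :=
    eventually_nhdsWithin_of_eventually_nhds (eventually_gt_nhds (by norm_num))
  filter_upwards [hk1, e1, self_mem_nhdsWithin] with lam hk2 h1 h2
  filter_upwards [hk2] with K hk3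
  filter_upwards [hk3, self_mem_nhdsWithin] with kdel hk4 h3
  intro j0 hj
  exact ⟨hc, h1, h2, h3, hk4 j0 hj, hj⟩

namespace Par.Good

variable {P : Par} (hP : P.Good)

include hP

theorem c_pos : 0 < P.c := lt_of_lt_of_le (by norm_num) hP.hc

theorem lam_pos : 0 < P.lam := lt_trans (by norm_num) hP.hl0

theorem w_pos : 0 < P.w := by
  have := hP.c_pos
  unfold Par.w
  positivity

theorem w_le : P.w ≤ 1 / 10 ^ 20 := by
  have h := hP.hc
  unfold Par.w
  apply one_div_le_one_div_of_le (by norm_num)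
  linarith only [sq_nonneg (P.c - 1), h]

theorem lamj_pos (j : ℕ) : 0 < P.lam ^ j := pow_pos hP.lam_pos j

theorem lamj_le_one (j : ℕ) : P.lam ^ j ≤ 1 := pow_le_one₀ hP.lam_pos.le hP.hl1.le

theorem ss_pos (n : ℕ) : 0 < P.ss n := by
  have h1 := hP.lam_pos
  have h2 := hP.w_pos
  unfold Par.ss
  positivity

theorem TT_pos (n : ℕ) {t : ℝ} (ht : 0 ≤ t) : 0 < P.TT n t := by
  have := hP.ss_pos n
  unfold Par.TT
  linarith

theorem del_pos (j : ℕ) : 0 < P.del j := by
  have h1 := hP.lam_pos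
  have h2 := hP.hk0
  unfold Par.del
  positivity

theorem imp_pos (j : ℕ) : 0 < P.imp j := by
  have h1 := hP.lam_pos
  have h2 := hP.del_pos j
  unfold Par.imp
  positivity

theorem amp_pos (j : ℕ) : 0 < P.amp j := by
  have h1 := hP.c_pos
  have h2 := hP.del_pos j
  have h3 := hP.imp_pos j
  have h4 := hP.w_pos
  unfold Par.amp
  positivity

theorem gap_pos : 0 < P.lam ^ (-(gg / 4)) - 1 := by
  have : 1 < P.lam ^ (-(gg / 4)) := by
    apply Real.one_lt_rpow_of_pos_of_lt_one_of_neg hP.lam_pos hP.hl1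
    unfold gg
    norm_num
  linarith

/-- `del j ≤ kdel (λ^j)^8` -/
theorem del_le (j : ℕ) : P.del j ≤ P.kdel * (P.lam ^ j) ^ 8 := by
  unfold Par.del Par.Q
  apply mul_le_mul_of_nonneg_left _ hP.hk0.le
  exact pow_le_pow_of_le_one (hP.lamj_pos j).le (hP.lamj_le_one j) (by omega)

end Par.Good

end Vale.Agent.P140.NU
end
end

section

/-!
P140-NU, module G: products of collisions of two beams.
-/

open MeasureTheory Set Filter Metric
open scoped ENNReal Topology

noncomputable section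

namespace Vale.Agent.P140.NU.Gb

theorem Gam_ne_zero {f g : V → ℝ≥0∞} {v : V} (h : Gam f g v ≠ 0) :
    ∃ (w : V) (ω : S2), f (post v w ω) ≠ 0 ∧ g (postStar v w ω) ≠ 0 := by
  by_contra hcon
  push Not at hcon
  apply h
  unfold Gam
  have h0 : ∀ (w : V) (ω : S2), f (post v w ω) * g (postStar v w ω) = 0 := by
    intro w ω
    by_cases h1 : f (post v w ω) = 0
    · rw [h1, zero_mul]
    · rw [hcon w ω h1, mul_zero]
  simp [h0]

theorem post_sub (v w u : V) (o : S2) : post (v - u) (w - u) o = post v w o - u := by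
  unfold post relA
  rw [sub_sub_sub_cancel_right]
  abel

theorem postStar_sub (v w u : V) (o : S2) : postStar (v - u) (w - u) o = postStar v w o - u := by
  unfold postStar relA
  rw [sub_sub_sub_cancel_right]
  abel

theorem energy_post_sub (v w u : V) (o : S2) :
    ‖post v w o - u‖ ^ 2 + ‖postStar v w o - u‖ ^ 2 = ‖v - u‖ ^ 2 + ‖w - u‖ ^ 2 := by
  rw [← post_sub, ← postStar_sub]
  exact energy_post _ _ _

/-- volume of the unit ball -/
def kap : ℝ := (volume (ball (0 : V) 1)).toReal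

theorem kap_eq : volume (ball (0 : V) 1) = ENNReal.ofReal kap := by
  unfold kap
  rw [ENNReal.ofReal_toReal measure_ball_lt_top.ne]

theorem kap_pos : 0 < kap := ENNReal.toReal_pos (measure_ball_pos _ _ one_pos).ne'
  measure_ball_lt_top.ne

theorem vol_closedBall (u : V) {r : ℝ} (hr : 0 ≤ r) :
    volume (closedBall u r) = ENNReal.ofReal (kap * r ^ 3) := by
  rw [Measure.addHaar_closedBall _ _ hr, kap_eq, ← ENNReal.ofReal_mul (by positivity)]
  congr 1
  have : Module.finrank ℝ V = 3 := by simp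
  rw [this]
  ring

/-- (G3) products of two bounded beams -/
theorem Gam_beam_le {f g : V → ℝ≥0∞} {M0 M1 : ℝ≥0∞} {u : V} {ρ : ℝ} (hρ : 0 ≤ ρ)
    (hf : ∀ z, f z ≤ M0) (hg : ∀ z, g z ≤ M1) (sf : ∀ z, f z ≠ 0 → ‖z - u‖ ≤ ρ)
    (sg : ∀ z, g z ≠ 0 → ‖z - u‖ ≤ ρ) (v : V) :
    Gam f g v ≤ ENNReal.ofReal (64 * Real.pi * kap * ρ ^ 4) * (M0 * M1) := by
  have key : ∀ (w : V) (ω : S2), ENNReal.ofReal |relA v w ω| * (f (post v w ω) * g (postStar v w ω)) ≤
      (closedBall u (2 * ρ)).indicator (fun _ => ENNReal.ofReal (2 * ρ) * (M0 * M1)) w := by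
    intro w ω
    by_cases h1 : f (post v w ω) = 0
    · rw [h1]; simp
    by_cases h2 : g (postStar v w ω) = 0
    · rw [h2]; simp
    have h3 := sf _ h1
    have h4 := sg _ h2
    have h5 := energy_post_sub v w u ω
    have h6 : ‖v - u‖ ^ 2 + ‖w - u‖ ^ 2 ≤ 2 * ρ ^ 2 := by
      rw [← h5]
      linarith only [mul_nonneg (sub_nonneg.2 h4) (sub_nonneg.2 (norm_nonneg (postStar v w ω - u))), mul_nonneg (sub_nonneg.2 h4) (sub_nonneg.2 h4), mul_nonneg (sub_nonneg.2 h3) (sub_nonneg.2 (norm_nonneg (postStar v w ω - u))), mul_nonneg (sub_nonneg.2 h3) (sub_nonneg.2 (norm_nonneg (post v w ω - u))), mul_nonneg (sub_nonneg.2 h3) (sub_nonneg.2 h4)]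
    have h7 : ‖w - u‖ ≤ 2 * ρ := by
      (by_contra nlg; linarith only [nlg, mul_nonneg (sub_nonneg.2 hρ) (sub_nonneg.2 (norm_nonneg (w - u))), mul_nonneg (le_of_lt (sub_pos.2 (not_le.1 nlg))) (sub_nonneg.2 hρ), mul_pos (sub_pos.2 (not_le.1 nlg)) (sub_pos.2 (not_le.1 nlg)), sq_nonneg ‖v - u‖, h6])
    have h8 : ‖v - w‖ ≤ 2 * ρ := by
      have : ‖v - w‖ ≤ ‖v - u‖ + ‖w - u‖ := by
        have := norm_sub_le (v - u) (w - u)
        rwa [sub_sub_sub_cancel_right] at this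
      (by_contra nlg; linarith only [nlg, mul_nonneg (sub_nonneg.2 this) (sub_nonneg.2 (norm_nonneg (v - u))), mul_nonneg (sub_nonneg.2 this) (sub_nonneg.2 (norm_nonneg (w - u))), mul_nonneg (sub_nonneg.2 h7) (sub_nonneg.2 this), mul_nonneg (le_of_lt (sub_pos.2 (not_le.1 nlg))) (sub_nonneg.2 (norm_nonneg (w - u))), mul_nonneg (le_of_lt (sub_pos.2 (not_le.1 nlg))) (sub_nonneg.2 this), mul_nonneg (le_of_lt (sub_pos.2 (not_le.1 nlg))) (sub_nonneg.2 h7), mul_pos (sub_pos.2 (not_le.1 nlg)) (sub_pos.2 (not_le.1 nlg)), sq_nonneg (‖v - u‖ - ‖w - u‖), h6])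
    have h9 : |relA v w ω| ≤ 2 * ρ := by
      unfold relA
      calc |inner ℝ (v - w) (ω : V)| ≤ ‖v - w‖ * ‖(ω : V)‖ := abs_real_inner_le_norm _ _
        _ = ‖v - w‖ := by rw [norm_o, mul_one]
        _ ≤ 2 * ρ := h8
    rw [indicator_of_mem (by rw [mem_closedBall, dist_eq_norm]; exact h7)]
    exact mul_le_mul' (ENNReal.ofReal_le_ofReal h9) (mul_le_mul' (hf _) (hg _))
  calc Gam f g v ≤ ∫⁻ w : V, ∫⁻ _ω : S2, (closedBall u (2 * ρ)).indicator
        (fun _ => ENNReal.ofReal (2 * ρ) * (M0 * M1)) w ∂surf := by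
        unfold Gam
        exact lintegral_mono fun w => lintegral_mono fun ω => key w ω
    _ = ENNReal.ofReal (2 * ρ) * (M0 * M1) * ENNReal.ofReal (kap * (2 * ρ) ^ 3) *
        ENNReal.ofReal (4 * Real.pi) := by
        simp only [lintegral_const, surf_univ]
        rw [lintegral_mul_const _ (measurable_const.indicator measurableSet_closedBall),
          lintegral_indicator measurableSet_closedBall, setLIntegral_const,
          vol_closedBall u (by positivity)]
    _ = ENNReal.ofReal (64 * Real.pi * kap * ρ ^ 4) * (M0 * M1) := by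
        have hk := kap_pos
        have e : ENNReal.ofReal (64 * Real.pi * kap * ρ ^ 4) =
            ENNReal.ofReal (2 * ρ) * ENNReal.ofReal (kap * (2 * ρ) ^ 3) *
              ENNReal.ofReal (4 * Real.pi) := by
          rw [← ENNReal.ofReal_mul (by positivity), ← ENNReal.ofReal_mul (by positivity)]
          congr 1
          ring
        rw [e]
        ring

/-- (G3) support -/
theorem Gam_beam_supp {f g : V → ℝ≥0∞} {u : V} {ρ : ℝ} (hρ : 0 ≤ ρ)
    (sf : ∀ z, f z ≠ 0 → ‖z - u‖ ≤ ρ) (sg : ∀ z, g z ≠ 0 → ‖z - u‖ ≤ ρ) {v : V}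
    (h : Gam f g v ≠ 0) : ‖v - u‖ ^ 2 ≤ 2 * ρ ^ 2 := by
  obtain ⟨w, ω, h1, h2⟩ := Gam_ne_zero h
  have h3 := sf _ h1
  have h4 := sg _ h2
  have h5 := energy_post_sub v w u ω
  linarith only [mul_nonneg (sub_nonneg.2 h4) (sub_nonneg.2 (norm_nonneg (postStar v w ω - u))), mul_nonneg (sub_nonneg.2 h4) (sub_nonneg.2 h4), mul_nonneg (sub_nonneg.2 h3) (sub_nonneg.2 (norm_nonneg (postStar v w ω - u))), mul_nonneg (sub_nonneg.2 h3) (sub_nonneg.2 (norm_nonneg (post v w ω - u))), mul_nonneg (sub_nonneg.2 h3) (sub_nonneg.2 h4), sq_nonneg ‖w - u‖, h5]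

end Vale.Agent.P140.NU.Gb
end
end

section

/-! Integrating factors for absolutely continuous functions. -/

open MeasureTheory Set Filter
open scoped ENNReal Topology NNReal

noncomputable section

namespace Vale.Agent.P140

theorem lipschitzOn_exp (B : ℝ) : LipschitzOnWith (Real.exp B).toNNReal Real.exp (Iic B) := by
  apply Convex.lipschitzOnWith_of_nnnorm_hasDerivWithin_le (convex_Iic B)
    (f' := Real.exp) (fun x _ => (Real.hasDerivAt_exp x).hasDerivWithinAt)
  intro x hx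
  rw [← NNReal.coe_le_coe, coe_nnnorm, Real.norm_eq_abs, abs_of_pos (Real.exp_pos x),
    Real.coe_toNNReal _ (Real.exp_pos B).le, Real.exp_le_exp]
  exact hx

/-- integrating factor -/
theorem int_factor {r L : ℝ → ℝ} {T : ℝ} (hT : 0 ≤ T) (hr : IntervalIntegrable r volume 0 T)
    (hL : IntervalIntegrable L volume 0 T) (c : ℝ) {τ t : ℝ} (h0 : 0 ≤ τ) (h1 : τ ≤ t)
    (h2 : t ≤ T) :
    (c + ∫ s in (0:ℝ)..t, r s) * Real.exp (0 + ∫ s in (0:ℝ)..t, L s) =
      (c + ∫ s in (0:ℝ)..τ, r s) * Real.exp (0 + ∫ s in (0:ℝ)..τ, L s) +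
      ∫ s in τ..t, (r s + L s * (c + ∫ u in (0:ℝ)..s, r u)) *
        Real.exp (0 + ∫ u in (0:ℝ)..s, L u) := by
  have aP := ac_primitive hr c
  have aL := ac_primitive hL 0
  have hcL : ContinuousOn (fun t => 0 + ∫ s in (0:ℝ)..t, L s) (uIcc 0 T) := aL.continuousOn
  obtain ⟨B, hB⟩ := (isCompact_uIcc.image_of_continuousOn hcL).bddAbove
  have aE : AbsolutelyContinuousOnInterval
      (fun t => Real.exp (0 + ∫ s in (0:ℝ)..t, L s)) 0 T :=
    ac_comp aL ((lipschitzOn_exp B).mono fun x hx => hB hx)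
  have hsub : uIcc τ t ⊆ uIcc 0 T := by
    rw [uIcc_of_le h1, uIcc_of_le hT]
    exact Icc_subset_Icc h0 h2
  have aPE := (aP.fun_mul aE).mono hsub
  have h := aPE.integral_deriv_eq_sub
  rw [← sub_eq_iff_eq_add', ← h]
  apply intervalIntegral.integral_congr_ae
  filter_upwards [ae_hasDerivAt_primitive hr c, ae_hasDerivAt_primitive hL 0] with s k1 k2 k3
  have k4 : s ∈ uIcc 0 T := hsub (uIoc_subset_uIcc k3)
  have k5 := (k1 k4).mul (k2 k4).exp
  refine (HasDerivAt.deriv k5).trans ?_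
  ring

end Vale.Agent.P140
end
end

section

/-!
P140-NU, module E: one-dimensional lemmas on survival integrals
`∫_a^b p(τ) exp(-∫_a^τ g) dτ`.
-/

open MeasureTheory Set Filter
open scoped ENNReal Topology NNReal

noncomputable section

namespace Vale.Agent.P140.NU.E

/-- integrating factor, general base point -/
theorem int_fac {r L : ℝ → ℝ} {a b : ℝ} (hab : a ≤ b) (hr : IntervalIntegrable r volume a b)
    (hL : IntervalIntegrable L volume a b) (c : ℝ) {t : ℝ} (h1 : a ≤ t) (h2 : t ≤ b) :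
    (c + ∫ s in a..t, r s) * Real.exp (∫ s in a..t, L s) =
      c + ∫ s in a..t, (r s + L s * (c + ∫ u in a..s, r u)) *
        Real.exp (∫ u in a..s, L u) := by
  have aP := ac_primitive hr c
  have aL := ac_primitive hL 0
  have hcL : ContinuousOn (fun t => 0 + ∫ s in a..t, L s) (uIcc a b) := aL.continuousOn
  obtain ⟨B, hB⟩ := (isCompact_uIcc.image_of_continuousOn hcL).bddAbove
  have aE : AbsolutelyContinuousOnInterval
      (fun t => Real.exp (0 + ∫ s in a..t, L s)) a b :=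
    ac_comp aL ((lipschitzOn_exp B).mono fun x hx => hB hx)
  have hsub : uIcc a t ⊆ uIcc a b := by
    rw [uIcc_of_le h1, uIcc_of_le hab]
    exact Icc_subset_Icc le_rfl h2
  have aPE := (aP.fun_mul aE).mono hsub
  have h := aPE.integral_deriv_eq_sub
  simp only [intervalIntegral.integral_same, add_zero, Real.exp_zero, mul_one, zero_add] at h
  rw [← sub_eq_iff_eq_add', ← h]
  apply intervalIntegral.integral_congr_ae
  filter_upwards [ae_hasDerivAt_primitive hr c, ae_hasDerivAt_primitive hL 0] with s k1 k2 k3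
  have k4 : s ∈ uIcc a b := hsub (uIoc_subset_uIcc k3)
  have k5 := (k1 k4).mul (k2 k4).exp
  simp only [zero_add] at k5
  refine (HasDerivAt.deriv k5).trans ?_
  ring

/-- survival integral -/
def surv (p g : ℝ → ℝ) (a b : ℝ) : ℝ := ∫ τ in a..b, p τ * Real.exp (-∫ s in a..τ, g s)

variable {p g : ℝ → ℝ} {a b : ℝ}

theorem continuousOn_exp_neg (_hab : a ≤ b) (hg : IntervalIntegrable g volume a b) :
    ContinuousOn (fun τ => Real.exp (-∫ s in a..τ, g s)) (uIcc a b) := by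
  have h1 := (ac_primitive hg 0).continuousOn
  simp only [zero_add] at h1
  exact (Real.continuous_exp.comp continuous_neg).comp_continuousOn h1

theorem intervalIntegrable_surv (hab : a ≤ b) (hp : IntervalIntegrable p volume a b)
    (hg : IntervalIntegrable g volume a b) :
    IntervalIntegrable (fun τ => p τ * Real.exp (-∫ s in a..τ, g s)) volume a b :=
  hp.mul_continuousOn (continuousOn_exp_neg hab hg)

theorem sub_left {m : ℝ} (hg : IntervalIntegrable g volume a b) (ham : a ≤ m) (hmb : m ≤ b) :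
    IntervalIntegrable g volume a m :=
  hg.mono_set (by
    rw [uIcc_of_le ham, uIcc_of_le (ham.trans hmb)]; exact Icc_subset_Icc le_rfl hmb)

theorem sub_right {m : ℝ} (hg : IntervalIntegrable g volume a b) (ham : a ≤ m) (hmb : m ≤ b) :
    IntervalIntegrable g volume m b :=
  hg.mono_set (by
    rw [uIcc_of_le hmb, uIcc_of_le (ham.trans hmb)]; exact Icc_subset_Icc ham le_rfl)

/-- total mass of the survival density -/
theorem surv_self (hab : a ≤ b) (hg : IntervalIntegrable g volume a b) :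
    surv g g a b = 1 - Real.exp (-∫ s in a..b, g s) := by
  have h := int_fac hab (r := fun _ => 0) (L := fun s => -g s) (by simp) hg.neg 1 hab le_rfl
  simp only [intervalIntegral.integral_zero, add_zero, one_mul, mul_one, zero_add,
    intervalIntegral.integral_neg] at h
  unfold surv
  have h2 : ∫ s in a..b, -g s * Real.exp (-∫ x in a..s, g x) =
      -∫ s in a..b, g s * Real.exp (-∫ x in a..s, g x) := by
    rw [← intervalIntegral.integral_neg]
    apply intervalIntegral.integral_congr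
    intro s _
    simp only
    ring
  rw [h2] at h
  linarith

theorem surv_nonneg (hab : a ≤ b) (h0 : ∀ s ∈ Icc a b, 0 ≤ p s) : 0 ≤ surv p g a b := by
  unfold surv
  apply intervalIntegral.integral_nonneg hab
  intro s hs
  exact mul_nonneg (h0 s hs) (Real.exp_pos _).le

theorem surv_mono {p' : ℝ → ℝ} (hab : a ≤ b) (hp : IntervalIntegrable p volume a b)
    (hp' : IntervalIntegrable p' volume a b)
    (hg : IntervalIntegrable g volume a b) (h0 : ∀ s ∈ Icc a b, p s ≤ p' s) :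
    surv p g a b ≤ surv p' g a b := by
  unfold surv
  apply intervalIntegral.integral_mono_on hab (intervalIntegrable_surv hab hp hg)
    (intervalIntegrable_surv hab hp' hg)
  intro s hs
  exact mul_le_mul_of_nonneg_right (h0 s hs) (Real.exp_pos _).le

theorem surv_le_one (hab : a ≤ b) (hp : IntervalIntegrable p volume a b)
    (hg : IntervalIntegrable g volume a b) (h0 : ∀ s ∈ Icc a b, p s ≤ g s) :
    surv p g a b ≤ 1 := by
  refine (surv_mono hab hp hg hg h0).trans ?_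
  rw [surv_self hab hg]
  linarith [Real.exp_pos (-∫ s in a..b, g s)]

/-- splitting -/
theorem surv_split {m : ℝ} (ham : a ≤ m) (hmb : m ≤ b) (hp : IntervalIntegrable p volume a b)
    (hg : IntervalIntegrable g volume a b) :
    surv p g a b = surv p g a m + Real.exp (-∫ s in a..m, g s) * surv p g m b := by
  have hab := ham.trans hmb
  have hi := intervalIntegrable_surv hab hp hg
  unfold surv
  rw [← intervalIntegral.integral_add_adjacent_intervals (sub_left hi ham hmb)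
    (sub_right hi ham hmb), ← intervalIntegral.integral_const_mul]
  congr 1
  apply intervalIntegral.integral_congr
  intro s hs
  rw [uIcc_of_le hmb] at hs
  simp only
  rw [← intervalIntegral.integral_add_adjacent_intervals (sub_left hg ham hmb)
    (sub_left (sub_right hg ham hmb) hs.1 hs.2), neg_add, Real.exp_add]
  ring

/-- Lemma A: a comparison of the primitives gives a lower bound of the survival integral -/
theorem lemA {κ δ : ℝ} (hab : a ≤ b) (hp : IntervalIntegrable p volume a b)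
    (hg : IntervalIntegrable g volume a b) (hg0 : ∀ s ∈ Icc a b, 0 ≤ g s)
    (h : ∀ t ∈ Icc a b, κ * (∫ s in a..t, g s) - δ ≤ ∫ s in a..t, p s) :
    κ * (1 - Real.exp (-∫ s in a..b, g s)) - δ ≤ surv p g a b := by
  -- the primitives
  have h1 := int_fac hab (r := fun s => p s - κ * g s) (L := fun s => -g s)
    (hp.sub (hg.const_mul κ)) hg.neg δ hab le_rfl
  have e0 : ∀ t ∈ Icc a b, ∫ s in a..t, (p s - κ * g s) =
      (∫ s in a..t, p s) - κ * ∫ s in a..t, g s := by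
    intro t ht
    rw [intervalIntegral.integral_sub (sub_left hp ht.1 ht.2)
      ((sub_left hg ht.1 ht.2).const_mul κ), intervalIntegral.integral_const_mul]
  have hpos : ∀ t ∈ Icc a b, 0 ≤ δ + ∫ s in a..t, (p s - κ * g s) := by
    intro t ht
    rw [e0 t ht]
    linarith [h t ht]
  have h2 : 0 ≤ (δ + ∫ s in a..b, (p s - κ * g s)) * Real.exp (∫ s in a..b, -g s) :=
    mul_nonneg (hpos b ⟨hab, le_rfl⟩) (Real.exp_pos _).le
  rw [h1] at h2
  have i1 : IntervalIntegrable (fun s => (δ + ∫ u in a..s, (p u - κ * g u))) volume a b := by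
    apply ContinuousOn.intervalIntegrable
    exact (ac_primitive (hp.sub (hg.const_mul κ)) δ).continuousOn
  have i2 : IntervalIntegrable (fun s => g s * (δ + ∫ u in a..s, (p u - κ * g u)) *
      Real.exp (∫ u in a..s, -g u)) volume a b := by
    refine IntervalIntegrable.mul_continuousOn (hg.mul_continuousOn ?_) ?_
    · exact (ac_primitive (hp.sub (hg.const_mul κ)) δ).continuousOn
    · have := continuousOn_exp_neg hab hg
      simpa only [intervalIntegral.integral_neg] using this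
  have i3 : IntervalIntegrable (fun s => (p s - κ * g s) * Real.exp (∫ u in a..s, -g u))
      volume a b := by
    have := intervalIntegrable_surv hab (hp.sub (hg.const_mul κ)) hg
    simpa only [intervalIntegral.integral_neg] using this
  have h3 : ∫ s in a..b, (p s - κ * g s + -g s * (δ + ∫ u in a..s, (p u - κ * g u))) *
      Real.exp (∫ u in a..s, -g u) =
      (∫ s in a..b, (p s - κ * g s) * Real.exp (∫ u in a..s, -g u)) -
      ∫ s in a..b, g s * (δ + ∫ u in a..s, (p u - κ * g u)) * Real.exp (∫ u in a..s, -g u) := by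
    rw [← intervalIntegral.integral_sub i3 i2]
    apply intervalIntegral.integral_congr
    intro s _
    simp only
    ring
  have h4 : 0 ≤ ∫ s in a..b, g s * (δ + ∫ u in a..s, (p u - κ * g u)) *
      Real.exp (∫ u in a..s, -g u) := by
    apply intervalIntegral.integral_nonneg hab
    intro s hs
    exact mul_nonneg (mul_nonneg (hg0 s hs) (hpos s hs)) (Real.exp_pos _).le
  have h5 : ∫ s in a..b, (p s - κ * g s) * Real.exp (∫ u in a..s, -g u) =
      surv p g a b - κ * surv g g a b := by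
    unfold surv
    rw [← intervalIntegral.integral_const_mul, ← intervalIntegral.integral_sub
      (intervalIntegrable_surv hab hp hg) ((intervalIntegrable_surv hab hg hg).const_mul κ)]
    apply intervalIntegral.integral_congr
    intro s _
    simp only [intervalIntegral.integral_neg]
    ring
  rw [h3, h5, surv_self hab hg] at h2
  linarith

/-- the survival integral along the flight -/
theorem surv_along (hab : a ≤ b) (hp : IntervalIntegrable p volume a b)
    (hg : IntervalIntegrable g volume a b) {s s' : ℝ} (h1 : a ≤ s) (h2 : s ≤ s') (h3 : s' ≤ b) :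
    surv p g s' b - surv p g s b = ∫ τ in s..s', (g τ * surv p g τ b - p τ) := by
  have hi := intervalIntegrable_surv hab hp hg
  set c : ℝ := surv p g a b with hc
  -- `surv t = (c + ∫_a^t r) exp(∫_a^t g)`
  have key : ∀ t ∈ Icc a b, surv p g t b =
      (c + ∫ s in a..t, -(p s * Real.exp (-∫ u in a..s, g u))) * Real.exp (∫ s in a..t, g s) := by
    intro t ht
    have e1 := surv_split ht.1 ht.2 hp hg
    have e2 : c + ∫ s in a..t, -(p s * Real.exp (-∫ u in a..s, g u)) =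
        Real.exp (-∫ s in a..t, g s) * surv p g t b := by
      rw [intervalIntegral.integral_neg, hc, e1]
      unfold surv
      ring
    rw [e2, mul_comm, ← mul_assoc, ← Real.exp_add, add_neg_cancel, Real.exp_zero, one_mul]
  have hfac : ∀ t ∈ Icc a b, surv p g t b = c + ∫ τ in a..t, (g τ * surv p g τ b - p τ) := by
    intro t ht
    have e0 := int_fac hab (r := fun s => -(p s * Real.exp (-∫ u in a..s, g u))) (L := g)
      hi.neg hg c ht.1 ht.2
    rw [key t ht, e0]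
    congr 1
    apply intervalIntegral.integral_congr
    intro τ hτ
    rw [uIcc_of_le ht.1] at hτ
    simp only
    rw [key τ ⟨hτ.1, hτ.2.trans ht.2⟩]
    have e3 : Real.exp (-∫ u in a..τ, g u) * Real.exp (∫ u in a..τ, g u) = 1 := by
      rw [← Real.exp_add, neg_add_cancel, Real.exp_zero]
    linear_combination (-(p τ)) * e3
  have hcont : ContinuousOn (fun t => surv p g t b) (uIcc a b) := by
    have k1 := (ac_primitive hi.neg c).continuousOn
    have k2 := (ac_primitive hg 0).continuousOn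
    simp only [zero_add] at k2
    refine (k1.mul (Real.continuous_exp.comp_continuousOn k2)).congr ?_
    intro t ht
    rw [uIcc_of_le hab] at ht
    exact key t ht
  have hint : IntervalIntegrable (fun τ => g τ * surv p g τ b - p τ) volume a b :=
    (hg.mul_continuousOn hcont).sub hp
  rw [hfac s' ⟨h1.trans h2, h3⟩, hfac s ⟨h1, h2.trans h3⟩]
  have := intervalIntegral.integral_add_adjacent_intervals
    (sub_left hint h1 (h2.trans h3)) (sub_left (sub_right hint h1 (h2.trans h3)) h2 h3)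
  linarith

end Vale.Agent.P140.NU.E
end
end

section

/-!
P140, non-uniqueness, module T (T1, T2, T3): spherical coordinates, rotation invariance,
Archimedes, uniform law of the post-collisional velocities.
-/

open MeasureTheory Set Filter
open scoped ENNReal Topology

noncomputable section

namespace Vale.Agent.P140.NU

/-! ## T1: orthonormal frames, spherical coordinates -/

/-- orthonormal frame -/
structure Frame (e b1 b2 : V) : Prop where
  norm0 : ‖e‖ = 1
  norm1 : ‖b1‖ = 1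
  norm2 : ‖b2‖ = 1
  in01 : inner ℝ e b1 = (0 : ℝ)
  in02 : inner ℝ e b2 = (0 : ℝ)
  in12 : inner ℝ b1 b2 = (0 : ℝ)

theorem Frame.of_basis (b : OrthonormalBasis (Fin 3) ℝ V) : Frame (b 0) (b 1) (b 2) where
  norm0 := b.norm_eq_one 0
  norm1 := b.norm_eq_one 1
  norm2 := b.norm_eq_one 2
  in01 := b.inner_eq_zero (by decide)
  in02 := b.inner_eq_zero (by decide)
  in12 := b.inner_eq_zero (by decide)

theorem Frame.orth {e b1 b2 : V} (h : Frame e b1 b2) : Orthonormal ℝ ![e, b1, b2] := by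
  constructor
  · intro i
    fin_cases i
    · exact h.norm0
    · exact h.norm1
    · exact h.norm2
  · intro i j hij
    fin_cases i <;> fin_cases j
    · exact absurd rfl hij
    · exact h.in01
    · exact h.in02
    · exact (real_inner_comm _ _).trans h.in01
    · exact absurd rfl hij
    · exact h.in12
    · exact (real_inner_comm _ _).trans h.in02
    · exact (real_inner_comm _ _).trans h.in12
    · exact absurd rfl hij

theorem Frame.exists_basis {e b1 b2 : V} (h : Frame e b1 b2) :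
    ∃ b : OrthonormalBasis (Fin 3) ℝ V, b 0 = e ∧ b 1 = b1 ∧ b 2 = b2 := by
  have hcard : Module.finrank ℝ V = Fintype.card (Fin 3) := by simp
  obtain ⟨b, hb⟩ := Orthonormal.exists_orthonormalBasis_extension_of_card_eq (𝕜 := ℝ) (E := V)
    (ι := Fin 3) hcard (v := ![e, b1, b2]) (s := univ)
    (h.orth.comp Subtype.val Subtype.val_injective)
  exact ⟨b, hb 0 (mem_univ _), hb 1 (mem_univ _), hb 2 (mem_univ _)⟩

theorem exists_Frame (e : V) (he : ‖e‖ = 1) : ∃ b1 b2 : V, Frame e b1 b2 := by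
  have hcard : Module.finrank ℝ V = Fintype.card (Fin 3) := by simp
  obtain ⟨b, hb⟩ := Orthonormal.exists_orthonormalBasis_extension_of_card_eq (𝕜 := ℝ) (E := V)
    (ι := Fin 3) hcard (v := fun _ => e) (s := {0}) (by
      constructor
      · intro i; exact he
      · intro i j hij
        exact absurd (Subsingleton.elim i j) hij)
  have hb0 : b 0 = e := hb 0 (by simp)
  have h := Frame.of_basis b
  rw [hb0] at h
  exact ⟨b 1, b 2, h⟩

theorem Frame.norm_sq {e b1 b2 : V} (h : Frame e b1 b2) (a x y : ℝ) :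
    ‖a • e + (x • b1 + y • b2)‖ ^ 2 = a ^ 2 + (x ^ 2 + y ^ 2) := by
  obtain ⟨b, h0, h1, h2⟩ := h.exists_basis
  have e1 : a • e + (x • b1 + y • b2) = b.repr.symm (WithLp.toLp 2 ![a, x, y]) := by
    rw [← b.sum_repr_symm, Fin.sum_univ_three, h0, h1, h2]
    simp
    rw [add_assoc]
  rw [e1, LinearIsometryEquiv.norm_map, EuclideanSpace.norm_sq_eq, Fin.sum_univ_three]
  simp
  ring

theorem Frame.inner_e {e b1 b2 : V} (h : Frame e b1 b2) (a x y : ℝ) :
    inner ℝ e (a • e + (x • b1 + y • b2)) = a := by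
  rw [inner_add_right, inner_add_right, inner_smul_right, inner_smul_right, inner_smul_right,
    h.in01, h.in02, real_inner_self_eq_norm_sq, h.norm0]
  ring

theorem Frame.lintegral {e b1 b2 : V} (h : Frame e b1 b2) {H : V → ℝ≥0∞} (hH : Measurable H) :
    ∫⁻ z : V, H z = ∫⁻ a : ℝ, ∫⁻ q : ℝ × ℝ, H (a • e + (q.1 • b1 + q.2 • b2)) := by
  obtain ⟨b, h0, h1, h2⟩ := h.exists_basis
  have m1 : MeasurePreserving b.repr.symm (volume : Measure V) volume :=
    b.measurePreserving_repr_symm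
  have m2 : MeasurePreserving (WithLp.toLp 2 : (Fin 3 → ℝ) → V) volume volume :=
    PiLp.volume_preserving_toLp (Fin 3)
  have m3 : MeasurePreserving (MeasurableEquiv.piFinSuccAbove (fun _ : Fin 3 => ℝ) 0)
      volume volume := volume_preserving_piFinSuccAbove (fun _ : Fin 3 => ℝ) 0
  have m4 : MeasurePreserving (@MeasurableEquiv.finTwoArrow ℝ _) volume volume :=
    volume_preserving_finTwoArrow ℝ
  have m5 : MeasurePreserving (fun w : Fin 3 → ℝ => (w 0, (w 1, w 2)))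
      volume (volume : Measure (ℝ × (ℝ × ℝ))) := by
    have h := ((MeasurePreserving.id (volume : Measure ℝ)).prod m4).comp m3
    exact h
  have mT : Measurable fun p : ℝ × (ℝ × ℝ) => p.1 • e + (p.2.1 • b1 + p.2.2 • b2) := by
    fun_prop
  have hHT := hH.comp mT
  have e1 := m1.lintegral_comp hH
  have e2 := m2.lintegral_comp (f := fun z => H (b.repr.symm z)) (hH.comp m1.measurable)
  have e3 := m5.lintegral_comp hHT
  rw [← e1, ← e2]
  have e4 : ∀ w : Fin 3 → ℝ, H (b.repr.symm (WithLp.toLp 2 w)) =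
      (H ∘ fun p : ℝ × (ℝ × ℝ) => p.1 • e + (p.2.1 • b1 + p.2.2 • b2)) (w 0, (w 1, w 2)) := by
    intro w
    simp only [Function.comp]
    congr 1
    rw [← b.sum_repr_symm, Fin.sum_univ_three, h0, h1, h2, add_assoc]
  simp only [e4]
  rw [e3, Measure.volume_eq_prod, lintegral_prod _ hHT.aemeasurable]
  rfl

/-- point of the sphere with coordinates `z`, `φ` -/
def sphP (e b1 b2 : V) (z φ : ℝ) : V :=
  z • e + √(1 - z ^ 2) • (Real.cos φ • b1 + Real.sin φ • b2)

theorem continuous_sphP (e b1 b2 : V) : Continuous fun q : ℝ × ℝ => sphP e b1 b2 q.1 q.2 := by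
  unfold sphP
  fun_prop

/-- polar coordinates in the upper half plane -/
theorem half_polar {G : ℝ → ℝ → ℝ≥0∞} (hG : Measurable fun q : ℝ × ℝ => G q.1 q.2) :
    ∫⁻ a : ℝ, ∫⁻ ρ in Ioi (0 : ℝ), G a ρ = ∫⁻ r in Ioi (0 : ℝ), ∫⁻ θ in Ioo 0 Real.pi,
      ENNReal.ofReal r * G (r * Real.cos θ) (r * Real.sin θ) := by
  have hs : MeasurableSet {q : ℝ × ℝ | 0 < q.2} := measurableSet_lt measurable_const measurable_snd
  set K : ℝ × ℝ → ℝ≥0∞ := {q : ℝ × ℝ | 0 < q.2}.indicator fun q => G q.1 q.2 with hK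
  have mK : Measurable K := hG.indicator hs
  have h1 : ∫⁻ a : ℝ, ∫⁻ ρ in Ioi (0 : ℝ), G a ρ = ∫⁻ q : ℝ × ℝ, K q := by
    rw [Measure.volume_eq_prod, lintegral_prod _ mK.aemeasurable]
    refine lintegral_congr fun a => ?_
    rw [← lintegral_indicator measurableSet_Ioi]
    refine lintegral_congr fun ρ => ?_
    simp only [hK, indicator, mem_Ioi, mem_ofPred_eq]
  rw [h1, ← lintegral_comp_polarCoord_symm]
  have ht : polarCoord.target = Ioi (0 : ℝ) ×ˢ Ioo (-Real.pi) Real.pi := rfl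
  have hm : Measurable fun p : ℝ × ℝ => ENNReal.ofReal p.1 *
      K (p.1 * Real.cos p.2, p.1 * Real.sin p.2) := by
    apply measurable_fst.ennreal_ofReal.mul
    apply mK.comp
    fun_prop
  have e1 : ∫⁻ p in polarCoord.target, ENNReal.ofReal p.1 • K (polarCoord.symm p) =
      ∫⁻ p in Ioi (0 : ℝ) ×ˢ Ioo (-Real.pi) Real.pi, ENNReal.ofReal p.1 *
        K (p.1 * Real.cos p.2, p.1 * Real.sin p.2) := by
    rw [ht]
    refine lintegral_congr fun p => ?_
    rw [polarCoord_symm_apply, smul_eq_mul]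
  rw [e1, Measure.volume_eq_prod, ← Measure.prod_restrict, lintegral_prod _ hm.aemeasurable]
  refine setLIntegral_congr_fun measurableSet_Ioi fun r hr => ?_
  simp only
  have hr0 : (0 : ℝ) < r := hr
  have e2 : ∀ θ ∈ Ioo (-Real.pi) Real.pi, ENNReal.ofReal r *
      K (r * Real.cos θ, r * Real.sin θ) = (Ioi (0 : ℝ)).indicator
        (fun θ => ENNReal.ofReal r * G (r * Real.cos θ) (r * Real.sin θ)) θ := by
    intro θ hθ
    by_cases h0 : 0 < θ
    · have h2 : 0 < Real.sin θ := Real.sin_pos_of_pos_of_lt_pi h0 hθ.2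
      simp only [hK, indicator, mem_Ioi, mem_ofPred_eq, h0, if_true, mul_pos hr0 h2]
    · have h2 : Real.sin θ ≤ 0 := Real.sin_nonpos_of_nonpos_of_neg_pi_le (not_lt.1 h0) hθ.1.le
      have h3 : ¬ (0 < r * Real.sin θ) := not_lt.2 (mul_nonpos_of_nonneg_of_nonpos hr0.le h2)
      simp only [hK, indicator, mem_Ioi, mem_ofPred_eq, h0, if_false, h3, mul_zero]
  rw [setLIntegral_congr_fun measurableSet_Ioo e2, setLIntegral_indicator measurableSet_Ioi]
  congr 2
  ext θ
  simp only [mem_inter_iff, mem_Ioi, mem_Ioo]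
  constructor
  · rintro ⟨h, _, h'⟩
    exact ⟨h, h'⟩
  · rintro ⟨h, h'⟩
    exact ⟨h, by linarith [Real.pi_pos], h'⟩

theorem cos_image : Real.cos '' Ioo 0 Real.pi = Ioo (-1 : ℝ) 1 := by
  ext y
  constructor
  · rintro ⟨θ, hθ, rfl⟩
    have hs := Real.strictAntiOn_cos
    constructor
    · have := hs (show θ ∈ Icc 0 Real.pi from ⟨hθ.1.le, hθ.2.le⟩)
        (show Real.pi ∈ Icc 0 Real.pi from ⟨Real.pi_pos.le, le_rfl⟩) hθ.2
      rwa [Real.cos_pi] at this
    · have := hs (show (0 : ℝ) ∈ Icc 0 Real.pi from ⟨le_rfl, Real.pi_pos.le⟩)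
        (show θ ∈ Icc 0 Real.pi from ⟨hθ.1.le, hθ.2.le⟩) hθ.1
      rwa [Real.cos_zero] at this
  · intro hy
    refine ⟨Real.arccos y, ⟨Real.arccos_pos.2 hy.2, ?_⟩, Real.cos_arccos hy.1.le hy.2.le⟩
    refine lt_of_le_of_ne (Real.arccos_le_pi y) fun h => ?_
    have h1 := Real.cos_arccos hy.1.le hy.2.le
    rw [h, Real.cos_pi] at h1
    exact absurd h1 (ne_of_lt hy.1)

theorem lint_cos (f : ℝ → ℝ≥0∞) : ∫⁻ θ in Ioo 0 Real.pi, ENNReal.ofReal (Real.sin θ) *
    f (Real.cos θ) = ∫⁻ z in Ioo (-1 : ℝ) 1, f z := by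
  have h := lintegral_image_eq_lintegral_abs_deriv_mul (s := Ioo 0 Real.pi) (f := Real.cos)
    (f' := fun θ => -Real.sin θ) measurableSet_Ioo
    (fun θ _ => (Real.hasDerivAt_cos θ).hasDerivWithinAt)
    (Real.injOn_cos.mono Ioo_subset_Icc_self) f
  rw [cos_image] at h
  rw [h]
  refine setLIntegral_congr_fun measurableSet_Ioo fun θ hθ => ?_
  rw [abs_neg, abs_of_pos (Real.sin_pos_of_pos_of_lt_pi hθ.1 hθ.2)]

/-- spherical coordinates (T1) -/
theorem Frame.surf {e b1 b2 : V} (h : Frame e b1 b2) {f : V → ℝ≥0∞} (hf : Measurable f) :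
    ∫⁻ o : S2, f (o : V) ∂surf =
      ∫⁻ z in Ioo (-1 : ℝ) 1, ∫⁻ φ in Ioo (-Real.pi) Real.pi, f (sphP e b1 b2 z φ) := by
  set η : ℝ → V := fun φ => Real.cos φ • b1 + Real.sin φ • b2 with hη
  have mη : Measurable η := by
    have : Continuous η := by fun_prop
    exact this.measurable
  set H : V → ℝ≥0∞ := fun z => chi (‖z‖ ^ 2) * f (‖z‖⁻¹ • z) with hH
  have mH : Measurable H := (measurable_chi.comp (measurable_norm.pow_const 2)).mul
    (hf.comp (measurable_norm.inv.smul measurable_id))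
  have s1 := sphere_eq hf
  rw [h.lintegral mH] at s1
  -- polar coordinates in the planes
  have mJ : Measurable fun q : (ℝ × ℝ) × ℝ =>
      ENNReal.ofReal q.1.2 * H (q.1.1 • e + q.1.2 • η q.2) := by
    apply Measurable.mul
    · exact measurable_fst.snd.ennreal_ofReal
    · exact mH.comp ((measurable_fst.fst.smul_const e).add
        (measurable_fst.snd.smul (mη.comp measurable_snd)))
  have h1 : ∀ a : ℝ, ∫⁻ q : ℝ × ℝ, H (a • e + (q.1 • b1 + q.2 • b2)) =
      ∫⁻ ρ in Ioi (0 : ℝ), ∫⁻ φ in Ioo (-Real.pi) Real.pi,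
        ENNReal.ofReal ρ * H (a • e + ρ • η φ) := by
    intro a
    rw [← lintegral_comp_polarCoord_symm]
    have ht : polarCoord.target = Ioi (0 : ℝ) ×ˢ Ioo (-Real.pi) Real.pi := rfl
    have hm : Measurable fun p : ℝ × ℝ => ENNReal.ofReal p.1 * H (a • e + p.1 • η p.2) :=
      (mJ.comp (by fun_prop : Measurable fun p : ℝ × ℝ => ((a, p.1), p.2)) :)
    have e1 : ∫⁻ p in polarCoord.target, ENNReal.ofReal p.1 • H (a • e +
        ((polarCoord.symm p).1 • b1 + (polarCoord.symm p).2 • b2)) =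
        ∫⁻ p in Ioi (0 : ℝ) ×ˢ Ioo (-Real.pi) Real.pi,
          ENNReal.ofReal p.1 * H (a • e + p.1 • η p.2) := by
      rw [ht]
      apply lintegral_congr
      intro p
      rw [polarCoord_symm_apply, smul_eq_mul]
      simp only [hη, smul_add, smul_smul]
    rw [e1, Measure.volume_eq_prod, ← Measure.prod_restrict, lintegral_prod _ hm.aemeasurable]
  have h2 : ∫⁻ a : ℝ, ∫⁻ q : ℝ × ℝ, H (a • e + (q.1 • b1 + q.2 • b2)) =
      ∫⁻ φ in Ioo (-Real.pi) Real.pi, ∫⁻ a : ℝ, ∫⁻ ρ in Ioi (0 : ℝ),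
        ENNReal.ofReal ρ * H (a • e + ρ • η φ) := by
    have k1 : ∀ a : ℝ, ∫⁻ q : ℝ × ℝ, H (a • e + (q.1 • b1 + q.2 • b2)) =
        ∫⁻ φ in Ioo (-Real.pi) Real.pi, ∫⁻ ρ in Ioi (0 : ℝ),
          ENNReal.ofReal ρ * H (a • e + ρ • η φ) := by
      intro a
      rw [h1 a]
      apply lintegral_lintegral_swap
      have hm : Measurable fun p : ℝ × ℝ => ENNReal.ofReal p.1 * H (a • e + p.1 • η p.2) :=
        (mJ.comp (by fun_prop : Measurable fun p : ℝ × ℝ => ((a, p.1), p.2)) :)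
      exact hm.aemeasurable
    simp only [k1]
    apply lintegral_lintegral_swap
    have m2 : Measurable fun q : (ℝ × ℝ) × ℝ => ENNReal.ofReal q.2 * H (q.1.1 • e + q.2 • η q.1.2) :=
      (mJ.comp (by fun_prop : Measurable fun q : (ℝ × ℝ) × ℝ => ((q.1.1, q.2), q.1.2)) :)
    exact (Measurable.lintegral_prod_right' (ν := volume.restrict (Ioi (0 : ℝ))) m2).aemeasurable
  rw [h2] at s1
  have key : ∀ φ : ℝ, ∫⁻ a : ℝ, ∫⁻ ρ in Ioi (0 : ℝ), ENNReal.ofReal ρ * H (a • e + ρ • η φ) =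
      cchi * ∫⁻ z in Ioo (-1 : ℝ) 1, f (sphP e b1 b2 z φ) := by
    intro φ
    have mG : Measurable fun q : ℝ × ℝ => ENNReal.ofReal q.2 * H (q.1 • e + q.2 • η φ) :=
      (mJ.comp (by fun_prop : Measurable fun q : ℝ × ℝ => ((q.1, q.2), φ)) :)
    rw [half_polar (G := fun a ρ => ENNReal.ofReal ρ * H (a • e + ρ • η φ)) mG]
    have mf : Measurable fun θ : ℝ => ENNReal.ofReal (Real.sin θ) *
        f (Real.cos θ • e + Real.sin θ • η φ) := by
      apply Real.measurable_sin.ennreal_ofReal.mul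
      apply hf.comp
      exact (Real.measurable_cos.smul_const e).add (Real.measurable_sin.smul_const (η φ))
    have k1 : ∀ r ∈ Ioi (0 : ℝ), ∫⁻ θ in Ioo 0 Real.pi, ENNReal.ofReal r *
        (ENNReal.ofReal (r * Real.sin θ) * H ((r * Real.cos θ) • e + (r * Real.sin θ) • η φ)) =
        (ENNReal.ofReal (r ^ 2) * chi (r ^ 2)) * ∫⁻ θ in Ioo 0 Real.pi,
          ENNReal.ofReal (Real.sin θ) * f (Real.cos θ • e + Real.sin θ • η φ) := by
      intro r hr
      have hr0 : (0 : ℝ) < r := hr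
      rw [← lintegral_const_mul _ mf]
      refine setLIntegral_congr_fun measurableSet_Ioo fun θ hθ => ?_
      have hs : 0 < Real.sin θ := Real.sin_pos_of_pos_of_lt_pi hθ.1 hθ.2
      have hv : (r * Real.cos θ) • e + (r * Real.sin θ) • η φ =
          r • (Real.cos θ • e + Real.sin θ • η φ) := by
        rw [mul_smul, mul_smul, ← smul_add r]
      have hn1 : ‖Real.cos θ • e + Real.sin θ • η φ‖ = 1 := by
        have hv2 : Real.cos θ • e + Real.sin θ • η φ = Real.cos θ • e +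
            ((Real.sin θ * Real.cos φ) • b1 + (Real.sin θ * Real.sin φ) • b2) := by
          simp only [hη, smul_add, smul_smul]
        have h3 : ‖Real.cos θ • e + Real.sin θ • η φ‖ ^ 2 = 1 := by
          rw [hv2, h.norm_sq]
          have c1 := Real.sin_sq_add_cos_sq θ
          have c2 := Real.sin_sq_add_cos_sq φ
          calc Real.cos θ ^ 2 + ((Real.sin θ * Real.cos φ) ^ 2 + (Real.sin θ * Real.sin φ) ^ 2)
              = Real.cos θ ^ 2 + Real.sin θ ^ 2 * (Real.sin φ ^ 2 + Real.cos φ ^ 2) := by ring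
            _ = 1 := by rw [c2, mul_one, add_comm, c1]
        exact (pow_eq_one_iff_of_nonneg (norm_nonneg _) two_ne_zero).1 h3
      have hn : ‖(r * Real.cos θ) • e + (r * Real.sin θ) • η φ‖ = r := by
        rw [hv, norm_smul, hn1, mul_one, Real.norm_of_nonneg hr0.le]
      simp only [hH]
      rw [hn, hv, smul_smul, inv_mul_cancel₀ hr0.ne', one_smul, ENNReal.ofReal_mul hr0.le,
        pow_two, ENNReal.ofReal_mul hr0.le]
      ring
    rw [setLIntegral_congr_fun measurableSet_Ioi k1]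
    have mr : Measurable fun r : ℝ => ENNReal.ofReal (r ^ 2) * chi (r ^ 2) :=
      (measurable_id.pow_const 2).ennreal_ofReal.mul
        (measurable_chi.comp (measurable_id.pow_const 2))
    rw [lintegral_mul_const _ mr]
    unfold cchi
    congr 1
    rw [← lint_cos fun z => f (sphP e b1 b2 z φ)]
    refine setLIntegral_congr_fun measurableSet_Ioo fun θ hθ => ?_
    unfold sphP
    rw [← Real.sin_sq, Real.sqrt_sq (Real.sin_pos_of_pos_of_lt_pi hθ.1 hθ.2).le]
  simp only [key] at s1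
  have mS : Measurable fun q : ℝ × ℝ => f (sphP e b1 b2 q.1 q.2) :=
    hf.comp (continuous_sphP e b1 b2).measurable
  have mS' : Measurable fun q : ℝ × ℝ => f (sphP e b1 b2 q.2 q.1) :=
    (mS.comp (by fun_prop : Measurable fun q : ℝ × ℝ => (q.2, q.1)) :)
  rw [lintegral_const_mul _ (Measurable.lintegral_prod_right'
    (ν := volume.restrict (Ioo (-1 : ℝ) 1)) mS')] at s1
  have s2 := (ENNReal.mul_right_inj cchi_ne_zero cchi_ne_top).mp s1
  rw [← s2]
  apply lintegral_lintegral_swap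
  exact mS'.aemeasurable


/-! ## T2 -/

theorem surf_const (c : ℝ≥0∞) : ∫⁻ _ : S2, c ∂P140.surf = ENNReal.ofReal (4 * Real.pi) * c := by
  rw [lintegral_const, surf_univ, mul_comm]

/-- the standard frame, third vector first -/
theorem frame_std : Frame (!₂[(0 : ℝ), 0, 1] : V) !₂[(1 : ℝ), 0, 0] !₂[(0 : ℝ), 1, 0] where
  norm0 := by rw [EuclideanSpace.norm_eq, Fin.sum_univ_three]; simp
  norm1 := by rw [EuclideanSpace.norm_eq, Fin.sum_univ_three]; simp
  norm2 := by rw [EuclideanSpace.norm_eq, Fin.sum_univ_three]; simp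
  in01 := by rw [PiLp.inner_apply, Fin.sum_univ_three]; simp
  in02 := by rw [PiLp.inner_apply, Fin.sum_univ_three]; simp
  in12 := by rw [PiLp.inner_apply, Fin.sum_univ_three]; simp

/-! ### rotation invariance, Archimedes -/

theorem surf_rot (U : V ≃ₗᵢ[ℝ] V) {f : V → ℝ≥0∞} (hf : Measurable f) :
    ∫⁻ o : S2, f (U (o : V)) ∂surf = ∫⁻ o : S2, f (o : V) ∂surf := by
  have mU : Measurable fun z : V => f (U z) := hf.comp U.continuous.measurable
  have s1 := sphere_eq mU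
  have s2 := sphere_eq hf
  have mH : Measurable fun z : V => chi (‖z‖ ^ 2) * f (‖z‖⁻¹ • z) :=
    (measurable_chi.comp (measurable_norm.pow_const 2)).mul
      (hf.comp (measurable_norm.inv.smul measurable_id))
  have e1 := U.measurePreserving.lintegral_comp mH
  have e2 : ∫⁻ z : V, chi (‖z‖ ^ 2) * f (U (‖z‖⁻¹ • z)) =
      ∫⁻ z : V, chi (‖U z‖ ^ 2) * f (‖U z‖⁻¹ • U z) := by
    refine lintegral_congr fun z => ?_
    rw [U.norm_map, U.map_smul]
  rw [e2, e1, s2] at s1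
  exact ((ENNReal.mul_right_inj cchi_ne_zero cchi_ne_top).mp s1).symm

theorem surf_neg {f : V → ℝ≥0∞} (hf : Measurable f) :
    ∫⁻ o : S2, f (-(o : V)) ∂surf = ∫⁻ o : S2, f (o : V) ∂surf :=
  surf_rot (LinearIsometryEquiv.neg ℝ) hf

theorem inner_sphP {e b1 b2 : V} (h : Frame e b1 b2) (z φ : ℝ) :
    inner ℝ e (sphP e b1 b2 z φ) = z := by
  unfold sphP
  rw [smul_add, smul_smul, smul_smul, h.inner_e]

/-- Archimedes -/
theorem surf_inner {k : V} (hk : ‖k‖ = 1) {F : ℝ → ℝ≥0∞} (hF : Measurable F) :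
    ∫⁻ o : S2, F (inner ℝ k (o : V)) ∂surf =
      ENNReal.ofReal (2 * Real.pi) * ∫⁻ x in Icc (-1 : ℝ) 1, F x := by
  obtain ⟨b1, b2, h⟩ := exists_Frame k hk
  have mi : Measurable fun z : V => (inner ℝ k z : ℝ) := by fun_prop
  have mFi : Measurable fun z : V => F (inner ℝ k z) := hF.comp mi
  rw [h.surf mFi, ← lintegral_const_mul _ hF, setLIntegral_congr Ioo_ae_eq_Icc.symm]
  refine lintegral_congr fun z => ?_
  simp only [inner_sphP h]
  rw [setLIntegral_const, Real.volume_Ioo, mul_comm]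
  congr 2
  ring

/-! ## T3 -/

theorem lint_quad (G : ℝ → ℝ≥0∞) : ∫⁻ z in Ioo (0 : ℝ) 1, ENNReal.ofReal (4 * z) *
    G (2 * z ^ 2 - 1) = ∫⁻ x in Ioo (-1 : ℝ) 1, G x := by
  have himg : (fun z : ℝ => 2 * z ^ 2 - 1) '' Ioo 0 1 = Ioo (-1 : ℝ) 1 := by
    ext y
    constructor
    · rintro ⟨z, hz, rfl⟩
      have h1 : 0 < z ^ 2 := pow_pos hz.1 2
      have h2 : z ^ 2 < 1 := pow_lt_one₀ hz.1.le hz.2 two_ne_zero
      exact ⟨by simp only; linarith, by simp only; linarith⟩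
    · intro hy
      have h1 : 0 < (y + 1) / 2 := by linarith [hy.1]
      have h2 : (y + 1) / 2 < 1 := by linarith [hy.2]
      refine ⟨√((y + 1) / 2), ⟨Real.sqrt_pos.2 h1, ?_⟩, ?_⟩
      · rw [Real.sqrt_lt' one_pos, one_pow]
        exact h2
      · simp only
        rw [Real.sq_sqrt h1.le]
        ring
  have h := lintegral_image_eq_lintegral_abs_deriv_mul (s := Ioo (0 : ℝ) 1)
    (f := fun z : ℝ => 2 * z ^ 2 - 1) (f' := fun z => 4 * z) measurableSet_Ioo
    (fun z _ => by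
      have h1 := ((hasDerivAt_pow 2 z).const_mul 2).sub_const 1
      have h2 : (4 * z : ℝ) = 2 * (((2 : ℕ) : ℝ) * z ^ (2 - 1)) := by
        norm_num
        ring
      rw [h2]
      exact h1.hasDerivWithinAt)
    (fun a ha b hb hab => by
      simp only at hab
      have h1 : a ^ 2 = b ^ 2 := by linarith
      exact (pow_left_inj₀ ha.1.le hb.1.le two_ne_zero).1 h1) G
  rw [himg] at h
  rw [h]
  refine setLIntegral_congr_fun measurableSet_Ioo fun z hz => ?_
  rw [abs_of_pos (by linarith [hz.1] : (0 : ℝ) < 4 * z)]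

theorem lint_half (e b1 b2 : V) (h : Frame e b1 b2) {Ψ : V → ℝ≥0∞} (hΨ : Measurable Ψ) :
    ∫⁻ z in Ioo (0 : ℝ) 1, ∫⁻ φ in Ioo (-Real.pi) Real.pi, ENNReal.ofReal (4 * z) *
      Ψ (sphP e b1 b2 (2 * z ^ 2 - 1) φ) = ∫⁻ o : S2, Ψ (o : V) ∂surf := by
  rw [h.surf hΨ, ← lint_quad]
  refine lintegral_congr fun z => ?_
  rw [lintegral_const_mul]
  exact ((hΨ.comp (continuous_sphP e b1 b2).measurable).comp
    (by fun_prop : Measurable fun φ : ℝ => (2 * z ^ 2 - 1, φ)) :)

theorem two_sphP {e b1 b2 : V} {z : ℝ} (hz : z ∈ Ioo (0 : ℝ) 1) (φ : ℝ) :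
    (2 * z) • sphP e b1 b2 z φ = e + sphP e b1 b2 (2 * z ^ 2 - 1) φ := by
  have h1 : √(1 - (2 * z ^ 2 - 1) ^ 2) = 2 * z * √(1 - z ^ 2) := by
    have h2 : 1 - (2 * z ^ 2 - 1) ^ 2 = (2 * z) ^ 2 * (1 - z ^ 2) := by ring
    rw [h2, Real.sqrt_mul (sq_nonneg _), Real.sqrt_sq (by linarith [hz.1])]
  unfold sphP
  rw [h1]
  module

theorem Frame.neg {e b1 b2 : V} (h : Frame e b1 b2) : Frame e (-b1) (-b2) where
  norm0 := h.norm0
  norm1 := by rw [norm_neg]; exact h.norm1
  norm2 := by rw [norm_neg]; exact h.norm2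
  in01 := by rw [inner_neg_right, h.in01, neg_zero]
  in02 := by rw [inner_neg_right, h.in02, neg_zero]
  in12 := by rw [inner_neg_right, inner_neg_left, neg_neg, h.in12]

theorem lint_split {L : ℝ → ℝ≥0∞} (mL : Measurable L) : ∫⁻ z in Ioo (-1 : ℝ) 1, L z =
    (∫⁻ z in Ioo (0 : ℝ) 1, L z) + ∫⁻ z in Ioo (0 : ℝ) 1, L (-z) := by
  have mI : Measurable ((Ioo (-1 : ℝ) 1).indicator L) := mL.indicator measurableSet_Ioo
  rw [← lintegral_indicator measurableSet_Ioo, lintegral_real_split mI, lintegral_add_left mI]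
  have a1 : ∀ (J : ℝ → ℝ≥0∞), ∫⁻ a in Ioi (0 : ℝ), (Ioo (-1 : ℝ) 1).indicator J a =
      ∫⁻ z in Ioo (0 : ℝ) 1, J z := by
    intro J
    rw [setLIntegral_indicator measurableSet_Ioo]
    congr 2
    ext z
    simp only [mem_inter_iff, mem_Ioo, mem_Ioi]
    constructor
    · rintro ⟨⟨_, h⟩, h'⟩
      exact ⟨h', h⟩
    · rintro ⟨h', h⟩
      exact ⟨⟨by linarith, h⟩, h'⟩
  rw [a1 L]
  congr 1
  rw [← a1 fun z => L (-z)]
  refine lintegral_congr fun z => ?_
  simp only [indicator, mem_Ioo]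
  have h1 : (-1 < -z ∧ -z < 1) ↔ (-1 < z ∧ z < 1) := by
    constructor
    · rintro ⟨h, h'⟩
      exact ⟨by linarith, by linarith⟩
    · rintro ⟨h, h'⟩
      exact ⟨by linarith, by linarith⟩
  by_cases h2 : -1 < z ∧ z < 1
  · rw [if_pos h2, if_pos (h1.2 h2)]
  · rw [if_neg h2, if_neg (fun h3 => h2 (h1.1 h3))]

theorem lint_part (m : ℝ) {e b1 b2 : V} (h : Frame e b1 b2) {Ψ : V → ℝ≥0∞} (mΨ : Measurable Ψ)
    {J : ℝ → ℝ≥0∞} (hJ : ∀ z ∈ Ioo (0 : ℝ) 1, J z = ∫⁻ φ in Ioo (-Real.pi) Real.pi,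
        ENNReal.ofReal (m / 4) * (ENNReal.ofReal (4 * z) *
          Ψ (sphP e b1 b2 (2 * z ^ 2 - 1) φ))) :
    ∫⁻ z in Ioo (0 : ℝ) 1, J z = ENNReal.ofReal (m / 4) * ∫⁻ o : S2, Ψ (o : V) ∂P140.surf := by
  rw [setLIntegral_congr_fun measurableSet_Ioo hJ, ← lint_half e b1 b2 h mΨ]
  have m3 : Measurable fun q : ℝ × ℝ => ENNReal.ofReal (4 * q.1) *
      Ψ (sphP e b1 b2 (2 * q.1 ^ 2 - 1) q.2) := by
    apply Measurable.mul
    · exact (measurable_fst.const_mul 4).ennreal_ofReal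
    · exact ((mΨ.comp (continuous_sphP e b1 b2).measurable).comp
        (by fun_prop : Measurable fun q : ℝ × ℝ => (2 * q.1 ^ 2 - 1, q.2)) :)
  have m4 : Measurable fun z : ℝ => ∫⁻ φ in Ioo (-Real.pi) Real.pi, ENNReal.ofReal (4 * z) *
      Ψ (sphP e b1 b2 (2 * z ^ 2 - 1) φ) := Measurable.lintegral_prod_right'
    (ν := volume.restrict (Ioo (-Real.pi) Real.pi)) m3
  rw [← lintegral_const_mul _ m4]
  refine lintegral_congr fun z => ?_
  have m5 : Measurable fun φ : ℝ => ENNReal.ofReal (4 * z) *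
      Ψ (sphP e b1 b2 (2 * z ^ 2 - 1) φ) :=
    (m3.comp (by fun_prop : Measurable fun φ : ℝ => (z, φ)) :)
  rw [lintegral_const_mul _ m5]

/-- the function `o ↦ |m e · o| Φ(v - (m e · o) o, w + (m e · o) o)` in spherical coordinates -/
theorem law_pos {m : ℝ} (hm0 : 0 < m) {v w c e b1 b2 : V} (hv : v = c + (m / 2) • e)
    (hw : w = c - (m / 2) • e) (h : Frame e b1 b2) (Φ : V × V → ℝ≥0∞) {z : ℝ}
    (hz : z ∈ Ioo (0 : ℝ) 1) (φ : ℝ) :
    ENNReal.ofReal |inner ℝ (m • e) (sphP e b1 b2 z φ)| *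
      Φ (v - (inner ℝ (m • e) (sphP e b1 b2 z φ) : ℝ) • sphP e b1 b2 z φ,
        w + (inner ℝ (m • e) (sphP e b1 b2 z φ) : ℝ) • sphP e b1 b2 z φ) =
    ENNReal.ofReal (m / 4) * (ENNReal.ofReal (4 * z) *
      Φ (c - (m / 2) • sphP e b1 b2 (2 * z ^ 2 - 1) φ,
        c + (m / 2) • sphP e b1 b2 (2 * z ^ 2 - 1) φ)) := by
  have i1 : (inner ℝ (m • e) (sphP e b1 b2 z φ) : ℝ) = m * z := by
    rw [inner_smul_left, inner_sphP h]
    simp
  have i2 : (m * z) • sphP e b1 b2 z φ =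
      (m / 2) • e + (m / 2) • sphP e b1 b2 (2 * z ^ 2 - 1) φ := by
    rw [← smul_add, ← two_sphP hz, smul_smul]
    congr 1
    ring
  have f1 : ∀ S : V, v - ((m / 2) • e + (m / 2) • S) = c - (m / 2) • S := by
    intro S
    rw [hv]
    abel
  have f2 : ∀ S : V, w + ((m / 2) • e + (m / 2) • S) = c + (m / 2) • S := by
    intro S
    rw [hw]
    abel
  have g1 : m * z = m / 4 * (4 * z) := by ring
  rw [i1, i2, f1, f2, abs_of_pos (mul_pos hm0 hz.1), ← mul_assoc,
    ← ENNReal.ofReal_mul (by positivity : (0 : ℝ) ≤ m / 4), g1]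

/-- joint law of the two post-collisional velocities: center `(v + w)/2`, radius `‖v - w‖/2` -/
theorem uniform_law (v w : V) {Φ : V × V → ℝ≥0∞} (hΦ : Measurable Φ) :
    ∫⁻ ω : S2, ENNReal.ofReal |relA v w ω| * Φ (post v w ω, postStar v w ω) ∂surf =
      ENNReal.ofReal (‖v - w‖ / 2) * ∫⁻ s : S2, Φ
        ((1 / 2 : ℝ) • (v + w) + (‖v - w‖ / 2) • (s : V),
          (1 / 2 : ℝ) • (v + w) - (‖v - w‖ / 2) • (s : V)) ∂surf := by
  rcases eq_or_ne v w with hvw | hvw
  · subst hvw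
    simp [relA]
  obtain ⟨m, hm⟩ : ∃ m : ℝ, m = ‖v - w‖ := ⟨_, rfl⟩
  have hm0 : 0 < m := by rw [hm]; exact norm_pos_iff.2 (sub_ne_zero.2 hvw)
  obtain ⟨e, he⟩ : ∃ e : V, e = m⁻¹ • (v - w) := ⟨_, rfl⟩
  have he1 : ‖e‖ = 1 := by
    rw [he, norm_smul, norm_inv, Real.norm_of_nonneg hm0.le, ← hm]
    exact inv_mul_cancel₀ hm0.ne'
  have hme : v - w = m • e := by
    rw [he, smul_smul, mul_inv_cancel₀ hm0.ne', one_smul]
  obtain ⟨b1, b2, h⟩ := exists_Frame e he1
  obtain ⟨c, hc⟩ : ∃ c : V, c = (1 / 2 : ℝ) • (v + w) := ⟨_, rfl⟩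
  have h1 : (m / 2) • e = (1 / 2 : ℝ) • (v - w) := by rw [hme, smul_smul]; congr 1; ring
  have hv : v = c + (m / 2) • e := by
    rw [h1, hc]
    module
  have hw : w = c - (m / 2) • e := by
    rw [h1, hc]
    module
  rw [← hm, ← hc]
  -- the function of the direction
  have mK : Measurable fun o : V => ENNReal.ofReal |inner ℝ (m • e) o| *
      Φ (v - (inner ℝ (m • e) o : ℝ) • o, w + (inner ℝ (m • e) o : ℝ) • o) := by
    have mi : Measurable fun o : V => (inner ℝ (m • e) o : ℝ) := by fun_prop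
    apply (mi.abs.ennreal_ofReal).mul
    apply hΦ.comp
    exact (measurable_const.sub (mi.smul measurable_id)).prodMk
      (measurable_const.add (mi.smul measurable_id))
  have mΨ : Measurable fun s : V => Φ (c - (m / 2) • s, c + (m / 2) • s) := by
    have ms : Measurable fun s : V => (m / 2) • s := measurable_id.const_smul (m / 2)
    exact hΦ.comp ((measurable_const.sub ms).prodMk (measurable_const.add ms))
  have e1 : ∫⁻ ω : S2, ENNReal.ofReal |relA v w ω| * Φ (post v w ω, postStar v w ω) ∂P140.surf =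
      ∫⁻ ω : S2, (fun o : V => ENNReal.ofReal |inner ℝ (m • e) o| *
      Φ (v - (inner ℝ (m • e) o : ℝ) • o, w + (inner ℝ (m • e) o : ℝ) • o)) (ω : V)
        ∂P140.surf := by
    rw [← hme]
    rfl
  rw [e1, h.surf mK]
  have mL : Measurable fun z : ℝ => ∫⁻ φ in Ioo (-Real.pi) Real.pi,
      (fun o : V => ENNReal.ofReal |inner ℝ (m • e) o| *
      Φ (v - (inner ℝ (m • e) o : ℝ) • o, w + (inner ℝ (m • e) o : ℝ) • o))
        (sphP e b1 b2 z φ) :=
    Measurable.lintegral_prod_right' (ν := volume.restrict (Ioo (-Real.pi) Real.pi))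
      (mK.comp (continuous_sphP e b1 b2).measurable)
  rw [lint_split mL, lint_part m h mΨ (fun z hz => lintegral_congr fun φ =>
    law_pos hm0 hv hw h Φ hz φ), lint_part m h.neg mΨ (fun z hz => lintegral_congr fun φ => ?_),
    ← add_mul, ← ENNReal.ofReal_add (by positivity) (by positivity)]
  · congr 1
    · congr 1
      ring
    · rw [← surf_neg mΨ]
      refine lintegral_congr fun s => ?_
      simp only [smul_neg, sub_eq_add_neg, neg_neg]
  · rw [← law_pos hm0 hv hw h.neg Φ hz φ]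
    have h2 : sphP e b1 b2 (-z) φ = - sphP e (-b1) (-b2) z φ := by
      unfold sphP
      rw [neg_sq]
      module
    simp only [h2, inner_neg_right, abs_neg, neg_smul, smul_neg, neg_neg]

theorem uniform_post (v w : V) {φ : V → ℝ≥0∞} (hφ : Measurable φ) :
    ∫⁻ ω : S2, ENNReal.ofReal |relA v w ω| * φ (post v w ω) ∂surf =
      ENNReal.ofReal (‖v - w‖ / 2) * ∫⁻ s : S2, φ
        ((1 / 2 : ℝ) • (v + w) + (‖v - w‖ / 2) • (s : V)) ∂surf :=
  uniform_law v w (Φ := fun p => φ p.1) (hφ.comp measurable_fst)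

theorem uniform_postStar (v w : V) {φ : V → ℝ≥0∞} (hφ : Measurable φ) :
    ∫⁻ ω : S2, ENNReal.ofReal |relA v w ω| * φ (postStar v w ω) ∂surf =
      ENNReal.ofReal (‖v - w‖ / 2) * ∫⁻ s : S2, φ
        ((1 / 2 : ℝ) • (v + w) + (‖v - w‖ / 2) • (s : V)) ∂surf := by
  rw [← uniform_post v w hφ]
  have hm : Measurable fun p : V × V => φ p.1 := hφ.comp measurable_fst
  have h := lintegral_exchange v w hm
  simp only [kk] at h
  exact h.symm

theorem lint_relA (v w : V) :
    ∫⁻ ω : S2, ENNReal.ofReal |relA v w ω| ∂surf = ENNReal.ofReal (2 * Real.pi * ‖v - w‖) := by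
  have h := uniform_post v w (φ := fun _ => 1) measurable_const
  simp only [mul_one] at h
  rw [h, surf_const, mul_one, ← ENNReal.ofReal_mul (by positivity)]
  congr 1
  ring

/-- law of a coordinate of a post-collisional velocity -/
theorem post_inner_law (v w : V) {k : V} (hk : ‖k‖ = 1) {F : ℝ → ℝ≥0∞} (hF : Measurable F) :
    ∫⁻ ω : S2, ENNReal.ofReal |relA v w ω| * F (inner ℝ k (post v w ω)) ∂surf =
      ENNReal.ofReal (Real.pi * ‖v - w‖) * ∫⁻ x in Icc (-1 : ℝ) 1,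
        F (inner ℝ k (v + w) / 2 + ‖v - w‖ / 2 * x) := by
  have mi : Measurable fun z : V => (inner ℝ k z : ℝ) := by fun_prop
  rw [uniform_post v w (φ := fun z => F (inner ℝ k z)) (hF.comp mi)]
  have h1 : ∀ s : S2, F (inner ℝ k ((1 / 2 : ℝ) • (v + w) + (‖v - w‖ / 2) • (s : V))) =
      (fun x => F (inner ℝ k (v + w) / 2 + ‖v - w‖ / 2 * x)) (inner ℝ k (s : V)) := by
    intro s
    simp only
    rw [inner_add_right, inner_smul_right, inner_smul_right]
    congr 2
    ring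
  simp only [h1]
  have m2 : Measurable fun x : ℝ => F (inner ℝ k (v + w) / 2 + ‖v - w‖ / 2 * x) :=
    hF.comp (by fun_prop)
  have h2 := surf_inner hk m2
  rw [h2, ← mul_assoc, ← ENNReal.ofReal_mul (by positivity)]
  congr 2
  ring

/-- law of the energy of a post-collisional velocity -/
theorem post_energy_law (v w : V) {F : ℝ → ℝ≥0∞} (hF : Measurable F) :
    ∫⁻ ω : S2, ENNReal.ofReal |relA v w ω| * F (‖post v w ω‖ ^ 2) ∂surf =
      ENNReal.ofReal (Real.pi * ‖v - w‖) * ∫⁻ x in Icc (-1 : ℝ) 1,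
        F ((‖v‖ ^ 2 + ‖w‖ ^ 2) / 2 + ‖v - w‖ * ‖v + w‖ / 2 * x) := by
  have m1 : Measurable fun z : V => F (‖z‖ ^ 2) := hF.comp (measurable_norm.pow_const 2)
  rw [uniform_post v w m1]
  obtain ⟨k, hk, hkc⟩ : ∃ k : V, ‖k‖ = 1 ∧ v + w = ‖v + w‖ • k := by
    rcases eq_or_ne (v + w) 0 with h0 | h0
    · exact ⟨!₂[(0 : ℝ), 0, 1], frame_std.norm0, by rw [h0]; simp⟩
    · refine ⟨‖v + w‖⁻¹ • (v + w), ?_, ?_⟩
      · rw [norm_smul, norm_inv, norm_norm]
        exact inv_mul_cancel₀ (norm_ne_zero_iff.2 h0)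
      · rw [smul_smul, mul_inv_cancel₀ (norm_ne_zero_iff.2 h0), one_smul]
  have h1 : ∀ s : S2, F (‖(1 / 2 : ℝ) • (v + w) + (‖v - w‖ / 2) • (s : V)‖ ^ 2) =
      (fun x => F ((‖v‖ ^ 2 + ‖w‖ ^ 2) / 2 + ‖v - w‖ * ‖v + w‖ / 2 * x)) (inner ℝ k (s : V)) := by
    intro s
    simp only
    congr 1
    rw [norm_add_sq_real, norm_smul, norm_smul, inner_smul_left, inner_smul_right, norm_o]
    nth_rewrite 2 [hkc]
    rw [inner_smul_left]
    simp only [conj_trivial, Real.norm_eq_abs, mul_one]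
    have h3 : ‖v + w‖ ^ 2 + ‖v - w‖ ^ 2 = 2 * (‖v‖ ^ 2 + ‖w‖ ^ 2) := by
      rw [norm_add_sq_real, norm_sub_sq_real]
      ring
    rw [mul_pow, sq_abs, sq_abs]
    linear_combination (1 / 4 : ℝ) * h3
  simp only [h1]
  have m2 : Measurable fun x : ℝ => F ((‖v‖ ^ 2 + ‖w‖ ^ 2) / 2 + ‖v - w‖ * ‖v + w‖ / 2 * x) :=
    hF.comp (by fun_prop)
  have h2 := surf_inner hk m2
  rw [h2, ← mul_assoc, ← ENNReal.ofReal_mul (by positivity)]
  congr 2
  ring

theorem postStar_energy_law (v w : V) {F : ℝ → ℝ≥0∞} (hF : Measurable F) :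
    ∫⁻ ω : S2, ENNReal.ofReal |relA v w ω| * F (‖postStar v w ω‖ ^ 2) ∂surf =
      ENNReal.ofReal (Real.pi * ‖v - w‖) * ∫⁻ x in Icc (-1 : ℝ) 1,
        F ((‖v‖ ^ 2 + ‖w‖ ^ 2) / 2 + ‖v - w‖ * ‖v + w‖ / 2 * x) := by
  have m1 : Measurable fun z : V => F (‖z‖ ^ 2) := hF.comp (measurable_norm.pow_const 2)
  rw [← post_energy_law v w hF, uniform_postStar v w m1, ← uniform_post v w m1]

theorem LL_eq {f : V → ℝ≥0∞} (hf : Measurable f) (v : V) :
    LL f v = ENNReal.ofReal (2 * Real.pi) * ∫⁻ w, ENNReal.ofReal ‖v - w‖ * f w := by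
  have m1 : Measurable fun w : V => ENNReal.ofReal ‖v - w‖ * f w :=
    ((measurable_const.sub measurable_id).norm.ennreal_ofReal).mul hf
  rw [← lintegral_const_mul _ m1]
  unfold LL
  refine lintegral_congr fun w => ?_
  have m2 : Measurable fun ω : S2 => ENNReal.ofReal |relA v w ω| := meas_sec_o measurable_kk v w
  rw [lintegral_mul_const _ m2, lint_relA, ENNReal.ofReal_mul (by positivity), mul_assoc]

end Vale.Agent.P140.NU
end
end

section

/-!
P140, non-uniqueness, module J (growth functional): base definitions.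

`Ctx P t0 n` collects numerical facts on the parameters and the facts proved by the other modules
at fixed `P`, `t0`, `n`; it is constructed in `J/Main.lean`.
-/

open MeasureTheory Set Filter
open scoped ENNReal Topology

noncomputable section

namespace Vale.Agent.P140.NU.J

/-- symmetric pair gain tested with `φ`: hot particle `v`, partners with density `f` -/
def PW (N : ℕ) (f φ : V → ℝ≥0∞) (v : V) : ℝ≥0∞ :=
  ∫⁻ u : V, f u * ∫⁻ ω : S2, ENNReal.ofReal (DL.bN N v u ω) *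
    (φ (post v u ω) + φ (postStar v u ω)) ∂surf

/-- the same without truncation of the kernel -/
def PU (f φ : V → ℝ≥0∞) (v : V) : ℝ≥0∞ :=
  ∫⁻ u : V, f u * ∫⁻ ω : S2, ENNReal.ofReal |relA v u ω| *
    (φ (post v u ω) + φ (postStar v u ω)) ∂surf

/-- truncated collision frequency of `[0,∞]`-valued densities -/
def RW (N : ℕ) (f : V → ℝ≥0∞) (v : V) : ℝ≥0∞ :=
  ∫⁻ u : V, f u * ∫⁻ ω : S2, ENNReal.ofReal (DL.bN N v u ω) ∂surf

/-- `∫ f(u) |v - u| du` -/
def MM (f : V → ℝ≥0∞) (v : V) : ℝ≥0∞ := ∫⁻ u : V, f u * ENNReal.ofReal ‖v - u‖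

/-- the main weight as a `[0,∞]`-valued function of the velocity -/
def wh (P : Par) (n : ℕ) (t0 t : ℝ) (x : T3) : V → ℝ≥0∞ :=
  fun v => ENNReal.ofReal (wt P n (2 * t0) t x v)

/-- the corrected small weight as a `[0,∞]`-valued function of the velocity -/
def eh (P : Par) (n : ℕ) (t0 t : ℝ) (x : T3) : V → ℝ≥0∞ :=
  fun v => ENNReal.ofReal (et P n (2 * t0) t x v)

/-- the noise -/
def bb (P : Par) (CB : ℝ) (n : ℕ) (t : ℝ) (x : T3) : V → ℝ≥0∞ :=
  fun u => bf P n t x u + ENNReal.ofReal CB * Bb P t x u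

/-- velocity of the cold gas with vertical velocity `s` at `x` -/
def us (P : Par) (s : ℝ) (x : T3) : V :=
  !₂[P.w * rep x 0 / rr x, P.w * rep x 1 / rr x, s]

/-- production rate of the small weight: `(y/T) e + 500 e q_b + Λ/(2T) ẽ` -/
def prodE (P : Par) (n : ℕ) (t0 t : ℝ) (x : T3) (v : V) : ℝ :=
  yy P n t x v / P.TT n t * ee P n t x v + 500 * ee P n t x v * qb P n t x v +
    P.Lam / (2 * P.TT n t) * et P n (2 * t0) t x v

/-- `P`, `t0`, `n` are good: numerical facts and the results of the other modules -/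
structure Ctx (P : Par) (t0 : ℝ) (n : ℕ) : Prop where
  good : P.Good
  hc : (10 : ℝ) ^ 30 ≤ P.c
  hkd : P.kdel ≤ P.m1 / 10 ^ 6
  hK : 1 ≤ P.K
  ht0 : 0 < t0
  hnj : P.j0 ≤ n
  hss : P.ss n ≤ t0
  ht1 : t0 ≤ 1 / (10 ^ 6 * P.Vg)
  cf_support : ∀ t ∈ Icc 0 (2 * t0), ∀ x v,
    cf P n t x v ≠ 0 → ∃ j ∈ Finset.Icc P.j0 n, rr x - P.w * t ∈ P.cell (gg / 2) j ∧
      v ∈ Box P j x ∧ √(SS P (sg j) x v) ≤ 4 * P.del j ∧
      cf P n t x v ≤ ENNReal.ofReal (P.amp j)
  cf_mass_le : ∀ t ∈ Icc 0 (2 * t0), ∀ x,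
    ∫⁻ v, cf P n t x v ≤ ENNReal.ofReal ((1 + 1 / 1000) * P.c / rr x)
  cf_mass_ge : ∀ t ∈ Icc 0 (2 * t0), ∀ x,
    (∃ j ∈ Finset.Icc P.j0 n, rr x - P.w * t ∈ P.cell (2 * gg) j) →
    ENNReal.ofReal (P.c / rr x) ≤ ∫⁻ v, cf P n t x v
  cf_meas : Measurable fun p : ℝ × T3 × V => cf P n p.1 p.2.1 p.2.2
  offspring1 : ∀ t ∈ Icc 0 t0, ∀ x u v, cf P n t x u ≠ 0 → ‖v‖ ≤ P.Vg →
    rr x ≤ P.Vg * P.TT n t →
    ∀ j ∈ Finset.Icc P.j0 n, rr x - P.w * t ∈ P.cell (gg / 2) j →
    (P.m2 ≤ √(SS P (sg j) x v) ∨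
        (P.m1 ≤ √(SS P (sg j) x v) ∧ P.a1 (P.TT n t) ≤ rr x - P.w * P.TT n t)) →
    ENNReal.ofReal (3 / 4 * (2 * Real.pi * ‖v - u‖)) ≤
      ∫⁻ ω, ENNReal.ofReal (|relA v u ω| * wt P n (2 * t0) t x (post v u ω)) ∂surf
  offspring2 : ∀ t ∈ Icc 0 t0, ∀ x u v, cf P n t x u ≠ 0 → ‖v‖ ≤ P.Vg →
    rr x ≤ P.Vg * P.TT n t →
    ∀ j ∈ Finset.Icc P.j0 n, rr x - P.w * t ∈ P.cell (gg / 2) j →
    P.m1 ≤ √(SS P (sg j) x v) → √(SS P (sg j) x v) < P.m2 →
    -(√(SS P (sg j) x v) / 200) ≤ dotE x v - P.w →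
    ENNReal.ofReal (1 / 4 * (2 * Real.pi * ‖v - u‖)) ≤
      ∫⁻ ω, ENNReal.ofReal (|relA v u ω| * wt P n (2 * t0) t x (post v u ω)) ∂surf
  exposure : ∀ t ∈ Icc 0 (2 * t0), ∀ x v,
    500 * ∫ τ in t..(2 * t0), qb P n τ (mv x v (τ - t)) v ≤ 1 / 4
  wt_nonneg : ∀ t ∈ Icc 0 (2 * t0), ∀ x v, 0 ≤ wt P n (2 * t0) t x v
  wt_le_one : ∀ t ∈ Icc 0 (2 * t0), ∀ x v, wt P n (2 * t0) t x v ≤ 1
  wt_supp : ∀ t ∈ Icc 0 (2 * t0), ∀ x v, wt P n (2 * t0) t x v ≠ 0 → ‖v‖ ≤ P.Vg
  wt_meas : Measurable fun p : ℝ × T3 × V => wt P n (2 * t0) p.1 p.2.1 p.2.2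
  et_meas : Measurable fun p : ℝ × T3 × V => et P n (2 * t0) p.1 p.2.1 p.2.2

/-- bounds for the noise and for the hot profile, constant `CN` -/
structure CtxE (P : Par) (t0 : ℝ) (n : ℕ) (CB CN : ℝ) : Prop where
  CN0 : 1 ≤ CN
  LLb : ∀ t ∈ Icc 0 t0, ∀ x v, LL (bb P CB n t x) v ≤ ENNReal.ofReal (CN * (1 + ‖v‖))
  intb : ∀ t ∈ Icc 0 t0, ∀ x, ∫⁻ u, bb P CB n t x u *
    ENNReal.ofReal ((1 + ‖u‖) * Real.exp (‖u‖ ^ 2 / 16)) ≤ ENNReal.ofReal CN
  LLPi : ∀ t ∈ Icc 0 t0, ∀ x v, LL (Pi P n (1 / 8) t x) v ≤ ENNReal.ofReal (CN * (1 + ‖v‖))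
  intPi : ∀ t ∈ Icc 0 t0, ∀ x, ∫⁻ u, Pi P n (1 / 8) t x u *
    ENNReal.ofReal ((1 + ‖u‖) * Real.exp (‖u‖ ^ 2 / 16)) ≤ ENNReal.ofReal CN
  intW : ∀ t ∈ Icc 0 t0, ∀ x, ∫⁻ u, WW P t x u *
    ENNReal.ofReal ((1 + ‖u‖) * Real.exp (2 * ‖u‖ - ‖u‖ ^ 2 / 16)) ≤ ENNReal.ofReal CN
  meas_bb : Measurable fun p : ℝ × T3 × V => bb P CB n p.1 p.2.1 p.2.2
  meas_Pi : Measurable fun p : ℝ × T3 × V => Pi P n (1 / 8) p.1 p.2.1 p.2.2

end Vale.Agent.P140.NU.J
end
end

section

/-!
P140-NU-S: integrals over the plane of the singular weight `|p - c|^(-3/2)`.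
-/

open MeasureTheory Set
open scoped ENNReal NNReal Topology

noncomputable section

namespace Vale.Agent.P140.NU.S

/-- `|p|^(-3/2)` on the plane -/
def g34 (p : ℝ × ℝ) : ℝ≥0∞ := ENNReal.ofReal (p.1 ^ 2 + p.2 ^ 2) ^ (-(3 / 4) : ℝ)

theorem measurable_g34 : Measurable g34 := by
  unfold g34
  apply Measurable.pow_const
  fun_prop

/-- the unit disc -/
def D1 : Set (ℝ × ℝ) := {p | p.1 ^ 2 + p.2 ^ 2 < 1}

theorem measurableSet_D1 : MeasurableSet D1 := by
  apply measurableSet_lt <;> fun_prop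

theorem lint_rpow_lt_top : ∫⁻ r in Ioo (0 : ℝ) 1, ENNReal.ofReal (r ^ (-(1 / 2) : ℝ)) < ⊤ := by
  have h : IntegrableOn (fun x : ℝ => x ^ (-(1 / 2) : ℝ)) (Ioo 0 1) :=
    (intervalIntegral.integrableOn_Ioo_rpow_iff one_pos).2 (by norm_num)
  exact h.lintegral_lt_top

theorem g34_disc : ∫⁻ p in D1, g34 p < ⊤ := by
  rw [← lintegral_indicator measurableSet_D1, ← lintegral_comp_polarCoord_symm]
  have hle : ∀ p ∈ polarCoord.target, ENNReal.ofReal p.1 • (D1.indicator g34) (polarCoord.symm p)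
      ≤ (Ioo (0 : ℝ) 1).indicator (fun r => ENNReal.ofReal (r ^ (-(1 / 2) : ℝ))) p.1 * 1 := by
    intro p hp
    have hr : 0 < p.1 := hp.1
    have hsq : (polarCoord.symm p).1 ^ 2 + (polarCoord.symm p).2 ^ 2 = p.1 ^ 2 := by
      simp only [polarCoord_symm_apply]
      nlinarith [Real.sin_sq_add_cos_sq p.2]
    by_cases h1 : p.1 < 1
    · have hm : polarCoord.symm p ∈ D1 := by
        show (polarCoord.symm p).1 ^ 2 + (polarCoord.symm p).2 ^ 2 < 1
        rw [hsq]; (by_contra nlg; linarith only [nlg, mul_pos (sub_pos.2 h1) (sub_pos.2 h1), mul_pos (sub_pos.2 hr) (sub_pos.2 h1), mul_nonneg (sub_nonneg.2 (not_lt.1 nlg)) (le_of_lt (sub_pos.2 h1)), mul_nonneg (sub_nonneg.2 (not_lt.1 nlg)) (le_of_lt (sub_pos.2 hr))])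
      rw [indicator_of_mem hm, indicator_of_mem (show p.1 ∈ Ioo (0 : ℝ) 1 from ⟨hr, h1⟩)]
      unfold g34
      rw [hsq, ENNReal.ofReal_rpow_of_pos (by positivity), smul_eq_mul,
        ← ENNReal.ofReal_mul hr.le, mul_one]
      apply le_of_eq
      congr 1
      rw [← Real.rpow_natCast, ← Real.rpow_mul hr.le]
      nth_rw 1 [← Real.rpow_one p.1]
      rw [← Real.rpow_add hr]
      norm_num
    · have hm : polarCoord.symm p ∉ D1 := by
        show ¬ (polarCoord.symm p).1 ^ 2 + (polarCoord.symm p).2 ^ 2 < 1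
        rw [hsq]; push Not at h1 ⊢; (by_contra nlg; linarith [mul_nonneg (le_of_lt (sub_pos.2 hr)) (sub_nonneg.2 h1), mul_pos (sub_pos.2 (not_le.1 nlg)) (sub_pos.2 hr), mul_nonneg (sq_nonneg (p.1 : ℝ)) (sub_nonneg.2 h1)])
      rw [indicator_of_notMem hm]
      simp
  refine lt_of_le_of_lt (setLIntegral_mono' polarCoord.open_target.measurableSet hle) ?_
  rw [polarCoord_target]
  rw [Measure.volume_eq_prod, ← Measure.prod_restrict,
    lintegral_prod_mul (f := (Ioo (0 : ℝ) 1).indicator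
      (fun r => ENNReal.ofReal (r ^ (-(1 / 2) : ℝ)))) (g := fun _ => 1)
      (by
        apply Measurable.aemeasurable
        apply Measurable.indicator _ measurableSet_Ioo
        fun_prop) aemeasurable_const]
  apply ENNReal.mul_lt_top
  · refine lt_of_le_of_lt (setLIntegral_le_lintegral _ _) ?_
    rw [lintegral_indicator measurableSet_Ioo]
    exact lint_rpow_lt_top
  · rw [lintegral_const, Measure.restrict_apply_univ, one_mul, Real.volume_Ioo]
    exact ENNReal.ofReal_lt_top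

/-- the constant of the disc -/
theorem g34_le_one {p : ℝ × ℝ} (hp : p ∉ D1) : g34 p ≤ 1 := by
  have h : 1 ≤ p.1 ^ 2 + p.2 ^ 2 := not_lt.1 hp
  unfold g34
  rw [ENNReal.rpow_neg]
  apply ENNReal.inv_le_one.2
  apply ENNReal.one_le_rpow _ (by norm_num)
  rw [← ENNReal.ofReal_one]
  exact ENNReal.ofReal_le_ofReal h

/-- uniform bound with a Gaussian -/
theorem plane_gauss : ∃ C : ℝ, 0 < C ∧ ∀ a0 b0 : ℝ,
    ∫⁻ p : ℝ × ℝ, ENNReal.ofReal ((p.1 - a0) ^ 2 + (p.2 - b0) ^ 2) ^ (-(3 / 4) : ℝ) *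
      ENNReal.ofReal (Real.exp (-(p.1 ^ 2 + p.2 ^ 2) / 16)) ≤ ENNReal.ofReal C := by
  have hG : ∫⁻ p : ℝ × ℝ, ENNReal.ofReal (Real.exp (-(p.1 ^ 2 + p.2 ^ 2) / 16)) < ⊤ := by
    have h1 : Integrable (fun x : ℝ => Real.exp (-(1 / 16) * x ^ 2)) :=
      integrable_exp_neg_mul_sq (by norm_num)
    have h2 := h1.mul_prod h1
    have h3 : (fun p : ℝ × ℝ => Real.exp (-(p.1 ^ 2 + p.2 ^ 2) / 16)) =
        fun p : ℝ × ℝ => Real.exp (-(1 / 16) * p.1 ^ 2) * Real.exp (-(1 / 16) * p.2 ^ 2) := by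
      funext p
      rw [← Real.exp_add]
      congr 1
      ring
    have h4 : Integrable (fun p : ℝ × ℝ => Real.exp (-(p.1 ^ 2 + p.2 ^ 2) / 16)) := by
      rw [h3]; exact h2
    exact h4.lintegral_lt_top
  set K : ℝ≥0∞ := (∫⁻ p in D1, g34 p)
    + ∫⁻ p : ℝ × ℝ, ENNReal.ofReal (Real.exp (-(p.1 ^ 2 + p.2 ^ 2) / 16)) with hK
  have hKt : K < ⊤ := ENNReal.add_lt_top.2 ⟨g34_disc, hG⟩
  refine ⟨K.toReal + 1, by positivity, fun a0 b0 => ?_⟩
  have hKle : K ≤ ENNReal.ofReal (K.toReal + 1) := by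
    rw [ENNReal.ofReal_add ENNReal.toReal_nonneg zero_le_one, ENNReal.ofReal_toReal hKt.ne]
    exact le_self_add
  refine le_trans ?_ hKle
  have hpt : ∀ p : ℝ × ℝ,
      ENNReal.ofReal ((p.1 - a0) ^ 2 + (p.2 - b0) ^ 2) ^ (-(3 / 4) : ℝ) *
        ENNReal.ofReal (Real.exp (-(p.1 ^ 2 + p.2 ^ 2) / 16))
      ≤ (D1.indicator g34) (p - (a0, b0)) + ENNReal.ofReal (Real.exp (-(p.1 ^ 2 + p.2 ^ 2) / 16)) := by
    intro p
    have hp : ENNReal.ofReal ((p.1 - a0) ^ 2 + (p.2 - b0) ^ 2) ^ (-(3 / 4) : ℝ)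
        = g34 (p - (a0, b0)) := rfl
    have hexp : ENNReal.ofReal (Real.exp (-(p.1 ^ 2 + p.2 ^ 2) / 16)) ≤ 1 := by
      rw [← ENNReal.ofReal_one]
      apply ENNReal.ofReal_le_ofReal
      apply Real.exp_le_one_iff.2
      have : 0 ≤ p.1 ^ 2 + p.2 ^ 2 := by positivity
      linarith
    rw [hp]
    by_cases h : p - (a0, b0) ∈ D1
    · rw [indicator_of_mem h]
      calc g34 (p - (a0, b0)) * ENNReal.ofReal (Real.exp (-(p.1 ^ 2 + p.2 ^ 2) / 16))
          ≤ g34 (p - (a0, b0)) * 1 := mul_le_mul' le_rfl hexp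
        _ ≤ _ := by rw [mul_one]; exact le_self_add
    · rw [indicator_of_notMem h, zero_add]
      calc g34 (p - (a0, b0)) * ENNReal.ofReal (Real.exp (-(p.1 ^ 2 + p.2 ^ 2) / 16))
          ≤ 1 * ENNReal.ofReal (Real.exp (-(p.1 ^ 2 + p.2 ^ 2) / 16)) :=
            mul_le_mul' (g34_le_one h) le_rfl
        _ = _ := one_mul _
  refine (lintegral_mono hpt).trans ?_
  have hm : Measurable fun p : ℝ × ℝ => (D1.indicator g34) (p - (a0, b0)) :=
    (measurable_g34.indicator measurableSet_D1).comp (measurable_id.sub_const _)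
  rw [lintegral_add_left hm]
  rw [lintegral_sub_right_eq_self (D1.indicator g34) (a0, b0), lintegral_indicator measurableSet_D1]

/-- small area gives a small integral -/
theorem plane_small : ∀ η : ℝ, 0 < η → ∃ ε : ℝ, 0 < ε ∧ ∀ a0 b0 : ℝ, ∀ A : Set (ℝ × ℝ),
    MeasurableSet A → volume A ≤ ENNReal.ofReal ε →
    ∫⁻ p in A, ENNReal.ofReal ((p.1 - a0) ^ 2 + (p.2 - b0) ^ 2) ^ (-(3 / 4) : ℝ)
      ≤ ENNReal.ofReal η := by
  intro η hη
  have hD : ∫⁻ p, (D1.indicator g34) p ≠ ⊤ := by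
    rw [lintegral_indicator measurableSet_D1]; exact g34_disc.ne
  obtain ⟨δ, hδ, hδ2⟩ := exists_pos_setLIntegral_lt_of_measure_lt hD
    (ε := ENNReal.ofReal (η / 2)) (by simpa using by linarith : ENNReal.ofReal (η / 2) ≠ 0)
  obtain ⟨ε0, hε0, hε1, hε2⟩ := ENNReal.lt_iff_exists_real_btwn.1 hδ
  have hε0' : 0 < ε0 := by
    rcases lt_or_eq_of_le hε0 with h | h
    · exact h
    · rw [← h] at hε1; simp at hε1
  refine ⟨min ε0 (η / 2), lt_min hε0' (by linarith), fun a0 b0 A hA hvol => ?_⟩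
  have hm : Measurable fun p : ℝ × ℝ => (D1.indicator g34) (p - (a0, b0)) :=
    (measurable_g34.indicator measurableSet_D1).comp (measurable_id.sub_const _)
  have hpt : ∀ p : ℝ × ℝ,
      ENNReal.ofReal ((p.1 - a0) ^ 2 + (p.2 - b0) ^ 2) ^ (-(3 / 4) : ℝ)
      ≤ (D1.indicator g34) (p - (a0, b0)) + 1 := by
    intro p
    have hp : ENNReal.ofReal ((p.1 - a0) ^ 2 + (p.2 - b0) ^ 2) ^ (-(3 / 4) : ℝ)
        = g34 (p - (a0, b0)) := rfl
    rw [hp]
    by_cases h : p - (a0, b0) ∈ D1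
    · rw [indicator_of_mem h]
      exact le_self_add
    · rw [indicator_of_notMem h, zero_add]
      exact g34_le_one h
  have hA' : MeasurableSet ((fun p : ℝ × ℝ => p + (a0, b0)) ⁻¹' A) :=
    (measurable_id.add_const _) hA
  have hmp : MeasurePreserving (fun p : ℝ × ℝ => p + (a0, b0)) := measurePreserving_add_right _ _
  have hvA : volume ((fun p : ℝ × ℝ => p + (a0, b0)) ⁻¹' A) = volume A :=
    hmp.measure_preimage hA.nullMeasurableSet
  have h1 : ∫⁻ p in A, (D1.indicator g34) (p - (a0, b0)) ≤ ENNReal.ofReal (η / 2) := by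
    rw [← lintegral_indicator hA]
    have h2 : ∫⁻ p, A.indicator (fun p => (D1.indicator g34) (p - (a0, b0))) p
        = ∫⁻ p, A.indicator (fun p => (D1.indicator g34) (p - (a0, b0))) (p + (a0, b0)) :=
      (lintegral_add_right_eq_self _ _).symm
    rw [h2]
    have h3 : (fun p => A.indicator (fun p => (D1.indicator g34) (p - (a0, b0))) (p + (a0, b0)))
        = ((fun p : ℝ × ℝ => p + (a0, b0)) ⁻¹' A).indicator (D1.indicator g34) := by
      funext p
      by_cases h : p + (a0, b0) ∈ A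
      · rw [indicator_of_mem h, indicator_of_mem (show p ∈ (fun p : ℝ × ℝ => p + (a0, b0)) ⁻¹' A from h),
          add_sub_cancel_right]
      · rw [indicator_of_notMem h, indicator_of_notMem
          (show p ∉ (fun p : ℝ × ℝ => p + (a0, b0)) ⁻¹' A from h)]
    rw [h3, lintegral_indicator hA']
    apply le_of_lt
    apply hδ2
    rw [hvA]
    refine lt_of_le_of_lt hvol (lt_of_le_of_lt ?_ hε2)
    exact ENNReal.ofReal_le_ofReal (min_le_left _ _)
  calc ∫⁻ p in A, ENNReal.ofReal ((p.1 - a0) ^ 2 + (p.2 - b0) ^ 2) ^ (-(3 / 4) : ℝ)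
      ≤ ∫⁻ p in A, ((D1.indicator g34) (p - (a0, b0)) + 1) := lintegral_mono hpt
    _ = (∫⁻ p in A, (D1.indicator g34) (p - (a0, b0))) + volume A := by
        rw [lintegral_add_left hm, setLIntegral_const, one_mul]
    _ ≤ ENNReal.ofReal (η / 2) + ENNReal.ofReal (η / 2) := by
        refine add_le_add h1 (hvol.trans ?_)
        exact ENNReal.ofReal_le_ofReal (min_le_right _ _)
    _ = ENNReal.ofReal η := by
        rw [← ENNReal.ofReal_add (by linarith) (by linarith)]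
        congr 1
        ring

end Vale.Agent.P140.NU.S
end
end

section

/-!
P140-NU-S: integrals of the singular weight over strips in planes.
-/

open MeasureTheory Set
open scoped ENNReal NNReal Topology

noncomputable section

namespace Vale.Agent.P140.NU.S

/-- area of a strip in a disc, slope condition on the first coordinate -/
theorem strip_vol1 {α β κ l R a0 b0 g : ℝ} (hl : 0 ≤ l) (hR : 0 ≤ R) (hg : 0 < g)
    (h : g / 2 ≤ |α|) :
    volume {p : ℝ × ℝ | |α * p.1 + β * p.2 + κ| < l ∧ (p.1 - a0) ^ 2 + (p.2 - b0) ^ 2 ≤ R ^ 2}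
      ≤ ENNReal.ofReal (8 * R * l / g) := by
  have hα : 0 < |α| := by linarith
  have hα0 : α ≠ 0 := abs_pos.1 hα
  set S : Set (ℝ × ℝ) := {p : ℝ × ℝ | p.2 ∈ Icc (b0 - R) (b0 + R) ∧
    p.1 ∈ Icc (-(β * p.2 + κ) / α - l / |α|) (-(β * p.2 + κ) / α + l / |α|)} with hS
  have hsub : {p : ℝ × ℝ | |α * p.1 + β * p.2 + κ| < l ∧
      (p.1 - a0) ^ 2 + (p.2 - b0) ^ 2 ≤ R ^ 2} ⊆ S := by
    intro p hp
    obtain ⟨h1, h2⟩ := hp
    have h3 : |p.2 - b0| ≤ R := abs_le_of_sq_le_sq (by linarith only [sq_nonneg (p.1 - a0), h2]) hR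
    have h4 := abs_le.1 h3
    have h5 : |p.1 - -(β * p.2 + κ) / α| ≤ l / |α| := by
      rw [le_div_iff₀ hα, ← abs_mul]
      have : (p.1 - -(β * p.2 + κ) / α) * α = α * p.1 + β * p.2 + κ := by
        field_simp; ring
      rw [this]
      exact h1.le
    have h6 := abs_le.1 h5
    exact ⟨⟨by linarith only [h4.1], by linarith [h4.2]⟩, ⟨by linarith only [h6.1], by linarith [h6.2]⟩⟩
  have hSm : MeasurableSet S := by
    have e1 : MeasurableSet {p : ℝ × ℝ | b0 - R ≤ p.2} := measurableSet_le (by fun_prop) (by fun_prop)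
    have e2 : MeasurableSet {p : ℝ × ℝ | p.2 ≤ b0 + R} := measurableSet_le (by fun_prop) (by fun_prop)
    have e3 : MeasurableSet {p : ℝ × ℝ | -(β * p.2 + κ) / α - l / |α| ≤ p.1} :=
      measurableSet_le (by fun_prop) (by fun_prop)
    have e4 : MeasurableSet {p : ℝ × ℝ | p.1 ≤ -(β * p.2 + κ) / α + l / |α|} :=
      measurableSet_le (by fun_prop) (by fun_prop)
    exact (e1.inter e2).inter (e3.inter e4)
  refine (measure_mono hsub).trans ?_
  rw [Measure.volume_eq_prod, Measure.prod_apply_symm hSm]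
  have hle : ∀ y : ℝ, volume ((fun x => (x, y)) ⁻¹' S) ≤
      (Icc (b0 - R) (b0 + R)).indicator (fun _ => ENNReal.ofReal (2 * l / |α|)) y := by
    intro y
    by_cases hy : y ∈ Icc (b0 - R) (b0 + R)
    · rw [indicator_of_mem hy]
      have : (fun x => (x, y)) ⁻¹' S ⊆
          Icc (-(β * y + κ) / α - l / |α|) (-(β * y + κ) / α + l / |α|) := fun x hx => hx.2
      refine (measure_mono this).trans ?_
      rw [Real.volume_Icc]
      apply ENNReal.ofReal_le_ofReal
      apply le_of_eq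
      ring
    · have : (fun x => (x, y)) ⁻¹' S = ∅ := by
        ext x
        simp only [mem_preimage, mem_empty_iff_false, iff_false]
        exact fun hx => hy hx.1
      rw [this, measure_empty]
      exact zero_le
  refine (lintegral_mono hle).trans ?_
  rw [lintegral_indicator measurableSet_Icc, setLIntegral_const, Real.volume_Icc,
    ← ENNReal.ofReal_mul (by positivity)]
  apply ENNReal.ofReal_le_ofReal
  have h7 : 2 * l / |α| ≤ 4 * l / g := by
    rw [div_le_div_iff₀ hα hg]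
    linarith only [mul_nonneg (sub_nonneg.2 hl) (sub_nonneg.2 h)]
  calc 2 * l / |α| * (b0 + R - (b0 - R)) = 2 * l / |α| * (2 * R) := by ring
    _ ≤ 4 * l / g * (2 * R) := by gcongr
    _ = 8 * R * l / g := by ring

/-- area of a strip in a disc -/
theorem strip_vol {α β κ l R a0 b0 g : ℝ} (hl : 0 ≤ l) (hR : 0 ≤ R) (hg : 0 < g)
    (h : g ^ 2 ≤ α ^ 2 + β ^ 2) :
    volume {p : ℝ × ℝ | |α * p.1 + β * p.2 + κ| < l ∧ (p.1 - a0) ^ 2 + (p.2 - b0) ^ 2 ≤ R ^ 2}
      ≤ ENNReal.ofReal (8 * R * l / g) := by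
  rcases le_total (β ^ 2) (α ^ 2) with h1 | h1
  · apply strip_vol1 hl hR hg
    by_contra h2
    push Not at h2
    have h3 : |α| ^ 2 < (g / 2) ^ 2 := by
      have := abs_nonneg α
      gcongr
    rw [sq_abs] at h3
    linarith only [sq_nonneg g, h3, h1, h]
  · have h2 : g / 2 ≤ |β| := by
      by_contra h2
      push Not at h2
      have h3 : |β| ^ 2 < (g / 2) ^ 2 := by
        have := abs_nonneg β
        gcongr
      rw [sq_abs] at h3
      linarith only [sq_nonneg g, h3, h1, h]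
    have h3 := strip_vol1 (α := β) (β := α) (κ := κ) (a0 := b0) (b0 := a0) hl hR hg h2
    have hmp : MeasurePreserving (Prod.swap : ℝ × ℝ → ℝ × ℝ) volume volume :=
      Measure.measurePreserving_swap
    have hms : MeasurableSet {p : ℝ × ℝ | |β * p.1 + α * p.2 + κ| < l ∧
        (p.1 - b0) ^ 2 + (p.2 - a0) ^ 2 ≤ R ^ 2} := by
      have k1 : MeasurableSet {p : ℝ × ℝ | |β * p.1 + α * p.2 + κ| < l} :=
        measurableSet_lt (by fun_prop) (by fun_prop)
      have k2 : MeasurableSet {p : ℝ × ℝ | (p.1 - b0) ^ 2 + (p.2 - a0) ^ 2 ≤ R ^ 2} :=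
        measurableSet_le (by fun_prop) (by fun_prop)
      exact k1.inter k2
    have h4 := hmp.measure_preimage hms.nullMeasurableSet
    rw [← h4] at h3
    refine le_trans (le_of_eq ?_) h3
    congr 1
    ext p
    show (|α * p.1 + β * p.2 + κ| < l ∧ (p.1 - a0) ^ 2 + (p.2 - b0) ^ 2 ≤ R ^ 2) ↔
      (|β * p.2 + α * p.1 + κ| < l ∧ (p.2 - b0) ^ 2 + (p.1 - a0) ^ 2 ≤ R ^ 2)
    rw [show β * p.2 + α * p.1 + κ = α * p.1 + β * p.2 + κ by ring,
      add_comm ((p.2 - b0) ^ 2)]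

/-! ### planes -/

/-- parametrization of a plane -/
def Pl (v e1 e2 : V) (p : ℝ × ℝ) : V := v + p.1 • e1 + p.2 • e2

/-- orthonormal pairs -/
structure ON2 (e1 e2 : V) : Prop where
  n1 : ‖e1‖ = 1
  n2 : ‖e2‖ = 1
  or : inner ℝ e1 e2 = (0 : ℝ)

theorem ON2.bessel {e1 e2 : V} (h : ON2 e1 e2) (x : V) :
    inner ℝ x e1 ^ 2 + inner ℝ x e2 ^ 2 ≤ ‖x‖ ^ 2 := by
  have h0 : 0 ≤ ‖x - (inner ℝ x e1 : ℝ) • e1 - (inner ℝ x e2 : ℝ) • e2‖ ^ 2 := sq_nonneg _
  have e11 : inner ℝ e1 e1 = (1 : ℝ) := by rw [real_inner_self_eq_norm_sq, h.n1]; norm_num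
  have e22 : inner ℝ e2 e2 = (1 : ℝ) := by rw [real_inner_self_eq_norm_sq, h.n2]; norm_num
  have e21 : inner ℝ e2 e1 = (0 : ℝ) := by rw [real_inner_comm]; exact h.or
  rw [← real_inner_self_eq_norm_sq] at h0
  simp only [inner_sub_left, inner_sub_right, real_inner_smul_left, real_inner_smul_right, e11, e22,
    h.or, e21] at h0
  rw [real_inner_comm x e1, real_inner_comm x e2, real_inner_self_eq_norm_sq] at h0
  linarith only [h0]

theorem inner_Pl {e1 e2 : V} (v u : V) (p : ℝ × ℝ) :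
    inner ℝ u (Pl v e1 e2 p) = inner ℝ u v + p.1 * inner ℝ u e1 + p.2 * inner ℝ u e2 := by
  unfold Pl
  rw [inner_add_right, inner_add_right, real_inner_smul_right, real_inner_smul_right]

/-- the distance to a point is at least the distance to its projection -/
theorem ON2.dist_Pl {e1 e2 : V} (h : ON2 e1 e2) (v u : V) (p : ℝ × ℝ) :
    (p.1 - inner ℝ (u - v) e1) ^ 2 + (p.2 - inner ℝ (u - v) e2) ^ 2 ≤ ‖Pl v e1 e2 p - u‖ ^ 2 := by
  have h1 := h.bessel (Pl v e1 e2 p - u)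
  have e11 : inner ℝ e1 e1 = (1 : ℝ) := by rw [real_inner_self_eq_norm_sq, h.n1]; norm_num
  have e22 : inner ℝ e2 e2 = (1 : ℝ) := by rw [real_inner_self_eq_norm_sq, h.n2]; norm_num
  have e21 : inner ℝ e2 e1 = (0 : ℝ) := by rw [real_inner_comm]; exact h.or
  have k1 : inner ℝ (Pl v e1 e2 p - u) e1 = p.1 - inner ℝ (u - v) e1 := by
    unfold Pl
    simp only [inner_sub_left, inner_add_left, real_inner_smul_left, e11, e21]
    ring
  have k2 : inner ℝ (Pl v e1 e2 p - u) e2 = p.2 - inner ℝ (u - v) e2 := by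
    unfold Pl
    simp only [inner_sub_left, inner_add_left, real_inner_smul_left, e22, h.or]
    ring
  rw [k1, k2] at h1
  exact h1

theorem rpow_anti {a b : ℝ} (h : a ≤ b) :
    ENNReal.ofReal b ^ (-(3 / 4) : ℝ) ≤ ENNReal.ofReal a ^ (-(3 / 4) : ℝ) := by
  rw [ENNReal.rpow_neg, ENNReal.rpow_neg]
  apply ENNReal.inv_le_inv.2
  exact ENNReal.rpow_le_rpow (ENNReal.ofReal_le_ofReal h) (by norm_num)

/-- the weight with two singular points and a Gaussian -/
def wgt (u1 u2 q : V) : ℝ≥0∞ :=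
  (1 + ENNReal.ofReal (‖q - u1‖ ^ 2) ^ (-(3 / 4) : ℝ)
    + ENNReal.ofReal (‖q - u2‖ ^ 2) ^ (-(3 / 4) : ℝ)) * ENNReal.ofReal (Real.exp (-(‖q‖ ^ 2) / 8))

theorem measurable_wgt (u1 u2 : V) : Measurable (wgt u1 u2) := by
  unfold wgt
  have h : ∀ u : V, Measurable fun q : V => ENNReal.ofReal (‖q - u‖ ^ 2) ^ (-(3 / 4) : ℝ) := by
    intro u
    apply Measurable.pow_const
    apply Measurable.ennreal_ofReal
    apply Continuous.measurable
    fun_prop
  apply Measurable.mul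
  · exact ((h u1).const_add 1).add (h u2)
  · apply Measurable.ennreal_ofReal
    apply Continuous.measurable
    fun_prop

/-- planar version of the weight -/
def pw (a b c : ℝ × ℝ) (p : ℝ × ℝ) : ℝ≥0∞ :=
  (1 + ENNReal.ofReal ((p.1 - a.1) ^ 2 + (p.2 - a.2) ^ 2) ^ (-(3 / 4) : ℝ)
    + ENNReal.ofReal ((p.1 - b.1) ^ 2 + (p.2 - b.2) ^ 2) ^ (-(3 / 4) : ℝ)) *
    ENNReal.ofReal (Real.exp (-((p.1 - c.1) ^ 2 + (p.2 - c.2) ^ 2) / 16))

theorem measurable_sing (a : ℝ × ℝ) : Measurable fun p : ℝ × ℝ =>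
    ENNReal.ofReal ((p.1 - a.1) ^ 2 + (p.2 - a.2) ^ 2) ^ (-(3 / 4) : ℝ) := by
  apply Measurable.pow_const
  fun_prop

/-- small area, planar weight -/
theorem pw_small : ∀ η : ℝ, 0 < η → ∃ ε : ℝ, 0 < ε ∧ ∀ a b c : ℝ × ℝ, ∀ A : Set (ℝ × ℝ),
    MeasurableSet A → volume A ≤ ENNReal.ofReal ε → ∫⁻ p in A, pw a b c p ≤ ENNReal.ofReal η := by
  intro η hη
  obtain ⟨ε, hε, h⟩ := plane_small (η / 3) (by linarith)
  refine ⟨min ε (η / 3), lt_min hε (by linarith), fun a b c A hA hv => ?_⟩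
  have hle : ∀ p : ℝ × ℝ, pw a b c p ≤
      1 + (ENNReal.ofReal ((p.1 - a.1) ^ 2 + (p.2 - a.2) ^ 2) ^ (-(3 / 4) : ℝ) +
      ENNReal.ofReal ((p.1 - b.1) ^ 2 + (p.2 - b.2) ^ 2) ^ (-(3 / 4) : ℝ)) := by
    intro p
    unfold pw
    rw [← add_assoc]
    apply mul_le_of_le_one_right zero_le
    rw [← ENNReal.ofReal_one]
    apply ENNReal.ofReal_le_ofReal
    apply Real.exp_le_one_iff.2
    have : 0 ≤ (p.1 - c.1) ^ 2 + (p.2 - c.2) ^ 2 := by positivity
    linarith
  refine (lintegral_mono hle).trans ?_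
  rw [lintegral_add_left measurable_const, lintegral_add_left (measurable_sing a),
    setLIntegral_const, one_mul]
  have hv1 : volume A ≤ ENNReal.ofReal ε := hv.trans (ENNReal.ofReal_le_ofReal (min_le_left _ _))
  have hv2 : volume A ≤ ENNReal.ofReal (η / 3) :=
    hv.trans (ENNReal.ofReal_le_ofReal (min_le_right _ _))
  calc _ ≤ ENNReal.ofReal (η / 3) + (ENNReal.ofReal (η / 3) + ENNReal.ofReal (η / 3)) :=
        add_le_add hv2 (add_le_add (h _ _ A hA hv1) (h _ _ A hA hv1))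
    _ = ENNReal.ofReal η := by
        rw [← ENNReal.ofReal_add (by linarith) (by linarith),
          ← ENNReal.ofReal_add (by linarith) (by linarith)]
        congr 1
        ring

/-- the weight on a plane is bounded by the planar weight -/
theorem wgt_le_pw {e1 e2 : V} (h : ON2 e1 e2) (v u1 u2 : V) (p : ℝ × ℝ) :
    wgt u1 u2 (Pl v e1 e2 p) ≤ ENNReal.ofReal (Real.exp (-(‖Pl v e1 e2 p‖ ^ 2) / 16)) *
      pw (inner ℝ (u1 - v) e1, inner ℝ (u1 - v) e2) (inner ℝ (u2 - v) e1, inner ℝ (u2 - v) e2)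
        (inner ℝ (0 - v) e1, inner ℝ (0 - v) e2) p := by
  have k1 := rpow_anti (h.dist_Pl v u1 p)
  have k2 := rpow_anti (h.dist_Pl v u2 p)
  have k3 := h.dist_Pl v 0 p
  rw [sub_zero] at k3
  unfold wgt pw
  have k4 : ENNReal.ofReal (Real.exp (-(‖Pl v e1 e2 p‖ ^ 2) / 8)) ≤
      ENNReal.ofReal (Real.exp (-(‖Pl v e1 e2 p‖ ^ 2) / 16)) *
      ENNReal.ofReal (Real.exp (-((p.1 - inner ℝ (0 - v) e1) ^ 2 +
        (p.2 - inner ℝ (0 - v) e2) ^ 2) / 16)) := by
    rw [← ENNReal.ofReal_mul (Real.exp_pos _).le, ← Real.exp_add]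
    apply ENNReal.ofReal_le_ofReal
    apply Real.exp_le_exp.2
    linarith only [k3]
  calc _ ≤ (1 + ENNReal.ofReal ((p.1 - inner ℝ (u1 - v) e1) ^ 2 +
          (p.2 - inner ℝ (u1 - v) e2) ^ 2) ^ (-(3 / 4) : ℝ)
        + ENNReal.ofReal ((p.1 - inner ℝ (u2 - v) e1) ^ 2 +
          (p.2 - inner ℝ (u2 - v) e2) ^ 2) ^ (-(3 / 4) : ℝ)) *
      (ENNReal.ofReal (Real.exp (-(‖Pl v e1 e2 p‖ ^ 2) / 16)) *
      ENNReal.ofReal (Real.exp (-((p.1 - inner ℝ (0 - v) e1) ^ 2 +
        (p.2 - inner ℝ (0 - v) e2) ^ 2) / 16))) := by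
        gcongr
    _ = _ := by ring

/-- small area on planes -/
theorem wgt_small : ∀ η : ℝ, 0 < η → ∃ ε : ℝ, 0 < ε ∧ ∀ e1 e2 : V, ON2 e1 e2 → ∀ v u1 u2 : V,
    ∀ A : Set (ℝ × ℝ), MeasurableSet A → volume A ≤ ENNReal.ofReal ε →
    ∫⁻ p in A, wgt u1 u2 (Pl v e1 e2 p) ≤ ENNReal.ofReal η := by
  intro η hη
  obtain ⟨ε, hε, h⟩ := pw_small η hη
  refine ⟨ε, hε, fun e1 e2 he v u1 u2 A hA hv => ?_⟩
  refine (lintegral_mono fun p => ?_).trans (h (inner ℝ (u1 - v) e1, inner ℝ (u1 - v) e2)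
    (inner ℝ (u2 - v) e1, inner ℝ (u2 - v) e2) (inner ℝ (0 - v) e1, inner ℝ (0 - v) e2) A hA hv)
  refine (wgt_le_pw he v u1 u2 p).trans ?_
  apply mul_le_of_le_one_left zero_le
  rw [← ENNReal.ofReal_one]
  apply ENNReal.ofReal_le_ofReal
  apply Real.exp_le_one_iff.2
  have : 0 ≤ ‖Pl v e1 e2 p‖ ^ 2 := by positivity
  linarith

/-- strips `|⟨d, q⟩ - κ| < l` inside the ball of radius `R`, for functionals whose gradient in the
plane is at least `g` -/
theorem wgt_strip : ∀ η R g : ℝ, 0 < η → 0 < R → 0 < g → ∃ l0 : ℝ, 0 < l0 ∧ ∀ l, 0 ≤ l → l ≤ l0 →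
    ∀ e1 e2 : V, ON2 e1 e2 → ∀ v u1 u2 d : V, ∀ κ : ℝ,
    g ^ 2 ≤ inner ℝ d e1 ^ 2 + inner ℝ d e2 ^ 2 →
    ∫⁻ p, {q : V | |inner ℝ d q - κ| < l ∧ ‖q‖ ≤ R}.indicator (wgt u1 u2) (Pl v e1 e2 p)
      ≤ ENNReal.ofReal η := by
  intro η R g hη hR hg
  obtain ⟨ε, hε, h⟩ := wgt_small η hη
  refine ⟨ε * g / (8 * R), by positivity, fun l hl hl0 e1 e2 he v u1 u2 d κ hd => ?_⟩
  set A : Set (ℝ × ℝ) := {p : ℝ × ℝ | |inner ℝ d e1 * p.1 + inner ℝ d e2 * p.2 +
      (inner ℝ d v - κ)| < l ∧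
      (p.1 - inner ℝ (0 - v) e1) ^ 2 + (p.2 - inner ℝ (0 - v) e2) ^ 2 ≤ R ^ 2} with hA
  have hAm : MeasurableSet A := by
    have k1 : MeasurableSet {p : ℝ × ℝ | |inner ℝ d e1 * p.1 + inner ℝ d e2 * p.2 +
      (inner ℝ d v - κ)| < l} := measurableSet_lt (by fun_prop) (by fun_prop)
    have k2 : MeasurableSet {p : ℝ × ℝ | (p.1 - inner ℝ (0 - v) e1) ^ 2 +
      (p.2 - inner ℝ (0 - v) e2) ^ 2 ≤ R ^ 2} := measurableSet_le (by fun_prop) (by fun_prop)
    exact k1.inter k2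
  have hAv : volume A ≤ ENNReal.ofReal ε := by
    refine (strip_vol hl hR.le hg hd).trans ?_
    apply ENNReal.ofReal_le_ofReal
    rw [div_le_iff₀ hg]
    calc 8 * R * l ≤ 8 * R * (ε * g / (8 * R)) := by gcongr
      _ = ε * g := by field_simp
  refine le_trans ?_ (h e1 e2 he v u1 u2 A hAm hAv)
  rw [← lintegral_indicator hAm]
  apply lintegral_mono
  intro p
  by_cases hp : Pl v e1 e2 p ∈ {q : V | |inner ℝ d q - κ| < l ∧ ‖q‖ ≤ R}
  · have hpA : p ∈ A := by
      obtain ⟨h1, h2⟩ := hp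
      refine ⟨?_, ?_⟩
      · rw [inner_Pl] at h1
        rw [show inner ℝ d e1 * p.1 + inner ℝ d e2 * p.2 + (inner ℝ d v - κ) =
          inner ℝ d v + p.1 * inner ℝ d e1 + p.2 * inner ℝ d e2 - κ by ring]
        exact h1
      · have h3 := he.dist_Pl v 0 p
        rw [sub_zero] at h3
        refine h3.trans ?_
        gcongr
    beta_reduce
    rw [indicator_of_mem hp, indicator_of_mem hpA]
  · beta_reduce
    rw [indicator_of_notMem hp]
    exact zero_le

end Vale.Agent.P140.NU.S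
end
end

section

open MeasureTheory Set Filter
open scoped ENNReal Topology NNReal

noncomputable section

namespace Vale.Agent.P140.DL

/-- the local average of a function on the torus -/
def lavg (O : Set T3) (f : T3 → ℝ) (x : T3) : ℝ := (volume.real O)⁻¹ * ∫ z in O, f (x + z)

theorem measurable_lavg {O : Set T3} {f : ℝ → T3 → ℝ}
    (mf : Measurable fun z : ℝ × T3 => f z.1 z.2) :
    Measurable fun z : ℝ × T3 => lavg O (f z.1) z.2 := by
  unfold lavg
  refine Measurable.const_mul ?_ _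
  have h : StronglyMeasurable fun q : (ℝ × T3) × T3 => f q.1.1 (q.1.2 + q.2) :=
    (mf.comp (Measurable.prodMk (measurable_fst.comp measurable_fst)
      ((measurable_snd.comp measurable_fst).add measurable_snd))).stronglyMeasurable
  exact (StronglyMeasurable.integral_prod_right' (ν := volume.restrict O) h).measurable

theorem abs_lavg_le {O : Set T3} {f : T3 → ℝ} {B : ℝ} (hO : 0 < volume.real O)
    (bf : ∀ x, |f x| ≤ B) (x : T3) : |lavg O f x| ≤ B := by
  unfold lavg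
  rw [abs_mul, abs_of_nonneg (inv_nonneg.2 hO.le)]
  have h : |∫ z in O, f (x + z)| ≤ B * volume.real O := by
    have := norm_setIntegral_le_of_norm_le_const (μ := (volume : Measure T3)) (s := O)
      (f := fun z => f (x + z)) (C := B) (measure_lt_top _ _) (fun z _ => bf _)
    simpa using this
  calc (volume.real O)⁻¹ * |∫ z in O, f (x + z)|
      ≤ (volume.real O)⁻¹ * (B * volume.real O) := by gcongr
    _ = B := by field_simp

theorem ofReal_sub_lavg_le {O : Set T3} {f : T3 → ℝ} {B : ℝ} (hO : 0 < volume.real O)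
    (mf : Measurable f) (bf : ∀ x, |f x| ≤ B) (x : T3) :
    ENNReal.ofReal |f x - lavg O f x|
      ≤ (volume O)⁻¹ * ∫⁻ z in O, ENNReal.ofReal |f (x + z) - f x| := by
  have mfx : Measurable fun z => f (x + z) := mf.comp (measurable_const.add measurable_id)
  have hi : Integrable (fun z => f (x + z)) (volume.restrict O) :=
    Integrable.of_bound mfx.aestronglyMeasurable B (Eventually.of_forall fun z => bf _)
  have hi2 : Integrable (fun z => |f (x + z) - f x|) (volume.restrict O) :=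
    (hi.sub (integrable_const _)).abs
  have e : f x - lavg O f x = - ((volume.real O)⁻¹ * ∫ z in O, (f (x + z) - f x)) := by
    rw [integral_sub hi (integrable_const _)]
    simp only [integral_const, measureReal_restrict_apply_univ, smul_eq_mul]
    unfold lavg
    field_simp
    ring
  rw [e, abs_neg, abs_mul, abs_of_nonneg (inv_nonneg.2 hO.le),
    ENNReal.ofReal_mul (inv_nonneg.2 hO.le), ENNReal.ofReal_inv_of_pos hO]
  have e2 : ENNReal.ofReal (volume.real O) = volume O := by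
    rw [Measure.real, ENNReal.ofReal_toReal (measure_ne_top _ _)]
  rw [e2]
  gcongr
  calc ENNReal.ofReal |∫ z in O, (f (x + z) - f x)|
      ≤ ENNReal.ofReal (∫ z in O, |f (x + z) - f x|) :=
        ENNReal.ofReal_le_ofReal (abs_integral_le_integral_abs)
    _ = ∫⁻ z in O, ENNReal.ofReal |f (x + z) - f x| :=
        ofReal_integral_eq_lintegral_ofReal hi2 (Eventually.of_forall fun z => abs_nonneg _)

theorem lavg_eq {O : Set T3} (mO : MeasurableSet O) (f : T3 → ℝ) (x : T3) :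
    lavg O f x = (volume.real O)⁻¹ * ∫ y, f y * O.indicator (fun _ => (1 : ℝ)) (y - x) := by
  unfold lavg
  congr 1
  rw [← integral_indicator mO, ← integral_sub_right_eq_self (μ := (volume : Measure T3)) _ x]
  congr 1
  funext y
  by_cases h : y - x ∈ O
  · simp [h]
  · simp [h]

theorem lintegral_sub_lavg_le {T B : ℝ} {f : ℝ → T3 → ℝ}
    (mf : Measurable fun z : ℝ × T3 => f z.1 z.2) (bf : ∀ t x, |f t x| ≤ B)
    {O : Set T3} (mO : MeasurableSet O) (hO : 0 < volume.real O) {δ : ℝ≥0∞}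
    (hm : ∀ z ∈ O, ∫⁻ t in Ioc 0 T, ∫⁻ x : T3, ENNReal.ofReal |f t (x + z) - f t x| ≤ δ) :
    ∫⁻ t in Ioc 0 T, ∫⁻ x : T3, ENNReal.ofReal |f t x - lavg O (f t) x| ≤ δ := by
  have mft : ∀ t, Measurable (f t) := fun t => mf.comp measurable_prodMk_left
  have v0 : volume O ≠ 0 := by
    intro h
    rw [Measure.real, h] at hO
    simp at hO
  have m3 : Measurable fun q : ℝ × T3 × T3 =>
      ENNReal.ofReal |f q.1 (q.2.1 + q.2.2) - f q.1 q.2.1| := by
    refine ENNReal.measurable_ofReal.comp (Measurable.abs (Measurable.sub ?_ ?_))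
    · exact mf.comp (measurable_fst.prodMk
        ((measurable_fst.comp measurable_snd).add (measurable_snd.comp measurable_snd)))
    · exact mf.comp (measurable_fst.prodMk (measurable_fst.comp measurable_snd))
  have m2 : ∀ t, Measurable fun q : T3 × T3 => ENNReal.ofReal |f t (q.1 + q.2) - f t q.1| :=
    fun t => (m3.comp (measurable_const.prodMk measurable_id) :)
  calc ∫⁻ t in Ioc 0 T, ∫⁻ x : T3, ENNReal.ofReal |f t x - lavg O (f t) x|
      ≤ ∫⁻ t in Ioc 0 T, ∫⁻ x : T3, (volume O)⁻¹ *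
          ∫⁻ z in O, ENNReal.ofReal |f t (x + z) - f t x| := by
        refine lintegral_mono fun t => lintegral_mono fun x => ?_
        exact ofReal_sub_lavg_le hO (mft t) (bf t) x
    _ = ∫⁻ t in Ioc 0 T, (volume O)⁻¹ *
          ∫⁻ z in O, ∫⁻ x : T3, ENNReal.ofReal |f t (x + z) - f t x| := by
        refine lintegral_congr fun t => ?_
        rw [lintegral_const_mul' _ _ (ENNReal.inv_ne_top.2 v0),
          lintegral_lintegral_swap (m2 t).aemeasurable]
    _ = (volume O)⁻¹ * ∫⁻ z in O, ∫⁻ t in Ioc 0 T, ∫⁻ x : T3,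
          ENNReal.ofReal |f t (x + z) - f t x| := by
        rw [lintegral_const_mul' _ _ (ENNReal.inv_ne_top.2 v0), lintegral_lintegral_swap]
        have m4 : Measurable fun q : (ℝ × T3) × T3 =>
            ENNReal.ofReal |f q.1.1 (q.2 + q.1.2) - f q.1.1 q.2| :=
          (m3.comp ((measurable_fst.comp measurable_fst).prodMk
            (measurable_snd.prodMk (measurable_snd.comp measurable_fst))) :)
        exact (Measurable.lintegral_prod_right' (ν := (volume : Measure T3)) m4).aemeasurable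
    _ ≤ (volume O)⁻¹ * ∫⁻ _ in O, δ := by
        gcongr (volume O)⁻¹ * ?_
        exact setLIntegral_mono' mO fun z hz => hm z hz
    _ = δ := by
        rw [setLIntegral_const, mul_comm δ, ← mul_assoc, ENNReal.inv_mul_cancel v0
          (measure_ne_top _ _), one_mul]

/-- weak convergence in `x` at each time and a uniform `L¹` translation modulus imply that the
sequence is Cauchy in `L¹` -/
theorem avg_compact {T B : ℝ} {ρ : ℕ → ℝ → T3 → ℝ}
    (mρ : ∀ n, Measurable fun z : ℝ × T3 => ρ n z.1 z.2) (bρ : ∀ n t x, |ρ n t x| ≤ B)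
    (htr : ∀ ε : ℝ≥0∞, 0 < ε → ∃ O ∈ 𝓝 (0 : T3), ∀ n, ∀ z ∈ O,
      ∫⁻ t in Ioc 0 T, ∫⁻ x : T3, ENNReal.ofReal |ρ n t (x + z) - ρ n t x| ≤ ε)
    (hw : ∀ t ∈ Ioc 0 T, ∀ θ : T3 → ℝ, Measurable θ → (∀ x, |θ x| ≤ 1) →
      ∃ l : ℝ, Tendsto (fun n => ∫ x, ρ n t x * θ x) atTop (𝓝 l))
    {ε : ℝ≥0∞} (hε : 0 < ε) :
    ∃ n0 : ℕ, ∀ n m, n0 ≤ n → n0 ≤ m →
      ∫⁻ t in Ioc 0 T, ∫⁻ x : T3, ENNReal.ofReal |ρ n t x - ρ m t x| ≤ ε := by
  have hε4 : 0 < ε / 4 := ENNReal.div_pos hε.ne' (by norm_num)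
  obtain ⟨O', hO', hmod'⟩ := htr (ε / 4) hε4
  obtain ⟨O, hOs, hOo, h0O⟩ := mem_nhds_iff.1 hO'
  have hmod : ∀ n, ∀ z ∈ O,
      ∫⁻ t in Ioc 0 T, ∫⁻ x : T3, ENNReal.ofReal |ρ n t (x + z) - ρ n t x| ≤ ε / 4 :=
    fun n z hz => hmod' n z (hOs hz)
  have mO : MeasurableSet O := hOo.measurableSet
  have v0 : volume O ≠ 0 := (hOo.measure_pos volume ⟨0, h0O⟩).ne'
  have hO : 0 < volume.real O := ENNReal.toReal_pos v0 (measure_ne_top _ _)
  have mρt : ∀ n t, Measurable (ρ n t) := fun n t => (mρ n).comp measurable_prodMk_left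
  have mP : ∀ n, Measurable fun z : ℝ × T3 => lavg O (ρ n z.1) z.2 := fun n =>
    measurable_lavg (mρ n)
  have bP : ∀ n t x, |lavg O (ρ n t) x| ≤ B := fun n t x => abs_lavg_le hO (bρ n t) x
  -- pointwise convergence of the averages
  have cP : ∀ t ∈ Ioc 0 T, ∀ x, CauchySeq fun n => lavg O (ρ n t) x := by
    intro t ht x
    obtain ⟨l, hl⟩ := hw t ht (fun y => O.indicator (fun _ => (1 : ℝ)) (y - x))
      ((measurable_const.indicator mO).comp (measurable_id.sub measurable_const))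
      (fun y => by
        by_cases h : y - x ∈ O
        · simp [h]
        · simp [h])
    have : Tendsto (fun n => lavg O (ρ n t) x) atTop (𝓝 ((volume.real O)⁻¹ * l)) := by
      simp only [lavg_eq mO]
      exact hl.const_mul _
    exact this.cauchySeq
  -- Cauchy in `L¹`
  let π : Measure (ℝ × T3) := (volume.restrict (Ioc 0 T)).prod (volume : Measure T3)
  have hD : Tendsto (fun p : ℕ × ℕ => ∫⁻ z, ENNReal.ofReal
      |lavg O (ρ p.1 z.1) z.2 - lavg O (ρ p.2 z.1) z.2| ∂π) atTop (𝓝 0) := by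
    have := tendsto_lintegral_filter_of_dominated_convergence (μ := π)
      (l := (atTop : Filter (ℕ × ℕ)))
      (F := fun p z => ENNReal.ofReal
        |lavg O (ρ p.1 z.1) z.2 - lavg O (ρ p.2 z.1) z.2|)
      (f := fun _ => 0) (fun _ => ENNReal.ofReal (B + B))
      (Eventually.of_forall fun p =>
        ENNReal.measurable_ofReal.comp (((mP p.1).sub (mP p.2)).abs))
      (Eventually.of_forall fun p => Eventually.of_forall fun z => by
        refine ENNReal.ofReal_le_ofReal ?_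
        exact (abs_sub _ _).trans (add_le_add (bP _ _ _) (bP _ _ _)))
      (by
        rw [lintegral_const]
        exact ENNReal.mul_ne_top ENNReal.ofReal_ne_top (measure_ne_top _ _))
      ?_
    · simpa using this
    · have h1 : ∀ᵐ z ∂π, z.1 ∈ Ioc 0 T := by
        have : ∀ᵐ t ∂(volume.restrict (Ioc 0 T)), t ∈ Ioc 0 T :=
          ae_restrict_mem measurableSet_Ioc
        exact Measure.quasiMeasurePreserving_fst.ae this
      filter_upwards [h1] with z hz
      have h2 := cP z.1 hz z.2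
      rw [cauchySeq_iff_tendsto_dist_atTop_0] at h2
      have h3 := (ENNReal.tendsto_ofReal h2)
      simpa [Real.dist_eq] using h3
  have hev := (hD.eventually (ge_mem_nhds hε4))
  obtain ⟨⟨a, b⟩, hab⟩ := eventually_atTop.1 hev
  refine ⟨max a b, fun n m hn hm => ?_⟩
  have h1 := hab (n, m) ⟨(le_max_left a b).trans hn, (le_max_right a b).trans hm⟩
  have hA : ∀ k, ∫⁻ z, ENNReal.ofReal |ρ k z.1 z.2 - lavg O (ρ k z.1) z.2| ∂π ≤ ε / 4 := by
    intro k
    have mk : Measurable fun z : ℝ × T3 => ENNReal.ofReal |ρ k z.1 z.2 - lavg O (ρ k z.1) z.2| :=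
      ENNReal.measurable_ofReal.comp (((mρ k).sub (mP k)).abs)
    rw [lintegral_prod _ mk.aemeasurable]
    exact lintegral_sub_lavg_le (mρ k) (bρ k) mO hO (hmod k)
  have hfin : ∫⁻ t in Ioc 0 T, ∫⁻ x : T3, ENNReal.ofReal |ρ n t x - ρ m t x|
      = ∫⁻ z, ENNReal.ofReal |ρ n z.1 z.2 - ρ m z.1 z.2| ∂π :=
    (lintegral_prod _ (ENNReal.measurable_ofReal.comp (((mρ n).sub (mρ m)).abs)).aemeasurable).symm
  rw [hfin]
  have m1 : Measurable fun z : ℝ × T3 => ENNReal.ofReal |ρ n z.1 z.2 - lavg O (ρ n z.1) z.2| :=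
    ENNReal.measurable_ofReal.comp (((mρ n).sub (mP n)).abs)
  have m2 : Measurable fun z : ℝ × T3 => ENNReal.ofReal
      |lavg O (ρ n z.1) z.2 - lavg O (ρ m z.1) z.2| :=
    ENNReal.measurable_ofReal.comp (((mP n).sub (mP m)).abs)
  have m12 : Measurable fun z : ℝ × T3 => ENNReal.ofReal |ρ n z.1 z.2 - lavg O (ρ n z.1) z.2|
      + ENNReal.ofReal |lavg O (ρ n z.1) z.2 - lavg O (ρ m z.1) z.2| := m1.add m2
  calc ∫⁻ z, ENNReal.ofReal |ρ n z.1 z.2 - ρ m z.1 z.2| ∂π
      ≤ ∫⁻ z, (ENNReal.ofReal |ρ n z.1 z.2 - lavg O (ρ n z.1) z.2|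
          + ENNReal.ofReal |lavg O (ρ n z.1) z.2 - lavg O (ρ m z.1) z.2|)
          + ENNReal.ofReal |ρ m z.1 z.2 - lavg O (ρ m z.1) z.2| ∂π := by
        refine lintegral_mono fun z => ?_
        rw [← ENNReal.ofReal_add (abs_nonneg _) (abs_nonneg _),
          ← ENNReal.ofReal_add (by (clear * -; positivity)) (abs_nonneg _)]
        refine ENNReal.ofReal_le_ofReal ?_
        rw [abs_sub_comm (ρ m z.1 z.2)]
        have := abs_add_three (ρ n z.1 z.2 - lavg O (ρ n z.1) z.2)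
          (lavg O (ρ n z.1) z.2 - lavg O (ρ m z.1) z.2)
          (lavg O (ρ m z.1) z.2 - ρ m z.1 z.2)
        calc _ = |ρ n z.1 z.2 - lavg O (ρ n z.1) z.2
              + (lavg O (ρ n z.1) z.2 - lavg O (ρ m z.1) z.2)
              + (lavg O (ρ m z.1) z.2 - ρ m z.1 z.2)| := by congr 1; ring
          _ ≤ _ := this
    _ = (∫⁻ z, ENNReal.ofReal |ρ n z.1 z.2 - lavg O (ρ n z.1) z.2| ∂π
          + ∫⁻ z, ENNReal.ofReal |lavg O (ρ n z.1) z.2 - lavg O (ρ m z.1) z.2| ∂π)
          + ∫⁻ z, ENNReal.ofReal |ρ m z.1 z.2 - lavg O (ρ m z.1) z.2| ∂π := by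
        rw [lintegral_add_left m12, lintegral_add_left m1]
    _ ≤ (ε / 4 + ε / 4) + ε / 4 := add_le_add (add_le_add (hA n) h1) (hA m)
    _ ≤ ((ε / 4 + ε / 4) + ε / 4) + ε / 4 := le_self_add
    _ = ε := by
        rw [ENNReal.div_eq_inv_mul]
        rw [← add_mul, ← add_mul, ← add_mul]
        have : (4⁻¹ + 4⁻¹ + 4⁻¹ + 4⁻¹ : ℝ≥0∞) = 1 := by
          have : (4⁻¹ + 4⁻¹ + 4⁻¹ + 4⁻¹ : ℝ≥0∞) = 4 * 4⁻¹ := by ring
          rw [this, ENNReal.mul_inv_cancel (by norm_num) (by norm_num)]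
        rw [this, one_mul]

end Vale.Agent.P140.DL
end
end

section

open MeasureTheory Set Filter
open scoped ENNReal Topology NNReal

noncomputable section

namespace Vale.Agent.P140

theorem stt_gain (f : T3 × V → ℝ) (p : T3 × V) :
    Stt.gain f p = gain (fun w => f (p.1, w)) p.2 := by
  unfold Stt.gain Stt.coll Stt.sphInt gain
  apply lintegral_congr
  intro w
  apply lintegral_congr
  intro ω
  rw [ENNReal.ofReal_mul (abs_nonneg _)]
  rfl

theorem stt_loss (f : T3 × V → ℝ) (p : T3 × V) :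
    Stt.loss f p = loss (fun w => f (p.1, w)) p.2 := by
  unfold Stt.loss Stt.coll Stt.sphInt loss
  apply lintegral_congr
  intro w
  apply lintegral_congr
  intro ω
  rw [ENNReal.ofReal_mul (abs_nonneg _)]
  rfl

theorem stt_Maxw (v : V) : Stt.Maxw v = Maxw v := by
  unfold Stt.Maxw Maxw
  have hp : (0 : ℝ) ≤ 2 * Real.pi := by positivity
  have h : √(2 * Real.pi) ^ 3 = (2 * Real.pi) ^ (3 / 2 : ℝ) := by
    rw [Real.sqrt_eq_rpow, ← Real.rpow_natCast, ← Real.rpow_mul hp]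
    norm_num
  rw [h, Real.rpow_neg hp, div_eq_mul_inv, mul_comm]

theorem stt_relEntropy {f : T3 × V → ℝ} (hf : Measurable f) :
    Stt.relEntropy f = relEntropy fun x v => f (x, v) := by
  unfold Stt.relEntropy relEntropy
  simp only [stt_Maxw]
  have hM : Measurable fun p : T3 × V => Maxw p.2 := measurable_Maxw.comp measurable_snd
  have h : Measurable fun p : T3 × V => f p * Real.log (f p / Maxw p.2) - f p + Maxw p.2 :=
    ((hf.mul (Real.measurable_log.comp (hf.div hM))).sub hf).add hM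
  rw [Measure.volume_eq_prod, lintegral_prod _ h.ennreal_ofReal.aemeasurable]

end Vale.Agent.P140
end
end

section

open MeasureTheory Set Filter
open scoped ENNReal Topology NNReal

noncomputable section

namespace Vale.Agent.P140

theorem stt_sum_lt (T : ℝ) {g l : ℝ × T3 × V → ℝ≥0∞} (hg : Measurable g)
    (h1 : ∫⁻ q in Icc 0 T ×ˢ univ, g q < ⊤) (hl : Measurable l)
    (h2 : ∫⁻ q in Icc 0 T ×ˢ univ, l q < ⊤) :
    ∫⁻ t in Icc 0 T, ∫⁻ p : T3 × V, (g (t, p) + l (t, p)) < ⊤ := by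
  have h3 : ∫⁻ q in Icc 0 T ×ˢ univ, (g q + l q) < ⊤ := by
    rw [lintegral_add_left hg]
    exact ENNReal.add_lt_top.mpr ⟨h1, h2⟩
  have hgl : Measurable fun q => g q + l q := hg.add hl
  rw [Measure.volume_eq_prod ℝ (T3 × V), ← Measure.prod_restrict, Measure.restrict_univ,
    lintegral_prod _ hgl.aemeasurable] at h3
  exact h3

/-- the working notion implies the statement-level notion -/
theorem stt_of_sol {π : V → T3} (hπ : ∀ x i, π x i = (x i : UnitAddCircle))
    {F0 : T3 → V → ℝ} {F : ℝ → T3 → V → ℝ} (h : IsRenormEntropySol F0 F) :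
    Stt.IsSol π (fun p => F0 p.1 p.2) (fun t p => F t p.1 p.2) := by
  have hπ' : π = toTorus := by
    funext x
    funext i
    exact hπ x i
  subst hπ'
  have hm : Measurable fun q : ℝ × T3 × V => F q.1 q.2.1 q.2.2 := h.measurable
  have hmt : ∀ t, Measurable fun p : T3 × V => F t p.1 p.2 := fun t =>
    h.measurable.comp (by fun_prop : Measurable fun p : T3 × V => (t, p.1, p.2))
  have hM : Measurable fun q : ℝ × T3 × V => Maxw q.2.2 := measurable_Maxw.comp (by fun_prop)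
  refine ⟨h.datum.measurable, fun p => h.datum.nonneg p.1 p.2, h.datum.finite, hm,
    fun t p => h.nonneg t p.1 p.2, h.integrable, ?_, h.initial, ?_, ?_, ?_, ?_,
    h.momentum, h.energy, ?_⟩
  · intro θ hθ hb
    exact h.weak_cont θ hθ hb
  · intro T
    obtain ⟨C, hC, hb⟩ := h.bounded T
    refine ⟨C.toReal, fun t ht => ?_⟩
    rw [ENNReal.ofReal_toReal hC.ne]
    exact hb t ht
  · intro T
    have hg : Measurable fun q : ℝ × T3 × V => gain (F q.1 q.2.1) q.2.2
        / ENNReal.ofReal (1 + F q.1 q.2.1 q.2.2 / Maxw q.2.2) :=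
      (measurable_gain_st hm).div (measurable_const.add (hm.div hM)).ennreal_ofReal
    have hl : Measurable fun q : ℝ × T3 × V => loss (F q.1 q.2.1) q.2.2
        / ENNReal.ofReal (1 + F q.1 q.2.1 q.2.2 / Maxw q.2.2) :=
      (measurable_loss_st hm).div (measurable_const.add (hm.div hM)).ennreal_ofReal
    refine lt_of_le_of_lt (le_of_eq ?_) (stt_sum_lt T hg (h.gain_int T) hl (h.loss_int T))
    apply lintegral_congr
    intro t
    apply lintegral_congr
    intro p
    rw [stt_gain, stt_loss, stt_Maxw, ENNReal.add_div]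
  · intro β h1 h2 h3 φ hφ hc
    have h4 := h.renorm β h1 h2 h3 (fun t x v => φ t (x, v)) ⟨hφ, by
      obtain ⟨R, hR⟩ := hc
      exact ⟨R, fun t x v => hR t (x, v)⟩⟩
    simp only [stt_gain, stt_loss, stt_Maxw]
    exact h4
  · intro φ hφ hc
    exact h.mass φ ⟨hφ, hc⟩
  · intro t ht
    have h4 := h.entropy t ht
    rw [stt_relEntropy (hmt t), stt_relEntropy h.datum.measurable]
    exact h4

end Vale.Agent.P140
end
end
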