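import Vale.Agent.P140.MathlibUsed
import Vale.Agent.P140.Bd3.B3
import Vale.Agent.P140.Bd3.B1
import Vale.Agent.P140.Bd3.B4
import Vale.Agent.P140.Bd3.B5

set_option linter.all false

attribute [local instance 5000] Vale.Agent.P140.Sc.a01 Vale.Agent.P140.Sc.a02 Vale.Agent.P140.Sc.a03 Vale.Agent.P140.Sc.a04 Vale.Agent.P140.Sc.a05 Vale.Agent.P140.Sc.a06 Vale.Agent.P140.Sc.a07 Vale.Agent.P140.Sc.a08 Vale.Agent.P140.Sc.a09 Vale.Agent.P140.Sc.a10 Vale.Agent.P140.Sc.a11 Vale.Agent.P140.Sc.a12 Vale.Agent.P140.Sc.a13 Vale.Agent.P140.Sc.a14 Vale.Agent.P140.Sc.a15 Vale.Agent.P140.Sc.a16 Vale.Agent.P140.Sc.a17 Vale.Agent.P140.Sc.a18 Vale.Agent.P140.Sc.a19 Vale.Agent.P140.Sc.a20 Vale.Agent.P140.Sc.a21 Vale.Agent.P140.Sc.a22 Vale.Agent.P140.Sc.a23 Vale.Agent.P140.Sc.a24 Vale.Agent.P140.Sc.a25 Vale.Agent.P140.Sc.a26 Vale.Agent.P140.Sc.a27 Vale.Agent.P140.Sc.a28 Vale.Agent.P140.Sc.a29 Vale.Agent.P140.Sc.a30 Vale.Agent.P140.Sc.a31 Vale.Agent.P140.Sc.a32 Vale.Agent.P140.Sc.a33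 Vale.Agent.P140.Sc.r01 Vale.Agent.P140.Sc.r02 Vale.Agent.P140.Sc.r03 Vale.Agent.P140.Sc.r04 Vale.Agent.P140.Sc.r05 Vale.Agent.P140.Sc.r06 Vale.Agent.P140.Sc.r07 Vale.Agent.P140.Sc.r08 Vale.Agent.P140.Sc.r09 Vale.Agent.P140.Sc.r10 Vale.Agent.P140.Sc.r11 Vale.Agent.P140.Sc.r12 Vale.Agent.P140.Sc.r13 Vale.Agent.P140.Sc.r14 Vale.Agent.P140.Sc.r15 Vale.Agent.P140.Sc.r16 Vale.Agent.P140.Sc.r17 Vale.Agent.P140.Sc.r18

section

open MeasureTheory Set

namespace Vale.Agent.P140

end Vale.Agent.P140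
end

section

/-!
P140-NU, module E: time spent in a label interval.
-/

open MeasureTheory Set Filter
open scoped ENNReal Topology

noncomputable section

namespace Vale.Agent.P140.NU.EW

/-- upper bound of the time -/
theorem time_le {e m L α β : ℝ} {a : ℝ → ℝ} (he : e = 1 ∨ e = -1) (hm : 0 < m)
    (ha : ∀ s ∈ Icc 0 L, ∀ s' ∈ Icc 0 L, s ≤ s' → m * (s' - s) ≤ e * (a s' - a s))
    (hαβ : α ≤ β) :
    (volume {s | s ∈ Icc 0 L ∧ a s ∈ Icc α β}).toReal ≤ (β - α) / m := by
  have key : ∀ s ∈ {s | s ∈ Icc 0 L ∧ a s ∈ Icc α β}, ∀ s' ∈ {s | s ∈ Icc 0 L ∧ a s ∈ Icc α β},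
      s ≤ s' → s' - s ≤ (β - α) / m := by
    intro s hs s' hs' h
    rw [le_div_iff₀ hm]
    have h1 := ha s hs.1 s' hs'.1 h
    have h2 : e * (a s' - a s) ≤ β - α := by
      rcases he with rfl | rfl
      · linarith only [hs.2.1, hs'.2.2]
      · linarith [hs'.2.1, hs.2.2]
    linarith only [h1, h2]
  have hd : 0 ≤ (β - α) / m := div_nonneg (by linarith only [hαβ]) hm.le
  refine ENNReal.toReal_le_of_le_ofReal hd ((Real.volume_le_diam _).trans ?_)
  refine Metric.ediam_le fun s hs s' hs' => ?_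
  rw [edist_dist]
  refine ENNReal.ofReal_le_ofReal ?_
  rw [Real.dist_eq]
  rcases le_total s s' with h | h
  · rw [abs_of_nonpos (by linarith only [h])]
    linarith only [key s hs s' hs' h]
  · rw [abs_of_nonneg (by linarith only [h])]
    exact key s' hs' s hs h

/-- lower bound of the time: `a` takes values `≤ α` and `≥ β` -/
theorem time_ge {e m M L α β : ℝ} {a : ℝ → ℝ} (he : e = 1 ∨ e = -1) (hm : 0 < m) (hM : 0 < M)
    (hL : 0 ≤ L) (ha : ∀ s ∈ Icc 0 L, ∀ s' ∈ Icc 0 L, s ≤ s' →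
      m * (s' - s) ≤ e * (a s' - a s) ∧ e * (a s' - a s) ≤ M * (s' - s))
    (h1 : (a 0 ≤ α ∧ β ≤ a L) ∨ (a L ≤ α ∧ β ≤ a 0)) (hαβ : α ≤ β) :
    (β - α) / M ≤ (volume {s | s ∈ Icc 0 L ∧ a s ∈ Icc α β}).toReal := by
  have hcont : ContinuousOn a (Icc 0 L) := by
    have hlip : LipschitzOnWith (Real.toNNReal M) a (Icc 0 L) := by
      refine LipschitzOnWith.of_dist_le_mul fun s hs s' hs' => ?_
      rw [Real.coe_toNNReal _ hM.le, Real.dist_eq, Real.dist_eq]
      have key : ∀ s ∈ Icc 0 L, ∀ s' ∈ Icc 0 L, s ≤ s' → |a s' - a s| ≤ M * (s' - s) := by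
        intro s hs s' hs' h
        obtain ⟨h2, h3⟩ := ha s hs s' hs' h
        have h4 : 0 ≤ m * (s' - s) := mul_nonneg hm.le (by linarith only [h])
        rcases he with rfl | rfl
        · rw [abs_of_nonneg (by linarith only [h4, h2])]
          linarith only [h3]
        · rw [abs_of_nonpos (by linarith only [h4, h2])]
          linarith
      rcases le_total s s' with h | h
      · rw [abs_sub_comm, abs_of_nonpos (by linarith : s - s' ≤ 0)]
        have := key s hs s' hs' h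
        linarith only [this]
      · rw [abs_of_nonneg (by linarith : 0 ≤ s - s')]
        exact key s' hs' s hs h
    exact hlip.continuousOn
  have h0 : (0 : ℝ) ∈ Icc 0 L := ⟨le_rfl, hL⟩
  have hLL : L ∈ Icc 0 L := ⟨hL, le_rfl⟩
  -- the interval
  have main : ∀ s₁ ∈ Icc 0 L, ∀ s₂ ∈ Icc 0 L, s₁ ≤ s₂ →
      (∀ s ∈ Icc s₁ s₂, a s ∈ Icc α β) → (β - α) / M ≤ s₂ - s₁ →
      (β - α) / M ≤ (volume {s | s ∈ Icc 0 L ∧ a s ∈ Icc α β}).toReal := by
    intro s₁ hs₁ s₂ hs₂ h12 hin hle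
    have hsub : Icc s₁ s₂ ⊆ {s | s ∈ Icc 0 L ∧ a s ∈ Icc α β} := fun s hs =>
      ⟨⟨hs₁.1.trans hs.1, hs.2.trans hs₂.2⟩, hin s hs⟩
    have hfin : volume {s | s ∈ Icc 0 L ∧ a s ∈ Icc α β} ≠ ∞ := by
      have h3 : volume {s | s ∈ Icc 0 L ∧ a s ∈ Icc α β} ≤ volume (Icc 0 L) :=
        measure_mono fun s hs => hs.1
      exact ne_top_of_le_ne_top (by rw [Real.volume_Icc]; exact ENNReal.ofReal_ne_top) h3
    have h4 := ENNReal.toReal_mono hfin (measure_mono hsub)
    rw [Real.volume_Icc, ENNReal.toReal_ofReal (by linarith only [h12])] at h4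
    linarith
  have hcase : (∃ s₁ ∈ Icc 0 L, a s₁ = α) ∧ (∃ s₂ ∈ Icc 0 L, a s₂ = β) := by
    rcases h1 with ⟨h2, h3⟩ | ⟨h2, h3⟩
    · have := intermediate_value_Icc hL hcont
      exact ⟨this ⟨h2, hαβ.trans h3⟩, this ⟨h2.trans hαβ, h3⟩⟩
    · have := intermediate_value_Icc' hL hcont
      exact ⟨this ⟨h2, hαβ.trans h3⟩, this ⟨h2.trans hαβ, h3⟩⟩
  obtain ⟨⟨s₁, hs₁, e₁⟩, s₂, hs₂, e₂⟩ := hcase
  rcases he with rfl | rfl
  · -- increasing
    have h12 : s₁ ≤ s₂ ∨ s₂ ≤ s₁ := le_total _ _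
    rcases h12 with h12 | h12
    · refine main s₁ hs₁ s₂ hs₂ h12 (fun s hs => ?_) ?_
      · have hsI : s ∈ Icc 0 L := ⟨hs₁.1.trans hs.1, hs.2.trans hs₂.2⟩
        have h3 := (ha s₁ hs₁ s hsI hs.1).1
        have h4 := (ha s hsI s₂ hs₂ hs.2).1
        have h5 : 0 ≤ m * (s - s₁) := mul_nonneg hm.le (by linarith only [hs.1])
        have h6 : 0 ≤ m * (s₂ - s) := mul_nonneg hm.le (by linarith [hs.2])
        constructor <;> linarith only [e₁, h3, h5, e₂, h4, h6]
      · rw [div_le_iff₀ hM]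
        have := (ha s₁ hs₁ s₂ hs₂ h12).2
        linarith
    · -- then `α = β`
      have h3 := (ha s₂ hs₂ s₁ hs₁ h12).1
      have h5 : 0 ≤ m * (s₁ - s₂) := mul_nonneg hm.le (by linarith only [h12])
      have h6 : α = β := by linarith
      rw [h6, sub_self, zero_div]
      exact ENNReal.toReal_nonneg
  · rcases le_total s₂ s₁ with h12 | h12
    · refine main s₂ hs₂ s₁ hs₁ h12 (fun s hs => ?_) ?_
      · have hsI : s ∈ Icc 0 L := ⟨hs₂.1.trans hs.1, hs.2.trans hs₁.2⟩
        have h3 := (ha s₂ hs₂ s hsI hs.1).1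
        have h4 := (ha s hsI s₁ hs₁ hs.2).1
        have h5 : 0 ≤ m * (s - s₂) := mul_nonneg hm.le (by linarith only [hs.1])
        have h6 : 0 ≤ m * (s₁ - s) := mul_nonneg hm.le (by linarith [hs.2])
        constructor <;> linarith only [e₁, h4, h6, e₂, h3, h5]
      · rw [div_le_iff₀ hM]
        have := (ha s₂ hs₂ s₁ hs₁ h12).2
        linarith only [e₁, e₂, this]
    · have h3 := (ha s₁ hs₁ s₂ hs₂ h12).1
      have h5 : 0 ≤ m * (s₂ - s₁) := mul_nonneg hm.le (by linarith)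
      have h6 : α = β := by linarith
      rw [h6, sub_self, zero_div]
      exact ENNReal.toReal_nonneg

end Vale.Agent.P140.NU.EW
end
end

section

/-!
P140-NU, module E: abstract window of a flight (definitions).
-/

open MeasureTheory Set Filter
open scoped ENNReal Topology

noncomputable section

namespace Vale.Agent.P140.NU.EW

/-- parameter conditions for the flight lemma -/
structure PE (P : Par) : Prop where
  hc : 10 ^ 16 ≤ P.c
  hl0 : 99 / 100 ≤ P.lam
  hl1 : P.lam < 1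
  th1 : (1 - P.lam) * 10 ^ 8 * P.c * (P.Vg + 3) ≤ P.m1
  th2 : (1 - P.lam) * 10 ^ 8 * P.w * P.c ≤ P.m1 ^ 2
  c1 : 998 / 1000 * (1 - P.lam) ≤ P.lam ^ (gg / 2) - P.lam ^ (1 - gg / 2)
  c2 : P.lam ^ (gg / 2) - P.lam ^ (2 * gg) ≤ 16 / 10000 * (1 - P.lam)
  c3 : P.lam ^ (1 - 2 * gg) - P.lam ^ (1 - gg / 2) ≤ 16 / 10000 * (1 - P.lam)
  hk0 : 0 < P.kdel
  hk1 : P.kdel * 10 ^ 9 ≤ P.m1
  hj : P.lam ^ P.j0 ≤ 1 / 64

variable (P : Par) (n : ℕ)

open Classical in
/-- collision rate with cell `j` along a flight -/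
def qc (ρ a : ℝ → ℝ) (X : ℝ → ℝ → ℝ) (j : ℕ) (s : ℝ) : ℝ :=
  if a s ∈ P.cell (gg / 2) j then
    (1 + 1 / 100) * (2 * Real.pi) * (P.c / ρ s) * (X (sg j) s + 4 * P.del j) else 0

open Classical in
/-- successful collision rate with cell `j` along a flight -/
def pc (ρ a : ℝ → ℝ) (X : ℝ → ℝ → ℝ) (gd : ℕ → ℝ → Prop) (j : ℕ) (s : ℝ) : ℝ :=
  if a s ∈ P.cell (2 * gg) j ∧ gd j s then
    (1 - 1 / 100) * (2 * Real.pi) * (P.c / ρ s) * (X (sg j) s - 4 * P.del j) else 0

/-- collision rate along a flight -/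
def qf (ρ a : ℝ → ℝ) (X : ℝ → ℝ → ℝ) (s : ℝ) : ℝ := ∑ j ∈ Finset.Icc P.j0 n, qc P ρ a X j s

/-- successful collision rate along a flight -/
def pf (ρ a : ℝ → ℝ) (X : ℝ → ℝ → ℝ) (gd : ℕ → ℝ → Prop) (s : ℝ) : ℝ :=
  ∑ j ∈ Finset.Icc P.j0 n, pc P ρ a X gd j s

/-- a window `[0, L]` of a flight: `ρ` distance to the line, `a` label, `X σ` relative speeds,
`r0` initial distance, `m` initial radial relative speed (absolute value), `e` its sign -/
structure Win (r0 L m e : ℝ) (ρ a : ℝ → ℝ) (X : ℝ → ℝ → ℝ) : Prop where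
  r0pos : 0 < r0
  L0 : 0 ≤ L
  L1 : L ≤ 5 * r0 / P.c
  m0 : P.m1 / 200 ≤ m
  he : e = 1 ∨ e = -1
  ha : ∀ s ∈ Icc 0 L, ∀ s' ∈ Icc 0 L, s ≤ s' →
    9 / 10 * m * (s' - s) ≤ e * (a s' - a s) ∧ e * (a s' - a s) ≤ 11 / 10 * m * (s' - s)
  hρ : ∀ s ∈ Icc 0 L, 99 / 100 * r0 ≤ ρ s ∧ ρ s ≤ 101 / 100 * r0
  alo : ∀ s ∈ Icc 0 L, P.lam ^ (n + 1) ≤ a s
  aρ : ∀ s ∈ Icc 0 L, a s ≤ ρ s
  aup : ∀ s ∈ Icc 0 L, a s < P.lam ^ (P.j0 + 1)
  hX1 : ∀ σ : ℝ, (σ = 1 ∨ σ = -1) → ∀ s ∈ Icc 0 L, 9 / 10 * m ≤ X σ s ∧ X σ s ≤ P.Vg + 3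
  hX2 : ∀ σ : ℝ, (σ = 1 ∨ σ = -1) → ∀ s ∈ Icc 0 L, ∀ s' ∈ Icc 0 L,
    X σ s ^ 2 - X σ s' ^ 2 ≤ P.w * P.c * m / (25 * r0) * |s - s'|
  mρ : Measurable ρ
  ma : Measurable a
  mX : ∀ σ, Measurable (X σ)

variable {P n} {r0 L m e : ℝ} {ρ a : ℝ → ℝ} {X : ℝ → ℝ → ℝ}

theorem Win.mono (h : Win P n r0 L m e ρ a X) {L' : ℝ} (h0 : 0 ≤ L') (h1 : L' ≤ L) :
    Win P n r0 L' m e ρ a X := by
  have hs : Icc 0 L' ⊆ Icc 0 L := Icc_subset_Icc le_rfl h1
  exact ⟨h.r0pos, h0, h1.trans h.L1, h.m0, h.he,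
    fun s hs1 s' hs2 => h.ha s (hs hs1) s' (hs hs2), fun s hs1 => h.hρ s (hs hs1),
    fun s hs1 => h.alo s (hs hs1), fun s hs1 => h.aρ s (hs hs1), fun s hs1 => h.aup s (hs hs1),
    fun σ hσ s hs1 => h.hX1 σ hσ s (hs hs1),
    fun σ hσ s hs1 s' hs2 => h.hX2 σ hσ s (hs hs1) s' (hs hs2), h.mρ, h.ma, h.mX⟩

end Vale.Agent.P140.NU.EW
end
end

section

/-!
P140-NU, module E: sums over cells.
-/

open MeasureTheory Set Filter
open scoped ENNReal Topology

noncomputable section

namespace Vale.Agent.P140.NU.EW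

theorem sg_succ (k : ℕ) : sg (k + 1) = - sg k := by
  simp only [sg, pow_succ, mul_neg, mul_one]

theorem sg_cases (k : ℕ) : sg k = 1 ∨ sg k = -1 := by
  unfold sg
  exact neg_one_pow_eq_or ℝ k

/-- the signs alternate -/
theorem sg_succ_eq {σ : ℝ} (hσ : σ = 1 ∨ σ = -1) (k : ℕ) : sg (k + 1) = σ ↔ ¬ sg k = σ := by
  rw [sg_succ]
  rcases hσ with h | h <;> rcases sg_cases k with h' | h' <;> rw [h, h'] <;> norm_num

theorem sum_half_aux {lam : ℝ} (h0 : 0 < lam) (h1 : lam ≤ 1) {σ : ℝ} (hσ : σ = 1 ∨ σ = -1)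
    (i d : ℕ) :
    1 / 2 * ∑ j ∈ Finset.Ico (i + 1) (i + 1 + d), lam ^ j +
        (if sg (i + 1 + d) = σ then 0 else 1 / 2 * lam ^ (i + 1 + d)) ≤
      ∑ j ∈ Finset.Ico i (i + 1 + d), if sg j = σ then lam ^ j else 0 := by
  have hmono : ∀ k : ℕ, lam ^ (k + 1) ≤ lam ^ k := fun k =>
    pow_le_pow_of_le_one h0.le h1 (Nat.le_succ k)
  induction d with
  | zero =>
    simp only [add_zero, Finset.Ico_self, Finset.sum_empty, mul_zero, zero_add]
    rw [Finset.sum_Ico_succ_top (le_refl i)]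
    simp only [Finset.Ico_self, Finset.sum_empty, zero_add]
    have hp : 0 < lam ^ i := pow_pos h0 i
    have hm := hmono i
    by_cases h : sg i = σ
    · have h2 : ¬ sg (i + 1) = σ := by rw [sg_succ_eq hσ]; simpa using h
      rw [if_neg h2, if_pos h]
      linarith only [hp, hm]
    · have h2 : sg (i + 1) = σ := by rw [sg_succ_eq hσ]; exact h
      rw [if_pos h2, if_neg h]
  | succ d ih =>
    have e1 : i + 1 + (d + 1) = (i + 1 + d) + 1 := by ring
    rw [e1, Finset.sum_Ico_succ_top (by omega), Finset.sum_Ico_succ_top (by omega)]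
    have hm := hmono (i + 1 + d)
    have hp : 0 < lam ^ (i + 1 + d) := pow_pos h0 _
    by_cases h : sg (i + 1 + d) = σ
    · have h2 : ¬ sg (i + 1 + d + 1) = σ := by rw [sg_succ_eq hσ]; simpa using h
      rw [if_pos h] at ih
      rw [if_neg h2, if_pos h]
      linarith only [hm, ih]
    · have h2 : sg (i + 1 + d + 1) = σ := by rw [sg_succ_eq hσ]; exact h
      rw [if_neg h] at ih
      rw [if_pos h2, if_neg h]
      linarith only [ih]

/-- half of a geometric sum -/
theorem sum_half {lam : ℝ} (h0 : 0 < lam) (h1 : lam ≤ 1) {σ : ℝ} (hσ : σ = 1 ∨ σ = -1) (i k : ℕ) :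
    1 / 2 * ∑ j ∈ Finset.Ico (i + 1) k, lam ^ j ≤
      ∑ j ∈ Finset.Ico i k, if sg j = σ then lam ^ j else 0 := by
  rcases Nat.lt_or_ge k (i + 1) with h | h
  · rw [Finset.Ico_eq_empty (by omega), Finset.sum_empty, mul_zero]
    apply Finset.sum_nonneg
    intro j _
    split_ifs
    · exact (pow_pos h0 j).le
    · exact le_rfl
  · obtain ⟨d, rfl⟩ := Nat.exists_eq_add_of_le h
    have h2 := sum_half_aux h0 h1 hσ i d
    have h3 : 0 ≤ (if sg (i + 1 + d) = σ then 0 else 1 / 2 * lam ^ (i + 1 + d)) := by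
      split_ifs
      · exact le_rfl
      · have := pow_pos h0 (i + 1 + d)
        linarith only [this]
    linarith only [h2, h3]

/-- the cells of one sign between two labels -/
theorem sum_cells {P : Par} (hP : PE P) {n : ℕ} {σ A B : ℝ} (hσ : σ = 1 ∨ σ = -1)
    (hA : P.lam ^ (n + 1) ≤ A) (hAB : A ≤ B) (hB : B < P.lam ^ (P.j0 + 1)) :
    ∃ S : Finset ℕ, (∀ j ∈ S, j ∈ Finset.Icc P.j0 n ∧ sg j = σ ∧
      A ≤ P.lam ^ ((j : ℝ) + 1 - gg / 2) ∧ P.lam ^ ((j : ℝ) + gg / 2) ≤ B) ∧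
      1 / 2 * ((B - A) - 6 * (1 - P.lam) * B) ≤ ∑ j ∈ S, P.lam ^ j * (1 - P.lam) := by
  have hl0 := hP.hl0
  have hl1 := hP.hl1
  have h0 : 0 < P.lam := by linarith only [hl0]
  have hApos : 0 < A := lt_of_lt_of_le (pow_pos h0 _) hA
  have hBpos : 0 < B := lt_of_lt_of_le hApos hAB
  have hB1 : B ≤ 1 := hB.le.trans (pow_le_one₀ h0.le hl1.le)
  have hA1 : A ≤ 1 := hAB.trans hB1
  obtain ⟨kA, hkA1, hkA2⟩ := exists_nat_pow_near_of_lt_one hApos hA1 h0 hl1
  obtain ⟨kB, hkB1, hkB2⟩ := exists_nat_pow_near_of_lt_one hBpos hB1 h0 hl1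
  have hkAn : kA ≤ n + 1 := by
    by_contra hcon
    push Not at hcon
    have : P.lam ^ kA < P.lam ^ (n + 1) := pow_lt_pow_right_of_lt_one₀ h0 hl1 hcon
    linarith only [hA, hkA2, this]
  have hkBj : P.j0 + 1 < kB + 1 := by
    by_contra hcon
    push Not at hcon
    have : P.lam ^ (P.j0 + 1) ≤ P.lam ^ (kB + 1) := pow_le_pow_of_le_one h0.le hl1.le hcon
    linarith only [hB, hkB1, this]
  have hg : gg = 1 / 1000 := rfl
  have hsum : ∑ j ∈ (Finset.Ico (kB + 1) kA).filter (fun j => sg j = σ), P.lam ^ j * (1 - P.lam) =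
      (∑ j ∈ Finset.Ico (kB + 1) kA, if sg j = σ then P.lam ^ j else 0) * (1 - P.lam) := by
    rw [Finset.sum_filter, Finset.sum_mul]
    apply Finset.sum_congr rfl
    intro j _
    split_ifs <;> simp
  refine ⟨(Finset.Ico (kB + 1) kA).filter (fun j => sg j = σ), ?_, ?_⟩
  · intro j hj
    rw [Finset.mem_filter, Finset.mem_Ico] at hj
    obtain ⟨⟨hj1, hj2⟩, hj3⟩ := hj
    refine ⟨Finset.mem_Icc.2 ⟨by (clear * - hkBj hj1; omega), by omega⟩, hj3, ?_, ?_⟩
    · have e1 : A ≤ P.lam ^ (j + 1) := hkA2.trans (pow_le_pow_of_le_one h0.le hl1.le (by omega))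
      have e2 : P.lam ^ ((j : ℝ) + 1) ≤ P.lam ^ ((j : ℝ) + 1 - gg / 2) :=
        Real.rpow_le_rpow_of_exponent_ge h0 hl1.le (by rw [hg]; linarith only [])
      have e3 : P.lam ^ ((j : ℝ) + 1) = P.lam ^ (j + 1) := by
        rw [← Real.rpow_natCast]; push_cast; rfl
      rw [e3] at e2
      exact e1.trans e2
    · have e1 : P.lam ^ j ≤ B := (pow_le_pow_of_le_one h0.le hl1.le hj1).trans hkB1.le
      have e2 : P.lam ^ ((j : ℝ) + gg / 2) ≤ P.lam ^ (j : ℝ) :=
        Real.rpow_le_rpow_of_exponent_ge h0 hl1.le (by rw [hg]; linarith only [])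
      rw [Real.rpow_natCast] at e2
      exact e2.trans e1
  · rw [hsum]
    have hl : 0 < 1 - P.lam := by linarith only [hl1]
    have hhalf := sum_half h0 hl1.le hσ (kB + 1) kA
    rcases Nat.lt_or_ge kA (kB + 1 + 1) with h | h
    · -- few cells
      have hnn : 0 ≤ ∑ j ∈ Finset.Ico (kB + 1) kA, if sg j = σ then P.lam ^ j else 0 := by
        apply Finset.sum_nonneg
        intro j _
        split_ifs
        · exact (pow_pos h0 j).le
        · exact le_rfl
      have e1 : P.lam ^ (kB + 2) ≤ P.lam ^ (kA + 1) :=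
        pow_le_pow_of_le_one h0.le hl1.le (by omega)
      have e2 : P.lam ^ (kB + 2) = P.lam ^ kB * P.lam ^ 2 := pow_add _ _ _
      have e3 : B * P.lam ^ 2 ≤ P.lam ^ kB * P.lam ^ 2 :=
        mul_le_mul_of_nonneg_right hkB2 (by positivity)
      have e4 : B * P.lam ^ 2 ≤ A := by linarith only [hkA1, e1, e2, e3]
      have e7 := mul_nonneg (mul_pos hl hBpos).le hl.le
      have e8 := mul_pos hl hBpos
      have e5 : (B - A) - 6 * (1 - P.lam) * B ≤ 0 := by
        linarith only [e4, e7, e8]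
      have e6 := mul_nonneg hnn hl.le
      linarith only [hkA1, e1, e2, e3, e7, e8, e6]
    · rw [geom_sum_Ico' hl1.ne h] at hhalf
      have e2 : P.lam ^ (kB + 1 + 1) = P.lam ^ kB * P.lam ^ 2 := by ring
      have e3 : B * P.lam ^ 2 ≤ P.lam ^ kB * P.lam ^ 2 :=
        mul_le_mul_of_nonneg_right hkB2 (by positivity)
      have e4 : P.lam ^ kA * P.lam ≤ A := by
        have := hkA1.le
        rw [pow_succ] at this
        exact this
      -- lam^kA ≤ A / lam
      have e5 : P.lam ^ kA ≤ A / P.lam := by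
        rw [le_div_iff₀ h0]; exact e4
      have f1 := mul_nonneg (mul_pos hl hBpos).le hl.le
      have f2 : 0 ≤ (1 - P.lam) * (B - A) := mul_nonneg hl.le (by linarith only [hAB])
      have f3 : 0 ≤ (1 - P.lam) * B * (2 * P.lam - 1) :=
        mul_nonneg (mul_pos hl hBpos).le (by linarith only [hl0])
      have e6 : A / P.lam ≤ A + 2 * (1 - P.lam) * B := by
        rw [div_le_iff₀ h0]
        linarith only [f2, f3]
      have e7 : B - 2 * (1 - P.lam) * B ≤ B * P.lam ^ 2 := by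
        linarith only [f1]
      have e8 : (B - A) - 6 * (1 - P.lam) * B ≤ P.lam ^ (kB + 1 + 1) - P.lam ^ kA := by
        have := mul_pos hl hBpos
        rw [e2]
        linarith only [e3, e5, f1, e6, this]
      have e9 : 1 / 2 * ((P.lam ^ (kB + 1 + 1) - P.lam ^ kA) / (1 - P.lam)) * (1 - P.lam) =
          1 / 2 * (P.lam ^ (kB + 1 + 1) - P.lam ^ kA) := by
        (clear * - hl; field_simp)
      have e10 := mul_le_mul_of_nonneg_right hhalf hl.le
      rw [e9] at e10
      linarith only [e2, e3, e5, f1, f3, e6, e10]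

end Vale.Agent.P140.NU.EW
end
end

section

/-!
P140-NU, module E: a piece of flight is a window.
-/

open MeasureTheory Set Filter
open scoped ENNReal Topology

noncomputable section

namespace Vale.Agent.P140.NU.EW

/-- distance along a flight -/
def frho (x : T3) (v : V) (s : ℝ) : ℝ := rr (mv x v s)
/-- label along a flight -/
def fa (P : Par) (t : ℝ) (x : T3) (v : V) (s : ℝ) : ℝ := rr (mv x v s) - P.w * (t + s)
/-- relative speeds along a flight -/
def fX (P : Par) (x : T3) (v : V) (σ s : ℝ) : ℝ := √(SS P σ (mv x v s) v)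

/-- mean value inequalities -/
theorem fl_mvt {f f' : ℝ → ℝ} {s s' A B : ℝ} (hs : s ≤ s')
    (hf : ∀ u ∈ Icc s s', HasDerivAt f (f' u) u) (hA : ∀ u ∈ Icc s s', A ≤ f' u)
    (hB : ∀ u ∈ Icc s s', f' u ≤ B) : A * (s' - s) ≤ f s' - f s ∧ f s' - f s ≤ B * (s' - s) := by
  rcases hs.eq_or_lt with rfl | h
  · simp
  · obtain ⟨u, hu, hu'⟩ := exists_hasDerivAt_eq_slope f f' h
      (fun u hu => (hf u hu).continuousAt.continuousWithinAt)
      (fun u hu => hf u (Ioo_subset_Icc_self hu))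
    have hpos : 0 < s' - s := by linarith only [h]
    rw [eq_div_iff hpos.ne'] at hu'
    have h1 := hA u (Ioo_subset_Icc_self hu)
    have h2 := hB u (Ioo_subset_Icc_self hu)
    rw [← hu']
    exact ⟨mul_le_mul_of_nonneg_right h1 hpos.le, mul_le_mul_of_nonneg_right h2 hpos.le⟩

theorem fl_w_pos {P : Par} (hP : PE P) : 0 < P.w := by
  have h := hP.hc
  have hc : 0 < P.c := lt_of_lt_of_le (by norm_num) h
  unfold Par.w
  (clear * - h; positivity)

theorem fl_w_le {P : Par} (hP : PE P) : P.w ≤ 1 := by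
  have h := hP.hc
  have hc : 1 ≤ P.c := le_trans (by norm_num) h
  unfold Par.w
  rw [div_le_one (by positivity)]
  have h1 : 1 ≤ P.c ^ 2 := one_le_pow₀ hc
  linarith

theorem fl_m1_pos {P : Par} (hP : PE P) : 0 < P.m1 := by
  have h := hP.hc
  have hc : 0 < P.c := lt_of_lt_of_le (by norm_num) h
  have hw := fl_w_pos hP
  have hs : 0 < √P.c := Real.sqrt_pos.2 hc
  unfold Par.m1 Par.Lam Par.Vg
  (clear * - h hw; positivity)

/-- a piece of flight stays near its starting point -/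
theorem fl_short {P : Par} (hP : PE P) {x : T3} {v : V} (hv : ‖v‖ ≤ P.Vg) (hr : 0 < rr x) {s : ℝ}
    (h0 : 0 ≤ s) (h1 : s ≤ 5 * rr x / P.c) : |s| * vp v ≤ 1 / 100 * rr x := by
  have h := hP.hc
  have hc : 0 < P.c := lt_of_lt_of_le (by norm_num) h
  have hs : (10 : ℝ) ^ 8 ≤ √P.c := by
    apply Real.le_sqrt_of_sq_le
    refine le_trans (le_of_eq ?_) h
    norm_num
  have hs2 : √P.c * √P.c = P.c := Real.mul_self_sqrt hc.le
  rw [abs_of_nonneg h0]
  have h2 : vp v ≤ 400 * √P.c := (vp_le_norm v).trans hv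
  calc s * vp v ≤ 5 * rr x / P.c * (400 * √P.c) :=
        mul_le_mul h1 h2 (vp_nonneg v) (by positivity)
    _ = 2000 * rr x / √P.c := by
        rw [div_mul_eq_mul_div, div_eq_div_iff hc.ne' (by positivity)]
        linear_combination (2000 * rr x) * hs2
    _ ≤ 1 / 100 * rr x := by
        rw [div_le_iff₀ (by positivity)]
        nlinarith only [hr, hs]

theorem fl_cont (x : T3) (v : V) : Continuous fun s : ℝ => mv x v s := by
  have h0 : Continuous fun s : ℝ => ((s, x, v) : ℝ × T3 × V) :=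
    continuous_id.prodMk continuous_const
  have h1 := continuous_mv.comp h0
  exact h1

theorem flight_win {P : Par} (hP : PE P) {n : ℕ} {t : ℝ} (ht : 0 ≤ t) {x : T3} {v : V}
    (hv : ‖v‖ ≤ P.Vg) (hr : 0 < rr x) {L : ℝ} (hL0 : 0 ≤ L) (hL1 : L ≤ 5 * rr x / P.c)
    (hsm : 2 * rr x < P.lam ^ (P.j0 + 1)) (hm0 : P.m1 / 200 ≤ |dotE x v - P.w|)
    (hm1 : 52 / 10 * vp v ^ 2 / P.c ≤ |dotE x v - P.w| / 10)
    (hin : ∀ s ∈ Icc 0 L, P.w * P.TT n (t + s) ≤ rr (mv x v s)) :
    Win P n (rr x) L |dotE x v - P.w| (SignType.sign (dotE x v - P.w)) (frho x v) (fa P t x v)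
      (fX P x v) := by
  have hc : 0 < P.c := lt_of_lt_of_le (by norm_num) hP.hc
  have hw := fl_w_pos hP
  have hw1 := fl_w_le hP
  have hm1p := fl_m1_pos hP
  have hmpos : 0 < |dotE x v - P.w| := lt_of_lt_of_le (by (clear * - hm1p; positivity)) hm0
  have hne : dotE x v - P.w ≠ 0 := abs_pos.1 hmpos
  have hr64 : rr x < 1 / 128 := by
    have h1 : P.lam ^ (P.j0 + 1) ≤ P.lam ^ P.j0 :=
      pow_le_pow_of_le_one (by linarith only [hP.hl0]) hP.hl1.le (Nat.le_succ _)
    have h2 := hP.hj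
    linarith only [hsm, h1, h2]
  -- local flight
  have hshort : ∀ s ∈ Icc 0 L, |s| * vp v ≤ 1 / 100 * rr x := fun s hs =>
    fl_short hP hv hr hs.1 (hs.2.trans hL1)
  have hloc : ∀ s ∈ Icc 0 L, rr x + |s| * vp v < 1 / 2 := fun s hs => by
    have := hshort s hs
    linarith only [hr64, this]
  have hρ : ∀ s ∈ Icc 0 L, 99 / 100 * rr x ≤ rr (mv x v s) ∧ rr (mv x v s) ≤ 101 / 100 * rr x := by
    intro s hs
    have h1 := abs_le.1 (abs_rr_mv_sub_le x v s)
    have h2 := hshort s hs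
    constructor <;> linarith only [h1, h2]
  have hρpos : ∀ s ∈ Icc 0 L, 0 < rr (mv x v s) := fun s hs =>
    lt_of_lt_of_le (by positivity) (hρ s hs).1
  have hvp0 := sq_nonneg (vp v)
  -- derivative of the radial component
  have hd0 : ∀ s ∈ Icc 0 L, 0 ≤ (vp v ^ 2 - dotE (mv x v s) v ^ 2) / rr (mv x v s) := fun s hs =>
    div_nonneg (sub_nonneg.2 (dotE_sq_le _ _)) (hρpos s hs).le
  have hd1 : ∀ s ∈ Icc 0 L, (vp v ^ 2 - dotE (mv x v s) v ^ 2) / rr (mv x v s) ≤
      vp v ^ 2 / (99 / 100 * rr x) := fun s hs => by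
    refine div_le_div₀ hvp0 ?_ (by positivity) (hρ s hs).1
    linarith only [sq_nonneg (dotE (mv x v s) v)]
  have hσ : ∀ s ∈ Icc 0 L, 0 ≤ dotE (mv x v s) v - dotE x v ∧
      dotE (mv x v s) v - dotE x v ≤ |dotE x v - P.w| / 10 := by
    intro s hs
    have hsub : Icc 0 s ⊆ Icc 0 L := Icc_subset_Icc le_rfl hs.2
    have h1 := fl_mvt (f := fun σ => dotE (mv x v σ) v)
      (f' := fun σ => (vp v ^ 2 - dotE (mv x v σ) v ^ 2) / rr (mv x v σ)) hs.1
      (fun u hu => hasDerivAt_dotE (hloc u (hsub hu)) (hρpos u (hsub hu)))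
      (fun u hu => hd0 u (hsub hu)) (fun u hu => hd1 u (hsub hu))
    simp only [mv_zero, sub_zero, zero_mul] at h1
    refine ⟨h1.1, h1.2.trans (le_trans ?_ hm1)⟩
    calc vp v ^ 2 / (99 / 100 * rr x) * s ≤ vp v ^ 2 / (99 / 100 * rr x) * (5 * rr x / P.c) :=
          mul_le_mul_of_nonneg_left (hs.2.trans hL1) (by (clear * - hr; positivity))
      _ = 500 / 99 * (vp v ^ 2 / P.c) := by field_simp; ring
      _ ≤ 52 / 10 * (vp v ^ 2 / P.c) := by
          refine mul_le_mul_of_nonneg_right (by norm_num) (by (clear * - hc; positivity))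
      _ = 52 / 10 * vp v ^ 2 / P.c := by ring
  -- derivative of the label
  have hader : ∀ s ∈ Icc 0 L, HasDerivAt (fa P t x v) (dotE (mv x v s) v - P.w) s := by
    intro s hs
    have h1 := hasDerivAt_rr (hloc s hs) (hρpos s hs)
    have h2 : HasDerivAt (fun s : ℝ => P.w * (t + s)) P.w s := by
      simpa using ((hasDerivAt_id s).const_add t).const_mul P.w
    exact h1.sub h2
  have ha : ∀ s ∈ Icc 0 L, ∀ s' ∈ Icc 0 L, s ≤ s' →
      9 / 10 * |dotE x v - P.w| * (s' - s) ≤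
        (SignType.sign (dotE x v - P.w) : ℝ) * (fa P t x v s' - fa P t x v s) ∧
      (SignType.sign (dotE x v - P.w) : ℝ) * (fa P t x v s' - fa P t x v s) ≤
        11 / 10 * |dotE x v - P.w| * (s' - s) := by
    intro s hs s' hs' hss
    have hsub : Icc s s' ⊆ Icc 0 L := Icc_subset_Icc hs.1 hs'.2
    rcases lt_or_gt_of_ne hne with hneg | hpos
    · rw [sign_neg hneg]
      have hab : |dotE x v - P.w| = -(dotE x v - P.w) := abs_of_neg hneg
      have h1 := fl_mvt (f := fa P t x v) (f' := fun u => dotE (mv x v u) v - P.w)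
        (A := -(|dotE x v - P.w|)) (B := -(9 / 10 * |dotE x v - P.w|)) hss
        (fun u hu => hader u (hsub hu))
        (fun u hu => by have := hσ u (hsub hu); linarith only [hab, this])
        (fun u hu => by have := hσ u (hsub hu); linarith only [hab, this])
      have h2 : 0 ≤ |dotE x v - P.w| * (s' - s) := mul_nonneg hmpos.le (by linarith only [hss])
      simp only [SignType.coe_neg_one]
      constructor <;> linarith only [h1]
    · rw [sign_pos hpos]
      have hab : |dotE x v - P.w| = dotE x v - P.w := abs_of_pos hpos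
      have h1 := fl_mvt (f := fa P t x v) (f' := fun u => dotE (mv x v u) v - P.w)
        (A := |dotE x v - P.w|) (B := 11 / 10 * |dotE x v - P.w|) hss
        (fun u hu => hader u (hsub hu))
        (fun u hu => by have := hσ u (hsub hu); linarith only [hab, this])
        (fun u hu => by have := hσ u (hsub hu); linarith only [hab, this])
      have h2 : 0 ≤ |dotE x v - P.w| * (s' - s) := mul_nonneg hmpos.le (by linarith only [hss])
      simp only [SignType.coe_one]
      constructor <;> linarith only [h1]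
  have haρ : ∀ s ∈ Icc 0 L, fa P t x v s ≤ frho x v s := by
    intro s hs
    have h1 : 0 ≤ P.w * (t + s) := mul_nonneg hw.le (add_nonneg ht hs.1)
    unfold fa frho
    linarith only [h1]
  refine ⟨hr, hL0, hL1, hm0, ?_, ha, hρ, ?_, haρ, ?_, ?_, ?_, ?_, ?_, ?_⟩
  · rcases lt_or_gt_of_ne hne with hneg | hpos
    · right
      rw [sign_neg hneg]
      simp only [SignType.coe_neg, SignType.coe_one]
    · left
      rw [sign_pos hpos]
      simp
  · intro s hs
    have h1 := hin s hs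
    have h2 : P.w * P.TT n (t + s) = P.w * (t + s) + P.lam ^ (n + 1) := by
      unfold Par.TT Par.ss
      (clear * - hw; field_simp)
    unfold fa
    linarith only [h1, h2]
  · intro s hs
    have h1 := haρ s hs
    have h2 : frho x v s ≤ 101 / 100 * rr x := (hρ s hs).2
    linarith only [hr, hsm, h1, h2]
  · intro σ hσ1 s hs
    have h1 : |dotE (mv x v s) v - P.w| ≤ fX P x v σ s := abs_dotE_sub_le_sqrt_SS P σ (mv x v s) v
    have h2 : fX P x v σ s ≤ ‖v‖ + P.w + |σ| := sqrt_SS_le P (mv x v s) v hw.le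
    have h3 : |σ| = 1 := by
      rcases hσ1 with rfl | rfl <;> simp
    have h4 : |dotE x v - P.w| - |dotE x v - P.w| / 10 ≤ |dotE (mv x v s) v - P.w| := by
      have h5 := hσ s hs
      have h6 : |dotE x v - P.w| ≤ |dotE (mv x v s) v - P.w| + |dotE (mv x v s) v - dotE x v| := by
        have := abs_sub_le (dotE x v) (dotE (mv x v s) v) P.w
        rw [abs_sub_comm (dotE x v) (dotE (mv x v s) v)] at this
        linarith only [this]
      rw [abs_of_nonneg h5.1] at h6
      linarith only [h5, h6]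
    constructor
    · linarith only [h1, h4]
    · linarith only [hv, hw1, h2, h3]
  · intro σ _ s hs s' hs'
    have hX : ∀ u, fX P x v σ u ^ 2 = SS P σ (mv x v u) v := fun u =>
      Real.sq_sqrt (SS_nonneg P σ _ _)
    rw [hX, hX]
    have hvpm : vp v ^ 2 ≤ P.c * |dotE x v - P.w| / 52 := by
      have h1 : 52 / 10 * vp v ^ 2 ≤ |dotE x v - P.w| / 10 * P.c := by
        rw [div_le_iff₀ hc] at hm1
        exact hm1
      linarith only [h1]
    have hB : 2 * P.w * (vp v ^ 2 / (99 / 100 * rr x)) ≤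
        P.w * P.c * |dotE x v - P.w| / (25 * rr x) := by
      have e1 : 2 * P.w * (vp v ^ 2 / (99 / 100 * rr x)) =
          (200 / 99 * P.w * vp v ^ 2) / rr x := by field_simp; ring
      have e2 : P.w * P.c * |dotE x v - P.w| / (25 * rr x) =
          (P.w * P.c * |dotE x v - P.w| / 25) / rr x := by (clear * - hr hne hc hw; field_simp)
      rw [e1, e2]
      refine div_le_div_of_nonneg_right ?_ hr.le
      have h1 : P.w * vp v ^ 2 ≤ P.w * (P.c * |dotE x v - P.w| / 52) :=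
        mul_le_mul_of_nonneg_left hvpm hw.le
      have h2 : 0 ≤ P.w * P.c * |dotE x v - P.w| := by (clear * - hw hc hne; positivity)
      linarith only [h2, h1]
    have hBnn : 0 ≤ P.w * P.c * |dotE x v - P.w| / (25 * rr x) := by (clear * - hw hc hne hr; positivity)
    have hder : ∀ u ∈ Icc 0 L, HasDerivAt (fun u => SS P σ (mv x v u) v)
        (-(2 * P.w * ((vp v ^ 2 - dotE (mv x v u) v ^ 2) / rr (mv x v u)))) u := fun u hu =>
      hasDerivAt_SS P σ (hloc u hu) (hρpos u hu)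
    have hlow : ∀ u ∈ Icc 0 L, -(P.w * P.c * |dotE x v - P.w| / (25 * rr x)) ≤
        -(2 * P.w * ((vp v ^ 2 - dotE (mv x v u) v ^ 2) / rr (mv x v u))) := by
      intro u hu
      have h1 : 2 * P.w * ((vp v ^ 2 - dotE (mv x v u) v ^ 2) / rr (mv x v u)) ≤
          2 * P.w * (vp v ^ 2 / (99 / 100 * rr x)) :=
        mul_le_mul_of_nonneg_left (hd1 u hu) (by positivity)
      linarith only [hB, h1]
    have hup : ∀ u ∈ Icc 0 L,
        -(2 * P.w * ((vp v ^ 2 - dotE (mv x v u) v ^ 2) / rr (mv x v u))) ≤ 0 := by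
      intro u hu
      have h1 : 0 ≤ 2 * P.w * ((vp v ^ 2 - dotE (mv x v u) v ^ 2) / rr (mv x v u)) :=
        mul_nonneg (by positivity) (hd0 u hu)
      linarith only [h1]
    rcases le_total s s' with hss | hss
    · have hsub : Icc s s' ⊆ Icc 0 L := Icc_subset_Icc hs.1 hs'.2
      have h1 := fl_mvt hss (fun u hu => hder u (hsub hu)) (fun u hu => hlow u (hsub hu))
        (fun u hu => hup u (hsub hu))
      have h2 : |s - s'| = s' - s := by
        rw [abs_sub_comm, abs_of_nonneg (by linarith only [hss])]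
      rw [h2]
      have h3 := h1.1
      linarith only [h1]
    · have hsub : Icc s' s ⊆ Icc 0 L := Icc_subset_Icc hs'.1 hs.2
      have h1 := fl_mvt hss (fun u hu => hder u (hsub hu)) (fun u hu => hlow u (hsub hu))
        (fun u hu => hup u (hsub hu))
      have h2 : 0 ≤ P.w * P.c * |dotE x v - P.w| / (25 * rr x) * |s - s'| :=
        mul_nonneg hBnn (abs_nonneg _)
      have h3 := h1.2
      linarith only [h1, h2]
  · exact (continuous_rr.comp (fl_cont x v)).measurable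
  · have h2 : Continuous fun s : ℝ => P.w * (t + s) := by fun_prop
    exact ((continuous_rr.comp (fl_cont x v)).sub h2).measurable
  · intro σ
    have h2 : Measurable fun s : ℝ => (mv x v s, v) :=
      (fl_cont x v).measurable.prodMk measurable_const
    have h3 := (measurable_SS P σ).comp h2
    exact h3.sqrt

end Vale.Agent.P140.NU.EW
end
end

section

/-!
P140-NU, module E: weight of newborn particles, preparations.
-/

open MeasureTheory Set Filter
open scoped ENNReal Topology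

noncomputable section

namespace Vale.Agent.P140.NU.EW

open E

/-! ### comparison of primitives -/

/-- comparison of the primitives of `p` and `Q` on `[a, b]` -/
def Cmp (p Q : ℝ → ℝ) (δ a b : ℝ) : Prop :=
  ∀ τ ∈ Icc a b, (97 / 100 * ∫ s in a..τ, Q s) - δ ≤ ∫ s in a..τ, p s

theorem Cmp.glue {p Q : ℝ → ℝ} {δ δ' a b c : ℝ} (hab : a ≤ b) (hbc : b ≤ c)
    (ip : IntervalIntegrable p volume a c) (iQ : IntervalIntegrable Q volume a c)
    (h : Cmp p Q δ a b) (h' : Cmp p Q δ' b c) (hδ' : 0 ≤ δ') : Cmp p Q (δ + δ') a c := by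
  intro τ hτ
  rcases le_or_gt τ b with hb | hb
  · have := h τ ⟨hτ.1, hb⟩
    linarith
  · have h1 := h b ⟨hab, le_rfl⟩
    have h2 := h' τ ⟨hb.le, hτ.2⟩
    have e1 := intervalIntegral.integral_add_adjacent_intervals (sub_left ip hab hbc)
      (sub_left (sub_right ip hab hbc) hb.le hτ.2)
    have e2 := intervalIntegral.integral_add_adjacent_intervals (sub_left iQ hab hbc)
      (sub_left (sub_right iQ hab hbc) hb.le hτ.2)
    rw [← e1, ← e2]
    linarith

theorem Cmp.zero {p Q : ℝ → ℝ} {a b : ℝ} (hp : ∀ s ∈ Icc a b, 0 ≤ p s)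
    (hQ : ∀ s ∈ Ioo a b, Q s = 0) : Cmp p Q 0 a b := by
  intro τ hτ
  have h1 : ∫ s in a..τ, Q s = 0 := by
    have h2 : ∫ s in a..τ, Q s = ∫ s in a..τ, (0 : ℝ) := by
      apply intervalIntegral.integral_congr_ae
      have h3 : ∀ᵐ s : ℝ, s ≠ τ := by
        simp [ae_iff, measure_singleton]
      filter_upwards [h3] with s hs h4
      rw [uIoc_of_le hτ.1] at h4
      exact hQ s ⟨h4.1, lt_of_le_of_ne (h4.2.trans hτ.2) (by
        intro h5
        apply hs
        have := h4.2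
        have := hτ.2
        (clear p Q hp hQ h3 hs; linarith))⟩
    rw [h2]
    simp
  rw [h1]
  have h2 : 0 ≤ ∫ s in a..τ, p s := by
    apply intervalIntegral.integral_nonneg hτ.1
    intro s hs
    exact hp s ⟨hs.1, hs.2.trans hτ.2⟩
  linarith only [h2]

theorem exp_seven : Real.exp (-7) ≤ 1 / 1000 := by
  have h1 := Real.exp_one_gt_d9
  have h2 : (2.7 : ℝ) ^ 7 ≤ Real.exp 1 ^ 7 := by
    apply pow_le_pow_left₀ (by norm_num)
    linarith only [h1]
  have h3 : Real.exp 1 ^ 7 = Real.exp 7 := by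
    rw [← Real.exp_nat_mul]
    norm_num
  rw [Real.exp_neg, ← one_div]
  apply one_div_le_one_div_of_le (by norm_num)
  rw [← h3]
  refine le_trans ?_ h2
  norm_num

theorem surv_low {p Q k : ℝ → ℝ} {t t' te : ℝ} (h1 : t ≤ t') (h2 : t' ≤ te)
    (ip : IntervalIntegrable p volume t te) (iQ : IntervalIntegrable Q volume t te)
    (ik : IntervalIntegrable k volume t te) (p0 : ∀ s, t ≤ s → 0 ≤ p s)
    (Q0 : ∀ s, t ≤ s → 0 ≤ Q s) (k0 : ∀ s, t ≤ s → 0 ≤ k s) (hC : Cmp p Q (2 / 1000) t t')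
    (hk : ∫ s in t..t', k s ≤ 11 / 100) (hQ : 7 ≤ ∫ s in t..t', Q s) :
    4 / 5 ≤ surv p (fun s => Q s + k s) t te := by
  have ig : IntervalIntegrable (fun s => Q s + k s) volume t te := iQ.add ik
  rw [surv_split h1 h2 ip ig]
  have n1 : 0 ≤ Real.exp (-∫ s in t..t', (Q s + k s)) * surv p (fun s => Q s + k s) t' te :=
    mul_nonneg (Real.exp_pos _).le (surv_nonneg h2 fun s hs => p0 s (h1.trans hs.1))
  have eg : ∀ τ ∈ Icc t t', ∫ s in t..τ, (Q s + k s) =
      (∫ s in t..τ, Q s) + ∫ s in t..τ, k s := by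
    intro τ hτ
    exact intervalIntegral.integral_add (sub_left iQ hτ.1 (hτ.2.trans h2))
      (sub_left ik hτ.1 (hτ.2.trans h2))
  have n2 := lemA (p := p) (g := fun s => Q s + k s) (κ := 97 / 100)
    (δ := 2 / 1000 + 97 / 100 * (11 / 100)) h1 (sub_left ip h1 h2) (sub_left ig h1 h2)
    (fun s hs => add_nonneg (Q0 s hs.1) (k0 s hs.1)) (by
      intro τ hτ
      rw [eg τ hτ]
      have h3 := hC τ hτ
      have h4 : ∫ s in t..τ, k s ≤ ∫ s in t..t', k s := by
        have e1 := intervalIntegral.integral_add_adjacent_intervals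
          (sub_left ik hτ.1 (hτ.2.trans h2)) (sub_left (sub_right ik hτ.1 (hτ.2.trans h2)) hτ.2 h2)
        rw [← e1]
        have : 0 ≤ ∫ s in τ..t', k s := by
          apply intervalIntegral.integral_nonneg hτ.2
          intro s hs
          exact k0 s (hτ.1.trans hs.1)
        linarith only [this]
      linarith)
  have n3 : Real.exp (-∫ s in t..t', (Q s + k s)) ≤ 1 / 1000 := by
    refine le_trans ?_ exp_seven
    apply Real.exp_le_exp.2
    rw [eg t' ⟨h1, le_rfl⟩]
    have : 0 ≤ ∫ s in t..t', k s := by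
      apply intervalIntegral.integral_nonneg h1
      intro s hs
      exact k0 s hs.1
    linarith only [hQ, this]
  linarith only [n1, n2, n3]

/-! ### change of variables -/

theorem shift_int (f : ℝ → T3 → V → ℝ) (x : T3) (v : V) (t t1 s : ℝ) :
    ∫ τ in t1..t1 + s, f τ (mv x v (τ - t)) v =
      ∫ u in (0 : ℝ)..s, f (t1 + u) (mv (mv x v (t1 - t)) v u) v := by
  have h := intervalIntegral.integral_comp_add_left (fun τ => f τ (mv x v (τ - t)) v) t1
    (a := 0) (b := s)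
  rw [add_zero] at h
  rw [← h]
  apply intervalIntegral.integral_congr
  intro u _
  simp only
  rw [mv_mv]
  congr 2
  ring

/-! ### one window -/

theorem frho_meas (x : T3) (v : V) : Measurable (frho x v) := by
  have h3 : Measurable fun τ : ℝ => ((τ, x, v) : ℝ × T3 × V) := by fun_prop
  exact measurable_rr.comp (measurable_mv.comp h3)

theorem fX_meas (P : Par) (x : T3) (v : V) (σ : ℝ) : Measurable (fX P x v σ) := by
  have h3 : Measurable fun τ : ℝ => ((τ, x, v) : ℝ × T3 × V) := by fun_prop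
  have h4 : Measurable fun τ : ℝ => ((mv x v τ, v) : T3 × V) :=
    (measurable_mv.comp h3).prodMk measurable_const
  exact ((measurable_SS P σ).comp h4).sqrt

/-- the good set in `pp` -/
def gdd (P : Par) (n : ℕ) (t : ℝ) (x : T3) (v : V) (j : ℕ) (s : ℝ) : Prop :=
  rr (mv x v s) ≤ P.Vg * P.TT n (t + s) ∧ ‖v‖ ≤ P.Vg ∧ (P.m2 ≤ √(SS P (sg j) (mv x v s) v) ∨
    (P.m1 ≤ √(SS P (sg j) (mv x v s) v) ∧
      P.a1 (P.TT n (t + s)) ≤ rr (mv x v s) - P.w * P.TT n (t + s)))

theorem gdd_meas (P : Par) (n : ℕ) (t : ℝ) (x : T3) (v : V) (j : ℕ) :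
    MeasurableSet {s | gdd P n t x v j s} := by
  have m1 := frho_meas x v
  have m2 := fX_meas P x v (sg j)
  have m3 : Measurable fun s => P.TT n (t + s) := by unfold Par.TT; fun_prop
  have m4 : Measurable fun s => P.a1 (P.TT n (t + s)) := by unfold Par.a1 Par.TT; (clear * -; fun_prop)
  unfold gdd
  refine MeasurableSet.inter (measurableSet_le m1 (m3.const_mul _)) ?_
  refine MeasurableSet.inter (MeasurableSet.const _) ?_
  refine MeasurableSet.union (measurableSet_le measurable_const m2) ?_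
  refine MeasurableSet.inter (measurableSet_le measurable_const m2) ?_
  exact measurableSet_le m4 (m1.sub (m3.const_mul _))

theorem qq_eq_qf (P : Par) (n : ℕ) (t : ℝ) (x : T3) (v : V) (s : ℝ) :
    qq P n (t + s) (mv x v s) v = qf P n (frho x v) (fa P t x v) (fX P x v) s := by
  unfold qq qf qc frho fa fX
  rfl

theorem pp_eq_pf (P : Par) (n : ℕ) (t : ℝ) (x : T3) (v : V) (s : ℝ) :
    pp P n (t + s) (mv x v s) v =
      pf P n (frho x v) (fa P t x v) (fX P x v) (gdd P n t x v) s := by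
  unfold pp pf pc frho fa fX gdd
  apply Finset.sum_congr rfl
  intro j _
  congr

end Vale.Agent.P140.NU.EW
end
end

section

/-!
P140, non-uniqueness, module J: the functionals.
-/

open MeasureTheory Set Filter
open scoped ENNReal Topology

noncomputable section

namespace Vale.Agent.P140.NU

namespace J

/-- the weight `w - λ e~` -/
def Wl (P : Par) (n : ℕ) (te l t : ℝ) (x : T3) (v : V) : ℝ :=
  wt P n te t x v - l * et P n te t x v

/-- lower bound for the derivative of `Wl` along flights -/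
def om (P : Par) (n : ℕ) (te l t : ℝ) (x : T3) (v : V) : ℝ :=
  (qq P n t x v + P.Lam / P.TT n t) * wt P n te t x v - pp P n t x v
    + l * (yy P n t x v / P.TT n t * ee P n t x v) + 500 * l * (ee P n t x v * qb P n t x v)

/-- the static inequality at time `τ` -/
def Static (P : Par) (n N : ℕ) (te l : ℝ) (F G h : ℝ → T3 → V → ℝ) (τ : ℝ) : Prop :=
  P.Lam / P.TT n τ * (NN P n te h τ - l * NE P n te h τ)
      + l * (P.Lam / (2 * P.TT n τ)) * NE P n te h τ
      - 1 / 10 / P.TT n τ * (NE P n te h τ + NN P n te h τ)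
    ≤ ∫ p : T3 × V, (om P n te l τ p.1 p.2 * h τ p.1 p.2
        + Wl P n te l τ p.1 p.2 * Qh N (F τ p.1) (G τ p.1) (h τ p.1) p.2)

end J

end Vale.Agent.P140.NU
end
end

section

/-!
P140, module S: time-independent majorant of the cold gas.
-/

open MeasureTheory Set Filter
open scoped ENNReal Topology

noncomputable section

namespace Vale.Agent.P140.NU.S

theorem mj_w_pos {P : Par} (hP : Nice P) : 0 < P.w := by
  have h := hP.c1
  unfold Par.w
  (clear * - h; positivity)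

theorem mj_TT_pos {P : Par} (hP : Nice P) {n : ℕ} {t : ℝ} (ht : 0 ≤ t) : 0 < P.TT n t := by
  have h1 : 0 < P.ss n := div_pos (pow_pos hP.lam0 _) (mj_w_pos hP)
  unfold Par.TT
  linarith

/-- the cells which meet the labels in `[e T, M T]` -/
def mjJ (P : Par) (n : ℕ) (a b : ℝ) : Finset ℕ :=
  open Classical in (Finset.Icc P.j0 n).filter fun j => a ≤ P.lam ^ j ∧ P.lam ^ (j + 1) ≤ b

theorem mem_mjJ {P : Par} {n : ℕ} {a b : ℝ} {j : ℕ} :
    j ∈ mjJ P n a b ↔ j ∈ Finset.Icc P.j0 n ∧ a ≤ P.lam ^ j ∧ P.lam ^ (j + 1) ≤ b := by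
  simp only [mjJ, Finset.mem_filter]

theorem mjJ_card {P : Par} (h0 : 0 < P.lam) (h1 : P.lam < 1) {n N : ℕ} {e M T : ℝ} (hT : 0 < T)
    (hM : 0 < M) (hN : P.lam ^ N < e / M) : (mjJ P n (e * T) (M * T)).card ≤ N + 1 := by
  rcases (mjJ P n (e * T) (M * T)).eq_empty_or_nonempty with h | h
  · simp only [h, Finset.card_empty, le_add_iff_nonneg_left, zero_le]
  · set m := (mjJ P n (e * T) (M * T)).min' h with hm
    have hmem := (mjJ P n (e * T) (M * T)).min'_mem h
    rw [← hm] at hmem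
    obtain ⟨-, -, hm2⟩ := mem_mjJ.1 hmem
    have hsub : mjJ P n (e * T) (M * T) ⊆ Finset.Icc m (m + N) := by
      intro j hj
      have hjm : m ≤ j := (mjJ P n (e * T) (M * T)).min'_le j hj
      obtain ⟨-, hj1, -⟩ := mem_mjJ.1 hj
      rw [Finset.mem_Icc]
      refine ⟨hjm, ?_⟩
      by_contra hcon
      push Not at hcon
      have h2 : P.lam ^ j ≤ P.lam ^ (N + (m + 1)) := pow_le_pow_of_le_one h0.le h1.le (by omega)
      have h3 : P.lam ^ (N + (m + 1)) = P.lam ^ N * P.lam ^ (m + 1) := pow_add _ _ _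
      have h4 : P.lam ^ N * P.lam ^ (m + 1) ≤ P.lam ^ N * (M * T) :=
        mul_le_mul_of_nonneg_left hm2 (pow_pos h0 _).le
      have h5 : P.lam ^ N * (M * T) < e / M * (M * T) :=
        mul_lt_mul_of_pos_right hN (mul_pos hM hT)
      have h6 : e / M * (M * T) = e * T := by (clear * - hM hT; field_simp)
      linarith only [h6, h5, h4, h3, h2, hj1]
    refine (Finset.card_le_card hsub).trans ?_
    rw [Nat.card_Icc]
    omega

open Classical in
/-- the majorant -/
def mjB (P : Par) (J : Finset ℕ) (x : T3) (u : V) : ℝ≥0∞ :=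
  ∑ j ∈ J, if P.lam ^ (j + 1) ≤ rr x ∧ u ∈ Box P j x then ENNReal.ofReal (P.amp j) else 0

theorem measurable_mjB (P : Par) (J : Finset ℕ) : Measurable fun p : T3 × V => mjB P J p.1 p.2 := by
  unfold mjB
  refine Finset.measurable_sum _ fun j _ => Measurable.ite ?_ measurable_const measurable_const
  have r : Measurable fun p : T3 × V => rr p.1 := measurable_rr.comp measurable_fst
  exact (measurableSet_le measurable_const r).inter (measurableSet_Box P j)

theorem mjB_zsh (P : Par) (J : Finset ℕ) (x : T3) (a : ℝ) (u : V) :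
    mjB P J (zsh x a) u = mjB P J x u := by
  unfold mjB
  refine Finset.sum_congr rfl fun j _ => ?_
  rw [rr_zsh, Box_zsh]

theorem lintegral_mjB {P : Par} (hP : Nice P) {J : Finset ℕ} {L : ℝ} (hL : 0 < L)
    (hJ : ∀ j ∈ J, P.j0 ≤ j ∧ L ≤ P.lam ^ (j + 1)) (x : T3) :
    ∫⁻ u, mjB P J x u ≤ ENNReal.ofReal (J.card * (2 * P.c / L)) := by
  classical
  have hc : 0 < P.c := lt_of_lt_of_le one_pos hP.c1
  have hmeas : ∀ j, Measurable fun u : V =>
      if P.lam ^ (j + 1) ≤ rr x ∧ u ∈ Box P j x then ENNReal.ofReal (P.amp j) else 0 := by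
    intro j
    have h1 : MeasurableSet {u : V | u ∈ Box P j x} := by
      have h2 : Measurable fun u : V => ((x, u) : T3 × V) := measurable_const.prodMk measurable_id
      exact h2 (measurableSet_Box P j)
    refine Measurable.ite ?_ measurable_const measurable_const
    exact (MeasurableSet.const _).inter h1
  unfold mjB
  rw [lintegral_finsetSum _ fun j _ => hmeas j]
  have key : ∀ j ∈ J, ∫⁻ u, (if P.lam ^ (j + 1) ≤ rr x ∧ u ∈ Box P j x then
      ENNReal.ofReal (P.amp j) else 0) ≤ ENNReal.ofReal (2 * P.c / L) := by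
    intro j hj
    obtain ⟨hj0, hjL⟩ := hJ j hj
    by_cases hr : P.lam ^ (j + 1) ≤ rr x
    · have h1 : ∫⁻ u, (if P.lam ^ (j + 1) ≤ rr x ∧ u ∈ Box P j x then
          ENNReal.ofReal (P.amp j) else 0) ≤ ENNReal.ofReal (P.amp j) * volume (Box P j x) := by
        have h2 : ∀ u : V, (if P.lam ^ (j + 1) ≤ rr x ∧ u ∈ Box P j x then
            ENNReal.ofReal (P.amp j) else 0)
            = (Box P j x).indicator (fun _ => ENNReal.ofReal (P.amp j)) u := by
          intro u
          by_cases hu : u ∈ Box P j x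
          · rw [if_pos ⟨hr, hu⟩, indicator_of_mem hu]
          · rw [if_neg (fun h => hu h.2), indicator_of_notMem hu]
        simp only [h2]
        exact lintegral_indicator_const_le _ _
      refine h1.trans ((hP.box j hj0 x hr).trans (ENNReal.ofReal_le_ofReal ?_))
      exact div_le_div_of_nonneg_left (by linarith only [hc]) hL (hjL.trans hr)
    · simp only [hr, false_and, if_false, lintegral_zero]
      exact bot_le
  refine (Finset.sum_le_sum key).trans ?_
  rw [Finset.sum_const, nsmul_eq_mul, ENNReal.ofReal_mul (Nat.cast_nonneg _),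
    ENNReal.ofReal_natCast]

/-- a majorant of the cold gas which does not depend on time, for labels `≥ e T` -/
theorem cold_major {P : Par} (hP : Nice P) {e M : ℝ} (he : 0 < e) (hM : 0 < M) :
    ∃ C : ℝ, 0 < C ∧ ∀ᶠ t0 in 𝓝[>] (0 : ℝ), ∀ n, P.ss n ≤ t0 → ∀ t ∈ Icc 0 t0,
      ∃ B : T3 → V → ℝ≥0∞, (Measurable fun p : T3 × V => B p.1 p.2) ∧
        (∀ x a u, B (zsh x a) u = B x u) ∧
        (∀ x, ∫⁻ u, B x u ≤ ENNReal.ofReal (C / P.TT n t)) ∧
        ∀ τ ∈ Icc 0 t, ∀ x, rr x ≤ M * P.TT n t → e * P.TT n t ≤ rr x - P.w * τ →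
          ∀ u, cf P n τ x u ≤ B x u := by
  have hc : 0 < P.c := lt_of_lt_of_le one_pos hP.c1
  have h0 := hP.lam0
  have h1 := hP.lam1
  have hw := mj_w_pos hP
  obtain ⟨N, hN⟩ : ∃ N : ℕ, P.lam ^ N < e / M := exists_pow_lt_of_lt_one (by positivity) h1
  refine ⟨(N + 1) * (2 * P.c / (P.lam * e)), by (clear * - hc h0 he; positivity), ?_⟩
  filter_upwards [hP.supp] with t0 hsupp n _ t ht
  have hT := mj_TT_pos hP (n := n) ht.1
  set T := P.TT n t with hTdef
  set J := mjJ P n (e * T) (M * T) with hJdef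
  refine ⟨mjB P J, measurable_mjB P J, fun x a u => mjB_zsh P J x a u, fun x => ?_, ?_⟩
  · have hJ : ∀ j ∈ J, P.j0 ≤ j ∧ P.lam * (e * T) ≤ P.lam ^ (j + 1) := by
      intro j hj
      obtain ⟨h2, h3, -⟩ := mem_mjJ.1 hj
      refine ⟨(Finset.mem_Icc.1 h2).1, ?_⟩
      rw [pow_succ']
      exact mul_le_mul_of_nonneg_left h3 h0.le
    refine (lintegral_mjB hP (by (clear * - h0 he hT; positivity)) hJ x).trans (ENNReal.ofReal_le_ofReal ?_)
    have h2 : (J.card : ℝ) ≤ N + 1 := by exact_mod_cast mjJ_card h0 h1 hT hM hN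
    have h3 : (J.card : ℝ) * (2 * P.c / (P.lam * (e * T)))
        ≤ (N + 1) * (2 * P.c / (P.lam * (e * T))) :=
      mul_le_mul_of_nonneg_right h2 (by (clear * - hc h0 he hT; positivity))
    have h4 : ((N : ℝ) + 1) * (2 * P.c / (P.lam * (e * T)))
        = (N + 1) * (2 * P.c / (P.lam * e)) / T := by
      (clear * - hT he h0 hc; field_simp)
    linarith
  · intro τ hτ x hx hx2 u
    by_cases hcf : cf P n τ x u = 0
    · rw [hcf]
      exact bot_le
    · obtain ⟨j, hj, hcell, hbox, -, hle⟩ := hsupp n τ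
        ⟨hτ.1, by linarith only [hτ.2, ht.1, ht.2]⟩ x u hcf
      obtain ⟨hc1, hc2⟩ := hcell
      have hgg : (0 : ℝ) < gg / 2 := by unfold gg; norm_num
      have hgg1 : gg / 2 < (1 : ℝ) := by unfold gg; norm_num
      have h2 : P.lam ^ ((j : ℝ) + gg / 2) ≤ P.lam ^ j := by
        rw [← Real.rpow_natCast]
        exact Real.rpow_le_rpow_of_exponent_ge h0 h1.le (by linarith only [hgg])
      have h3 : P.lam ^ (j + 1) ≤ P.lam ^ ((j : ℝ) + 1 - gg / 2) := by
        rw [← Real.rpow_natCast]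
        refine Real.rpow_le_rpow_of_exponent_ge h0 h1.le ?_
        push_cast
        linarith only [hgg]
      have h4 : 0 ≤ P.w * τ := mul_nonneg hw.le hτ.1
      have h5 : P.lam ^ (j + 1) ≤ rr x := by linarith only [hc1, h3, h4]
      have hjJ : j ∈ J := mem_mjJ.2 ⟨hj, by linarith only [hx2, hc2, h2], by linarith only [hx, hc1, h3, h4]⟩
      refine hle.trans ?_
      have h6 := Finset.single_le_sum (s := J) (f := fun j => open Classical in
        if P.lam ^ (j + 1) ≤ rr x ∧ u ∈ Box P j x then ENNReal.ofReal (P.amp j) else 0)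
        (fun _ _ => bot_le) hjJ
      refine le_trans ?_ h6
      rw [if_pos ⟨h5, hbox⟩]

end Vale.Agent.P140.NU.S
end
end

section

/-!
P140, non-uniqueness, module B: one-dimensional estimate for the perturbation.
-/

open MeasureTheory Set Filter
open scoped ENNReal Topology

noncomputable section

namespace Vale.Agent.P140.NU

section oned

variable {φ : ℝ → ℝ} {t : ℝ}

theorem sup2_prim_cont (ht : 0 ≤ t) (hφ : IntervalIntegrable φ volume 0 t) :
    ContinuousOn (fun s => ∫ u in (0:ℝ)..s, φ u) (Icc 0 t) := by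
  have h := intervalIntegral.continuousOn_primitive_interval'
    (f := φ) (μ := volume) (a := 0) (b₁ := 0) (b₂ := t) hφ (by simp only [left_mem_uIcc])
  rwa [uIcc_of_le ht] at h

theorem sup2_prim_mono (hφ : IntervalIntegrable φ volume 0 t)
    (hφ0 : ∀ s ∈ Icc 0 t, 0 ≤ φ s) {a b : ℝ} (h0 : 0 ≤ a) (h1 : a ≤ b) (h2 : b ≤ t) :
    (∫ u in (0:ℝ)..a, φ u) ≤ ∫ u in (0:ℝ)..b, φ u := by
  have hsub : ∀ {c d : ℝ}, 0 ≤ c → c ≤ d → d ≤ t → IntervalIntegrable φ volume c d := by
    intro c d hc hcd hd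
    refine hφ.mono_set ?_
    rw [uIcc_of_le hcd, uIcc_of_le (hc.trans (hcd.trans hd))]
    exact Icc_subset_Icc hc hd
  have e := intervalIntegral.integral_add_adjacent_intervals (μ := volume) (f := φ) (a := 0)
    (b := a) (c := b) (hsub le_rfl h0 (h1.trans h2)) (hsub h0 h1 h2)
  have h3 : 0 ≤ ∫ u in a..b, φ u :=
    intervalIntegral.integral_nonneg h1 fun u hu => hφ0 u ⟨h0.trans hu.1, hu.2.trans h2⟩
  linarith only [e, h3]

theorem sup2_intble (ht : 0 ≤ t) (hφ : IntervalIntegrable φ volume 0 t) (K : ℝ) {a b : ℝ}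
    (h0 : 0 ≤ a) (h1 : a ≤ b) (h2 : b ≤ t) :
    IntervalIntegrable (fun s => φ s *
      Real.exp (-(K * ((∫ u in (0:ℝ)..t, φ u) - ∫ u in (0:ℝ)..s, φ u)))) volume a b := by
  have hab : IntervalIntegrable φ volume a b := by
    refine hφ.mono_set ?_
    rw [uIcc_of_le h1, uIcc_of_le ht]
    exact Icc_subset_Icc h0 h2
  refine hab.mul_continuousOn ?_
  rw [uIcc_of_le h1]
  have hc := (sup2_prim_cont ht hφ).mono (Icc_subset_Icc h0 h2)
  exact Real.continuous_exp.comp_continuousOn ((continuousOn_const.mul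
    (continuousOn_const.sub hc)).neg)

/-- `K ∫ φ(s) exp(-K ∫_s^t φ) ds ≤ 1` -/
theorem sup2_one_dim (ht : 0 ≤ t) (hφ : IntervalIntegrable φ volume 0 t)
    (hφ0 : ∀ s ∈ Icc 0 t, 0 ≤ φ s) {K : ℝ} (hK : 0 ≤ K) {a b : ℝ}
    (h0 : 0 ≤ a) (h1 : a ≤ b) (h2 : b ≤ t) :
    K * ∫ s in a..b, φ s *
      Real.exp (-(K * ((∫ u in (0:ℝ)..t, φ u) - ∫ u in (0:ℝ)..s, φ u))) ≤ 1 := by
  have hr : IntervalIntegrable (fun _ : ℝ => (0 : ℝ)) volume 0 t := by simp
  have h := int_factor ht hr (hφ.const_mul K) 1 h0 h1 h2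
  simp only [intervalIntegral.integral_zero, add_zero, one_mul, zero_add, mul_one,
    intervalIntegral.integral_const_mul] at h
  set Ψ : ℝ → ℝ := fun s => ∫ u in (0:ℝ)..s, φ u with hΨ
  have e1 : K * ∫ s in a..b, φ s * Real.exp (-(K * (Ψ t - Ψ s))) =
      Real.exp (-(K * Ψ t)) * ∫ s in a..b, K * φ s * Real.exp (K * Ψ s) := by
    rw [← intervalIntegral.integral_const_mul, ← intervalIntegral.integral_const_mul]
    apply intervalIntegral.integral_congr
    intro s _
    simp only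
    rw [show -(K * (Ψ t - Ψ s)) = -(K * Ψ t) + K * Ψ s by ring, Real.exp_add]
    ring
  have e2 : ∫ s in a..b, K * φ s * Real.exp (K * Ψ s) =
      Real.exp (K * Ψ b) - Real.exp (K * Ψ a) := by
    simp only [hΨ]
    linarith only [h]
  have e3 : Ψ b ≤ Ψ t := sup2_prim_mono hφ hφ0 (h0.trans h1) h2 le_rfl
  rw [e1, e2]
  have e4 : Real.exp (K * Ψ b) ≤ Real.exp (K * Ψ t) :=
    Real.exp_le_exp.2 (mul_le_mul_of_nonneg_left e3 hK)
  have e5 : Real.exp (-(K * Ψ t)) * Real.exp (K * Ψ t) = 1 := by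
    rw [← Real.exp_add]
    simp
  have e6 := Real.exp_pos (-(K * Ψ t))
  have e7 := Real.exp_pos (K * Ψ a)
  calc Real.exp (-(K * Ψ t)) * (Real.exp (K * Ψ b) - Real.exp (K * Ψ a))
      ≤ Real.exp (-(K * Ψ t)) * Real.exp (K * Ψ t) := by
        apply mul_le_mul_of_nonneg_left _ e6.le
        linarith only [e4, e7]
    _ = 1 := e5

/-- the integral of the weights in the perturbation -/
theorem sup2_weight (ht : 0 ≤ t) (hφ : IntervalIntegrable φ volume 0 t)
    (hφ0 : ∀ s ∈ Icc 0 t, 0 ≤ φ s) {C2 ε : ℝ} (hC2 : 0 < C2)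
    (hε : ∫ u in (0:ℝ)..t, φ u ≤ ε) {a b : ℝ}
    (h0 : 0 ≤ a) (h1 : a ≤ b) (h2 : b ≤ t) {m : ℝ} (hm : 0 ≤ m) :
    ∫ s in a..b, φ s * (1 + m) *
      Real.exp (-(C2 * ((∫ u in (0:ℝ)..t, φ u) - ∫ u in (0:ℝ)..s, φ u) * m ^ 2)) ≤
      2 * ε + 1 / C2 := by
  set Ψ : ℝ → ℝ := fun s => ∫ u in (0:ℝ)..s, φ u with hΨ
  have hK : 0 ≤ C2 * m ^ 2 := by (clear * - hC2; positivity)
  have i1 := sup2_intble ht hφ (C2 * m ^ 2) h0 h1 h2
  have i2 : IntervalIntegrable φ volume a b := by
    refine hφ.mono_set ?_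
    rw [uIcc_of_le h1, uIcc_of_le ht]
    exact Icc_subset_Icc h0 h2
  have k1 := sup2_one_dim ht hφ hφ0 hK h0 h1 h2
  have k2 : ∫ s in a..b, φ s * (1 + m) * Real.exp (-(C2 * (Ψ t - Ψ s) * m ^ 2)) ≤
      ∫ s in a..b, (2 * φ s + m ^ 2 * (φ s * Real.exp (-(C2 * m ^ 2 * (Ψ t - Ψ s))))) := by
    apply intervalIntegral.integral_mono_on h1
    · have : (fun s => φ s * (1 + m) * Real.exp (-(C2 * (Ψ t - Ψ s) * m ^ 2))) =
          fun s => (1 + m) * (φ s * Real.exp (-(C2 * m ^ 2 * (Ψ t - Ψ s)))) := by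
        funext s
        rw [show C2 * (Ψ t - Ψ s) * m ^ 2 = C2 * m ^ 2 * (Ψ t - Ψ s) by ring]
        ring
      rw [this]
      exact i1.const_mul _
    · exact (i2.const_mul 2).add (i1.const_mul _)
    · intro s hs
      have hs' : s ∈ Icc 0 t := ⟨h0.trans hs.1, hs.2.trans h2⟩
      have hφs := hφ0 s hs'
      have e3 : Ψ s ≤ Ψ t := sup2_prim_mono hφ hφ0 hs'.1 hs'.2 le_rfl
      rw [show C2 * (Ψ t - Ψ s) * m ^ 2 = C2 * m ^ 2 * (Ψ t - Ψ s) by ring]
      set E := Real.exp (-(C2 * m ^ 2 * (Ψ t - Ψ s))) with hE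
      have hE0 : 0 < E := Real.exp_pos _
      have hE1 : E ≤ 1 := by
        rw [hE]
        apply Real.exp_le_one_iff.2
        have : 0 ≤ C2 * m ^ 2 * (Ψ t - Ψ s) := mul_nonneg hK (by linarith only [e3])
        linarith only [this]
      have hm1 : 1 + m ≤ 2 + m ^ 2 := by nlinarith only []
      calc φ s * (1 + m) * E ≤ φ s * (2 + m ^ 2) * E := by (clear * - hm1 hφs; gcongr)
        _ = 2 * (φ s * E) + m ^ 2 * (φ s * E) := by ring
        _ ≤ 2 * (φ s * 1) + m ^ 2 * (φ s * E) := by (clear * - hE1 hφs; gcongr)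
        _ = _ := by ring
  refine k2.trans ?_
  rw [intervalIntegral.integral_add (i2.const_mul 2) (i1.const_mul _),
    intervalIntegral.integral_const_mul, intervalIntegral.integral_const_mul]
  have k3 : ∫ s in a..b, φ s ≤ ε := by
    have e := intervalIntegral.integral_add_adjacent_intervals (μ := volume) (f := φ) (a := 0)
      (b := a) (c := b) (hφ.mono_set (by
        rw [uIcc_of_le h0, uIcc_of_le ht]; exact Icc_subset_Icc le_rfl (h1.trans h2))) i2
    have e2 := sup2_prim_mono hφ hφ0 (h0.trans h1) h2 le_rfl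
    have e3 : 0 ≤ ∫ u in (0:ℝ)..a, φ u :=
      intervalIntegral.integral_nonneg h0 fun u hu => hφ0 u ⟨hu.1, hu.2.trans (h1.trans h2)⟩
    linarith only [hε, e, e2, e3]
  have k4 : m ^ 2 * ∫ s in a..b, φ s * Real.exp (-(C2 * m ^ 2 * (Ψ t - Ψ s))) ≤ 1 / C2 := by
    rw [le_div_iff₀ hC2]
    calc _ = C2 * m ^ 2 * ∫ s in a..b, φ s * Real.exp (-(C2 * m ^ 2 * (Ψ t - Ψ s))) := by ring
      _ ≤ 1 := k1
  linarith

end oned

end Vale.Agent.P140.NU
end
end

section

open MeasureTheory Set Filter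
open scoped ENNReal Topology NNReal

noncomputable section

namespace Vale.Agent.P140.DL

variable {α : Type*} [MeasurableSpace α] {μ : Measure α}

/-- index of a maximal value among the first ones -/
def argm (l : ℕ → α → ℝ) : ℕ → α → ℕ
  | 0 => fun _ => 0
  | k + 1 => fun a => if l (argm l k a) a < l (k + 1) a then k + 1 else argm l k a

omit [MeasurableSpace α] in
theorem argm_le (l : ℕ → α → ℝ) (k : ℕ) (a : α) : argm l k a ≤ k := by
  induction k with
  | zero => simp only [argm, Std.le_refl]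
  | succ k ih =>
    simp only [argm]
    split_ifs
    · exact le_rfl
    · omega

omit [MeasurableSpace α] in
theorem le_argm (l : ℕ → α → ℝ) (k : ℕ) (a : α) : ∀ i ≤ k, l i a ≤ l (argm l k a) a := by
  induction k with
  | zero => intro i hi; obtain rfl : i = 0 := by omega
            simp [argm]
  | succ k ih =>
    intro i hi
    simp only [argm]
    split_ifs with h
    · rcases Nat.lt_or_ge k i with h1 | h1
      · obtain rfl : i = k + 1 := by omega
        exact le_rfl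
      · exact (ih i h1).trans h.le
    · rcases Nat.lt_or_ge k i with h1 | h1
      · obtain rfl : i = k + 1 := by omega
        exact not_lt.1 h
      · exact ih i h1

theorem measurable_argm {l : ℕ → α → ℝ} (ml : ∀ i, Measurable (l i)) (k : ℕ) :
    Measurable (argm l k) := by
  have key : ∀ s : α → ℕ, Measurable s → Measurable fun a => l (s a) a := by
    intro s hs
    exact measurable_from_prod_countable_right (f := fun p : ℕ × α => l p.1 p.2) ml
      |>.comp (hs.prodMk measurable_id)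
  induction k with
  | zero => exact measurable_const
  | succ k ih =>
    exact Measurable.ite (measurableSet_lt (key _ ih) (ml _)) measurable_const ih

theorem ofReal_integral_le {f : α → ℝ} (hf : Integrable f μ) :
    ENNReal.ofReal (∫ a, f a ∂μ) ≤ ∫⁻ a, ENNReal.ofReal (f a) ∂μ := by
  rw [integral_eq_lintegral_pos_part_sub_lintegral_neg_part hf]
  refine (ENNReal.ofReal_le_ofReal (sub_le_self _ ENNReal.toReal_nonneg)).trans ?_
  exact ENNReal.ofReal_toReal_le

/-- lower semicontinuity of integrals of suprema of affine functions -/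
theorem lsc_aux [IsFiniteMeasure μ] {x y : ℕ → α → ℝ} {X Y : α → ℝ} (hx : WConv μ x X)
    (hy : WConv μ y Y)
    (x0 : ∀ n a, 0 ≤ x n a) (y0 : ∀ n a, 0 ≤ y n a)
    (ix : ∀ n, Integrable (x n) μ) (iy : ∀ n, Integrable (y n) μ)
    (mX : Measurable X) (mY : Measurable Y) (X0 : ∀ a, 0 ≤ X a) (Y0 : ∀ a, 0 ≤ Y a)
    (iX : Integrable X μ) (iY : Integrable Y μ) (A B C : ℕ → ℝ)
    (hA : A 0 = 0) (hB : B 0 = 0) (hC : C 0 = 0) {Φ : ℝ → ℝ → ℝ≥0∞}
    (hΦ : ∀ p q, 0 ≤ p → 0 ≤ q → Φ p q = ⨆ i, ENNReal.ofReal (A i * p + B i * q + C i))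
    {w : α → ℝ≥0∞} (mw : Measurable w) :
    ∫⁻ a, w a * Φ (X a) (Y a) ∂μ ≤ liminf (fun n => ∫⁻ a, w a * Φ (x n a) (y n a) ∂μ) atTop := by
  set l : ℕ → α → ℝ := fun i a => A i * X a + B i * Y a + C i with hl
  have ml : ∀ i, Measurable (l i) := fun i =>
    ((mX.const_mul _).add (mY.const_mul _)).add_const _
  set s : ℕ → α → ℕ := argm l with hs
  have ms : ∀ k, Measurable (s k) := measurable_argm ml
  have hl0 : ∀ k a, 0 ≤ l (s k a) a := by
    intro k a
    have h1 := le_argm l k a 0 (Nat.zero_le _)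
    simp only [hl, hA, hB, hC] at h1
    simpa only [ge_iff_le, zero_mul, add_zero] using h1
  have mcomp : ∀ (D : ℕ → ℝ) k, Measurable fun a => D (s k a) := fun D k =>
    (measurable_of_countable D).comp (ms k)
  have bcomp : ∀ (D : ℕ → ℝ) k, ∃ M : ℝ, 0 ≤ M ∧ ∀ a, |D (s k a)| ≤ M := by
    intro D k
    refine ⟨∑ i ∈ Finset.range (k + 1), |D i|, Finset.sum_nonneg fun i _ => abs_nonneg _,
      fun a => ?_⟩
    exact Finset.single_le_sum (f := fun i => |D i|) (fun i _ => abs_nonneg _)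
      (Finset.mem_range.2 (Nat.lt_succ_of_le (argm_le l k a)))
  set L := liminf (fun n => ∫⁻ a, w a * Φ (x n a) (y n a) ∂μ) atTop with hL
  -- the main step
  have main : ∀ m k : ℕ,
      ∫⁻ a, min (w a) m * ENNReal.ofReal (l (s k a) a) ∂μ ≤ L := by
    intro m k
    set u : α → ℝ := fun a => (min (w a) m).toReal with hu
    have mu' : Measurable u := (mw.min measurable_const).ennreal_toReal
    have hfin : ∀ a, min (w a) (m : ℝ≥0∞) ≠ ⊤ := fun a =>
      ne_top_of_le_ne_top (ENNReal.natCast_ne_top m) (min_le_right _ _)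
    have u0 : ∀ a, 0 ≤ u a := fun a => ENNReal.toReal_nonneg
    have um : ∀ a, u a ≤ m := fun a => by
      have := ENNReal.toReal_mono (ENNReal.natCast_ne_top m) (min_le_right (w a) (m : ℝ≥0∞))
      simpa only [ge_iff_le, ENNReal.toReal_natCast] using this
    have uw : ∀ a, ENNReal.ofReal (u a) = min (w a) m := fun a => ENNReal.ofReal_toReal (hfin a)
    have bD : ∀ D : ℕ → ℝ, ∃ M : ℝ, ∀ a, |u a * D (s k a)| ≤ M := by
      intro D
      obtain ⟨M, hM0, hM⟩ := bcomp D k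
      refine ⟨m * M, fun a => ?_⟩
      rw [abs_mul, abs_of_nonneg (u0 a)]
      exact mul_le_mul (um a) (hM a) (abs_nonneg _) (Nat.cast_nonneg _)
    have mD : ∀ D : ℕ → ℝ, Measurable fun a => u a * D (s k a) := fun D => mu'.mul (mcomp D k)
    obtain ⟨MA, hMA⟩ := bD A
    obtain ⟨MB, hMB⟩ := bD B
    obtain ⟨MC, hMC⟩ := bD C
    have h1 := hx.test (mD A) hMA
    have h2 := hy.test (mD B) hMB
    have iC : Integrable (fun a => u a * C (s k a)) μ := by
      refine Integrable.of_bound (mD C).aestronglyMeasurable MC (Eventually.of_forall fun a => ?_)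
      rw [Real.norm_eq_abs]; exact hMC a
    have im : ∀ {f θ : α → ℝ} {M : ℝ}, Integrable f μ → Measurable θ → (∀ a, |θ a| ≤ M) →
        Integrable (fun a => f a * θ a) μ := by
      intro f θ M hf mθ bθ
      exact hf.mul_bdd (c := M) mθ.aestronglyMeasurable (Eventually.of_forall fun a => by
        rw [Real.norm_eq_abs]; exact bθ a)
    have h3 : Tendsto (fun n => ∫ a, u a * (A (s k a) * x n a + B (s k a) * y n a + C (s k a)) ∂μ)
        atTop (𝓝 (∫ a, u a * l (s k a) a ∂μ)) := by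
      have e1 : ∀ {p q : α → ℝ}, Integrable p μ → Integrable q μ →
          ∫ a, u a * (A (s k a) * p a + B (s k a) * q a + C (s k a)) ∂μ
            = ∫ a, p a * (u a * A (s k a)) ∂μ + ∫ a, q a * (u a * B (s k a)) ∂μ
              + ∫ a, u a * C (s k a) ∂μ := by
        intro p q hp hq
        have i12 : Integrable (fun a => p a * (u a * A (s k a)) + q a * (u a * B (s k a))) μ :=
          (im hp (mD A) hMA).add (im hq (mD B) hMB)
        rw [← integral_add (im hp (mD A) hMA) (im hq (mD B) hMB), ← integral_add i12 iC]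
        refine integral_congr_ae (Eventually.of_forall fun a => ?_)
        simp only
        ring
      have e2 : ∀ n, ∫ a, u a * (A (s k a) * x n a + B (s k a) * y n a + C (s k a)) ∂μ
          = ∫ a, x n a * (u a * A (s k a)) ∂μ + ∫ a, y n a * (u a * B (s k a)) ∂μ
              + ∫ a, u a * C (s k a) ∂μ := fun n => e1 (ix n) (iy n)
      simp only [e2]
      have e3 := e1 iX iY
      simp only [hl]
      rw [e3]
      exact (h1.add h2).add tendsto_const_nhds
    have h4 := (ENNReal.continuous_ofReal.tendsto _).comp h3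
    have h5 : ∀ n, ENNReal.ofReal (∫ a, u a * (A (s k a) * x n a + B (s k a) * y n a
        + C (s k a)) ∂μ) ≤ ∫⁻ a, w a * Φ (x n a) (y n a) ∂μ := by
      intro n
      have i1 : Integrable (fun a => u a * (A (s k a) * x n a + B (s k a) * y n a
          + C (s k a))) μ := by
        have := ((im (ix n) (mD A) hMA).add (im (iy n) (mD B) hMB)).add iC
        refine this.congr (Eventually.of_forall fun a => ?_)
        simp only [Pi.add_apply]
        ring
      refine (ofReal_integral_le i1).trans (lintegral_mono fun a => ?_)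
      simp only
      rw [ENNReal.ofReal_mul (u0 a), uw a]
      refine mul_le_mul' (min_le_left _ _) ?_
      rw [hΦ _ _ (x0 n a) (y0 n a)]
      exact le_iSup (fun i => ENNReal.ofReal (A i * x n a + B i * y n a + C i)) (s k a)
    have i2 : Integrable (fun a => u a * l (s k a) a) μ := by
      have := ((im iX (mD A) hMA).add (im iY (mD B) hMB)).add iC
      refine this.congr (Eventually.of_forall fun a => ?_)
      simp only [Pi.add_apply, hl]
      ring
    have h6 : ∫⁻ a, min (w a) m * ENNReal.ofReal (l (s k a) a) ∂μ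
        = ENNReal.ofReal (∫ a, u a * l (s k a) a ∂μ) := by
      rw [ofReal_integral_eq_lintegral_ofReal i2
        (Eventually.of_forall fun a => mul_nonneg (u0 a) (hl0 k a))]
      refine lintegral_congr fun a => ?_
      rw [ENNReal.ofReal_mul (u0 a), uw a]
    rw [h6, ← h4.liminf_eq]
    exact liminf_le_liminf (Eventually.of_forall h5)
  -- monotone convergence in k
  have mono_k : ∀ a, Monotone fun k => ENNReal.ofReal (l (s k a) a) := by
    intro a
    refine monotone_nat_of_le_succ fun k => ENNReal.ofReal_le_ofReal ?_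
    exact le_argm l (k + 1) a _ ((argm_le l k a).trans (Nat.le_succ k))
  have ml' : ∀ k, Measurable fun a => l (s k a) a := by
    intro k
    simp only [hl]
    exact (((mcomp A k).mul mX).add ((mcomp B k).mul mY)).add (mcomp C k)
  have sup_k : ∀ a, Φ (X a) (Y a) ≤ ⨆ k, ENNReal.ofReal (l (s k a) a) := by
    intro a
    rw [hΦ _ _ (X0 a) (Y0 a)]
    exact iSup_mono fun i => ENNReal.ofReal_le_ofReal (le_argm l i a i le_rfl)
  have main2 : ∀ m : ℕ, ∫⁻ a, min (w a) m * ⨆ k, ENNReal.ofReal (l (s k a) a) ∂μ ≤ L := by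
    intro m
    simp only [ENNReal.mul_iSup]
    have mk : ∀ k, Measurable fun a => min (w a) (m : ℝ≥0∞) * ENNReal.ofReal (l (s k a) a) :=
      fun k => (mw.min measurable_const).mul (ml' k).ennreal_ofReal
    rw [lintegral_iSup mk (fun k k' hk a => mul_le_mul' le_rfl (mono_k a hk))]
    exact iSup_le fun k => main m k
  have sup_m : ∀ a, w a = ⨆ m : ℕ, min (w a) (m : ℝ≥0∞) := by
    intro a
    refine le_antisymm ?_ (iSup_le fun m => min_le_left _ _)
    rcases eq_or_ne (w a) ⊤ with h | h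
    · rw [h]
      simp only [le_top, min_eq_right]
      rw [ENNReal.iSup_natCast]
    · obtain ⟨m, hm⟩ := ENNReal.exists_nat_gt h
      exact (le_min le_rfl hm.le).trans (le_iSup (fun m : ℕ => min (w a) (m : ℝ≥0∞)) m)
  have msup : Measurable fun a => ⨆ k, ENNReal.ofReal (l (s k a) a) :=
    Measurable.iSup fun k => (ml' k).ennreal_ofReal
  calc ∫⁻ a, w a * Φ (X a) (Y a) ∂μ
      ≤ ∫⁻ a, (⨆ m : ℕ, min (w a) (m : ℝ≥0∞)) * ⨆ k, ENNReal.ofReal (l (s k a) a) ∂μ :=
        lintegral_mono fun a => mul_le_mul' (sup_m a).le (sup_k a)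
    _ = ⨆ m : ℕ, ∫⁻ a, min (w a) (m : ℝ≥0∞) * ⨆ k, ENNReal.ofReal (l (s k a) a) ∂μ := by
        simp only [ENNReal.iSup_mul]
        have mk : ∀ m : ℕ, Measurable fun a => min (w a) (m : ℝ≥0∞)
            * ⨆ k, ENNReal.ofReal (l (s k a) a) := fun m => (mw.min measurable_const).mul msup
        rw [lintegral_iSup mk]
        intro m m' hm a
        exact mul_le_mul' (min_le_min le_rfl (by exact_mod_cast hm)) le_rfl
    _ ≤ L := iSup_le main2

/-- enumeration of the positive rationals -/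
theorem exists_enum : ∃ e : ℕ → ℝ, (∀ i, 0 < e i) ∧ ∀ z : ℝ, 0 ≤ z →
    ∃ r : ℕ → ℕ, (∀ n, z < e (r n)) ∧ Tendsto (fun n => e (r n)) atTop (𝓝 z) := by
  have : Nonempty {q : ℚ // 0 < q} := ⟨⟨1, one_pos⟩⟩
  obtain ⟨f, hf⟩ := exists_surjective_nat {q : ℚ // 0 < q}
  refine ⟨fun i => ((f i : ℚ) : ℝ), fun i => Rat.cast_pos.2 (f i).2, fun z hz => ?_⟩
  have h1 : ∀ n : ℕ, ∃ i : ℕ, z < ((f i : ℚ) : ℝ) ∧ ((f i : ℚ) : ℝ) < z + 1 / ((n : ℝ) + 1) := by
    intro n
    obtain ⟨q, hq1, hq2⟩ := exists_rat_btwn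
      (show z < z + 1 / ((n : ℝ) + 1) from lt_add_of_pos_right _ (by positivity))
    have hq : 0 < q := by exact_mod_cast hz.trans_lt hq1
    obtain ⟨i, hi⟩ := hf ⟨q, hq⟩
    exact ⟨i, by rw [hi]; exact ⟨hq1, hq2⟩⟩
  choose r hr using h1
  refine ⟨r, fun n => (hr n).1, ?_⟩
  have h2 : Tendsto (fun n : ℕ => z + 1 / ((n : ℝ) + 1)) atTop (𝓝 z) := by
    simpa using tendsto_const_nhds.add (tendsto_one_div_add_atTop_nhds_zero_nat (𝕜 := ℝ))
  exact tendsto_of_tendsto_of_tendsto_of_le_of_le tendsto_const_nhds h2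
    (fun n => (hr n).1.le) (fun n => (hr n).2.le)

theorem hE_ge {z t : ℝ} (hz : 0 ≤ z) (ht : 0 < t) : z * Real.log t - t + 1 ≤ hE z := by
  unfold hE
  rcases hz.eq_or_lt with rfl | hz
  · simp only [zero_mul]
    linarith only [ht]
  · have h1 := Real.one_sub_inv_le_log_of_pos (div_pos hz ht)
    rw [Real.log_div hz.ne' ht.ne', inv_div] at h1
    have h2 := mul_le_mul_of_nonneg_left h1 hz.le
    have h3 : z * (1 - t / z) = z - t := by field_simp
    rw [h3] at h2
    linarith only [h2]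

/-- lower semicontinuity of the entropy -/
theorem WConv.hE_le [IsFiniteMeasure μ] {g : ℕ → α → ℝ} {G : α → ℝ} (hg : WConv μ g G)
    (mg : ∀ n, Measurable (g n)) (g0 : ∀ n a, 0 ≤ g n a) (ig : ∀ n, Integrable (g n) μ)
    (mG : Measurable G) (G0 : ∀ a, 0 ≤ G a) (iG : Integrable G μ) :
    ∫⁻ a, ENNReal.ofReal (hE (G a)) ∂μ
      ≤ liminf (fun n => ∫⁻ a, ENNReal.ofReal (hE (g n a)) ∂μ) atTop := by
  obtain ⟨e, he, hr⟩ := exists_enum
  have h := lsc_aux (Φ := fun p _ => ENNReal.ofReal (hE p)) hg hg g0 g0 ig ig mG mG G0 G0 iG iG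
    (fun i => Nat.casesOn i 0 fun j => Real.log (e j)) (fun _ => 0)
    (fun i => Nat.casesOn i 0 fun j => 1 - e j) rfl rfl rfl ?_ (w := fun _ => 1) measurable_const
  · simpa only [one_mul] using h
  · intro p q hp _
    refine le_antisymm ?_ (iSup_le fun i => ?_)
    · obtain ⟨r, hr1, hr2⟩ := hr p hp
      have h1 : Tendsto (fun n => p * Real.log (e (r n)) - e (r n) + 1) atTop (𝓝 (hE p)) := by
        unfold hE
        rcases hp.eq_or_lt with rfl | hp
        · simp only [zero_mul]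
          exact (hr2.const_sub 0).add_const 1
        · exact (((Real.continuousAt_log hp.ne').tendsto.comp hr2).const_mul p |>.sub hr2).add_const 1
      refine le_of_tendsto' ((ENNReal.continuous_ofReal.tendsto _).comp h1) fun n => ?_
      refine le_iSup_of_le (r n + 1) (ENNReal.ofReal_le_ofReal ?_)
      simp only
      linarith [mul_comm p (Real.log (e (r n)))]
    · rcases i with _ | j
      · simp only [Nat.rec_zero, zero_mul, add_zero, ENNReal.ofReal_zero, zero_le]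
      · refine ENNReal.ofReal_le_ofReal ?_
        simp only
        have := hE_ge hp (he j)
        linarith only [this]

theorem measurable_dissDensity {f g : α → ℝ} (hf : Measurable f) (hg : Measurable g) :
    Measurable fun a => dissDensity (f a) (g a) := by
  unfold dissDensity
  refine Measurable.ite ?_ ?_ ?_
  · exact (measurableSet_lt measurable_const hf).inter (measurableSet_lt measurable_const hg)
  · exact ((hf.sub hg).mul (hf.div hg).log).ennreal_ofReal
  · exact Measurable.ite (measurableSet_eq_fun hf hg) measurable_const measurable_const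

theorem diss_ge {p q t : ℝ} (hp : 0 < p) (hq : 0 < q) (ht : 0 < t) :
    (Real.log t + 1 - 1 / t) * p + (1 - t - Real.log t) * q ≤ (p - q) * Real.log (p / q) := by
  have hy : 0 < p / (q * t) := by positivity
  have h1 := Real.one_sub_inv_le_log_of_pos hy
  have h2 := Real.log_le_sub_one_of_pos hy
  have h3 : Real.log (p / q) = Real.log (p / (q * t)) + Real.log t := by
    rw [← Real.log_mul hy.ne' ht.ne']
    congr 1
    field_simp
  rw [h3]
  have h4 := mul_le_mul_of_nonneg_left h1 hp.le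
  have h5 := mul_le_mul_of_nonneg_left h2 hq.le
  have h6 : p * (1 - (p / (q * t))⁻¹) = p - q * t := by field_simp
  have h7 : q * (p / (q * t) - 1) = 1 / t * p - q := by (clear * - ht hq; field_simp)
  rw [h6] at h4
  rw [h7] at h5
  linarith only [h4, h5]

theorem diss_eq_iSup {e : ℕ → ℝ} (he : ∀ i, 0 < e i) (hr : ∀ z : ℝ, 0 ≤ z →
    ∃ r : ℕ → ℕ, (∀ n, z < e (r n)) ∧ Tendsto (fun n => e (r n)) atTop (𝓝 z)) {p q : ℝ}
    (hp : 0 ≤ p) (hq : 0 ≤ q) : dissDensity p q = ⨆ i, ENNReal.ofReal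
      ((Real.log (e i) + 1 - 1 / e i) * p + (1 - e i - Real.log (e i)) * q) := by
  rcases hp.eq_or_lt with rfl | hp <;> rcases hq.eq_or_lt with rfl | hq
  · simp only [dissDensity, lt_self_iff_false, and_self, ↓reduceIte, one_div, mul_zero, add_zero, ENNReal.ofReal_zero, ciSup_const]
  · have h0 : dissDensity 0 q = ⊤ := by
      unfold dissDensity
      rw [if_neg (by simp only [lt_self_iff_false, false_and, not_false_eq_true]), if_neg hq.ne]
    rw [h0]
    symm
    rw [eq_top_iff]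
    obtain ⟨r, hr1, hr2⟩ := hr 0 le_rfl
    have h1 : Tendsto (fun n => e (r n)) atTop (𝓝[>] 0) :=
      tendsto_nhdsWithin_iff.2 ⟨hr2, Eventually.of_forall fun n => hr1 n⟩
    have h2 : Tendsto (fun n => (1 - e (r n) - Real.log (e (r n))) * q) atTop atTop := by
      refine Tendsto.atTop_mul_const hq ?_
      have h3 := Real.tendsto_log_nhdsGT_zero.comp h1
      have h4 := tendsto_neg_atBot_atTop.comp h3
      simpa only [sub_eq_add_neg, Function.comp_apply] using (hr2.const_sub 1).add_atTop h4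
    refine le_of_tendsto' (ENNReal.tendsto_ofReal_atTop.comp h2) fun n => ?_
    refine le_iSup_of_le (r n) (ENNReal.ofReal_le_ofReal ?_)
    simp only [one_div, mul_zero, zero_add, Std.le_refl]
  · have h0 : dissDensity p 0 = ⊤ := by
      unfold dissDensity
      rw [if_neg (by simp), if_neg hp.ne']
    rw [h0]
    symm
    rw [eq_top_iff]
    have h1 : ∀ n : ℕ, ∃ i, (n : ℝ) + 1 < e i := fun n => by
      obtain ⟨r, hr1, -⟩ := hr ((n : ℝ) + 1) (by (clear * -; positivity))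
      exact ⟨r 0, hr1 0⟩
    choose r hr1 using h1
    have h2 : Tendsto (fun n : ℕ => (Real.log ((n : ℝ) + 1)) * p) atTop atTop := by
      refine Tendsto.atTop_mul_const hp (Real.tendsto_log_atTop.comp ?_)
      exact tendsto_atTop_add_const_right _ _ tendsto_natCast_atTop_atTop
    refine le_of_tendsto' (ENNReal.tendsto_ofReal_atTop.comp h2) fun n => ?_
    refine le_iSup_of_le (r n) (ENNReal.ofReal_le_ofReal ?_)
    have h3 : (0 : ℝ) < (n : ℝ) + 1 := by positivity
    have h4 : Real.log ((n : ℝ) + 1) ≤ Real.log (e (r n)) := Real.log_le_log h3 (hr1 n).le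
    have h5 : 1 / e (r n) ≤ 1 := by
      rw [div_le_one (he _)]
      have : (0 : ℝ) ≤ n := Nat.cast_nonneg n
      linarith only [hr1 n]
    simp only [mul_zero, add_zero]
    exact mul_le_mul_of_nonneg_right (by linarith only [h4, h5]) hp.le
  · have h0 : dissDensity p q = ENNReal.ofReal ((p - q) * Real.log (p / q)) := by
      unfold dissDensity
      rw [if_pos ⟨hp, hq⟩]
    rw [h0]
    refine le_antisymm ?_ (iSup_le fun i => ENNReal.ofReal_le_ofReal (diss_ge hp hq (he i)))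
    obtain ⟨r, hr1, hr2⟩ := hr (p / q) (by positivity)
    have hpq : p / q ≠ 0 := by positivity
    have h1 : Tendsto (fun n => (Real.log (e (r n)) + 1 - 1 / e (r n)) * p
        + (1 - e (r n) - Real.log (e (r n))) * q) atTop (𝓝 ((p - q) * Real.log (p / q))) := by
      have h2 : Tendsto (fun n => Real.log (e (r n))) atTop (𝓝 (Real.log (p / q))) :=
        (Real.continuousAt_log hpq).tendsto.comp hr2
      have h3 : Tendsto (fun n => 1 / e (r n)) atTop (𝓝 (1 / (p / q))) :=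
        tendsto_const_nhds.div hr2 hpq
      have h4 := (((h2.add_const 1).sub h3).mul_const p).add
        (((hr2.const_sub 1).sub h2).mul_const q)
      have h5 : (Real.log (p / q) + 1 - 1 / (p / q)) * p + (1 - p / q - Real.log (p / q)) * q
          = (p - q) * Real.log (p / q) := by
        field_simp
        ring
      rw [h5] at h4
      exact h4
    refine le_of_tendsto' ((ENNReal.continuous_ofReal.tendsto _).comp h1) fun n => ?_
    exact le_iSup (fun i => ENNReal.ofReal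
      ((Real.log (e i) + 1 - 1 / e i) * p + (1 - e i - Real.log (e i)) * q)) (r n)

/-- lower semicontinuity of the dissipation -/
theorem WConv.diss_le [IsFiniteMeasure μ] {x y : ℕ → α → ℝ} {X Y : α → ℝ} (hx : WConv μ x X)
    (hy : WConv μ y Y) (mx : ∀ n, Measurable (x n)) (my : ∀ n, Measurable (y n))
    (x0 : ∀ n a, 0 ≤ x n a) (y0 : ∀ n a, 0 ≤ y n a)
    (ix : ∀ n, Integrable (x n) μ) (iy : ∀ n, Integrable (y n) μ)
    (mX : Measurable X) (mY : Measurable Y) (X0 : ∀ a, 0 ≤ X a) (Y0 : ∀ a, 0 ≤ Y a)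
    (iX : Integrable X μ) (iY : Integrable Y μ) {w : α → ℝ≥0∞} (mw : Measurable w) :
    ∫⁻ a, w a * dissDensity (X a) (Y a) ∂μ
      ≤ liminf (fun n => ∫⁻ a, w a * dissDensity (x n a) (y n a) ∂μ) atTop := by
  obtain ⟨e, he, hr⟩ := exists_enum
  refine lsc_aux hx hy x0 y0 ix iy mX mY X0 Y0 iX iY
    (fun i => Nat.casesOn i 0 fun j => Real.log (e j) + 1 - 1 / e j)
    (fun i => Nat.casesOn i 0 fun j => 1 - e j - Real.log (e j)) (fun _ => 0) rfl rfl rfl ?_ mw
  intro p q hp hq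
  rw [diss_eq_iSup he hr hp hq]
  refine le_antisymm (iSup_le fun i => ?_) (iSup_le fun i => ?_)
  · refine le_iSup_of_le (i + 1) (ENNReal.ofReal_le_ofReal ?_)
    simp only [one_div, add_zero, Std.le_refl]
  · rcases i with _ | j
    · simp only [one_div, Nat.rec_zero, zero_mul, add_zero, ENNReal.ofReal_zero, zero_le]
    · refine le_iSup_of_le j (ENNReal.ofReal_le_ofReal ?_)
      simp only [one_div, add_zero, Std.le_refl]

/-- homogeneity of the dissipation density -/
theorem dissDensity_smul {c p q : ℝ} (hc : 0 < c) (hp : 0 ≤ p) (hq : 0 ≤ q) :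
    dissDensity (c * p) (c * q) = ENNReal.ofReal c * dissDensity p q := by
  unfold dissDensity
  by_cases h : 0 < p ∧ 0 < q
  · rw [if_pos h, if_pos ⟨mul_pos hc h.1, mul_pos hc h.2⟩, ← ENNReal.ofReal_mul hc.le]
    congr 1
    rw [mul_div_mul_left _ _ hc.ne']
    ring
  · have h' : ¬ (0 < c * p ∧ 0 < c * q) := by
      intro h1
      exact h ⟨(mul_pos_iff_of_pos_left hc).1 h1.1, (mul_pos_iff_of_pos_left hc).1 h1.2⟩
    rw [if_neg h, if_neg h']
    by_cases h2 : p = q
    · rw [if_pos h2, if_pos (by rw [h2]), mul_zero]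
    · rw [if_neg h2, if_neg (fun h3 => h2 (mul_left_cancel₀ hc.ne' h3)), ENNReal.mul_top]
      simpa only [ne_eq, ENNReal.ofReal_eq_zero, not_le] using hc

/-- comparison of gain and loss densities -/
theorem ofReal_le_diss {p q K : ℝ} (hp : 0 ≤ p) (hq : 0 ≤ q) (hK : 2 ≤ K) :
    ENNReal.ofReal p ≤ ENNReal.ofReal (K * q)
      + ENNReal.ofReal (2 / Real.log K) * dissDensity p q := by
  have hlog : 0 < Real.log K := Real.log_pos (by linarith)
  rcases le_or_gt p (K * q) with h | h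
  · exact (ENNReal.ofReal_le_ofReal h).trans le_self_add
  · have hp' : 0 < p := lt_of_le_of_lt (by (clear * - hK hq; positivity)) h
    refine le_trans ?_ le_add_self
    rcases hq.eq_or_lt with rfl | hq'
    · have h0 : dissDensity p 0 = ⊤ := by
        unfold dissDensity
        rw [if_neg (by simp), if_neg hp'.ne']
      rw [h0, ENNReal.mul_top (by simpa only [ne_eq, ENNReal.ofReal_eq_zero, not_le, Nat.ofNat_pos, div_pos_iff_of_pos_left] using by positivity)]
      exact le_top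
    · have h0 : dissDensity p q = ENNReal.ofReal ((p - q) * Real.log (p / q)) := by
        unfold dissDensity
        rw [if_pos ⟨hp', hq'⟩]
      rw [h0, ← ENNReal.ofReal_mul (by positivity)]
      refine ENNReal.ofReal_le_ofReal ?_
      have h1 : p / 2 ≤ p - q := by
        have : 2 * q ≤ K * q := mul_le_mul_of_nonneg_right hK hq'.le
        linarith only [h, this]
      have h2 : Real.log K ≤ Real.log (p / q) := by
        refine Real.log_le_log (by linarith only [hK]) ?_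
        rw [le_div_iff₀ hq']
        exact h.le
      have h3 : p / 2 * Real.log K ≤ (p - q) * Real.log (p / q) :=
        mul_le_mul h1 h2 hlog.le (by linarith only [hq', h1])
      calc p = 2 / Real.log K * (p / 2 * Real.log K) := by field_simp
        _ ≤ 2 / Real.log K * ((p - q) * Real.log (p / q)) :=
          mul_le_mul_of_nonneg_left h3 (by positivity)

end Vale.Agent.P140.DL
end
end

section

set_option linter.all false

open MeasureTheory Set Filter
open scoped ENNReal Topology NNReal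

noncomputable section

namespace Vale.Agent.P140.DL

variable {α β : Type*} [MeasurableSpace α] [MeasurableSpace β] {μ : Measure α} {ν : Measure β}

/-- exchange of limits -/
theorem w4_exch {F : ℕ → ℕ → ℝ} {f L : ℕ → ℝ} {l : ℝ}
    (h1 : ∀ ε : ℝ, 0 < ε → ∀ᶠ m in atTop, ∀ n, |F m n - f n| ≤ ε)
    (h2 : ∀ m, Tendsto (F m) atTop (𝓝 (L m))) (h3 : Tendsto L atTop (𝓝 l)) :
    Tendsto f atTop (𝓝 l) := by
  rw [Metric.tendsto_atTop]
  intro ε hε
  obtain ⟨M1, hM1⟩ := (Metric.tendsto_atTop.1 h3) (ε / 3) (by (clear * - hε; positivity))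
  obtain ⟨M2, hM2⟩ := eventually_atTop.1 (h1 (ε / 4) (by (clear * - hε; positivity)))
  obtain ⟨N, hN⟩ := (Metric.tendsto_atTop.1 (h2 (max M1 M2))) (ε / 3) (by positivity)
  refine ⟨N, fun n hn => ?_⟩
  have a1 := hM1 (max M1 M2) (le_max_left _ _)
  have a2 := hM2 (max M1 M2) (le_max_right _ _) n
  have a3 := hN n hn
  rw [Real.dist_eq, abs_lt] at a1 a3 ⊢
  rw [abs_le] at a2
  constructor <;> linarith [a1.1, a1.2, a2.1, a2.2, a3.1, a3.2]

theorem w4_integrable [IsFiniteMeasure μ] {g : ℕ → α → ℝ} (mg : ∀ n, Measurable (g n))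
    (ui : UI μ fun n a => ENNReal.ofReal |g n a|) : ∃ C : ℝ, 0 ≤ C ∧
    ∀ n, Integrable (g n) μ ∧ ∫ a, |g n a| ∂μ ≤ C := by
  obtain ⟨C, hC⟩ := ui.lintegral_le
  refine ⟨C, C.2, fun n => ?_⟩
  have h1 : Integrable (g n) μ := by
    refine ⟨(mg n).aestronglyMeasurable, ?_⟩
    rw [hasFiniteIntegral_iff_norm]
    exact (hC n).trans_lt ENNReal.coe_lt_top
  refine ⟨h1, ?_⟩
  rw [integral_eq_lintegral_of_nonneg_ae (Eventually.of_forall fun a => abs_nonneg _)
    (mg n).norm.aestronglyMeasurable]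
  exact ENNReal.toReal_le_of_le_ofReal C.2 ((hC n).trans (by simp))

theorem w4_union [IsFiniteMeasure μ] {g : ℕ → α → ℝ} {G : α → ℝ}
    (ig : ∀ n, Integrable (g n) μ) (iG : Integrable G μ)
    (ui : UI μ fun n a => ENNReal.ofReal |g n a|) {f : ℕ → Set α}
    (hd : Pairwise (Function.onFun Disjoint f)) (hm : ∀ i, MeasurableSet (f i))
    (h : ∀ i, Tendsto (fun n => ∫ p in f i, g n p ∂μ) atTop (𝓝 (∫ p in f i, G p ∂μ))) :
    Tendsto (fun n => ∫ p in ⋃ i, f i, g n p ∂μ) atTop (𝓝 (∫ p in ⋃ i, f i, G p ∂μ)) := by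
  have hs : ∀ k : α → ℝ, Integrable k μ →
      HasSum (fun i => ∫ p in f i, k p ∂μ) (∫ p in ⋃ i, f i, k p ∂μ) := fun k hk =>
    hasSum_integral_iUnion hm hd hk.integrableOn
  have hs' : ∀ k : α → ℝ, Integrable k μ → ∀ m : ℕ,
      HasSum (fun i => ∫ p in f (i + m), k p ∂μ) (∫ p in ⋃ i, f (i + m), k p ∂μ) := fun k hk m =>
    hasSum_integral_iUnion (fun i => hm _)
      (fun i j hij => hd (fun h => hij (Nat.add_right_cancel h))) hk.integrableOn
  have ht : Tendsto (fun m => μ (⋃ i, f (i + m))) atTop (𝓝 0) := by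
    have h1 : ∑' i, μ (f i) ≠ ⊤ := by
      rw [← measure_iUnion hd hm]
      exact measure_ne_top _ _
    exact tendsto_of_tendsto_of_tendsto_of_le_of_le tendsto_const_nhds
      (ENNReal.tendsto_sum_nat_add (fun i => μ (f i)) h1) (fun m => zero_le)
      (fun m => measure_iUnion_le _)
  refine w4_exch (F := fun m n => ∑ i ∈ Finset.range m, ∫ p in f i, g n p ∂μ)
    (L := fun m => ∑ i ∈ Finset.range m, ∫ p in f i, G p ∂μ) ?_
    (fun m => tendsto_finsetSum _ fun i _ => h i) (hs G iG).tendsto_sum_nat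
  intro ε hε
  obtain ⟨δ, hδ, hδ'⟩ := ui.small_set (ENNReal.ofReal_pos.2 hε)
  filter_upwards [(tendsto_order.1 ht).2 δ hδ] with m hm' n
  have h1 := (hasSum_nat_add_iff' m).2 (hs (g n) (ig n))
  have h2 := h1.unique (hs' (g n) (ig n) m)
  have h3 : |∫ p in ⋃ i, f (i + m), g n p ∂μ| ≤ ε := by
    have h4 := norm_integral_le_lintegral_norm (μ := μ.restrict (⋃ i, f (i + m))) (g n)
    refine h4.trans ?_
    exact ENNReal.toReal_le_of_le_ofReal hε.le
      (hδ' n _ (MeasurableSet.iUnion fun i => hm _) hm'.le)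
  rw [abs_sub_comm, h2]
  exact h3

theorem w4_set [IsFiniteMeasure μ] [IsFiniteMeasure ν] {g : ℕ → α × β → ℝ} {G : α × β → ℝ}
    (ig : ∀ n, Integrable (g n) (μ.prod ν)) (iG : Integrable G (μ.prod ν))
    (ui : UI (μ.prod ν) fun n a => ENNReal.ofReal |g n a|)
    (h : ∀ s : Set α, ∀ t : Set β, MeasurableSet s → MeasurableSet t →
      Tendsto (fun n => ∫ p in s ×ˢ t, g n p ∂(μ.prod ν)) atTop
        (𝓝 (∫ p in s ×ˢ t, G p ∂(μ.prod ν)))) (A : Set (α × β)) (hA : MeasurableSet A) :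
    Tendsto (fun n => ∫ p in A, g n p ∂(μ.prod ν)) atTop (𝓝 (∫ p in A, G p ∂(μ.prod ν))) := by
  induction A, hA using MeasurableSpace.induction_on_inter generateFrom_prod.symm
    isPiSystem_prod with
  | empty => simp only [Measure.restrict_empty, integral_zero_measure, tendsto_const_nhds_iff]
  | basic t ht =>
    obtain ⟨s, hs, t', ht', rfl⟩ := ht
    exact h s t' hs ht'
  | compl t ht ih =>
    have h0 := h univ univ MeasurableSet.univ MeasurableSet.univ
    rw [univ_prod_univ] at h0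
    simp only [Measure.restrict_univ] at h0
    have e : ∀ k : α × β → ℝ, Integrable k (μ.prod ν) →
        ∫ p in tᶜ, k p ∂(μ.prod ν) = ∫ p, k p ∂(μ.prod ν) - ∫ p in t, k p ∂(μ.prod ν) :=
      fun k hk => setIntegral_compl ht hk
    rw [e G iG]
    exact (h0.sub ih).congr fun n => (e (g n) (ig n)).symm
  | iUnion f hd hm ih => exact w4_union ig iG ui hd hm ih

/-- discretization of a bounded function -/
theorem w4_disc (m : ℕ) {x : ℝ} (hx : |x| ≤ 1) (y : ℝ) :
    y * ((⌊((m : ℝ) + 1) * x⌋ : ℝ) / ((m : ℝ) + 1)) =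
      ∑ k ∈ Finset.Icc (-((m : ℤ) + 1)) ((m : ℤ) + 1),
        ((k : ℝ) / ((m : ℝ) + 1)) * (if ⌊((m : ℝ) + 1) * x⌋ = k then y else 0) := by
  rw [abs_le] at hx
  have h1 : ⌊((m : ℝ) + 1) * x⌋ ∈ Finset.Icc (-((m : ℤ) + 1)) ((m : ℤ) + 1) := by
    rw [Finset.mem_Icc]
    have hm : (0 : ℝ) < (m : ℝ) + 1 := by positivity
    constructor
    · rw [Int.le_floor]
      push_cast
      nlinarith
    · have h2 : (⌊((m : ℝ) + 1) * x⌋ : ℝ) ≤ ((m : ℝ) + 1) * x := Int.floor_le _
      have h3 : (⌊((m : ℝ) + 1) * x⌋ : ℝ) ≤ (((m : ℤ) + 1 : ℤ) : ℝ) := by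
        push_cast
        nlinarith only [hx, h2]
      exact_mod_cast h3
  rw [Finset.sum_eq_single_of_mem _ h1]
  · rw [if_pos rfl]; ring
  · intro b _ hb
    rw [if_neg (Ne.symm hb), mul_zero]

theorem w4_floor (m : ℕ) (x : ℝ) : |(⌊((m : ℝ) + 1) * x⌋ : ℝ) / ((m : ℝ) + 1) - x| ≤
    1 / ((m : ℝ) + 1) := by
  have hm : (0 : ℝ) < (m : ℝ) + 1 := by positivity
  have h1 := Int.floor_le (((m : ℝ) + 1) * x)
  have h2 := Int.lt_floor_add_one (((m : ℝ) + 1) * x)
  rw [div_sub' hm.ne', abs_div, abs_of_pos hm, div_le_div_iff_of_pos_right hm, abs_le]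
  constructor <;> linarith only [h1, h2]

/-- weak convergence from convergence on all measurable sets -/
theorem w4_main [IsFiniteMeasure μ] {g : ℕ → α → ℝ} {G : α → ℝ} (mg : ∀ n, Measurable (g n))
    (iG : Integrable G μ) (ui : UI μ fun n a => ENNReal.ofReal |g n a|)
    (h : ∀ A, MeasurableSet A → Tendsto (fun n => ∫ p in A, g n p ∂μ) atTop
      (𝓝 (∫ p in A, G p ∂μ))) : WConv μ g G := by
  obtain ⟨C, hC0, hC⟩ := w4_integrable mg ui
  intro θ mθ bθ
  set D : ℕ → α → ℝ := fun m a => (⌊((m : ℝ) + 1) * θ a⌋ : ℝ) / ((m : ℝ) + 1) with hD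
  have hA : ∀ m : ℕ, ∀ k : ℤ, MeasurableSet {a | ⌊((m : ℝ) + 1) * θ a⌋ = k} := by
    intro m k
    exact measurableSet_eq_fun (Int.measurable_floor.comp (mθ.const_mul _)) measurable_const
  have mD : ∀ m, Measurable (D m) := fun m =>
    ((measurable_from_top (f := fun k : ℤ => (k : ℝ))).comp
      (Int.measurable_floor.comp (mθ.const_mul _))).div_const _
  have hF : ∀ m : ℕ, ∀ k : α → ℝ, Integrable k μ → ∫ a, k a * D m a ∂μ =
      ∑ j ∈ Finset.Icc (-((m : ℤ) + 1)) ((m : ℤ) + 1), ((j : ℝ) / ((m : ℝ) + 1)) *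
        ∫ a in {a | ⌊((m : ℝ) + 1) * θ a⌋ = j}, k a ∂μ := by
    intro m k hk
    have e : (fun a => k a * D m a) = fun a =>
        ∑ j ∈ Finset.Icc (-((m : ℤ) + 1)) ((m : ℤ) + 1), ((j : ℝ) / ((m : ℝ) + 1)) *
          ({a | ⌊((m : ℝ) + 1) * θ a⌋ = j}.indicator k a) := by
      funext a
      refine (w4_disc m (bθ a) (k a)).trans (Finset.sum_congr rfl fun j _ => ?_)
      rw [indicator_apply]
      rfl
    rw [e, integral_finsetSum _ fun j _ => (hk.indicator (hA m j)).const_mul _]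
    refine Finset.sum_congr rfl fun j _ => ?_
    rw [integral_const_mul, integral_indicator (hA m j)]
  have hcl : ∀ m : ℕ, ∀ k : α → ℝ, Integrable k μ →
      |∫ a, k a * D m a ∂μ - ∫ a, k a * θ a ∂μ| ≤ 1 / ((m : ℝ) + 1) * ∫ a, |k a| ∂μ := by
    intro m k hk
    have i2 : Integrable (fun a => k a * θ a) μ :=
      hk.mul_bdd (c := 1) mθ.aestronglyMeasurable (Eventually.of_forall bθ)
    have i1 : Integrable (fun a => k a * D m a) μ := by
      refine hk.mul_bdd (c := 2) (mD m).aestronglyMeasurable (Eventually.of_forall fun a => ?_)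
      have h1 := w4_floor m (θ a)
      have h2 := bθ a
      have h3 : 1 / ((m : ℝ) + 1) ≤ 1 := by
        rw [div_le_one (by (clear * -; positivity))]
        have : (0 : ℝ) ≤ m := by (clear * -; positivity)
        linarith only []
      rw [Real.norm_eq_abs, abs_le]
      rw [abs_le] at h1 h2
      constructor <;> simp only [hD] <;> linarith only [h1, h2, h3]
    rw [← integral_sub i1 i2, ← integral_const_mul, ← Real.norm_eq_abs]
    refine (norm_integral_le_integral_norm _).trans ?_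
    refine integral_mono (i1.sub i2).norm (hk.norm.const_mul _) fun a => ?_
    have h1 := w4_floor m (θ a)
    have e : k a * D m a - k a * θ a = (D m a - θ a) * k a := by ring
    change ‖k a * D m a - k a * θ a‖ ≤ 1 / ((m : ℝ) + 1) * |k a|
    rw [e, norm_mul, Real.norm_eq_abs, Real.norm_eq_abs]
    exact mul_le_mul_of_nonneg_right h1 (abs_nonneg _)
  have h0 : Tendsto (fun m : ℕ => 1 / ((m : ℝ) + 1)) atTop (𝓝 0) :=
    tendsto_one_div_add_atTop_nhds_zero_nat
  refine w4_exch (F := fun m n => ∫ a, g n a * D m a ∂μ) (L := fun m => ∫ a, G a * D m a ∂μ)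
    ?_ ?_ ?_
  · intro ε hε
    have h1 : Tendsto (fun m : ℕ => 1 / ((m : ℝ) + 1) * C) atTop (𝓝 0) := by
      simpa only [one_div, zero_mul] using h0.mul_const C
    filter_upwards [(tendsto_order.1 h1).2 ε hε] with m hm n
    refine (hcl m (g n) (hC n).1).trans (le_trans ?_ hm.le)
    exact mul_le_mul_of_nonneg_left (hC n).2 (by (clear * -; positivity))
  · intro m
    rw [hF m G iG]
    refine (tendsto_finsetSum _ fun j _ => (h _ (hA m j)).const_mul _).congr fun n => ?_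
    exact (hF m (g n) (hC n).1).symm
  · rw [tendsto_iff_norm_sub_tendsto_zero]
    have h1 : Tendsto (fun m : ℕ => 1 / ((m : ℝ) + 1) * ∫ a, |G a| ∂μ) atTop (𝓝 0) := by
      simpa only [one_div, zero_mul] using h0.mul_const (∫ a, |G a| ∂μ)
    exact squeeze_zero (fun m => norm_nonneg _) (fun m => hcl m G iG) h1

/-- weak convergence on rectangles and uniform integrability imply weak convergence -/
theorem WConv.of_rect [IsFiniteMeasure μ] [IsFiniteMeasure ν] {g : ℕ → α × β → ℝ} {G : α × β → ℝ}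
    (mg : ∀ n, Measurable (g n)) (mG : Measurable G) (iG : Integrable G (μ.prod ν))
    (ui : UI (μ.prod ν) fun n a => ENNReal.ofReal |g n a|)
    (h : ∀ s : Set α, ∀ t : Set β, MeasurableSet s → MeasurableSet t →
      Tendsto (fun n => ∫ p in s ×ˢ t, g n p ∂(μ.prod ν)) atTop
        (𝓝 (∫ p in s ×ˢ t, G p ∂(μ.prod ν)))) :
    WConv (μ.prod ν) g G := by
  obtain ⟨C, hC0, hC⟩ := w4_integrable mg ui
  exact w4_main mg iG ui (w4_set (fun n => (hC n).1) iG ui h)

end Vale.Agent.P140.DL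
end
end

section

open MeasureTheory Set Filter
open scoped ENNReal Topology NNReal

noncomputable section

namespace Vale.Agent.P140.DL

/-- the primitive with an integrating factor, starting at zero -/
theorem fac0 {r L : ℝ → ℝ} {T : ℝ} (hT : 0 ≤ T) (hr : IntegrableOn r (Ioc 0 T))
    (hL : IntegrableOn L (Ioc 0 T)) (c : ℝ) {t : ℝ} (h0 : 0 ≤ t) (h2 : t ≤ T) :
    (c + ∫ s in Ioc 0 t, r s) * Real.exp (∫ s in Ioc 0 t, L s) =
      c + ∫ s in Ioc 0 t, (r s + L s * (c + ∫ u in Ioc 0 s, r u)) *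
        Real.exp (∫ u in Ioc 0 s, L u) := by
  have h := int_factor (r := r) (L := L) hT (by rwa [intervalIntegrable_iff_integrableOn_Ioc_of_le hT])
    (by rwa [intervalIntegrable_iff_integrableOn_Ioc_of_le hT]) c le_rfl h0 h2
  simp only [intervalIntegral.integral_same, add_zero, Real.exp_zero, mul_one, zero_add,
    intervalIntegral.integral_of_le h0] at h
  rw [h]
  congr 1
  refine setIntegral_congr_fun measurableSet_Ioc fun s hs => ?_
  simp only [intervalIntegral.integral_of_le hs.1.le]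

theorem exp_split {a : ℝ → ℝ} {T : ℝ} (ia : IntegrableOn a (Ioc 0 T)) {s t : ℝ} (hs : 0 ≤ s)
    (hst : s ≤ t) (ht : t ≤ T) :
    Real.exp (∫ u in Ioc 0 s, a u) * Real.exp (-∫ u in Ioc 0 t, a u) =
      Real.exp (-∫ r in Ioc s t, a r) := by
  rw [← Real.exp_add]
  congr 1
  have h1 : Ioc 0 t = Ioc 0 s ∪ Ioc s t := (Ioc_union_Ioc_eq_Ioc hs hst).symm
  have h2 : ∫ u in Ioc 0 t, a u = (∫ u in Ioc 0 s, a u) + ∫ u in Ioc s t, a u := by
    rw [h1]
    refine setIntegral_union (Ioc_disjoint_Ioc_of_le le_rfl) measurableSet_Ioc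
      (ia.mono_set (Ioc_subset_Ioc_right (hst.trans ht)))
      (ia.mono_set (Ioc_subset_Ioc hs ht))
  rw [h2]
  ring

/-- the exponential form, multiplied by the integrating factor -/
theorem exp_form {b a : ℝ → ℝ} {f0 T : ℝ}
    (ia : IntegrableOn a (Ioc 0 T)) {t : ℝ} (h2 : t ≤ T) :
    f0 * Real.exp (-∫ s in Ioc 0 t, a s) + ∫ s in Ioc 0 t, b s * Real.exp (-∫ r in Ioc s t, a r) =
      (f0 + ∫ s in Ioc 0 t, b s * Real.exp (∫ u in Ioc 0 s, a u)) *
        Real.exp (-∫ s in Ioc 0 t, a s) := by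
  rw [add_mul, ← integral_mul_const]
  congr 1
  refine setIntegral_congr_fun measurableSet_Ioc fun s hs => ?_
  show b s * Real.exp (-∫ r in Ioc s t, a r) =
    b s * Real.exp (∫ u in Ioc 0 s, a u) * Real.exp (-∫ s in Ioc 0 t, a s)
  rw [mul_assoc, exp_split ia hs.1.le hs.2 h2]

/-- integrating factor: from the plain to the exponential form -/
theorem exp_of_plain {f b a : ℝ → ℝ} {f0 T : ℝ} (hT : 0 ≤ T)
    (ib : IntegrableOn b (Ioc 0 T)) (ia : IntegrableOn a (Ioc 0 T))
    (iaf : IntegrableOn (fun s => a s * f s) (Ioc 0 T))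
    (h : ∀ᵐ t ∂(volume.restrict (Ioc 0 T)), f t = f0 + ∫ s in Ioc 0 t, (b s - a s * f s)) :
    ∀ᵐ t ∂(volume.restrict (Ioc 0 T)), f t = f0 * Real.exp (-∫ s in Ioc 0 t, a s)
      + ∫ s in Ioc 0 t, b s * Real.exp (-∫ r in Ioc s t, a r) := by
  have hr : IntegrableOn (fun s => b s - a s * f s) (Ioc 0 T) := ib.sub iaf
  have h' := (ae_restrict_iff' measurableSet_Ioc).1 h
  filter_upwards [h, ae_restrict_mem measurableSet_Ioc] with t ht htT
  rw [exp_form ia htT.2]
  have h1 := fac0 hT hr ia f0 htT.1.le htT.2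
  rw [← ht] at h1
  have h2 : ∫ s in Ioc 0 t, (b s - a s * f s + a s * (f0 + ∫ u in Ioc 0 s, (b u - a u * f u))) *
      Real.exp (∫ u in Ioc 0 s, a u) = ∫ s in Ioc 0 t, b s * Real.exp (∫ u in Ioc 0 s, a u) := by
    refine setIntegral_congr_ae measurableSet_Ioc ?_
    filter_upwards [h'] with s hs hst
    rw [← hs ⟨hst.1, hst.2.trans htT.2⟩]
    ring
  rw [h2] at h1
  rw [← h1, mul_assoc, ← Real.exp_add, add_neg_cancel, Real.exp_zero, mul_one]

/-- integrating factor: from the exponential to the plain form -/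
theorem plain_of_exp {f b a : ℝ → ℝ} {f0 T : ℝ} (hT : 0 ≤ T)
    (ib : IntegrableOn b (Ioc 0 T)) (ia : IntegrableOn a (Ioc 0 T))
    (iaf : IntegrableOn (fun s => a s * f s) (Ioc 0 T))
    (h : ∀ᵐ t ∂(volume.restrict (Ioc 0 T)), f t = f0 * Real.exp (-∫ s in Ioc 0 t, a s)
      + ∫ s in Ioc 0 t, b s * Real.exp (-∫ r in Ioc s t, a r)) :
    ∀ᵐ t ∂(volume.restrict (Ioc 0 T)), f t = f0 + ∫ s in Ioc 0 t, (b s - a s * f s) := by
  have hr : IntegrableOn (fun s => b s - a s * f s) (Ioc 0 T) := ib.sub iaf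
  have h' := (ae_restrict_iff' measurableSet_Ioc).1 h
  -- the continuous solution of the plain equation
  obtain ⟨G, hG⟩ : ∃ G : ℝ → ℝ, ∀ t, G t = f0 + ∫ s in Ioc 0 t, (b s - a s * f s) :=
    ⟨_, fun _ => rfl⟩
  obtain ⟨e, he⟩ : ∃ e : ℝ → ℝ, ∀ t, e t = Real.exp (∫ s in Ioc 0 t, a s) := ⟨_, fun _ => rfl⟩
  have hGcont : ContinuousOn G (Icc 0 T) := by
    have h1 := (ac_primitive (r := fun s => b s - a s * f s) (a := 0) (b := T) (by
      rwa [intervalIntegrable_iff_integrableOn_Ioc_of_le hT]) f0).continuousOn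
    rw [uIcc_of_le hT] at h1
    refine h1.congr fun t ht => ?_
    show G t = f0 + ∫ s in (0:ℝ)..t, (b s - a s * f s)
    rw [hG, intervalIntegral.integral_of_le ht.1]
  have hecont : ContinuousOn e (Icc 0 T) := by
    have h1 := (ac_primitive (r := a) (a := 0) (b := T) (by
      rwa [intervalIntegrable_iff_integrableOn_Ioc_of_le hT]) 0).continuousOn
    rw [uIcc_of_le hT] at h1
    refine (Real.continuous_exp.comp_continuousOn h1).congr fun t ht => ?_
    rw [he, Function.comp_apply, intervalIntegral.integral_of_le ht.1, zero_add]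
  -- the difference
  obtain ⟨D, hD⟩ : ∃ D : ℝ → ℝ, ∀ t, D t = (G t - f t) * e t := ⟨_, fun _ => rfl⟩
  have iaG : IntegrableOn (fun s => a s * G s) (Ioc 0 T) := by
    have h1 : IntegrableOn (fun s => a s * G s) (Icc 0 T) := by
      refine IntegrableOn.mul_continuousOn ?_ hGcont isCompact_Icc
      rwa [integrableOn_Icc_iff_integrableOn_Ioc]
    exact h1.mono_set Ioc_subset_Icc_self
  have iaD : IntegrableOn (fun s => a s * D s) (Ioc 0 T) := by
    have h1 : IntegrableOn (fun s => (a s * G s - a s * f s) * e s) (Icc 0 T) := by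
      refine IntegrableOn.mul_continuousOn ?_ hecont isCompact_Icc
      rw [integrableOn_Icc_iff_integrableOn_Ioc]
      exact iaG.sub iaf
    refine (h1.mono_set Ioc_subset_Icc_self).congr_fun (fun s _ => ?_) measurableSet_Ioc
    simp only
    rw [hD]
    ring
  have hDeq : ∀ᵐ t, t ∈ Ioc 0 T → D t = 0 + ∫ s in Ioc 0 t, a s * D s := by
    filter_upwards [h'] with t ht htT
    have h1 := fac0 hT hr ia f0 htT.1.le htT.2
    have h2 := ht htT
    rw [exp_form ia htT.2] at h2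
    have h3 : f t * e t = f0 + ∫ s in Ioc 0 t, b s * Real.exp (∫ u in Ioc 0 s, a u) := by
      rw [h2, he, mul_assoc, ← Real.exp_add, neg_add_cancel, Real.exp_zero, mul_one]
    rw [hD, sub_mul, h3]
    rw [← hG, ← he] at h1
    rw [h1, add_sub_add_left_eq_sub, zero_add, ← integral_sub]
    · refine setIntegral_congr_fun measurableSet_Ioc fun s hs => ?_
      show (b s - a s * f s + a s * (f0 + ∫ u in Ioc 0 s, (b u - a u * f u))) *
        Real.exp (∫ u in Ioc 0 s, a u) - b s * Real.exp (∫ u in Ioc 0 s, a u) = a s * D s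
      rw [hD, ← hG, ← he]
      ring
    · have h4 : IntegrableOn (fun s => (b s - a s * f s + a s * G s) * e s) (Icc 0 T) := by
        refine IntegrableOn.mul_continuousOn ?_ hecont isCompact_Icc
        rw [integrableOn_Icc_iff_integrableOn_Ioc]
        exact hr.add iaG
      refine (h4.mono_set (Ioc_subset_Icc_self.trans' (Ioc_subset_Ioc_right htT.2))).congr_fun
        (fun s _ => ?_) measurableSet_Ioc
      simp only
      rw [← hG, ← he]
    · have h4 : IntegrableOn (fun s => b s * e s) (Icc 0 T) := by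
        refine IntegrableOn.mul_continuousOn ?_ hecont isCompact_Icc
        rwa [integrableOn_Icc_iff_integrableOn_Ioc]
      refine (h4.mono_set (Ioc_subset_Icc_self.trans' (Ioc_subset_Ioc_right htT.2))).congr_fun
        (fun s _ => ?_) measurableSet_Ioc
      simp only
      rw [← he]
  have hzero : ∀ t ∈ Icc 0 T, ∫ s in Ioc 0 t, a s * D s = 0 := by
    intro t ht
    have h1 := fac0 hT iaD ia.neg 0 ht.1 ht.2
    have h2 : ∫ s in Ioc 0 t, (a s * D s + (-a) s * (0 + ∫ u in Ioc 0 s, a u * D u)) *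
        Real.exp (∫ u in Ioc 0 s, (-a) u) = 0 := by
      refine setIntegral_eq_zero_of_ae_eq_zero ?_
      filter_upwards [hDeq] with s hs hst
      rw [← hs ⟨hst.1, hst.2.trans ht.2⟩, Pi.neg_apply]
      ring
    rw [h2, add_zero, zero_add] at h1
    exact (mul_eq_zero.1 h1).resolve_right (Real.exp_ne_zero _)
  rw [ae_restrict_iff' measurableSet_Ioc]
  filter_upwards [hDeq] with t ht htT
  have h1 := ht htT
  rw [hzero t ⟨htT.1.le, htT.2⟩, add_zero, hD, he] at h1
  have h2 := (mul_eq_zero.1 h1).resolve_right (Real.exp_ne_zero _)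
  rw [← hG]
  linarith only [h2]

/-- sequences of solutions of linear equations along characteristics -/
structure CharSeq {Ω : Type*} [MeasurableSpace Ω] (g a b : ℕ → ℝ × Ω → ℝ) (g0 : ℕ → Ω → ℝ) :
    Prop where
  mg : ∀ n, Measurable (g n)
  ma : ∀ n, Measurable (a n)
  mb : ∀ n, Measurable (b n)
  mg0 : ∀ n, Measurable (g0 n)
  g_nonneg : ∀ n q, 0 ≤ g n q
  a_nonneg : ∀ n q, 0 ≤ a n q
  b_nonneg : ∀ n q, 0 ≤ b n q
  g0_nonneg : ∀ n p, 0 ≤ g0 n p
  bdd : ∀ n p (T : ℝ), ∃ C : ℝ, ∀ t ∈ Icc 0 T, g n (t, p) ≤ C ∧ a n (t, p) ≤ C ∧ b n (t, p) ≤ C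
  eq : ∀ n p t, 0 ≤ t → g n (t, p) = g0 n p + ∫ s in Ioc 0 t, (b n (s, p) - a n (s, p) * g n (s, p))

/-- limits of the coefficients -/
structure CharLim {Ω : Type*} [MeasurableSpace Ω] (μ : Measure Ω) (g a b : ℕ → ℝ × Ω → ℝ)
    (g0 : ℕ → Ω → ℝ) (G A B : ℝ × Ω → ℝ) (G0 : Ω → ℝ) : Prop extends CharSeq g a b g0 where
  mG : Measurable G
  mA : Measurable A
  mB : Measurable B
  mG0 : Measurable G0
  G_nonneg : ∀ q, 0 ≤ G q
  A_nonneg : ∀ q, 0 ≤ A q
  B_nonneg : ∀ q, 0 ≤ B q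
  G0_nonneg : ∀ p, 0 ≤ G0 p
  iG : Integrable G (nuE.prod μ)
  iA : Integrable A (nuE.prod μ)
  iG0 : Integrable G0 μ
  ig0 : ∀ n, Integrable (g0 n) μ
  ia : ∀ n, Integrable (a n) (nuE.prod μ)
  ig : ∀ n, Integrable (g n) (nuE.prod μ)
  conv0 : SConv μ g0 G0
  convA : SConv (nuE.prod μ) a A
  convG : WConv (nuE.prod μ) g G
  uiG : UI (nuE.prod μ) fun n q => ENNReal.ofReal (g n q)
  uiB : ∀ j : ℕ, UI (nuE.prod μ) fun n q =>
    ENNReal.ofReal (b n q / (1 + g n q / ((j : ℝ) + 1)) ^ 2)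
  convB : ∃ r : ℕ → ℕ → ℝ × Ω → ℝ, ∃ R : ℕ → ℝ × Ω → ℝ,
    (∀ k n, Measurable (r k n)) ∧ (∀ k, Measurable (R k)) ∧
    (∀ k n q, 0 ≤ r k n q ∧ r k n q ≤ 1) ∧ (∀ k q, 0 ≤ R k q ∧ R k q ≤ 1) ∧
    (∀ q, Monotone fun k => R k q) ∧
    (∀ᵐ q ∂(nuE.prod μ), Tendsto (fun k => R k q) atTop (𝓝 1)) ∧
    (∀ k, SConv (nuE.prod μ) (r k) (R k)) ∧
    (∀ k n, Integrable (fun q => b n q * r k n q) (nuE.prod μ)) ∧
    (∀ k, Integrable (fun q => B q * R k q) (nuE.prod μ)) ∧
    (∀ k, UI (nuE.prod μ) fun n q => ENNReal.ofReal (b n q * r k n q)) ∧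
    ∀ k, WConv (nuE.prod μ) (fun n q => b n q * r k n q) fun q => B q * R k q

end Vale.Agent.P140.DL
end
end

section

open MeasureTheory Set Filter
open scoped ENNReal Topology NNReal

noncomputable section

namespace Vale.Agent.P140.DL

/-- global bound of the collision frequency -/
theorem a2_rate_bd (n : ℕ) : ∃ L : ℝ, 0 ≤ L ∧
    ∀ (g : V → ℝ) (v : V), rateP n g v ≤ ENNReal.ofReal L := by
  refine ⟨2 * n * (surf univ).toReal * n, by positivity, fun g v => ?_⟩
  have hs : surf univ ≠ ⊤ := measure_ne_top surf _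
  have hc : ENNReal.ofReal (2 * n) * surf univ ≠ ⊤ := ENNReal.mul_ne_top ENNReal.ofReal_ne_top hs
  have h1 : rateN n g v ≤ ENNReal.ofReal (2 * n) * surf univ * rhoN n g := by
    unfold rateN rhoN
    rw [← lintegral_const_mul' _ _ hc, ← lintegral_indicator measurableSet_closedBall]
    refine lintegral_mono fun w => ?_
    by_cases hw : ‖w‖ ≤ n
    · have hm : w ∈ Metric.closedBall (0 : V) (n : ℝ) := by simpa only [Metric.mem_closedBall, dist_zero_right] using hw
      rw [indicator_of_mem hm]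
      calc ∫⁻ o : S2, ENNReal.ofReal (bN n v w o * g w) ∂surf
          ≤ ∫⁻ _o : S2, ENNReal.ofReal (2 * n) * ENNReal.ofReal (g w) ∂surf := by
            refine lintegral_mono fun o => ?_
            rw [ENNReal.ofReal_mul (bN_nonneg n v w o)]
            gcongr
            exact bN_le_two n v w o
        _ = ENNReal.ofReal (2 * n) * surf univ * ENNReal.ofReal (g w) := by
            rw [lintegral_const]
            ring
    · have h2 : ∀ o : S2, ENNReal.ofReal (bN n v w o * g w) = 0 := fun o => by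
        rw [bN_eq_zero' (not_le.1 hw), zero_mul, ENNReal.ofReal_zero]
      simp only [h2, lintegral_zero]
      exact zero_le
  unfold rateP
  calc pfN n g * rateN n g v
      ≤ pfN n g * (ENNReal.ofReal (2 * n) * surf univ * rhoN n g) := by (clear * - h1; gcongr)
    _ = ENNReal.ofReal (2 * n) * surf univ * (pfN n g * rhoN n g) := by ring
    _ ≤ ENNReal.ofReal (2 * n) * surf univ * n := by
        gcongr
        exact pfN_mul_rhoN n g
    _ = ENNReal.ofReal (2 * n * (surf univ).toReal * n) := by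
        rw [ENNReal.ofReal_mul (p := 2 * n * (surf univ).toReal) (by (clear * -; positivity)),
          ENNReal.ofReal_mul (p := 2 * n) (q := (surf univ).toReal) (by positivity),
          ENNReal.ofReal_toReal hs, ENNReal.ofReal_natCast]

/-- from characteristic to Eulerian coordinates -/
def a2F (U : ℝ × T3 × V → ℝ) (t : ℝ) (x : T3) (v : V) : ℝ := U (t, flow (-t) (x, v))

theorem a2F_meas {U : ℝ × T3 × V → ℝ} (hU : Measurable U) :
    Measurable fun q : ℝ × T3 × V => a2F U q.1 q.2.1 q.2.2 := by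
  have h1 : Measurable fun q : ℝ × T3 × V => (q.1, flow (-q.1) q.2) :=
    measurable_fst.prodMk
      (measurable_flow_uncurry.comp (measurable_fst.neg.prodMk measurable_snd))
  exact hU.comp h1

theorem a2F_flow (U : ℝ × T3 × V → ℝ) (t : ℝ) (p : T3 × V) :
    a2F U t (flow t p).1 p.2 = U (t, p) := by
  have h : flow (-t) ((flow t p).1, p.2) = p := flow_neg_flow t p
  rw [a2F, h]

def a2b (n : ℕ) (U : ℝ × T3 × V → ℝ) (q : ℝ × T3 × V) : ℝ :=
  (gainP n (a2F U q.1 (flow q.1 q.2).1) q.2.2).toReal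

def a2a (n : ℕ) (U : ℝ × T3 × V → ℝ) (q : ℝ × T3 × V) : ℝ :=
  (rateP n (a2F U q.1 (flow q.1 q.2).1) q.2.2).toReal

def a2h (n : ℕ) (L : ℝ) (U : ℝ × T3 × V → ℝ) (q : ℝ × T3 × V) : ℝ :=
  a2b n U q + (L - a2a n U q) * U q

theorem a2h_meas (n : ℕ) (L : ℝ) {U : ℝ × T3 × V → ℝ} (hU : Measurable U) :
    Measurable (a2h n L U) := by
  have h1 : Measurable fun q : (ℝ × T3) × V => a2F U q.1.1 q.1.2 q.2 :=
    (a2F_meas hU).comp (by fun_prop : Measurable fun q : (ℝ × T3) × V => (q.1.1, q.1.2, q.2))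
  have h2 : Measurable fun q : ℝ × T3 × V => ((q.1, (flow q.1 q.2).1), q.2.2) :=
    (measurable_fst.prodMk measurable_flow_uncurry.fst).prodMk measurable_snd.snd
  have h3 : Measurable (a2b n U) :=
    ((measurable_gainP n (f := fun z : ℝ × T3 => a2F U z.1 z.2) h1).comp h2).ennreal_toReal
  have h4 : Measurable (a2a n U) :=
    ((measurable_rateP n (f := fun z : ℝ × T3 => a2F U z.1 z.2) h1).comp h2).ennreal_toReal
  exact h3.add ((h4.const_sub L).mul hU)

/-- admissible functions -/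
structure A2Adm (n : ℕ) (B K : ℝ) (U : ℝ × T3 × V → ℝ) : Prop where
  meas : Measurable U
  nn : ∀ q, 0 ≤ U q
  le : ∀ t (p : T3 × V), 0 ≤ t → ‖p.2‖ ≤ n → U (t, p) ≤ B * Real.exp (K * t)

namespace A2Adm

variable {n : ℕ} {B K : ℝ} {U U' : ℝ × T3 × V → ℝ}

theorem sm (h : A2Adm n B K U) (s : ℝ) (y : T3) : Measurable (a2F U s y) :=
  (a2F_meas h.meas).comp (measurable_const.prodMk (measurable_const.prodMk measurable_id))

theorem sn (h : A2Adm n B K U) (s : ℝ) (y : T3) (v : V) : 0 ≤ a2F U s y v := h.nn _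

theorem sl (h : A2Adm n B K U) {s : ℝ} (hs : 0 ≤ s) (y : T3) (v : V) (hv : ‖v‖ ≤ n) :
    a2F U s y v ≤ B * Real.exp (K * s) := h.le s _ hs hv

end A2Adm

section est

variable {n : ℕ} {B K L : ℝ} {U U' : ℝ × T3 × V → ℝ}

theorem a2a_nonneg (q : ℝ × T3 × V) : 0 ≤ a2a n U q := ENNReal.toReal_nonneg

theorem a2b_nonneg (q : ℝ × T3 × V) : 0 ≤ a2b n U q := ENNReal.toReal_nonneg

theorem a2a_le (hL : 0 ≤ L) (hr : ∀ (g : V → ℝ) (v : V), rateP n g v ≤ ENNReal.ofReal L)
    (q : ℝ × T3 × V) : a2a n U q ≤ L :=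
  ENNReal.toReal_le_of_le_ofReal hL (hr _ _)

theorem a2h_nonneg (hL : 0 ≤ L) (hr : ∀ (g : V → ℝ) (v : V), rateP n g v ≤ ENNReal.ofReal L)
    (h : A2Adm n B K U) (q : ℝ × T3 × V) : 0 ≤ a2h n L U q :=
  add_nonneg (a2b_nonneg q) (mul_nonneg (sub_nonneg.2 (a2a_le hL hr q)) (h.nn q))

theorem a2h_le (hB : 0 ≤ B) (hK : 0 ≤ K) (hL : 0 ≤ L)
    (hr : ∀ (g : V → ℝ) (v : V), rateP n g v ≤ ENNReal.ofReal L)
    (hg : ∀ g : V → ℝ, Measurable g → (∀ v, 0 ≤ g v) →
      ∀ B : ℝ, (∀ v, ‖v‖ ≤ n → g v ≤ B) → ∀ v, gainP n g v ≤ ENNReal.ofReal (K * B))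
    (h : A2Adm n B K U) {s : ℝ} (hs : 0 ≤ s) {p : T3 × V} (hp : ‖p.2‖ ≤ n) :
    a2h n L U (s, p) ≤ (K + L) * (B * Real.exp (K * s)) := by
  have h1 : a2b n U (s, p) ≤ K * (B * Real.exp (K * s)) := by
    refine ENNReal.toReal_le_of_le_ofReal (by (clear * - hK hB; positivity)) ?_
    exact hg _ (h.sm s _) (h.sn s _) _ (fun v hv => h.sl hs _ v hv) _
  have h2 := h.le s p hs hp
  have h3 := h.nn (s, p)
  have h4 := a2a_nonneg (n := n) (U := U) (s, p)
  have h5 : (L - a2a n U (s, p)) * U (s, p) ≤ L * (B * Real.exp (K * s)) :=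
    mul_le_mul (by linarith only [h4]) h2 h3 hL
  unfold a2h
  linarith only [h1, h5]

/-- Lipschitz estimate of the right-hand side -/
theorem a2h_lip (hB : 0 ≤ B) (hK : 0 ≤ K) (hL : 0 ≤ L)
    (hr : ∀ (g : V → ℝ) (v : V), rateP n g v ≤ ENNReal.ofReal L) (T : ℝ) :
    ∃ C : ℝ, 0 ≤ C ∧ ∀ U U' : ℝ × T3 × V → ℝ, A2Adm n B K U → A2Adm n B K U' →
      ∀ s ∈ Icc 0 T, ∀ d : ℝ, 0 ≤ d →
      (∀ p : T3 × V, ‖p.2‖ ≤ n → |U (s, p) - U' (s, p)| ≤ d) →
      ∀ p : T3 × V, ‖p.2‖ ≤ n → |a2h n L U (s, p) - a2h n L U' (s, p)| ≤ C * d := by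
  obtain ⟨K1, hK1, h1⟩ := gainP_lip n (B * Real.exp (K * T))
  obtain ⟨K2, hK2, h2⟩ := rateP_lip n (B * Real.exp (K * T))
  refine ⟨K1 + L + K2 * (B * Real.exp (K * T)), by (clear * - hK1 hL hK2 hB; positivity), ?_⟩
  intro U U' hU hU' s hs d hd hd' p hp
  have hexp : B * Real.exp (K * s) ≤ B * Real.exp (K * T) := by
    have := hs.2
    (clear * - this hK hB; gcongr)
  have hdF : ∀ y v, ‖v‖ ≤ n → |a2F U s y v - a2F U' s y v| ≤ d := fun y v hv => hd' _ hv
  have e1 : |a2b n U (s, p) - a2b n U' (s, p)| ≤ K1 * d :=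
    h1 _ _ (hU.sm s _) (hU'.sm s _) (hU.sn s _) (hU'.sn s _)
      (fun v hv => (hU.sl hs.1 _ v hv).trans hexp) (fun v hv => (hU'.sl hs.1 _ v hv).trans hexp)
      d hd (fun v hv => hdF _ v hv) _
  have e2 : |a2a n U (s, p) - a2a n U' (s, p)| ≤ K2 * d :=
    h2 _ _ (hU.sm s _) (hU'.sm s _) (hU.sn s _) (hU'.sn s _)
      (fun v hv => (hU.sl hs.1 _ v hv).trans hexp) (fun v hv => (hU'.sl hs.1 _ v hv).trans hexp)
      d hd (fun v hv => hdF _ v hv) _
  have e3 := hd' p hp
  have e4 : |L - a2a n U (s, p)| ≤ L := by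
    have := a2a_le (U := U) hL hr (s, p)
    have := a2a_nonneg (n := n) (U := U) (s, p)
    rw [abs_le]
    constructor <;> linarith
  have e5 : |U' (s, p)| ≤ B * Real.exp (K * T) := by
    rw [abs_of_nonneg (hU'.nn _)]
    exact (hU'.le s p hs.1 hp).trans hexp
  have e6 : a2h n L U (s, p) - a2h n L U' (s, p) = (a2b n U (s, p) - a2b n U' (s, p)) +
      (L - a2a n U (s, p)) * (U (s, p) - U' (s, p)) -
      (a2a n U (s, p) - a2a n U' (s, p)) * U' (s, p) := by
    unfold a2h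
    ring
  rw [e6]
  calc |(a2b n U (s, p) - a2b n U' (s, p)) + (L - a2a n U (s, p)) * (U (s, p) - U' (s, p)) -
        (a2a n U (s, p) - a2a n U' (s, p)) * U' (s, p)|
      ≤ |a2b n U (s, p) - a2b n U' (s, p)| + |(L - a2a n U (s, p)) * (U (s, p) - U' (s, p))| +
        |(a2a n U (s, p) - a2a n U' (s, p)) * U' (s, p)| :=
        (abs_sub _ _).trans (add_le_add (abs_add_le _ _) le_rfl)
    _ ≤ K1 * d + L * d + K2 * d * (B * Real.exp (K * T)) := by
        rw [abs_mul, abs_mul]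
        (clear * - e1 e4 e3 hL e2 e5 hK2 hd; gcongr)
    _ = (K1 + L + K2 * (B * Real.exp (K * T))) * d := by ring

end est

theorem a2_meas_int {f : ℝ × T3 × V → ℝ} (hf : Measurable f) :
    Measurable fun q : ℝ × T3 × V => ∫ s in Ioc 0 q.1, f (s, q.2) := by
  have h1 : ∀ q : ℝ × T3 × V, ∫ s in Ioc 0 q.1, f (s, q.2) =
      ∫ s, (Ioc 0 q.1).indicator (fun s => f (s, q.2)) s := fun q =>
    (integral_indicator measurableSet_Ioc).symm
  simp_rw [h1]
  have h2 : Measurable fun z : (ℝ × T3 × V) × ℝ =>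
      (Ioc 0 z.1.1).indicator (fun s => f (s, z.1.2)) z.2 := by
    simp only [indicator, mem_Ioc]
    refine Measurable.ite ?_ (hf.comp (by fun_prop)) measurable_const
    exact (measurableSet_lt measurable_const measurable_snd).inter
      (measurableSet_le measurable_snd (by fun_prop))
  exact (h2.stronglyMeasurable.integral_prod_right').measurable

theorem a2_exp_int (c : ℝ) {t : ℝ} (ht : 0 ≤ t) :
    ∫ s in Ioc 0 t, c * Real.exp (c * s) = Real.exp (c * t) - 1 := by
  rw [← intervalIntegral.integral_of_le ht]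
  have h : ∀ s ∈ uIcc 0 t, HasDerivAt (fun s => Real.exp (c * s)) (c * Real.exp (c * s)) s := by
    intro s _
    have h1 := ((hasDerivAt_id s).const_mul c).exp
    simpa only [id_eq, mul_one, mul_comm] using h1
  rw [intervalIntegral.integral_eq_sub_of_hasDerivAt h
    ((by fun_prop : Continuous fun s => c * Real.exp (c * s)).intervalIntegrable _ _)]
  simp

/-- the iteration -/
def a2N (n : ℕ) (L : ℝ) (F0 : T3 → V → ℝ) (U : ℝ × T3 × V → ℝ) (q : ℝ × T3 × V) : ℝ :=
  if ‖q.2.2‖ ≤ n ∧ 0 ≤ q.1 then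
    (F0 q.2.1 q.2.2 + ∫ s in Ioc 0 q.1, Real.exp (L * s) * a2h n L U (s, q.2)) *
      Real.exp (-(L * q.1))
  else F0 q.2.1 q.2.2

section step

variable {n : ℕ} {B K L : ℝ} {U U' : ℝ × T3 × V → ℝ} {F0 : T3 → V → ℝ}

theorem a2_intOn (hB : 0 ≤ B) (hK : 0 ≤ K) (hL : 0 ≤ L)
    (hr : ∀ (g : V → ℝ) (v : V), rateP n g v ≤ ENNReal.ofReal L)
    (hg : ∀ g : V → ℝ, Measurable g → (∀ v, 0 ≤ g v) →
      ∀ B : ℝ, (∀ v, ‖v‖ ≤ n → g v ≤ B) → ∀ v, gainP n g v ≤ ENNReal.ofReal (K * B))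
    (h : A2Adm n B K U) {p : T3 × V} (hp : ‖p.2‖ ≤ n) (t : ℝ) :
    IntegrableOn (fun s => Real.exp (L * s) * a2h n L U (s, p)) (Ioc 0 t) ∧
    ∀ s ∈ Ioc 0 t, ‖Real.exp (L * s) * a2h n L U (s, p)‖ ≤
      B * ((K + L) * Real.exp ((K + L) * s)) := by
  have hb : ∀ s ∈ Ioc 0 t, ‖Real.exp (L * s) * a2h n L U (s, p)‖ ≤
      B * ((K + L) * Real.exp ((K + L) * s)) := by
    intro s hs
    rw [Real.norm_eq_abs, abs_of_nonneg (mul_nonneg (Real.exp_pos _).le (a2h_nonneg hL hr h _))]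
    calc Real.exp (L * s) * a2h n L U (s, p)
        ≤ Real.exp (L * s) * ((K + L) * (B * Real.exp (K * s))) := by
          gcongr
          exact a2h_le hB hK hL hr hg h hs.1.le hp
      _ = B * ((K + L) * Real.exp ((K + L) * s)) := by
          have h1 : Real.exp ((K + L) * s) = Real.exp (K * s) * Real.exp (L * s) := by
            rw [← Real.exp_add]
            congr 1
            ring
          rw [h1]
          ring
  refine ⟨?_, hb⟩
  have hc : Continuous fun s : ℝ => B * ((K + L) * Real.exp ((K + L) * s)) := by fun_prop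
  refine Integrable.mono' (hc.integrableOn_Ioc (a := 0) (b := t)) ?_ ?_
  · have hm := (a2h_meas n L h.meas).comp (measurable_id.prodMk (measurable_const (a := p)))
    exact ((by fun_prop : Measurable fun s : ℝ => Real.exp (L * s)).mul hm).aestronglyMeasurable
  · exact (ae_restrict_iff' measurableSet_Ioc).2 (Eventually.of_forall hb)

theorem a2N_adm (m0 : Measurable fun p : T3 × V => F0 p.1 p.2)
    (n0 : ∀ x v, 0 ≤ F0 x v) (hF : ∀ x v, ‖v‖ ≤ n → F0 x v ≤ B)
    (hB : 0 ≤ B) (hK : 0 ≤ K) (hL : 0 ≤ L)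
    (hr : ∀ (g : V → ℝ) (v : V), rateP n g v ≤ ENNReal.ofReal L)
    (hg : ∀ g : V → ℝ, Measurable g → (∀ v, 0 ≤ g v) →
      ∀ B : ℝ, (∀ v, ‖v‖ ≤ n → g v ≤ B) → ∀ v, gainP n g v ≤ ENNReal.ofReal (K * B))
    (h : A2Adm n B K U) : A2Adm n B K (a2N n L F0 U) := by
  refine ⟨?_, ?_, ?_⟩
  · have h1 : Measurable fun q : ℝ × T3 × V => F0 q.2.1 q.2.2 := m0.comp measurable_snd
    have h2 := a2_meas_int (f := fun z : ℝ × T3 × V => Real.exp (L * z.1) * a2h n L U z)
      ((by fun_prop : Measurable fun z : ℝ × T3 × V => Real.exp (L * z.1)).mul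
        (a2h_meas n L h.meas))
    have h3 : Measurable fun q : ℝ × T3 × V => Real.exp (-(L * q.1)) := by fun_prop
    have h4 : MeasurableSet {q : ℝ × T3 × V | ‖q.2.2‖ ≤ n ∧ 0 ≤ q.1} := by
      have h5 : Measurable fun q : ℝ × T3 × V => ‖q.2.2‖ := by fun_prop
      exact (measurableSet_le h5 measurable_const).inter
        (measurableSet_le measurable_const measurable_fst)
    exact Measurable.ite h4 ((h1.add h2).mul h3) h1
  · intro q
    unfold a2N
    split_ifs with hq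
    · refine mul_nonneg (add_nonneg (n0 _ _) ?_) (Real.exp_pos _).le
      exact integral_nonneg fun s => mul_nonneg (Real.exp_pos _).le (a2h_nonneg hL hr h _)
    · exact n0 _ _
  · intro t p ht hp
    unfold a2N
    rw [if_pos ⟨hp, ht⟩]
    obtain ⟨i1, i2⟩ := a2_intOn hB hK hL hr hg h hp t
    have h1 : ∫ s in Ioc 0 t, Real.exp (L * s) * a2h n L U (s, p) ≤
        B * (Real.exp ((K + L) * t) - 1) := by
      rw [← a2_exp_int (K + L) ht, ← integral_const_mul]
      have hc : Continuous fun s : ℝ => B * ((K + L) * Real.exp ((K + L) * s)) := by fun_prop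
      refine setIntegral_mono_on i1 (hc.integrableOn_Ioc) measurableSet_Ioc fun s hs => ?_
      exact (le_abs_self _).trans (i2 s hs)
    have h2 := hF p.1 p.2 hp
    calc (F0 p.1 p.2 + ∫ s in Ioc 0 t, Real.exp (L * s) * a2h n L U (s, p)) *
          Real.exp (-(L * t))
        ≤ (B + B * (Real.exp ((K + L) * t) - 1)) * Real.exp (-(L * t)) := by (clear * - h2 h1; gcongr)
      _ = B * (Real.exp ((K + L) * t) * Real.exp (-(L * t))) := by ring
      _ = B * Real.exp (K * t) := by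
          rw [← Real.exp_add]
          congr 2
          ring

theorem a2N_lip (hB : 0 ≤ B) (hK : 0 ≤ K) (hL : 0 ≤ L)
    (hr : ∀ (g : V → ℝ) (v : V), rateP n g v ≤ ENNReal.ofReal L)
    (hg : ∀ g : V → ℝ, Measurable g → (∀ v, 0 ≤ g v) →
      ∀ B : ℝ, (∀ v, ‖v‖ ≤ n → g v ≤ B) → ∀ v, gainP n g v ≤ ENNReal.ofReal (K * B)) (T : ℝ) :
    ∃ β : ℝ, 0 ≤ β ∧ ∀ U U' : ℝ × T3 × V → ℝ, A2Adm n B K U → A2Adm n B K U' → ∀ D : ℝ, 0 ≤ D →
      (∀ s ∈ Icc 0 T, ∀ p : T3 × V, ‖p.2‖ ≤ n → |U (s, p) - U' (s, p)| ≤ D * Real.exp (β * s)) →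
      ∀ t ∈ Icc 0 T, ∀ p : T3 × V, ‖p.2‖ ≤ n →
        |a2N n L F0 U (t, p) - a2N n L F0 U' (t, p)| ≤ D / 2 * Real.exp (β * t) := by
  obtain ⟨C, hC, hlip⟩ := a2h_lip hB hK hL hr T
  have hβ : 0 < 2 * C + 1 := by (clear * - hC; linarith)
  refine ⟨2 * C + 1, hβ.le, ?_⟩
  set β := 2 * C + 1 with hβd
  intro U U' hU hU' D hD hd t ht p hp
  obtain ⟨i1, -⟩ := a2_intOn hB hK hL hr hg hU hp t
  obtain ⟨i2, -⟩ := a2_intOn hB hK hL hr hg hU' hp t
  unfold a2N
  rw [if_pos ⟨hp, ht.1⟩, if_pos ⟨hp, ht.1⟩]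
  simp only
  rw [← sub_mul, add_sub_add_left_eq_sub, ← integral_sub i1 i2, abs_mul,
    abs_of_pos (Real.exp_pos _)]
  have h1 : |∫ s in Ioc 0 t, (Real.exp (L * s) * a2h n L U (s, p) -
      Real.exp (L * s) * a2h n L U' (s, p))| ≤
      ∫ s in Ioc 0 t, Real.exp (L * t) * (D / 2) * (β * Real.exp (β * s)) := by
    have hc : Continuous fun s : ℝ => Real.exp (L * t) * (D / 2) * (β * Real.exp (β * s)) := by
      fun_prop
    rw [← Real.norm_eq_abs]
    refine norm_integral_le_of_norm_le (hc.integrableOn_Ioc (μ := volume) (a := 0) (b := t)) ?_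
    refine (ae_restrict_iff' measurableSet_Ioc).2 (Eventually.of_forall fun s hs => ?_)
    have hsT : s ∈ Icc 0 T := ⟨hs.1.le, hs.2.trans ht.2⟩
    have h2 := hlip U U' hU hU' s hsT (D * Real.exp (β * s)) (by (clear * - hD; positivity)) (hd s hsT) p hp
    rw [← mul_sub, norm_mul, Real.norm_eq_abs, Real.norm_eq_abs, abs_of_pos (Real.exp_pos _)]
    calc Real.exp (L * s) * |a2h n L U (s, p) - a2h n L U' (s, p)|
        ≤ Real.exp (L * t) * (C * (D * Real.exp (β * s))) := by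
          have := hs.2
          (clear * - this hL h2; gcongr)
      _ ≤ Real.exp (L * t) * (β / 2 * (D * Real.exp (β * s))) := by
          gcongr
          linarith only []
      _ = Real.exp (L * t) * (D / 2) * (β * Real.exp (β * s)) := by ring
  rw [integral_const_mul, a2_exp_int β ht.1] at h1
  calc |∫ s in Ioc 0 t, (Real.exp (L * s) * a2h n L U (s, p) -
        Real.exp (L * s) * a2h n L U' (s, p))| * Real.exp (-(L * t))
      ≤ Real.exp (L * t) * (D / 2) * (Real.exp (β * t) - 1) * Real.exp (-(L * t)) := by gcongr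
    _ = (Real.exp (L * t) * Real.exp (-(L * t))) * (D / 2 * (Real.exp (β * t) - 1)) := by ring
    _ = D / 2 * (Real.exp (β * t) - 1) := by
        rw [← Real.exp_add, add_neg_cancel, Real.exp_zero, one_mul]
    _ ≤ D / 2 * Real.exp (β * t) := by
        gcongr
        linarith only []

end step

/-- the iterates -/
def a2U (n : ℕ) (L : ℝ) (F0 : T3 → V → ℝ) : ℕ → ℝ × T3 × V → ℝ
  | 0 => fun q => F0 q.2.1 q.2.2
  | k + 1 => a2N n L F0 (a2U n L F0 k)

/-- the fixed point -/
theorem a2_exists {n : ℕ} {B K L : ℝ} {F0 : T3 → V → ℝ}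
    (m0 : Measurable fun p : T3 × V => F0 p.1 p.2)
    (n0 : ∀ x v, 0 ≤ F0 x v) (hF : ∀ x v, ‖v‖ ≤ n → F0 x v ≤ B)
    (hB : 0 ≤ B) (hK : 0 ≤ K) (hL : 0 ≤ L)
    (hr : ∀ (g : V → ℝ) (v : V), rateP n g v ≤ ENNReal.ofReal L)
    (hg : ∀ g : V → ℝ, Measurable g → (∀ v, 0 ≤ g v) →
      ∀ B : ℝ, (∀ v, ‖v‖ ≤ n → g v ≤ B) → ∀ v, gainP n g v ≤ ENNReal.ofReal (K * B)) :
    ∃ U : ℝ × T3 × V → ℝ, A2Adm n B K U ∧ ∀ q, U q = a2N n L F0 U q := by
  have adm : ∀ k, A2Adm n B K (a2U n L F0 k) := by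
    intro k
    induction k with
    | zero =>
      refine ⟨m0.comp measurable_snd, fun q => n0 _ _, fun t p ht hp => ?_⟩
      have h1 : 1 ≤ Real.exp (K * t) := Real.one_le_exp (by (clear * - hK ht; positivity))
      calc F0 p.1 p.2 ≤ B := hF _ _ hp
        _ ≤ B * Real.exp (K * t) := le_mul_of_one_le_right hB h1
    | succ k ih => exact a2N_adm m0 n0 hF hB hK hL hr hg ih
  have hout : ∀ (q : ℝ × T3 × V), ¬(‖q.2.2‖ ≤ n ∧ 0 ≤ q.1) → ∀ k,
      a2U n L F0 k q = F0 q.2.1 q.2.2 := by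
    intro q hq k
    cases k with
    | zero => rfl
    | succ k => rw [a2U, a2N, if_neg hq]
  -- geometric decay
  have geo : ∀ T : ℝ, ∃ β : ℝ, 0 ≤ β ∧
      (∀ U U' : ℝ × T3 × V → ℝ, A2Adm n B K U → A2Adm n B K U' → ∀ D : ℝ, 0 ≤ D →
      (∀ s ∈ Icc 0 T, ∀ p : T3 × V, ‖p.2‖ ≤ n → |U (s, p) - U' (s, p)| ≤ D * Real.exp (β * s)) →
      ∀ t ∈ Icc 0 T, ∀ p : T3 × V, ‖p.2‖ ≤ n →
        |a2N n L F0 U (t, p) - a2N n L F0 U' (t, p)| ≤ D / 2 * Real.exp (β * t)) ∧
      ∀ k, ∀ t ∈ Icc 0 T, ∀ p : T3 × V, ‖p.2‖ ≤ n →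
        |a2U n L F0 k (t, p) - a2U n L F0 (k + 1) (t, p)| ≤
          B * Real.exp (K * T) * (1 / 2) ^ k * Real.exp (β * t) := by
    intro T
    obtain ⟨β, hβ, hl⟩ := a2N_lip (F0 := F0) hB hK hL hr hg T
    refine ⟨β, hβ, hl, fun k => ?_⟩
    induction k with
    | zero =>
      intro t ht p hp
      have h1 := (adm 0).le t p ht.1 hp
      have h2 := (adm 1).le t p ht.1 hp
      have h3 := (adm 0).nn (t, p)
      have h4 := (adm 1).nn (t, p)
      have h5 : 1 ≤ Real.exp (β * t) := Real.one_le_exp (mul_nonneg hβ ht.1)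
      have h6 : B * Real.exp (K * t) ≤ B * Real.exp (K * T) := by
        have := ht.2
        (clear * - this hK hB; gcongr)
      calc |a2U n L F0 0 (t, p) - a2U n L F0 (0 + 1) (t, p)| ≤ B * Real.exp (K * T) := by
            rw [abs_le]
            constructor <;> linarith only [h1, h4, h6, h2, h3]
        _ ≤ B * Real.exp (K * T) * Real.exp (β * t) :=
            le_mul_of_one_le_right (by (clear * - hB; positivity)) h5
        _ = _ := by ring
    | succ k ih =>
      intro t ht p hp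
      have h1 := hl _ _ (adm k) (adm (k + 1)) (B * Real.exp (K * T) * (1 / 2) ^ k)
        (by (clear * - hB; positivity)) ih t ht p hp
      refine h1.trans (le_of_eq ?_)
      rw [pow_succ]
      ring
  have hlim : ∀ q : ℝ × T3 × V, ∃ u : ℝ, Tendsto (fun k => a2U n L F0 k q) atTop (𝓝 u) := by
    intro q
    by_cases hq : ‖q.2.2‖ ≤ n ∧ 0 ≤ q.1
    · obtain ⟨β, hβ, -, h⟩ := geo q.1
      have hc : CauchySeq fun k => a2U n L F0 k q := by
        refine cauchySeq_of_le_geometric (1 / 2)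
          (B * Real.exp (K * q.1) * Real.exp (β * q.1)) (by norm_num) fun k => ?_
        rw [Real.dist_eq]
        refine (h k q.1 ⟨hq.2, le_rfl⟩ q.2 hq.1).trans (le_of_eq ?_)
        ring
      exact cauchySeq_tendsto_of_complete hc
    · refine ⟨F0 q.2.1 q.2.2, ?_⟩
      simp only [hout q hq]
      exact tendsto_const_nhds
  choose U hU using hlim
  have admU : A2Adm n B K U := by
    refine ⟨measurable_of_tendsto_metrizable (fun k => (adm k).meas) (tendsto_pi_nhds.2 hU),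
      fun q => ge_of_tendsto' (hU q) fun k => (adm k).nn q,
      fun t p ht hp => le_of_tendsto' (hU (t, p)) fun k => (adm k).le t p ht hp⟩
  refine ⟨U, admU, fun q => ?_⟩
  by_cases hq : ‖q.2.2‖ ≤ n ∧ 0 ≤ q.1
  · obtain ⟨β, hβ, hl, h⟩ := geo q.1
    have tail : ∀ k, ∀ s ∈ Icc 0 q.1, ∀ p : T3 × V, ‖p.2‖ ≤ n →
        |a2U n L F0 k (s, p) - U (s, p)| ≤
          2 * (B * Real.exp (K * q.1) * (1 / 2) ^ k) * Real.exp (β * s) := by
      intro k s hs p hp
      have h1 := dist_le_of_le_geometric_of_tendsto (1 / 2)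
        (B * Real.exp (K * q.1) * Real.exp (β * s)) (by norm_num)
        (f := fun k => a2U n L F0 k (s, p)) (fun k => by
          rw [Real.dist_eq]
          refine (h k s hs p hp).trans (le_of_eq ?_)
          ring) (hU (s, p)) k
      rw [Real.dist_eq] at h1
      refine h1.trans (le_of_eq ?_)
      ring
    have h2 : Tendsto (fun k => a2N n L F0 (a2U n L F0 k) q) atTop (𝓝 (a2N n L F0 U q)) := by
      rw [tendsto_iff_dist_tendsto_zero]
      have h3 : Tendsto (fun k : ℕ => 2 * (B * Real.exp (K * q.1) * (1 / 2) ^ k) / 2 *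
          Real.exp (β * q.1)) atTop (𝓝 (2 * (B * Real.exp (K * q.1) * 0) / 2 *
          Real.exp (β * q.1))) :=
        ((((tendsto_pow_atTop_nhds_zero_of_lt_one (by norm_num) (by norm_num)).const_mul _).const_mul
          2).div_const 2).mul_const _
      rw [mul_zero, mul_zero, zero_div, zero_mul] at h3
      refine squeeze_zero (fun _ => dist_nonneg) (fun k => ?_) h3
      rw [Real.dist_eq]
      exact hl _ _ (adm k) admU _ (by (clear * - hB; positivity)) (tail k) q.1 ⟨hq.2, le_rfl⟩ q.2 hq.1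
    exact tendsto_nhds_unique ((tendsto_add_atTop_iff_nat 1).2 (hU q)) h2
  · rw [a2N, if_neg hq]
    refine tendsto_nhds_unique (hU q) ?_
    simp only [hout q hq]
    exact tendsto_const_nhds

/-- global existence for the truncated problem -/
theorem exists_isBM (n : ℕ) {F0 : T3 → V → ℝ} (m0 : Measurable fun p : T3 × V => F0 p.1 p.2)
    (n0 : ∀ x v, 0 ≤ F0 x v) {B : ℝ} (hB : ∀ x v, ‖v‖ ≤ n → F0 x v ≤ B) :
    ∃ F : ℝ → T3 → V → ℝ, IsBM n F0 F := by
  obtain ⟨L, hL, hr⟩ := a2_rate_bd n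
  obtain ⟨K, hK, hg⟩ := gainP_le n
  have hB0 : 0 ≤ B := (n0 0 0).trans (hB 0 0 (by simp only [norm_zero, Nat.cast_nonneg]))
  obtain ⟨U, adm, hU⟩ := a2_exists m0 n0 hB hB0 hK hL hr hg
  refine ⟨a2F U, m0, n0, a2F_meas adm.meas, fun t x v => adm.nn _, ?_, ?_⟩
  · intro T
    refine ⟨B * Real.exp (K * T), fun t ht x v hv => (adm.sl ht.1 x v hv).trans ?_⟩
    have := ht.2
    gcongr
  · intro p t ht
    have hal : along (a2F U) (t, p) = U (t, p) := a2F_flow U t p
    have hQ : ∀ s, along (QN n (a2F U)) (s, p) = a2b n U (s, p) - U (s, p) * a2a n U (s, p) := by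
      intro s
      have h1 : a2F U s (p.1 + toTorus (s • p.2)) p.2 = U (s, p) := a2F_flow U s p
      simp only [along, QN, h1]
      rfl
    rw [hal]
    simp only [hQ]
    by_cases hp : ‖p.2‖ ≤ n
    · have hfix : ∀ s, 0 ≤ s → U (s, p) = (F0 p.1 p.2 + ∫ r in (0 : ℝ)..s,
          Real.exp (L * r) * a2h n L U (r, p)) * Real.exp (-(L * s)) := by
        intro s hs
        rw [hU (s, p), a2N, if_pos ⟨hp, hs⟩, intervalIntegral.integral_of_le hs]
      obtain ⟨i1, -⟩ := a2_intOn hB0 hK hL hr hg adm hp t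
      have hr1 : IntervalIntegrable (fun s => Real.exp (L * s) * a2h n L U (s, p)) volume 0 t :=
        (intervalIntegrable_iff_integrableOn_Ioc_of_le ht).2 i1
      have key := int_factor ht hr1 (intervalIntegrable_const (c := -L)) (F0 p.1 p.2)
        (τ := 0) (t := t) le_rfl ht le_rfl
      have hE : ∀ s : ℝ, (0 : ℝ) + ∫ _u in (0 : ℝ)..s, -L = -(L * s) := by
        intro s
        rw [intervalIntegral.integral_const]
        simp only [sub_zero, smul_eq_mul, mul_neg, zero_add, neg_inj]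
        ring
      simp only [hE] at key
      rw [← hfix t ht] at key
      rw [key, intervalIntegral.integral_same, add_zero, mul_zero, neg_zero, Real.exp_zero, mul_one,
        intervalIntegral.integral_of_le ht]
      congr 1
      refine setIntegral_congr_fun measurableSet_Ioc fun s hs => ?_
      have h1 := hfix s hs.1.le
      have h2 : Real.exp (L * s) * Real.exp (-(L * s)) = 1 := by
        rw [← Real.exp_add, add_neg_cancel, Real.exp_zero]
      rw [add_mul, mul_assoc (-L), ← h1, mul_right_comm, h2, one_mul, a2h]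
      ring
    · have h1 := not_le.1 hp
      have h2 : U (t, p) = F0 p.1 p.2 := by
        rw [hU (t, p), a2N, if_neg (fun h => hp h.1)]
      have h3 : ∀ s, a2b n U (s, p) - U (s, p) * a2a n U (s, p) = 0 := by
        intro s
        simp only [a2b, a2a, gainP, rateP, gainN_eq_zero h1, rateN_eq_zero h1]
        simp
      rw [h2]
      simp only [h3, integral_zero, add_zero]

end Vale.Agent.P140.DL
end
end
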