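import Vale.Agent.P140.MathlibUsed
import Vale.Agent.P140.Bd3.B1
import Vale.Agent.P140.Bd3.B3
import Vale.Agent.P140.Bd3.B5
import Vale.Agent.P140.Bd3.B4

set_option linter.all false

attribute [local instance 5000] Vale.Agent.P140.Sc.a01 Vale.Agent.P140.Sc.a02 Vale.Agent.P140.Sc.a03 Vale.Agent.P140.Sc.a04 Vale.Agent.P140.Sc.a05 Vale.Agent.P140.Sc.a06 Vale.Agent.P140.Sc.a07 Vale.Agent.P140.Sc.a08 Vale.Agent.P140.Sc.a09 Vale.Agent.P140.Sc.a10 Vale.Agent.P140.Sc.a11 Vale.Agent.P140.Sc.a12 Vale.Agent.P140.Sc.a13 Vale.Agent.P140.Sc.a14 Vale.Agent.P140.Sc.a15 Vale.Agent.P140.Sc.a16 Vale.Agent.P140.Sc.a17 Vale.Agent.P140.Sc.a18 Vale.Agent.P140.Sc.a19 Vale.Agent.P140.Sc.a20 Vale.Agent.P140.Sc.a21 Vale.Agent.P140.Sc.a22 Vale.Agent.P140.Sc.a23 Vale.Agent.P140.Sc.a24 Vale.Agent.P140.Sc.a25 Vale.Agent.P140.Sc.a26 Vale.Agent.P140.Sc.a27 Vale.Agent.P140.Sc.a28 Vale.Agent.P140.Sc.a29 Vale.Agent.P140.Sc.a30 Vale.Agent.P140.Sc.a31 Vale.Agent.P140.Sc.a32 Vale.Agent.P140.Sc.a33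 Vale.Agent.P140.Sc.r01 Vale.Agent.P140.Sc.r02 Vale.Agent.P140.Sc.r03 Vale.Agent.P140.Sc.r04 Vale.Agent.P140.Sc.r05 Vale.Agent.P140.Sc.r06 Vale.Agent.P140.Sc.r07 Vale.Agent.P140.Sc.r08 Vale.Agent.P140.Sc.r09 Vale.Agent.P140.Sc.r10 Vale.Agent.P140.Sc.r11 Vale.Agent.P140.Sc.r12 Vale.Agent.P140.Sc.r13 Vale.Agent.P140.Sc.r14 Vale.Agent.P140.Sc.r15 Vale.Agent.P140.Sc.r16 Vale.Agent.P140.Sc.r17 Vale.Agent.P140.Sc.r18

section

/-! plane integrals and the plane form of the Carleman inequality -/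

open MeasureTheory Set Filter
open scoped ENNReal Topology

namespace Vale.Agent.P140.NU

/-- integral over the plane through `0` orthogonal to `o` -/
noncomputable def PlI (o : S2) (F : V → ℝ≥0∞) : ℝ≥0∞ :=
  ∫⁻ w : V, (Icc (0 : ℝ) 1).indicator (fun _ => (1 : ℝ≥0∞)) (inner ℝ w (o : V)) *
    F (w - (inner ℝ w (o : V) : ℝ) • (o : V))

theorem inner_perp (o : S2) (w : V) :
    inner ℝ (w - (inner ℝ w (o : V) : ℝ) • (o : V)) (o : V) = (0 : ℝ) := by
  rw [inner_sub_left, inner_smul_left, inner_oo]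
  simp only [Real.ringHom_apply, mul_one, sub_self]

/-- a frame of the plane, with the Fubini formula -/
theorem plane_frame (o : S2) : ∃ b1 b2 : V,
    (∀ a x y : ℝ, ‖a • (o : V) + (x • b1 + y • b2)‖ ^ 2 = a ^ 2 + (x ^ 2 + y ^ 2)) ∧
    (∀ a x y : ℝ, inner ℝ (a • (o : V) + (x • b1 + y • b2)) (o : V) = a) ∧
    (∀ {A : ℝ → ℝ≥0∞} {B : V → ℝ≥0∞}, Measurable A → Measurable B →
      ∫⁻ w : V, A (inner ℝ w (o : V)) * B (w - (inner ℝ w (o : V) : ℝ) • (o : V)) =
        (∫⁻ r : ℝ, A r) * ∫⁻ q : ℝ × ℝ, B (q.1 • b1 + q.2 • b2)) := by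
  obtain ⟨b1, b2, hn, hi, hF⟩ := exists_frame (o : V) (norm_o o)
  refine ⟨b1, b2, hn, hi, ?_⟩
  intro A B hA hB
  have mi : Measurable fun w : V => (inner ℝ w (o : V) : ℝ) := by fun_prop
  have mw : Measurable fun w : V => w - (inner ℝ w (o : V) : ℝ) • (o : V) :=
    measurable_id.sub (mi.smul_const _)
  have hm : Measurable fun w : V => A (inner ℝ w (o : V)) *
      B (w - (inner ℝ w (o : V) : ℝ) • (o : V)) := (hA.comp mi).mul (hB.comp mw)
  rw [hF _ hm]
  have h1 : ∀ (a : ℝ) (q : ℝ × ℝ), A (inner ℝ (a • (o : V) + (q.1 • b1 + q.2 • b2)) (o : V)) *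
      B ((a • (o : V) + (q.1 • b1 + q.2 • b2)) -
        (inner ℝ (a • (o : V) + (q.1 • b1 + q.2 • b2)) (o : V) : ℝ) • (o : V)) =
      A a * B (q.1 • b1 + q.2 • b2) := by
    intro a q
    rw [hi, add_sub_cancel_left]
  simp only [h1]
  have mq : Measurable fun q : ℝ × ℝ => B (q.1 • b1 + q.2 • b2) :=
    hB.comp (by fun_prop)
  have h3 : ∀ a : ℝ, ∫⁻ q : ℝ × ℝ, A a * B (q.1 • b1 + q.2 • b2) =
      A a * ∫⁻ q : ℝ × ℝ, B (q.1 • b1 + q.2 • b2) := fun a => lintegral_const_mul _ mq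
  simp only [h3]
  rw [lintegral_mul_const _ hA]

theorem lintegral_ind01 : ∫⁻ r : ℝ, (Icc (0 : ℝ) 1).indicator (fun _ => (1 : ℝ≥0∞)) r = 1 := by
  rw [lintegral_indicator measurableSet_Icc]
  simp only [lintegral_const, MeasurableSet.univ, Measure.restrict_apply, univ_inter, Real.volume_Icc, sub_zero, ENNReal.ofReal_one, mul_one]

theorem measurable_ind01 : Measurable ((Icc (0 : ℝ) 1).indicator (fun _ => (1 : ℝ≥0∞))) :=
  measurable_const.indicator measurableSet_Icc

/-- integration over lines and orthogonal planes -/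
theorem line_plane (o : S2) {A : ℝ → ℝ≥0∞} {B : V → ℝ≥0∞} (hA : Measurable A)
    (hB : Measurable B) :
    ∫⁻ w : V, A (inner ℝ w (o : V)) * B (w - (inner ℝ w (o : V) : ℝ) • (o : V)) =
      (∫⁻ r : ℝ, A r) * PlI o B := by
  obtain ⟨b1, b2, hn, hi, hF⟩ := plane_frame o
  rw [hF hA hB]
  unfold PlI
  rw [hF measurable_ind01 hB, lintegral_ind01, one_mul]

theorem PlI_mono (o : S2) {F G : V → ℝ≥0∞} (h : ∀ p : V, inner ℝ p (o : V) = (0 : ℝ) → F p ≤ G p) :
    PlI o F ≤ PlI o G := by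
  unfold PlI
  refine lintegral_mono fun w => ?_
  gcongr
  exact h _ (inner_perp o w)

theorem measurable_perp (o : S2) :
    Measurable fun w : V => w - (inner ℝ w (o : V) : ℝ) • (o : V) := by
  have mi : Measurable fun w : V => (inner ℝ w (o : V) : ℝ) := by fun_prop
  exact measurable_id.sub (mi.smul_const _)

theorem PlI_add (o : S2) {F G : V → ℝ≥0∞} (hF : Measurable F) :
    PlI o (fun p => F p + G p) = PlI o F + PlI o G := by
  unfold PlI
  have mi : Measurable fun w : V => (inner ℝ w (o : V) : ℝ) := by fun_prop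
  simp only [mul_add]
  rw [lintegral_add_left]
  exact (measurable_ind01.comp mi).mul (hF.comp (measurable_perp o))

theorem PlI_const_mul (o : S2) {F : V → ℝ≥0∞} (hF : Measurable F) (c : ℝ≥0∞) :
    PlI o (fun p => c * F p) = c * PlI o F := by
  unfold PlI
  have mi : Measurable fun w : V => (inner ℝ w (o : V) : ℝ) := by fun_prop
  rw [← lintegral_const_mul]
  · apply lintegral_congr
    intro w
    ring
  · exact (measurable_ind01.comp mi).mul (hF.comp (measurable_perp o))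

/-- translation invariance -/
theorem PlI_translate (o : S2) {F : V → ℝ≥0∞} (z : V) (hz : inner ℝ z (o : V) = (0 : ℝ)) :
    PlI o (fun p => F (p + z)) = PlI o F := by
  unfold PlI
  have h := lintegral_add_right_eq_self (μ := (volume : Measure V))
    (fun w : V => (Icc (0 : ℝ) 1).indicator (fun _ => (1 : ℝ≥0∞)) (inner ℝ w (o : V)) *
    F (w - (inner ℝ w (o : V) : ℝ) • (o : V))) z
  rw [← h]
  apply lintegral_congr
  intro w
  have e : inner ℝ (w + z) (o : V) = (inner ℝ w (o : V) : ℝ) := by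
    rw [inner_add_left, hz, add_zero]
  rw [e]
  beta_reduce
  rw [sub_add_eq_add_sub]

/-- planar Gaussian integral -/
theorem PlI_gau (o : S2) (c : ℝ) :
    PlI o (fun p => ENNReal.ofReal (Real.exp (-(c * ‖p‖ ^ 2)))) = G2 c := by
  have h := line_int o measurable_ind01 c
  unfold PlI
  rw [h, lintegral_ind01, mul_one]

/-- Carleman inequality: the second factor is bounded by a function of the plane variable -/
theorem carl_plane {f : V → ℝ≥0∞} (hf : Measurable f) (v : V) {B : S2 → V → ℝ≥0∞}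
    (hB : Measurable fun p : V × S2 => B p.2 p.1) {J : ℝ≥0∞} (hJt : J ≠ ⊤)
    (hJ : ∀ o : S2, (∃ r : ℝ, f (v + r • (o : V)) ≠ 0) → PlI o (B o) ≤ J)
    {h : V → S2 → ℝ≥0∞}
    (hh : ∀ w (o : S2), f (post v w o) ≠ 0 →
      h w o ≤ B o (w - (inner ℝ w (o : V) : ℝ) • (o : V))) :
    ∫⁻ w, ∫⁻ o, kk v w o * (f (post v w o) * h w o) ∂surf ≤
      J * (2 * ∫⁻ y : V, ENNReal.ofReal ‖y - v‖⁻¹ * f y) := by
  have k0 : ∫⁻ w, ∫⁻ o, kk v w o * (f (post v w o) * h w o) ∂surf ≤
      ∫⁻ w, ∫⁻ o, kk v w o * (f (post v w o) *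
        B o (w - (inner ℝ w (o : V) : ℝ) • (o : V))) ∂surf := by
    refine lintegral_mono fun w => lintegral_mono fun o => ?_
    by_cases h0 : f (post v w o) = 0
    · simp only [h0, zero_mul, mul_zero, le_refl]
    · simp only
      gcongr
      exact hh w o h0
  refine k0.trans ?_
  have mw : Measurable fun p : V × S2 =>
      ((p.1 - (inner ℝ p.1 (p.2 : V) : ℝ) • (p.2 : V), p.2) : V × S2) := by fun_prop
  have mk : Measurable fun p : V × S2 => kk v p.1 p.2 * (f (post v p.1 p.2) *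
      B p.2 (p.1 - (inner ℝ p.1 (p.2 : V) : ℝ) • (p.2 : V))) := by
    have k1 : Measurable fun p : V × S2 => ((v, p.1, p.2) : V × V × S2) := by fun_prop
    have k2 := measurable_kk.comp k1
    have k3 := (meas_post_comp hf).comp k1
    have k4 := hB.comp mw
    exact k2.mul (k3.mul k4)
  rw [lintegral_lintegral_swap mk.aemeasurable, ← line_polar hf v,
    ← lintegral_const_mul' _ _ hJt]
  apply lintegral_mono
  intro o
  simp only
  have hA : Measurable fun b : ℝ => ENNReal.ofReal |inner ℝ v (o : V) - b| *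
      f (v + (b - inner ℝ v (o : V)) • (o : V)) := by
    apply Measurable.mul
    · exact (measurable_const.sub measurable_id).abs.ennreal_ofReal
    · exact hf.comp (measurable_const.add ((measurable_id.sub measurable_const).smul_const _))
  have hBo : Measurable (B o) := hB.comp (by fun_prop : Measurable fun w : V => (w, o))
  have hl := line_plane o hA hBo
  have e1 : ∫⁻ r : ℝ, ENNReal.ofReal |inner ℝ v (o : V) - r| *
      f (v + (r - inner ℝ v (o : V)) • (o : V)) = ∫⁻ r : ℝ, ENNReal.ofReal |r| * f (v + r • (o : V)) := by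
    have h := lintegral_add_right_eq_self (μ := (volume : Measure ℝ))
      (fun r => ENNReal.ofReal |inner ℝ v (o : V) - r| *
      f (v + (r - inner ℝ v (o : V)) • (o : V))) (inner ℝ v (o : V))
    rw [← h]
    apply lintegral_congr
    intro r
    rw [add_sub_cancel_right, sub_add_cancel_right, abs_neg]
  rw [e1] at hl
  have e4 : ∫⁻ w : V, kk v w o * (f (post v w o) *
      B o (w - (inner ℝ w (o : V) : ℝ) • (o : V))) =
      (∫⁻ r : ℝ, ENNReal.ofReal |r| * f (v + r • (o : V))) * PlI o (B o) := by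
    rw [← hl]
    apply lintegral_congr
    intro w
    have e2 : relA v w o = inner ℝ v (o : V) - inner ℝ w (o : V) := by
      unfold relA
      rw [inner_sub_left]
    have e3 : post v w o = v + (inner ℝ w (o : V) - inner ℝ v (o : V) : ℝ) • (o : V) := by
      unfold post
      rw [e2, sub_eq_add_neg, ← neg_smul, neg_sub]
    unfold kk
    rw [e2, e3, mul_assoc]
  rw [e4, mul_comm]
  by_cases hr : ∃ r : ℝ, f (v + r • (o : V)) ≠ 0
  · gcongr
    exact hJ o hr
  · push Not at hr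
    simp only [hr, mul_zero, lintegral_zero, le_refl]

/-- Carleman inequality for the gain operator -/
theorem Gam_le_plane {f g : V → ℝ≥0∞} (hf : Measurable f) (hg : Measurable g) (v : V)
    {J : ℝ≥0∞} (hJt : J ≠ ⊤)
    (hJ : ∀ o : S2, (∃ r : ℝ, f (v + r • (o : V)) ≠ 0) → PlI o (fun p => g (v + p)) ≤ J) :
    Gam f g v ≤ J * (2 * ∫⁻ y : V, ENNReal.ofReal ‖y - v‖⁻¹ * f y) := by
  refine carl_plane hf v (B := fun o p => g (p + (inner ℝ v (o : V) : ℝ) • (o : V))) ?_ hJt ?_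
    (h := fun w o => g (postStar v w o)) ?_
  · exact hg.comp (by fun_prop)
  · intro o hr
    refine le_trans (le_of_eq ?_) (hJ o hr)
    rw [← PlI_translate o (F := fun p => g (v + p)) (-(v - (inner ℝ v (o : V) : ℝ) • (o : V)))
      (by rw [inner_neg_left, inner_perp, neg_zero])]
    unfold PlI
    apply lintegral_congr
    intro w
    have e5 : w - (inner ℝ w (o : V) : ℝ) • (o : V) + (inner ℝ v (o : V) : ℝ) • (o : V) =
        v + (w - (inner ℝ w (o : V) : ℝ) • (o : V) + -(v - (inner ℝ v (o : V) : ℝ) • (o : V))) := by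
      abel
    beta_reduce
    rw [e5]
  · intro w o _
    refine le_of_eq ?_
    congr 1
    unfold postStar relA
    rw [inner_sub_left, sub_smul]
    abel

end Vale.Agent.P140.NU
end

section

/-! singular velocity weight: plane integrals and potentials -/

open MeasureTheory Set Filter
open scoped ENNReal Topology

namespace Vale.Agent.P140.NU

theorem rpow_anti {a b : ℝ≥0∞} (h : a ≤ b) {s : ℝ} (hs : s ≤ 0) : b ^ s ≤ a ^ s := by
  have e : s = -(-s) := by ring
  rw [e, ENNReal.rpow_neg b, ENNReal.rpow_neg a]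
  exact ENNReal.inv_le_inv.mpr (ENNReal.rpow_le_rpow h (by linarith only [hs]))

/-- truncated inverse power `3/2` of the distance to `u` -/
noncomputable def psi (u v : V) : ℝ≥0∞ := ENNReal.ofReal (‖v - u‖ ^ 2) ^ (-(3 / 4) : ℝ) - 1

theorem measurable_psi (u : V) : Measurable (psi u) := by
  unfold psi
  apply Measurable.sub_const
  apply Measurable.pow_const
  apply ENNReal.measurable_ofReal.comp
  apply Continuous.measurable
  fun_prop

theorem psi_anti {u v u' v' : V} (h : ‖v' - u'‖ ≤ ‖v - u‖) : psi u v ≤ psi u' v' := by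
  unfold psi
  apply tsub_le_tsub_right
  refine rpow_anti ?_ (by norm_num)
  apply ENNReal.ofReal_le_ofReal
  gcongr

/-- planar constant -/
noncomputable def CP : ℝ≥0∞ :=
  ∫⁻ q : ℝ × ℝ, (ENNReal.ofReal (q.1 ^ 2 + q.2 ^ 2) ^ (-(3 / 4) : ℝ) - 1)

theorem lintegral_rpow_ne_top {s : ℝ} (hs : -1 < s) :
    ∫⁻ r in Ioc (0 : ℝ) 1, ENNReal.ofReal (r ^ s) ≠ ⊤ := by
  have h := intervalIntegral.intervalIntegrable_rpow' (a := 0) (b := 1) hs
  rw [intervalIntegrable_iff_integrableOn_Ioc_of_le zero_le_one] at h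
  have h2 := h.2
  unfold HasFiniteIntegral at h2
  refine ne_of_lt (lt_of_le_of_lt ?_ h2)
  refine lintegral_mono fun r => ?_
  rw [← ofReal_norm]
  exact ENNReal.ofReal_le_ofReal (le_abs_self _)

theorem CP_ne_top : CP ≠ ⊤ := by
  unfold CP
  rw [← lintegral_comp_polarCoord_symm]
  have hle : ∫⁻ p in polarCoord.target, ENNReal.ofReal p.1 •
      (ENNReal.ofReal ((polarCoord.symm p).1 ^ 2 + (polarCoord.symm p).2 ^ 2) ^ (-(3 / 4) : ℝ) - 1) ≤
      ∫⁻ p in polarCoord.target,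
        (Ioc (0 : ℝ) 1).indicator (fun r => ENNReal.ofReal (r ^ (-(1 / 2) : ℝ))) p.1 * 1 := by
    apply setLIntegral_mono' (by
      rw [polarCoord_target]; exact measurableSet_Ioi.prod measurableSet_Ioo)
    intro p hp
    rw [polarCoord_target] at hp
    have hr : 0 < p.1 := hp.1
    have e1 : (polarCoord.symm p).1 ^ 2 + (polarCoord.symm p).2 ^ 2 = p.1 ^ 2 := by
      simp only [polarCoord_symm_apply]
      have := Real.sin_sq_add_cos_sq p.2
      nlinarith only [this]
    rw [e1, smul_eq_mul, mul_one]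
    have e2 : ENNReal.ofReal (p.1 ^ 2) ^ (-(3 / 4) : ℝ) = ENNReal.ofReal (p.1 ^ (-(3 / 2) : ℝ)) := by
      rw [ENNReal.ofReal_rpow_of_pos (by (clear * - hr; positivity))]
      congr 1
      rw [← Real.rpow_natCast p.1 2, ← Real.rpow_mul hr.le]
      norm_num
    rw [e2]
    by_cases h1 : p.1 ≤ 1
    · rw [indicator_of_mem (show p.1 ∈ Ioc (0 : ℝ) 1 from ⟨hr, h1⟩)]
      calc ENNReal.ofReal p.1 * (ENNReal.ofReal (p.1 ^ (-(3 / 2) : ℝ)) - 1) ≤
          ENNReal.ofReal p.1 * ENNReal.ofReal (p.1 ^ (-(3 / 2) : ℝ)) := by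
            gcongr; exact tsub_le_self
        _ = ENNReal.ofReal (p.1 ^ (-(1 / 2) : ℝ)) := by
            rw [← ENNReal.ofReal_mul hr.le]
            congr 1
            nth_rewrite 1 [← Real.rpow_one p.1]
            rw [← Real.rpow_add hr]
            norm_num
    · have h2 : p.1 ^ (-(3 / 2) : ℝ) ≤ 1 :=
        Real.rpow_le_one_of_one_le_of_nonpos (by linarith only [h1]) (by (clear * -; norm_num))
      have h3 : ENNReal.ofReal (p.1 ^ (-(3 / 2) : ℝ)) - 1 = 0 := by
        rw [tsub_eq_zero_iff_le]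
        exact ENNReal.ofReal_le_one.mpr h2
      rw [h3, mul_zero]
      exact zero_le
  refine ne_of_lt (lt_of_le_of_lt hle ?_)
  rw [polarCoord_target, Measure.volume_eq_prod, ← Measure.prod_restrict]
  have m1 : Measurable ((Ioc (0 : ℝ) 1).indicator (fun r => ENNReal.ofReal (r ^ (-(1 / 2) : ℝ)))) := by
    apply Measurable.indicator _ measurableSet_Ioc
    exact (measurable_id.pow_const _).ennreal_ofReal
  rw [lintegral_prod_mul (f := (Ioc (0 : ℝ) 1).indicator
    (fun r => ENNReal.ofReal (r ^ (-(1 / 2) : ℝ)))) (g := fun _ => 1) m1.aemeasurable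
    aemeasurable_const]
  apply ENNReal.mul_lt_top
  · refine lt_of_le_of_lt ?_ (lintegral_rpow_ne_top (s := -(1 / 2)) (by norm_num)).lt_top
    rw [← lintegral_indicator measurableSet_Ioc]
    exact setLIntegral_le_lintegral _ _
  · simp only [lintegral_const, MeasurableSet.univ, Measure.restrict_apply, univ_inter, Real.volume_Ioo, sub_neg_eq_add, one_mul, ENNReal.ofReal_lt_top]

/-- plane integral of the singular weight -/
theorem PlI_psi (o : S2) (u v : V) : PlI o (fun p => psi u (v + p)) ≤ CP := by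
  set z : V := (v - u) - (inner ℝ (v - u) (o : V) : ℝ) • (o : V) with hz
  have hzo : inner ℝ z (o : V) = (0 : ℝ) := inner_perp o _
  have h1 : PlI o (fun p => psi u (v + p)) ≤ PlI o (fun p => psi 0 (p + z)) := by
    apply PlI_mono
    intro p hp
    apply psi_anti
    have e : v + p - u = (p + z) + (inner ℝ (v - u) (o : V) : ℝ) • (o : V) := by
      rw [hz]; abel
    have hi : inner ℝ (p + z) ((inner ℝ (v - u) (o : V) : ℝ) • (o : V)) = (0 : ℝ) := by
      rw [inner_smul_right, inner_add_left, hp, hzo]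
      simp only [add_zero, mul_zero]
    rw [sub_zero, e]
    have h2 := norm_add_sq_real (p + z) ((inner ℝ (v - u) (o : V) : ℝ) • (o : V))
    rw [hi] at h2
    have h3 : ‖p + z‖ ^ 2 ≤ ‖p + z + (inner ℝ (v - u) (o : V) : ℝ) • (o : V)‖ ^ 2 := by
      rw [h2]
      have := sq_nonneg ‖(inner ℝ (v - u) (o : V) : ℝ) • (o : V)‖
      linarith only [this]
    exact le_of_sq_le_sq h3 (norm_nonneg _)
  refine h1.trans (le_of_eq ?_)
  rw [PlI_translate o z hzo]
  obtain ⟨b1, b2, hn, hi, hF⟩ := plane_frame o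
  unfold PlI
  rw [hF measurable_ind01 (measurable_psi 0), lintegral_ind01, one_mul]
  unfold CP psi
  apply lintegral_congr
  intro q
  have h2 : ‖q.1 • b1 + q.2 • b2‖ ^ 2 = q.1 ^ 2 + q.2 ^ 2 := by
    have := hn 0 q.1 q.2
    simpa only [zero_smul, zero_add, ne_eq, OfNat.ofNat_ne_zero, not_false_eq_true, zero_pow] using this
  rw [sub_zero, h2]

/-- Newtonian potential -/
noncomputable def Pot (f : V → ℝ≥0∞) (v : V) : ℝ≥0∞ :=
  ∫⁻ y : V, ENNReal.ofReal ‖y - v‖⁻¹ * f y

/-- singular kernel, cut off -/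
noncomputable def k52 (y : V) : ℝ≥0∞ :=
  if ‖y‖ ≤ 1 then ENNReal.ofReal ‖y‖ ^ (-(5 / 2) : ℝ) else 0

theorem measurable_k52 : Measurable k52 := by
  unfold k52
  apply Measurable.ite
  · exact measurableSet_le measurable_norm measurable_const
  · exact (measurable_norm.ennreal_ofReal).pow_const _
  · exact measurable_const

/-- spatial constant -/
noncomputable def CV : ℝ≥0∞ := ∫⁻ y : V, k52 y

theorem CV_ne_top : CV ≠ ⊤ := by
  unfold CV
  rw [lint_polar0 measurable_k52]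
  have h1 : ∀ o : S2, ∫⁻ r in Ioi (0 : ℝ), ENNReal.ofReal (r ^ 2) * k52 (r • (o : V)) ≤
      ∫⁻ r in Ioc (0 : ℝ) 1, ENNReal.ofReal (r ^ (-(1 / 2) : ℝ)) := by
    intro o
    rw [← lintegral_indicator measurableSet_Ioi, ← lintegral_indicator measurableSet_Ioc]
    refine lintegral_mono fun r => ?_
    by_cases hr : 0 < r
    · rw [indicator_of_mem (show r ∈ Ioi (0 : ℝ) from hr)]
      have hn : ‖r • (o : V)‖ = r := by rw [norm_smul, norm_o, mul_one, Real.norm_of_nonneg hr.le]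
      unfold k52
      rw [hn]
      by_cases h1 : r ≤ 1
      · rw [if_pos h1, indicator_of_mem (show r ∈ Ioc (0 : ℝ) 1 from ⟨hr, h1⟩)]
        rw [ENNReal.ofReal_rpow_of_pos hr, ← ENNReal.ofReal_mul (by (clear * - hr; positivity))]
        apply le_of_eq
        congr 1
        rw [← Real.rpow_natCast r 2, ← Real.rpow_add hr]
        norm_num
      · rw [if_neg h1, mul_zero]
        exact zero_le
    · rw [indicator_of_notMem (show r ∉ Ioi (0 : ℝ) from hr)]
      exact zero_le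
  refine ne_of_lt (lt_of_le_of_lt (lintegral_mono h1) ?_)
  rw [lintegral_const]
  exact ENNReal.mul_lt_top (lintegral_rpow_ne_top (s := -(1 / 2)) (by (clear * -; norm_num))).lt_top
    (measure_lt_top _ _)

theorem psi_le (u y : V) : psi u y ≤
    if ‖y - u‖ ≤ 1 then ENNReal.ofReal ‖y - u‖ ^ (-(3 / 2) : ℝ) else 0 := by
  unfold psi
  have e : ENNReal.ofReal (‖y - u‖ ^ 2) ^ (-(3 / 4) : ℝ) = ENNReal.ofReal ‖y - u‖ ^ (-(3 / 2) : ℝ) := by
    rw [ENNReal.ofReal_pow (norm_nonneg _), ← ENNReal.rpow_natCast, ← ENNReal.rpow_mul]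
    norm_num
  rw [e]
  split_ifs with h
  · exact tsub_le_self
  · rw [nonpos_iff_eq_zero, tsub_eq_zero_iff_le]
    have h2 : 1 ≤ ENNReal.ofReal ‖y - u‖ := by
      rw [ENNReal.one_le_ofReal]
      linarith only [h]
    calc ENNReal.ofReal ‖y - u‖ ^ (-(3 / 2) : ℝ) ≤ 1 ^ (-(3 / 2) : ℝ) :=
          rpow_anti h2 (by norm_num)
      _ = 1 := ENNReal.one_rpow _

theorem psi_le_k52 (u y : V) : psi u y ≤ k52 (y - u) := by
  refine (psi_le u y).trans ?_
  unfold k52
  split_ifs with h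
  · have h2 : ENNReal.ofReal ‖y - u‖ ≤ 1 := ENNReal.ofReal_le_one.mpr h
    exact ENNReal.rpow_le_rpow_of_exponent_ge h2 (by norm_num)
  · exact le_refl _

theorem lintegral_psi_le (u : V) : ∫⁻ y, psi u y ≤ CV := by
  calc ∫⁻ y, psi u y ≤ ∫⁻ y, k52 (y - u) := lintegral_mono (psi_le_k52 u)
    _ = CV := lintegral_sub_right_eq_self (μ := (volume : Measure V)) k52 u

theorem Pot_psi_le (u v : V) : Pot (psi u) v ≤ 2 * CV := by
  have h : ∀ y, ENNReal.ofReal ‖y - v‖⁻¹ * psi u y ≤ k52 (y - u) + k52 (y - v) := by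
    intro y
    have h1 := psi_le u y
    by_cases hu : ‖y - u‖ ≤ 1
    · rw [if_pos hu] at h1
      set a := ‖y - u‖ with ha
      set b := ‖y - v‖ with hb
      have ha0 : 0 ≤ a := norm_nonneg _
      have hb0 : 0 ≤ b := norm_nonneg _
      by_cases hab : a ≤ b
      · refine le_trans ?_ le_self_add
        have : k52 (y - u) = ENNReal.ofReal a ^ (-(5 / 2) : ℝ) := by
          unfold k52; rw [if_pos hu]
        rw [this]
        rcases ha0.eq_or_lt with h0 | h0
        · rw [← h0]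
          simp only [ENNReal.ofReal_zero, Left.neg_neg_iff, Nat.ofNat_pos, div_pos_iff_of_pos_left, ENNReal.zero_rpow_of_neg, le_top]
        · have hb1 : 0 < b := lt_of_lt_of_le h0 hab
          calc ENNReal.ofReal b⁻¹ * psi u y ≤ ENNReal.ofReal a⁻¹ * ENNReal.ofReal a ^ (-(3 / 2) : ℝ) := by
                (clear * - h0 hab h1; gcongr)
            _ = ENNReal.ofReal a ^ (-(5 / 2) : ℝ) := by
                rw [ENNReal.ofReal_rpow_of_pos h0, ENNReal.ofReal_rpow_of_pos h0,
                  ← ENNReal.ofReal_mul (by (clear * - h0; positivity))]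
                congr 1
                rw [← Real.rpow_neg_one a, ← Real.rpow_add h0]
                norm_num
      · push Not at hab
        refine le_trans ?_ le_add_self
        have hb2 : b ≤ 1 := by linarith only [hu, hab]
        have : k52 (y - v) = ENNReal.ofReal b ^ (-(5 / 2) : ℝ) := by
          unfold k52; rw [if_pos hb2]
        rw [this]
        rcases hb0.eq_or_lt with h0 | h0
        · rw [← h0]
          simp only [inv_zero, ENNReal.ofReal_zero, zero_mul, Left.neg_neg_iff, Nat.ofNat_pos, div_pos_iff_of_pos_left, ENNReal.zero_rpow_of_neg, le_top]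
        · calc ENNReal.ofReal b⁻¹ * psi u y ≤
              ENNReal.ofReal b⁻¹ * ENNReal.ofReal b ^ (-(3 / 2) : ℝ) := by
                gcongr
                refine h1.trans ?_
                exact rpow_anti (ENNReal.ofReal_le_ofReal hab.le) (by norm_num)
            _ = ENNReal.ofReal b ^ (-(5 / 2) : ℝ) := by
                rw [ENNReal.ofReal_rpow_of_pos h0, ENNReal.ofReal_rpow_of_pos h0,
                  ← ENNReal.ofReal_mul (by (clear * - h0; positivity))]
                congr 1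
                rw [← Real.rpow_neg_one b, ← Real.rpow_add h0]
                norm_num
    · rw [if_neg hu] at h1
      have h2 : psi u y = 0 := nonpos_iff_eq_zero.mp h1
      rw [h2, mul_zero]
      exact zero_le
  unfold Pot
  calc ∫⁻ y, ENNReal.ofReal ‖y - v‖⁻¹ * psi u y ≤ ∫⁻ y, (k52 (y - u) + k52 (y - v)) :=
        lintegral_mono h
    _ = (∫⁻ y, k52 (y - u)) + ∫⁻ y, k52 (y - v) :=
        lintegral_add_left (measurable_k52.comp (measurable_id.sub_const _)) _
    _ = 2 * CV := by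
        rw [lintegral_sub_right_eq_self (μ := (volume : Measure V)) k52 u,
          lintegral_sub_right_eq_self (μ := (volume : Measure V)) k52 v, two_mul]
        rfl

/-- `∫_{|y| < R} |y|⁻¹ dy = 2 π R²` -/
theorem lintegral_inv_ball (v : V) {R : ℝ} (hR : 0 < R) :
    ∫⁻ y : V, (if ‖y - v‖ < R then ENNReal.ofReal ‖y - v‖⁻¹ else 0) ≤
      ENNReal.ofReal (2 * Real.pi * R ^ 2) := by
  have e0 := lintegral_sub_right_eq_self (μ := (volume : Measure V))
    (fun y : V => if ‖y‖ < R then ENNReal.ofReal ‖y‖⁻¹ else 0) v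
  rw [e0]
  have hm : Measurable fun y : V => if ‖y‖ < R then ENNReal.ofReal ‖y‖⁻¹ else 0 := by
    apply Measurable.ite
    · exact measurableSet_lt measurable_norm measurable_const
    · exact measurable_norm.inv.ennreal_ofReal
    · exact measurable_const
  rw [lint_polar0 hm]
  have h1 : ∀ o : S2, ∫⁻ r in Ioi (0 : ℝ), ENNReal.ofReal (r ^ 2) *
      (if ‖r • (o : V)‖ < R then ENNReal.ofReal ‖r • (o : V)‖⁻¹ else 0) ≤
      ENNReal.ofReal (R ^ 2 / 2) := by
    intro o
    have h2 : ∫⁻ r in Ioi (0 : ℝ), ENNReal.ofReal (r ^ 2) *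
      (if ‖r • (o : V)‖ < R then ENNReal.ofReal ‖r • (o : V)‖⁻¹ else 0) ≤
      ∫⁻ r in Ioc (0 : ℝ) R, ENNReal.ofReal r := by
      rw [← lintegral_indicator measurableSet_Ioi, ← lintegral_indicator measurableSet_Ioc]
      refine lintegral_mono fun r => ?_
      by_cases hr : 0 < r
      · rw [indicator_of_mem (show r ∈ Ioi (0 : ℝ) from hr)]
        have hn : ‖r • (o : V)‖ = r := by
          rw [norm_smul, norm_o, mul_one, Real.norm_of_nonneg hr.le]
        rw [hn]
        by_cases h1 : r < R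
        · rw [if_pos h1, indicator_of_mem (show r ∈ Ioc (0 : ℝ) R from ⟨hr, h1.le⟩)]
          rw [← ENNReal.ofReal_mul (by positivity)]
          apply le_of_eq
          congr 1
          (clear * - hr; field_simp)
        · rw [if_neg h1, mul_zero]
          exact zero_le
      · rw [indicator_of_notMem (show r ∉ Ioi (0 : ℝ) from hr)]
        exact zero_le
    refine h2.trans (le_of_eq ?_)
    rw [← ofReal_integral_eq_lintegral_ofReal]
    · congr 1
      rw [← intervalIntegral.integral_of_le hR.le, integral_id]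
      ring
    · exact (continuous_id.integrableOn_Icc).mono_set Ioc_subset_Icc_self
    · filter_upwards [ae_restrict_mem measurableSet_Ioc] with r hr
      exact hr.1.le
  refine (lintegral_mono h1).trans ?_
  rw [lintegral_const, surf_univ, ← ENNReal.ofReal_mul (by positivity)]
  apply ENNReal.ofReal_le_ofReal
  linarith

/-- bathtub bound for the potential -/
theorem Pot_bathtub {f : V → ℝ≥0∞} {A m : ℝ≥0∞} (hA : ∀ y, f y ≤ A)
    (hm : ∫⁻ y, f y ≤ m) (v : V) {R : ℝ} (hR : 0 < R) :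
    Pot f v ≤ A * ENNReal.ofReal (2 * Real.pi * R ^ 2) + ENNReal.ofReal R⁻¹ * m := by
  have h : ∀ y, ENNReal.ofReal ‖y - v‖⁻¹ * f y ≤
      A * (if ‖y - v‖ < R then ENNReal.ofReal ‖y - v‖⁻¹ else 0) + ENNReal.ofReal R⁻¹ * f y := by
    intro y
    by_cases hy : ‖y - v‖ < R
    · rw [if_pos hy]
      refine le_trans ?_ le_self_add
      rw [mul_comm A]
      gcongr
      exact hA y
    · rw [if_neg hy, mul_zero, zero_add]
      push Not at hy
      (clear * - hR hy; gcongr)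
  have hmm : Measurable fun y : V => A * (if ‖y - v‖ < R then ENNReal.ofReal ‖y - v‖⁻¹ else 0) := by
    apply Measurable.const_mul
    apply Measurable.ite
    · exact measurableSet_lt (measurable_id.sub_const _).norm measurable_const
    · exact (measurable_id.sub_const _).norm.inv.ennreal_ofReal
    · exact measurable_const
  have hm1 : Measurable fun y : V => (if ‖y - v‖ < R then ENNReal.ofReal ‖y - v‖⁻¹ else 0) := by
    apply Measurable.ite
    · exact measurableSet_lt (measurable_id.sub_const _).norm measurable_const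
    · exact (measurable_id.sub_const _).norm.inv.ennreal_ofReal
    · exact measurable_const
  unfold Pot
  refine (lintegral_mono h).trans ?_
  rw [lintegral_add_left hmm, lintegral_const_mul _ hm1,
    lintegral_const_mul' _ _ ENNReal.ofReal_ne_top]
  gcongr
  exact lintegral_inv_ball v hR

end Vale.Agent.P140.NU
end

section

/-! profiles with a radial weight, extraction lemma, quadratic gain -/

open MeasureTheory Set Filter
open scoped ENNReal Topology

noncomputable section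

namespace Vale.Agent.P140.NU

/-- admissible radial weights -/
def Adm (om : ℝ → ℝ≥0∞) : Prop :=
  Measurable om ∧ Monotone om ∧
    (∀ a b : ℝ, 0 ≤ a → 0 ≤ b → om (a + b) ≤ om a * ENNReal.ofReal (Real.exp (2 * b))) ∧
    ∀ a, om a ≤ 1

theorem Adm.one : Adm fun _ => 1 := by
  refine ⟨measurable_const, monotone_const, ?_, fun _ => le_rfl⟩
  intro a b _ hb
  rw [one_mul, ENNReal.one_le_ofReal]
  exact Real.one_le_exp (by linarith only [hb])

variable (P : Par)

/-- profile with a radial weight -/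
def prof (om : ℝ → ℝ≥0∞) (g t : ℝ) (x : T3) (v : V) : ℝ≥0∞ :=
  om ‖v‖ * ENNReal.ofReal (Real.exp (-(g * ‖v‖ ^ 2))) * WW P t x v

/-- singular weight with general centers -/
def W0 (u1 u2 v : V) : ℝ≥0∞ := 1 + (psi u1 v + psi u2 v)

theorem measurable_W0 (u1 u2 : V) : Measurable (W0 u1 u2) :=
  ((measurable_psi u1).add (measurable_psi u2)).const_add 1

theorem norm_sub_uu_sq_le (s : ℝ) (x : T3) (v : V) : ‖v - uu P s x‖ ^ 2 ≤ SS P s x v := by
  by_cases hx : rr x = 0
  · have h1 : rr x ^ 2 = rep x 0 ^ 2 + rep x 1 ^ 2 := rr_sq x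
    have h2 : uu P s x = !₂[0, 0, s] := by
      unfold uu
      rw [hx]
      simp
    rw [h2, EuclideanSpace.norm_sq_eq]
    unfold SS dotE
    rw [hx]
    simp only [PiLp.sub_apply, Fin.sum_univ_three, Real.norm_eq_abs, sq_abs,
      Matrix.cons_val_zero, Matrix.cons_val_one, Matrix.cons_val, div_zero, mul_zero, sub_zero]
    rw [vp_sq]
    (by_contra nlg; linarith only [nlg, mul_pos (sub_pos.2 (not_le.1 nlg)) (sub_pos.2 (not_le.1 nlg)), mul_nonneg (sq_nonneg (P.w : ℝ)) (le_of_lt (sub_pos.2 (not_le.1 nlg)))])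
  · exact (SS_eq_norm P s (lt_of_le_of_ne (rr_nonneg x) (Ne.symm hx)) v).ge

theorem WW_le (t : ℝ) (x : T3) (v : V) : WW P t x v ≤ W0 (uu P 1 x) (uu P (-1) x) v := by
  unfold WW W0
  gcongr
  split_ifs with h
  · have key : ∀ s, ENNReal.ofReal (SS P s x v) ^ (-(3 / 4) : ℝ) - 1 ≤ psi (uu P s x) v := by
      intro s
      unfold psi
      apply tsub_le_tsub_right
      exact rpow_anti (ENNReal.ofReal_le_ofReal (norm_sub_uu_sq_le P s x v)) (by norm_num)
    exact add_le_add (key 1) (key (-1))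
  · exact zero_le

theorem WW_eq {t : ℝ} {x : T3} (hx : 0 < rr x) (hr : rr x ≤ 1 / 16 + 2 * t) (v : V) :
    WW P t x v = W0 (uu P 1 x) (uu P (-1) x) v := by
  unfold WW W0 psi
  rw [if_pos hr, SS_eq_norm P 1 hx, SS_eq_norm P (-1) hx]

theorem measurable_WW1 (t : ℝ) (x : T3) : Measurable fun v : V => WW P t x v := by
  have h := measurable_WW P
  have h2 : Measurable fun v : V => (t, x, v) := by fun_prop
  have h3 := h.comp h2
  exact h3

theorem measurable_prof {om : ℝ → ℝ≥0∞} (hom : Measurable om) (g t : ℝ) (x : T3) :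
    Measurable (prof P om g t x) := by
  have h2 : Measurable fun v : V => ENNReal.ofReal (Real.exp (-(g * ‖v‖ ^ 2))) := by
    apply ENNReal.measurable_ofReal.comp
    apply Continuous.measurable
    fun_prop
  have h3 : Measurable fun v : V => WW P t x v := measurable_WW1 P t x
  have h1 : Measurable fun v : V => om ‖v‖ := hom.comp measurable_norm
  exact (h1.mul h2).mul h3

/-- planar integral of the weight against a Gaussian -/
theorem PlI_W0 (o : S2) (u1 u2 v : V) {c : ℝ} (hc : 0 ≤ c) :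
    PlI o (fun p => ENNReal.ofReal (Real.exp (-(c * ‖p‖ ^ 2))) * W0 u1 u2 (v + p)) ≤
      G2 c + 2 * CP := by
  have m0 : Measurable fun p : V => ENNReal.ofReal (Real.exp (-(c * ‖p‖ ^ 2))) := by
    apply ENNReal.measurable_ofReal.comp
    apply Continuous.measurable
    fun_prop
  have m1 : ∀ u, Measurable fun p : V => psi u (v + p) := fun u =>
    (measurable_psi u).comp (measurable_const.add measurable_id)
  calc PlI o (fun p => ENNReal.ofReal (Real.exp (-(c * ‖p‖ ^ 2))) * W0 u1 u2 (v + p)) ≤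
      PlI o (fun p => ENNReal.ofReal (Real.exp (-(c * ‖p‖ ^ 2))) +
        (psi u1 (v + p) + psi u2 (v + p))) := by
        apply PlI_mono
        intro p _
        unfold W0
        rw [mul_add, mul_one]
        gcongr
        calc _ ≤ 1 * (psi u1 (v + p) + psi u2 (v + p)) := by
              gcongr
              rw [ENNReal.ofReal_le_one, Real.exp_le_one_iff]
              have := mul_nonneg hc (sq_nonneg ‖p‖)
              linarith
          _ = _ := one_mul _
    _ = G2 c + (PlI o (fun p => psi u1 (v + p)) + PlI o (fun p => psi u2 (v + p))) := by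
        rw [PlI_add o m0, PlI_add o (m1 u1), PlI_gau]
    _ ≤ G2 c + (CP + CP) := by
        gcongr
        · exact PlI_psi o u1 v
        · exact PlI_psi o u2 v
    _ = G2 c + 2 * CP := by rw [two_mul]

/-- extraction of the Gaussian and of the radial weight on a plane -/
theorem ext_pt {om : ℝ → ℝ≥0∞} (hom : Adm om) {g : ℝ} (hg : g ∈ Icc (1 / 8 : ℝ) (1 / 4))
    {v u p : V} (hu : ‖u‖ ≤ 2) (hp : inner ℝ v p = (inner ℝ u p : ℝ)) :
    om ‖v + p‖ * ENNReal.ofReal (Real.exp (-(g * ‖v + p‖ ^ 2))) ≤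
      om ‖v‖ * ENNReal.ofReal (Real.exp (-(g * ‖v‖ ^ 2))) *
        (ENNReal.ofReal (Real.exp 36) * ENNReal.ofReal (Real.exp (-(1 / 16 * ‖p‖ ^ 2)))) := by
  obtain ⟨hm, hmono, hgrow, h1⟩ := hom
  have a1 : om ‖v + p‖ ≤ om ‖v‖ * ENNReal.ofReal (Real.exp (2 * ‖p‖)) :=
    (hmono (norm_add_le v p)).trans (hgrow _ _ (norm_nonneg _) (norm_nonneg _))
  have a2 : ‖v + p‖ ^ 2 = ‖v‖ ^ 2 + 2 * inner ℝ u p + ‖p‖ ^ 2 := by
    rw [norm_add_sq_real, hp]
  have a3 : |(inner ℝ u p : ℝ)| ≤ 2 * ‖p‖ :=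
    (abs_real_inner_le_norm u p).trans (by (clear * - hu; gcongr))
  have a4 : -(g * ‖v + p‖ ^ 2) + 2 * ‖p‖ ≤ -(g * ‖v‖ ^ 2) + (36 + -(1 / 16 * ‖p‖ ^ 2)) := by
    rw [a2]
    have a5 := (abs_le.mp a3).1
    have hp0 := norm_nonneg p
    have a6 : g * (-(2 * (inner ℝ u p : ℝ))) ≤ 1 / 4 * (4 * ‖p‖) := by
      have : -(2 * (inner ℝ u p : ℝ)) ≤ 4 * ‖p‖ := by linarith only [a5]
      have h8 : g * (-(2 * (inner ℝ u p : ℝ))) ≤ g * (4 * ‖p‖) :=
        mul_le_mul_of_nonneg_left this (by linarith only [hg.1])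
      have h9 : g * (4 * ‖p‖) ≤ 1 / 4 * (4 * ‖p‖) :=
        mul_le_mul_of_nonneg_right hg.2 (by (clear * -; positivity))
      linarith only [h8, h9]
    have a7 : 1 / 8 * ‖p‖ ^ 2 ≤ g * ‖p‖ ^ 2 := mul_le_mul_of_nonneg_right hg.1 (by (clear * -; positivity))
    linarith only [sq_nonneg (‖p‖ / 4 - 6), a7, a6]
  calc om ‖v + p‖ * ENNReal.ofReal (Real.exp (-(g * ‖v + p‖ ^ 2))) ≤
      (om ‖v‖ * ENNReal.ofReal (Real.exp (2 * ‖p‖))) *
        ENNReal.ofReal (Real.exp (-(g * ‖v + p‖ ^ 2))) := by (clear * - a1; gcongr)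
    _ = om ‖v‖ * ENNReal.ofReal (Real.exp (-(g * ‖v + p‖ ^ 2) + 2 * ‖p‖)) := by
        rw [mul_assoc, ← ENNReal.ofReal_mul (Real.exp_pos _).le, ← Real.exp_add]
        congr 3
        ring
    _ ≤ om ‖v‖ * ENNReal.ofReal (Real.exp (-(g * ‖v‖ ^ 2) + (36 + -(1 / 16 * ‖p‖ ^ 2)))) := by
        (clear * - a4; gcongr)
    _ = _ := by
        rw [Real.exp_add, Real.exp_add, ENNReal.ofReal_mul (Real.exp_pos _).le,
          ENNReal.ofReal_mul (Real.exp_pos _).le, mul_assoc]

/-- constant of the extraction lemma -/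
def CE : ℝ≥0∞ := ENNReal.ofReal (Real.exp 36) * (G2 (1 / 16) + 2 * CP)

theorem CE_ne_top : CE ≠ ⊤ := by
  unfold CE
  exact ENNReal.mul_ne_top ENNReal.ofReal_ne_top
    (ENNReal.add_ne_top.mpr ⟨G2_ne_top (by norm_num), ENNReal.mul_ne_top (by simp) CP_ne_top⟩)

/-- extraction: gain of a slow gas with a profile -/
theorem Gam_ext {f : V → ℝ≥0∞} (hf : Measurable f) (hs : ∀ y, f y ≠ 0 → ‖y‖ ≤ 2)
    {om : ℝ → ℝ≥0∞} (hom : Adm om) {g : ℝ} (hg : g ∈ Icc (1 / 8 : ℝ) (1 / 4)) (t : ℝ) (x : T3)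
    (v : V) :
    Gam f (prof P om g t x) v ≤
      CE * (om ‖v‖ * ENNReal.ofReal (Real.exp (-(g * ‖v‖ ^ 2)))) * (2 * Pot f v) := by
  set D : ℝ≥0∞ := om ‖v‖ * ENNReal.ofReal (Real.exp (-(g * ‖v‖ ^ 2))) with hD
  have hDt : D ≠ ⊤ := ENNReal.mul_ne_top (ne_top_of_le_ne_top ENNReal.one_ne_top (hom.2.2.2 _))
    ENNReal.ofReal_ne_top
  refine Gam_le_plane hf (measurable_prof P hom.1 g t x) v (J := CE * D)
    (ENNReal.mul_ne_top CE_ne_top hDt) ?_
  intro o ho
  obtain ⟨r, hr⟩ := ho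
  have hu := hs _ hr
  have m1 : Measurable fun p : V => ENNReal.ofReal (Real.exp (-(1 / 16 * ‖p‖ ^ 2))) *
      W0 (uu P 1 x) (uu P (-1) x) (v + p) := by
    apply Measurable.mul
    · apply ENNReal.measurable_ofReal.comp
      apply Continuous.measurable
      fun_prop
    · exact (measurable_W0 _ _).comp (measurable_const.add measurable_id)
  calc PlI o (fun p => prof P om g t x (v + p)) ≤
      PlI o (fun p => (D * ENNReal.ofReal (Real.exp 36)) *
        (ENNReal.ofReal (Real.exp (-(1 / 16 * ‖p‖ ^ 2))) *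
          W0 (uu P 1 x) (uu P (-1) x) (v + p))) := by
        apply PlI_mono
        intro p hp
        have hi : inner ℝ v p = (inner ℝ (v + r • (o : V)) p : ℝ) := by
          rw [inner_add_left, inner_smul_left, real_inner_comm, real_inner_comm v p]
          rw [real_inner_comm] at hp
          rw [hp]
          simp
        have h1 := ext_pt hom hg hu hi
        unfold prof
        calc _ ≤ (D * (ENNReal.ofReal (Real.exp 36) *
              ENNReal.ofReal (Real.exp (-(1 / 16 * ‖p‖ ^ 2))))) *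
              W0 (uu P 1 x) (uu P (-1) x) (v + p) := by
                gcongr
                exact WW_le P t x _
          _ = _ := by ring
    _ = (D * ENNReal.ofReal (Real.exp 36)) * PlI o (fun p =>
        (ENNReal.ofReal (Real.exp (-(1 / 16 * ‖p‖ ^ 2))) *
          W0 (uu P 1 x) (uu P (-1) x) (v + p))) := PlI_const_mul o m1 _
    _ ≤ (D * ENNReal.ofReal (Real.exp 36)) * (G2 (1 / 16) + 2 * CP) := by
        gcongr
        exact PlI_W0 o _ _ v (by norm_num)
    _ = CE * D := by unfold CE; ring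

end Vale.Agent.P140.NU
end
end

section

/-! quadratic gain on profiles -/

open MeasureTheory Set Filter
open scoped ENNReal Topology

noncomputable section

namespace Vale.Agent.P140.NU

/-- Gaussian of exponent `1/16` -/
def E16 (w : V) : ℝ≥0∞ := ENNReal.ofReal (Real.exp (-(1 / 16 * ‖w‖ ^ 2)))

theorem measurable_E16 : Measurable E16 := by
  unfold E16
  apply ENNReal.measurable_ofReal.comp
  apply Continuous.measurable
  fun_prop

/-- the integral of `|a| h(w, ω)` -/
def kI (v : V) (h : V → S2 → ℝ≥0∞) : ℝ≥0∞ := ∫⁻ w, ∫⁻ o, kk v w o * h w o ∂surf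

theorem kI_mono {v : V} {h h' : V → S2 → ℝ≥0∞} (hh : ∀ w o, h w o ≤ h' w o) :
    kI v h ≤ kI v h' := by
  unfold kI
  refine lintegral_mono fun w => lintegral_mono fun o => ?_
  simp only
  gcongr
  exact hh w o

theorem measurable_kkv (v : V) : Measurable fun p : V × S2 => kk v p.1 p.2 := by
  have k1 : Measurable fun p : V × S2 => ((v, p.1, p.2) : V × V × S2) := by (clear * -; fun_prop)
  have h := measurable_kk.comp k1
  exact h

theorem kI_add {v : V} {h h' : V → S2 → ℝ≥0∞} (hm : Measurable fun p : V × S2 => h p.1 p.2) :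
    kI v (fun w o => h w o + h' w o) = kI v h + kI v h' := by
  unfold kI
  have mk : Measurable fun p : V × S2 => kk v p.1 p.2 * h p.1 p.2 := (measurable_kkv v).mul hm
  have m1 : Measurable fun w : V => ∫⁻ o, kk v w o * h w o ∂surf := by
    have := mk.lintegral_prod_right' (ν := surf)
    exact this
  rw [← lintegral_add_left m1]
  apply lintegral_congr
  intro w
  have m2 : Measurable fun o : S2 => kk v w o * h w o := by
    have h1 : Measurable fun o : S2 => ((w, o) : V × S2) := by fun_prop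
    have h2 := mk.comp h1
    exact h2
  rw [← lintegral_add_left m2]
  apply lintegral_congr
  intro o
  rw [mul_add]

theorem kI_const_mul {v : V} {h : V → S2 → ℝ≥0∞} (hm : Measurable fun p : V × S2 => h p.1 p.2)
    (c : ℝ≥0∞) : kI v (fun w o => c * h w o) = c * kI v h := by
  unfold kI
  have mk : Measurable fun p : V × S2 => kk v p.1 p.2 * h p.1 p.2 := (measurable_kkv v).mul hm
  have m1 : Measurable fun w : V => ∫⁻ o, kk v w o * h w o ∂surf := by
    have := mk.lintegral_prod_right' (ν := surf)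
    exact this
  rw [← lintegral_const_mul _ m1]
  apply lintegral_congr
  intro w
  have m2 : Measurable fun o : S2 => kk v w o * h w o := by
    have h1 : Measurable fun o : S2 => ((w, o) : V × S2) := by fun_prop
    have h2 := mk.comp h1
    exact h2
  rw [← lintegral_const_mul _ m2]
  apply lintegral_congr
  intro o
  ring

/-- first moments of the Gaussian -/
def CM : ℝ≥0∞ := ∫⁻ w : V, ENNReal.ofReal (1 + ‖w‖) * E16 w

theorem CM_ne_top : CM ≠ ⊤ := by
  have h1 : Integrable fun w : V => Real.exp (-(1 / 32) * ‖w‖ ^ 2) := by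
    have := GaussianFourier.integrable_cexp_neg_mul_sq_norm_add (V := V) (b := ((1 / 32 : ℝ) : ℂ))
      (by simp only [one_div, Complex.ofReal_inv, Complex.ofReal_ofNat, Complex.inv_re, Complex.re_ofNat, Complex.normSq_ofNat, div_self_mul_self', inv_pos, Nat.ofNat_pos]) 0 0
    have h2 := this.norm
    refine h2.congr (Eventually.of_forall fun w => ?_)
    simp only [Complex.norm_exp]
    congr 1
    simp only [one_div, Complex.ofReal_inv, Complex.ofReal_ofNat, neg_mul, inner_zero_left, Complex.ofReal_zero, mul_zero, add_zero, Complex.neg_re, Complex.mul_re, Complex.inv_re, Complex.re_ofNat, Complex.normSq_ofNat, div_self_mul_self', Complex.inv_im, Complex.im_ofNat, neg_zero, zero_div, zero_mul, sub_zero, neg_inj, mul_eq_mul_left_iff, inv_eq_zero, OfNat.ofNat_ne_zero, or_false]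
    norm_cast
  have h3 : CM ≤ ∫⁻ w : V, ENNReal.ofReal (Real.exp 10 * Real.exp (-(1 / 32) * ‖w‖ ^ 2)) := by
    unfold CM E16
    refine lintegral_mono fun w => ?_
    rw [← ENNReal.ofReal_mul (by (clear * -; positivity))]
    apply ENNReal.ofReal_le_ofReal
    have h4 : 1 + ‖w‖ ≤ Real.exp ‖w‖ := by
      have := Real.add_one_le_exp ‖w‖
      linarith only [this]
    calc (1 + ‖w‖) * Real.exp (-(1 / 16 * ‖w‖ ^ 2)) ≤
        Real.exp ‖w‖ * Real.exp (-(1 / 16 * ‖w‖ ^ 2)) := by gcongr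
      _ = Real.exp (‖w‖ + -(1 / 16 * ‖w‖ ^ 2)) := by rw [Real.exp_add]
      _ ≤ Real.exp (10 + -(1 / 32) * ‖w‖ ^ 2) := by
          apply Real.exp_le_exp.mpr
          linarith only [sq_nonneg (‖w‖ - 16)]
      _ = _ := by rw [Real.exp_add]
  refine ne_of_lt (lt_of_le_of_lt h3 ?_)
  have h5 := (h1.const_mul (Real.exp 10)).2
  unfold HasFiniteIntegral at h5
  refine lt_of_le_of_lt (lintegral_mono fun w => ?_) h5
  rw [← ofReal_norm]
  exact ENNReal.ofReal_le_ofReal (le_abs_self _)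

theorem kI_E16_le (v : V) : kI v (fun w _ => E16 w) ≤
    ENNReal.ofReal (4 * Real.pi) * CM * ENNReal.ofReal (1 + ‖v‖) := by
  unfold kI
  have h1 : ∀ w : V, ∫⁻ o, kk v w o * E16 w ∂surf ≤
      ENNReal.ofReal (4 * Real.pi) * ENNReal.ofReal (1 + ‖v‖) * (ENNReal.ofReal (1 + ‖w‖) * E16 w) := by
    intro w
    calc ∫⁻ o, kk v w o * E16 w ∂surf ≤
        ∫⁻ o, ENNReal.ofReal (1 + ‖v‖) * (ENNReal.ofReal (1 + ‖w‖) * E16 w) ∂surf := by
          refine lintegral_mono fun o => ?_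
          simp only
          rw [← mul_assoc]
          gcongr
          unfold kk
          rw [← ENNReal.ofReal_mul (by positivity)]
          apply ENNReal.ofReal_le_ofReal
          have := abs_relA_le v w o
          linarith only [mul_nonneg (norm_nonneg v) (norm_nonneg w), this]
      _ = _ := by
          rw [lintegral_const, surf_univ]
          ring
  refine (lintegral_mono h1).trans ?_
  rw [lintegral_const_mul]
  · unfold CM
    apply le_of_eq
    ring
  · exact (measurable_norm.const_add 1).ennreal_ofReal.mul measurable_E16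

theorem norm_perp_le (o : S2) (w : V) : ‖w - (inner ℝ w (o : V) : ℝ) • (o : V)‖ ≤ ‖w‖ := by
  have h : ‖w - (inner ℝ w (o : V) : ℝ) • (o : V)‖ ^ 2 ≤ ‖w‖ ^ 2 := by
    rw [norm_sub_sq_real, inner_smul_right, norm_smul, norm_o, mul_one, Real.norm_eq_abs, sq_abs]
    nlinarith only []
  exact le_of_sq_le_sq h (norm_nonneg _)

theorem E16_perp_le (o : S2) (w : V) :
    E16 w ≤ E16 (w - (inner ℝ w (o : V) : ℝ) • (o : V)) := by
  unfold E16
  apply ENNReal.ofReal_le_ofReal
  apply Real.exp_le_exp.mpr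
  have := norm_perp_le o w
  have h : ‖w - (inner ℝ w (o : V) : ℝ) • (o : V)‖ ^ 2 ≤ ‖w‖ ^ 2 := by gcongr
  linarith only [h]

theorem postStar_eq_perp (v w : V) (o : S2) : postStar v w o =
    (inner ℝ v (o : V) : ℝ) • (o : V) + (w - (inner ℝ w (o : V) : ℝ) • (o : V)) := by
  unfold postStar relA
  rw [inner_sub_left, sub_smul]
  abel

/-- two-center singular part -/
def Psi2 (u1 u2 v : V) : ℝ≥0∞ := psi u1 v + psi u2 v

theorem measurable_Psi2 (u1 u2 : V) : Measurable (Psi2 u1 u2) :=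
  (measurable_psi u1).add (measurable_psi u2)

theorem Pot_Psi2_le (u1 u2 v : V) : Pot (Psi2 u1 u2) v ≤ 4 * CV := by
  unfold Pot Psi2
  have h : ∀ y : V, ENNReal.ofReal ‖y - v‖⁻¹ * (psi u1 y + psi u2 y) =
      ENNReal.ofReal ‖y - v‖⁻¹ * psi u1 y + ENNReal.ofReal ‖y - v‖⁻¹ * psi u2 y :=
    fun y => mul_add _ _ _
  simp only [h]
  rw [lintegral_add_left]
  · have h1 := Pot_psi_le u1 v
    have h2 := Pot_psi_le u2 v
    unfold Pot at h1 h2
    calc _ ≤ 2 * CV + 2 * CV := add_le_add h1 h2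
      _ = 4 * CV := by ring
  · exact ((measurable_id.sub_const v).norm.inv.ennreal_ofReal).mul (measurable_psi u1)

/-- constant of the quadratic bound -/
def CQ : ℝ≥0∞ := ENNReal.ofReal (4 * Real.pi) * CM + (2 * (G2 (1 / 16) + 2 * CP)) * (2 * (4 * CV))

theorem CQ_ne_top : CQ ≠ ⊤ := by
  unfold CQ
  refine ENNReal.add_ne_top.mpr ⟨ENNReal.mul_ne_top ENNReal.ofReal_ne_top CM_ne_top, ?_⟩
  refine ENNReal.mul_ne_top (ENNReal.mul_ne_top (by simp) (ENNReal.add_ne_top.mpr
    ⟨G2_ne_top (by norm_num), ENNReal.mul_ne_top (by simp) CP_ne_top⟩)) ?_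
  exact ENNReal.mul_ne_top (by simp) (ENNReal.mul_ne_top (by simp) CV_ne_top)

/-- the singular factor on the first velocity -/
theorem kI_Psi_W0 (u1 u2 v : V) :
    kI v (fun w o => Psi2 u1 u2 (post v w o) * (E16 w * W0 u1 u2 (postStar v w o))) ≤
      (G2 (1 / 16) + 2 * CP) * (2 * (4 * CV)) := by
  have hJt : G2 (1 / 16) + 2 * CP ≠ ⊤ := ENNReal.add_ne_top.mpr
    ⟨G2_ne_top (by norm_num), ENNReal.mul_ne_top (by simp) CP_ne_top⟩
  have h := carl_plane (measurable_Psi2 u1 u2) v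
    (B := fun o p => E16 p * W0 u1 u2 ((inner ℝ v (o : V) : ℝ) • (o : V) + p))
    (by
      apply Measurable.mul
      · exact measurable_E16.comp measurable_fst
      · have : Measurable fun p : V × S2 => (inner ℝ v (p.2 : V) : ℝ) • (p.2 : V) + p.1 := by
          (clear * -; fun_prop)
        exact (measurable_W0 u1 u2).comp this)
    hJt (fun o _ => PlI_W0 o u1 u2 _ (by norm_num))
    (h := fun w o => E16 w * W0 u1 u2 (postStar v w o))
    (by
      intro w o _
      rw [← postStar_eq_perp]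
      gcongr
      exact E16_perp_le o w)
  unfold kI
  refine h.trans ?_
  gcongr
  exact Pot_Psi2_le u1 u2 v

theorem kI_exchange (v : V) {E : V → ℝ≥0∞} {F : V × V → ℝ≥0∞} (hF : Measurable F) :
    kI v (fun w o => E w * F (post v w o, postStar v w o)) =
      kI v (fun w o => E w * F (postStar v w o, post v w o)) := by
  unfold kI
  apply lintegral_congr
  intro w
  have h := lintegral_exchange v w (Φ := fun p => E w * F p) (hF.const_mul _)
  exact h

/-- the core bound -/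
theorem core_bound (u1 u2 v : V) :
    kI v (fun w o => E16 w * (W0 u1 u2 (post v w o) * W0 u1 u2 (postStar v w o))) ≤
      CQ * ENNReal.ofReal (1 + ‖v‖) := by
  have mpost : Measurable fun p : V × S2 => post v p.1 p.2 :=
    measurable_post.comp (by fun_prop : Measurable fun p : V × S2 => (v, p.1, p.2))
  have mpostS : Measurable fun p : V × S2 => postStar v p.1 p.2 :=
    measurable_postStar.comp (by fun_prop : Measurable fun p : V × S2 => (v, p.1, p.2))
  have mE : Measurable fun p : V × S2 => E16 p.1 := measurable_E16.comp measurable_fst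
  have mW := measurable_W0 u1 u2
  have mPsi := measurable_Psi2 u1 u2
  have one : (1 : ℝ≥0∞) ≤ ENNReal.ofReal (1 + ‖v‖) := by
    rw [ENNReal.one_le_ofReal]
    have := norm_nonneg v
    linarith only [this]
  have e1 : kI v (fun w o => E16 w * (W0 u1 u2 (post v w o) * W0 u1 u2 (postStar v w o))) =
      kI v (fun w o => Psi2 u1 u2 (post v w o) * (E16 w * W0 u1 u2 (postStar v w o))) +
      kI v (fun w o => E16 w * W0 u1 u2 (postStar v w o)) := by
    rw [← kI_add]
    · congr 1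
      funext w o
      have : W0 u1 u2 (post v w o) = 1 + Psi2 u1 u2 (post v w o) := rfl
      rw [this]
      ring
    · exact (mPsi.comp mpost).mul (mE.mul (mW.comp mpostS))
  have e2 : kI v (fun w o => E16 w * W0 u1 u2 (postStar v w o)) =
      kI v (fun w _ => E16 w) + kI v (fun w o => E16 w * Psi2 u1 u2 (postStar v w o)) := by
    rw [← kI_add]
    · congr 1
      funext w o
      have : W0 u1 u2 (postStar v w o) = 1 + Psi2 u1 u2 (postStar v w o) := rfl
      rw [this]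
      ring
    · exact mE
  have e3 : kI v (fun w o => E16 w * Psi2 u1 u2 (postStar v w o)) ≤
      (G2 (1 / 16) + 2 * CP) * (2 * (4 * CV)) := by
    have h := kI_exchange v (E := E16) (F := fun p => Psi2 u1 u2 p.2) (mPsi.comp measurable_snd)
    simp only at h
    rw [h]
    refine le_trans (kI_mono fun w o => ?_) (kI_Psi_W0 u1 u2 v)
    rw [mul_comm (E16 w)]
    gcongr
    calc E16 w = E16 w * 1 := (mul_one _).symm
      _ ≤ E16 w * W0 u1 u2 (postStar v w o) := by
          gcongr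
          exact le_self_add
  rw [e1, e2]
  calc _ ≤ (G2 (1 / 16) + 2 * CP) * (2 * (4 * CV)) +
        (ENNReal.ofReal (4 * Real.pi) * CM * ENNReal.ofReal (1 + ‖v‖) +
          (G2 (1 / 16) + 2 * CP) * (2 * (4 * CV))) := by
        gcongr
        · exact kI_Psi_W0 u1 u2 v
        · exact kI_E16_le v
    _ ≤ (G2 (1 / 16) + 2 * CP) * (2 * (4 * CV)) * ENNReal.ofReal (1 + ‖v‖) +
        (ENNReal.ofReal (4 * Real.pi) * CM * ENNReal.ofReal (1 + ‖v‖) +
          (G2 (1 / 16) + 2 * CP) * (2 * (4 * CV)) * ENNReal.ofReal (1 + ‖v‖)) := by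
        have k1 : (G2 (1 / 16) + 2 * CP) * (2 * (4 * CV)) ≤
            (G2 (1 / 16) + 2 * CP) * (2 * (4 * CV)) * ENNReal.ofReal (1 + ‖v‖) :=
          le_mul_of_one_le_right zero_le one
        exact add_le_add k1 (add_le_add le_rfl k1)
    _ = CQ * ENNReal.ofReal (1 + ‖v‖) := by unfold CQ; ring

theorem norm_post_le (v w : V) (o : S2) : ‖post v w o‖ ≤ ‖v‖ + ‖w‖ := by
  have h := energy_post v w o
  have : ‖post v w o‖ ^ 2 ≤ (‖v‖ + ‖w‖) ^ 2 := by
    nlinarith only [h, mul_nonneg (norm_nonneg v) (norm_nonneg w)]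
  exact le_of_sq_le_sq this (by (clear * -; positivity))

theorem norm_postStar_le (v w : V) (o : S2) : ‖postStar v w o‖ ≤ ‖v‖ + ‖w‖ := by
  have h := energy_post v w o
  have : ‖postStar v w o‖ ^ 2 ≤ (‖v‖ + ‖w‖) ^ 2 := by
    (by_contra nlg; linarith only [nlg, mul_nonneg (le_of_lt (sub_pos.2 (not_le.1 nlg))) (sub_nonneg.2 (mul_nonneg (norm_nonneg v) (norm_nonneg w))), mul_eq_zero_of_left (sub_eq_zero.2 h) (‖postStar v w o‖ ^ 2 - ((‖v‖ + ‖w‖) ^ 2)), mul_pos (sub_pos.2 (not_le.1 nlg)) (sub_pos.2 (not_le.1 nlg)), mul_nonneg (sq_nonneg (‖post v w o‖ : ℝ)) (le_of_lt (sub_pos.2 (not_le.1 nlg)))])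
  exact le_of_sq_le_sq this (by (clear * -; positivity))

variable (P : Par)

theorem Gam_prof_aux {om om' omx : ℝ → ℝ≥0∞} (hx : Adm omx)
    {g : ℝ} (hg : g ∈ Icc (1 / 8 : ℝ) (1 / 4))
    (hd : ∀ v w o, om ‖post v w o‖ * om' ‖postStar v w o‖ ≤ omx (‖v‖ + ‖w‖))
    (t : ℝ) (x : T3) (v : V) :
    Gam (prof P om g t x) (prof P om' g t x) v ≤
      (ENNReal.ofReal (Real.exp 16) * CQ) * ENNReal.ofReal (1 + ‖v‖) *
        (omx ‖v‖ * ENNReal.ofReal (Real.exp (-(g * ‖v‖ ^ 2)))) := by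
  set D : ℝ≥0∞ := omx ‖v‖ * ENNReal.ofReal (Real.exp (-(g * ‖v‖ ^ 2))) with hD
  set u1 := uu P 1 x
  set u2 := uu P (-1) x
  have hpt : ∀ w o, prof P om g t x (post v w o) * prof P om' g t x (postStar v w o) ≤
      (D * ENNReal.ofReal (Real.exp 16)) *
        (E16 w * (W0 u1 u2 (post v w o) * W0 u1 u2 (postStar v w o))) := by
    intro w o
    have a1 := hd v w o
    have a2 := hx.2.2.1 ‖v‖ ‖w‖ (norm_nonneg _) (norm_nonneg _)
    have a3 := energy_post v w o
    have a4 : ENNReal.ofReal (Real.exp (-(g * ‖post v w o‖ ^ 2))) *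
        ENNReal.ofReal (Real.exp (-(g * ‖postStar v w o‖ ^ 2))) *
        ENNReal.ofReal (Real.exp (2 * ‖w‖)) ≤
        ENNReal.ofReal (Real.exp (-(g * ‖v‖ ^ 2))) * (ENNReal.ofReal (Real.exp 16) * E16 w) := by
      unfold E16
      rw [← ENNReal.ofReal_mul (Real.exp_pos _).le, ← ENNReal.ofReal_mul (by positivity),
        ← ENNReal.ofReal_mul (Real.exp_pos _).le, ← ENNReal.ofReal_mul (Real.exp_pos _).le,
        ← Real.exp_add, ← Real.exp_add, ← Real.exp_add, ← Real.exp_add]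
      apply ENNReal.ofReal_le_ofReal
      apply Real.exp_le_exp.mpr
      have a5 : g * ‖post v w o‖ ^ 2 + g * ‖postStar v w o‖ ^ 2 = g * ‖v‖ ^ 2 + g * ‖w‖ ^ 2 := by
        rw [← mul_add, a3, mul_add]
      have a6 : 1 / 8 * ‖w‖ ^ 2 ≤ g * ‖w‖ ^ 2 := mul_le_mul_of_nonneg_right hg.1 (by (clear * -; positivity))
      (clear * - a5 a6; linarith only [sq_nonneg (‖w‖ - 16), a6, a5])
    unfold prof
    calc om ‖post v w o‖ * ENNReal.ofReal (Real.exp (-(g * ‖post v w o‖ ^ 2))) *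
          WW P t x (post v w o) * (om' ‖postStar v w o‖ *
          ENNReal.ofReal (Real.exp (-(g * ‖postStar v w o‖ ^ 2))) * WW P t x (postStar v w o))
        = (om ‖post v w o‖ * om' ‖postStar v w o‖) *
          (ENNReal.ofReal (Real.exp (-(g * ‖post v w o‖ ^ 2))) *
          ENNReal.ofReal (Real.exp (-(g * ‖postStar v w o‖ ^ 2)))) *
          (WW P t x (post v w o) * WW P t x (postStar v w o)) := by ring
      _ ≤ (omx ‖v‖ * ENNReal.ofReal (Real.exp (2 * ‖w‖))) *
          (ENNReal.ofReal (Real.exp (-(g * ‖post v w o‖ ^ 2))) *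
          ENNReal.ofReal (Real.exp (-(g * ‖postStar v w o‖ ^ 2)))) *
          (W0 u1 u2 (post v w o) * W0 u1 u2 (postStar v w o)) :=
          mul_le_mul' (mul_le_mul' (a1.trans a2) le_rfl)
            (mul_le_mul' (WW_le P t x _) (WW_le P t x _))
      _ = omx ‖v‖ * (ENNReal.ofReal (Real.exp (-(g * ‖post v w o‖ ^ 2))) *
          ENNReal.ofReal (Real.exp (-(g * ‖postStar v w o‖ ^ 2))) *
          ENNReal.ofReal (Real.exp (2 * ‖w‖))) *
          (W0 u1 u2 (post v w o) * W0 u1 u2 (postStar v w o)) := by ring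
      _ ≤ omx ‖v‖ * (ENNReal.ofReal (Real.exp (-(g * ‖v‖ ^ 2))) *
            (ENNReal.ofReal (Real.exp 16) * E16 w)) *
          (W0 u1 u2 (post v w o) * W0 u1 u2 (postStar v w o)) := by (clear * - a4; gcongr)
      _ = _ := by rw [hD]; ring
  have mpost : Measurable fun p : V × S2 => post v p.1 p.2 :=
    measurable_post.comp (by fun_prop : Measurable fun p : V × S2 => (v, p.1, p.2))
  have mpostS : Measurable fun p : V × S2 => postStar v p.1 p.2 :=
    measurable_postStar.comp (by fun_prop : Measurable fun p : V × S2 => (v, p.1, p.2))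
  have mE : Measurable fun p : V × S2 => E16 p.1 := measurable_E16.comp measurable_fst
  have mW := measurable_W0 u1 u2
  calc Gam (prof P om g t x) (prof P om' g t x) v =
      kI v (fun w o => prof P om g t x (post v w o) * prof P om' g t x (postStar v w o)) := rfl
    _ ≤ kI v (fun w o => (D * ENNReal.ofReal (Real.exp 16)) *
        (E16 w * (W0 u1 u2 (post v w o) * W0 u1 u2 (postStar v w o)))) := kI_mono hpt
    _ = (D * ENNReal.ofReal (Real.exp 16)) * kI v (fun w o =>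
        (E16 w * (W0 u1 u2 (post v w o) * W0 u1 u2 (postStar v w o)))) :=
        kI_const_mul (mE.mul ((mW.comp mpost).mul (mW.comp mpostS))) _
    _ ≤ (D * ENNReal.ofReal (Real.exp 16)) * (CQ * ENNReal.ofReal (1 + ‖v‖)) := by
        gcongr
        exact core_bound u1 u2 v
    _ = _ := by ring

/-- (GC) quadratic gain, radial weight of the first factor -/
theorem Gam_prof_left {om om' : ℝ → ℝ≥0∞} (h0 : Adm om) (h0' : Adm om')
    {g : ℝ} (hg : g ∈ Icc (1 / 8 : ℝ) (1 / 4)) (t : ℝ) (x : T3) (v : V) :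
    Gam (prof P om g t x) (prof P om' g t x) v ≤
      (ENNReal.ofReal (Real.exp 16) * CQ) * ENNReal.ofReal (1 + ‖v‖) *
        (om ‖v‖ * ENNReal.ofReal (Real.exp (-(g * ‖v‖ ^ 2)))) := by
  refine Gam_prof_aux P h0 hg ?_ t x v
  intro v w o
  calc om ‖post v w o‖ * om' ‖postStar v w o‖ ≤ om (‖v‖ + ‖w‖) * 1 := by
        gcongr
        · exact h0.2.1 (norm_post_le v w o)
        · exact h0'.2.2.2 _
    _ = _ := mul_one _

/-- (GC) quadratic gain, radial weight of the second factor -/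
theorem Gam_prof_right {om om' : ℝ → ℝ≥0∞} (h0 : Adm om) (h0' : Adm om')
    {g : ℝ} (hg : g ∈ Icc (1 / 8 : ℝ) (1 / 4)) (t : ℝ) (x : T3) (v : V) :
    Gam (prof P om g t x) (prof P om' g t x) v ≤
      (ENNReal.ofReal (Real.exp 16) * CQ) * ENNReal.ofReal (1 + ‖v‖) *
        (om' ‖v‖ * ENNReal.ofReal (Real.exp (-(g * ‖v‖ ^ 2)))) := by
  refine Gam_prof_aux P h0' hg ?_ t x v
  intro v w o
  calc om ‖post v w o‖ * om' ‖postStar v w o‖ ≤ 1 * om' (‖v‖ + ‖w‖) := by
        gcongr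
        · exact h0.2.2.2 _
        · exact h0'.2.1 (norm_postStar_le v w o)
    _ = _ := one_mul _

end Vale.Agent.P140.NU
end
end

section

/-!
Calculus for `EvP`.
-/

open MeasureTheory Set Filter
open scoped ENNReal Topology

noncomputable section

namespace Vale.Agent.P140.NU

theorem EvP.mono {φ ψ : Par → Prop} (h : EvP φ) (hi : ∀ P, φ P → ψ P) : EvP ψ := by
  unfold EvP at *
  filter_upwards [h] with c hc
  filter_upwards [hc] with lam hl
  filter_upwards [hl] with K hK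
  filter_upwards [hK] with k hk
  exact fun j0 hj => hi _ (hk j0 hj)

theorem EvP.and {φ ψ : Par → Prop} (h : EvP φ) (h' : EvP ψ) : EvP fun P => φ P ∧ ψ P := by
  unfold EvP at *
  filter_upwards [h, h'] with c hc hc'
  filter_upwards [hc, hc'] with lam hl hl'
  filter_upwards [hl, hl'] with K hK hK'
  filter_upwards [hK, hK'] with k hk hk'
  exact fun j0 hj => ⟨hk j0 hj, hk' j0 hj⟩

theorem EvP.mono2 {φ ψ χ : Par → Prop} (h : EvP φ) (h' : EvP ψ)
    (hi : ∀ P, φ P → ψ P → χ P) : EvP χ := (h.and h').mono fun P hP => hi P hP.1 hP.2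

theorem EvP.of_forall {φ : Par → Prop} (h : ∀ P, φ P) : EvP φ := by
  unfold EvP
  exact Eventually.of_forall fun c => Eventually.of_forall fun lam => Eventually.of_forall fun K =>
    Eventually.of_forall fun k j0 _ => h _

/-- a property of `c` -/
theorem EvP.of_c {φ : ℝ → Prop} (h : ∀ᶠ c in atTop, φ c) : EvP fun P => φ P.c := by
  unfold EvP
  filter_upwards [h] with c hc
  exact Eventually.of_forall fun lam => Eventually.of_forall fun K =>
    Eventually.of_forall fun k j0 _ => hc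

/-- a property of `c` and `λ` -/
theorem EvP.of_lam {φ : ℝ → ℝ → Prop} (h : ∀ᶠ c in atTop, ∀ᶠ lam in 𝓝[<] (1 : ℝ), φ c lam) :
    EvP fun P => φ P.c P.lam := by
  unfold EvP
  filter_upwards [h] with c hc
  filter_upwards [hc] with lam hl
  exact Eventually.of_forall fun K => Eventually.of_forall fun k j0 _ => hl

/-- a property of `c`, `λ` and `K` -/
theorem EvP.of_K {φ : ℝ → ℝ → ℕ → Prop}
    (h : ∀ᶠ c in atTop, ∀ᶠ lam in 𝓝[<] (1 : ℝ), ∀ᶠ K in atTop, φ c lam K) :
    EvP fun P => φ P.c P.lam P.K := by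
  unfold EvP
  filter_upwards [h] with c hc
  filter_upwards [hc] with lam hl
  filter_upwards [hl] with K hK
  exact Eventually.of_forall fun k j0 _ => hK

/-- a property of `c`, `λ`, `K` and `kdel` -/
theorem EvP.of_kdel {φ : ℝ → ℝ → ℕ → ℝ → Prop}
    (h : ∀ᶠ c in atTop, ∀ᶠ lam in 𝓝[<] (1 : ℝ), ∀ᶠ K in atTop, ∀ᶠ kdel in 𝓝[>] (0 : ℝ),
      φ c lam K kdel) :
    EvP fun P => φ P.c P.lam P.K P.kdel := by
  unfold EvP
  filter_upwards [h] with c hc
  filter_upwards [hc] with lam hl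
  filter_upwards [hl] with K hK
  filter_upwards [hK] with k hk
  exact fun j0 _ => hk

theorem EvP.of_j0 : EvP fun P => P.lam ^ P.j0 ≤ 1 / 64 := by
  unfold EvP
  exact Eventually.of_forall fun c => Eventually.of_forall fun lam => Eventually.of_forall fun K =>
    Eventually.of_forall fun k j0 h => h

/-- basic inequalities between the parameters -/
theorem EvP.basic : EvP fun P => 1 ≤ P.c ∧ 1 / 2 < P.lam ∧ P.lam < 1 ∧ 1 ≤ P.K ∧ 0 < P.kdel ∧
    P.kdel ≤ 1 ∧ P.lam ^ P.j0 ≤ 1 / 64 := by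
  have h1 : EvP fun P => 1 ≤ P.c := EvP.of_c (eventually_ge_atTop 1)
  have h2 : EvP fun P => 1 / 2 < P.lam ∧ P.lam < 1 := by
    apply EvP.of_lam (φ := fun _ lam => 1 / 2 < lam ∧ lam < 1)
    refine Eventually.of_forall fun c => ?_
    have : Ioo (1 / 2 : ℝ) 1 ∈ 𝓝[<] (1 : ℝ) := Ioo_mem_nhdsLT (by norm_num)
    exact this
  have h3 : EvP fun P => 1 ≤ P.K := by
    apply EvP.of_K (φ := fun _ _ K => 1 ≤ K)
    exact Eventually.of_forall fun c => Eventually.of_forall fun lam => eventually_ge_atTop 1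
  have h4 : EvP fun P => 0 < P.kdel ∧ P.kdel ≤ 1 := by
    apply EvP.of_kdel (φ := fun _ _ _ k => 0 < k ∧ k ≤ 1)
    refine Eventually.of_forall fun c => Eventually.of_forall fun lam =>
      Eventually.of_forall fun K => ?_
    have : Ioc (0 : ℝ) 1 ∈ 𝓝[>] (0 : ℝ) := Ioc_mem_nhdsGT (by norm_num)
    exact this
  exact ((h1.and h2).and ((h3.and h4).and EvP.of_j0)).mono fun P h =>
    ⟨h.1.1, h.1.2.1, h.1.2.2, h.2.1.1, h.2.1.2.1, h.2.1.2.2, h.2.2⟩

/-- good parameters exist -/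
theorem EvP.exists {φ : Par → Prop} (h : EvP φ) : ∃ P, φ P := by
  have h0 : EvP fun P => P.lam ∈ Ioo (1 / 2 : ℝ) 1 := EvP.basic.mono fun P hP => ⟨hP.2.1, hP.2.2.1⟩
  have h' := h0.and h
  unfold EvP at h'
  obtain ⟨c, hc⟩ := h'.exists
  obtain ⟨lam, hl⟩ := (hc.and (Ioo_mem_nhdsLT (by norm_num : (1 / 2 : ℝ) < 1))).exists
  obtain ⟨K, hK⟩ := hl.1.exists
  obtain ⟨k, hk⟩ := hK.exists
  obtain ⟨j0, hj⟩ := exists_pow_lt_of_lt_one (by norm_num : (0 : ℝ) < 1 / 64) hl.2.2
  exact ⟨_, (hk j0 hj.le).2⟩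

end Vale.Agent.P140.NU
end
end

section

/-!
P140-NU, module G: the cells.
-/

open MeasureTheory Set Filter
open scoped ENNReal Topology

noncomputable section

namespace Vale.Agent.P140.NU

namespace Par.Good

variable {P : Par} (hP : P.Good)

include hP

theorem cell_pos {γ a : ℝ} {j : ℕ} (h : a ∈ P.cell γ j) : 0 < a :=
  lt_of_lt_of_le (Real.rpow_pos_of_pos hP.lam_pos _) h.1

/-- the cells are disjoint -/
theorem cell_inj {γ : ℝ} (hγ : 0 < γ) {a : ℝ} {j k : ℕ} (h : a ∈ P.cell γ j)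
    (h' : a ∈ P.cell γ k) : j = k := by
  have key : ∀ {j k : ℕ}, a ∈ P.cell γ j → a ∈ P.cell γ k → ¬ j < k := by
    intro j k h h' hlt
    have h1 : P.lam ^ ((k : ℝ) + γ) < P.lam ^ ((j : ℝ) + 1 - γ) := by
      apply Real.rpow_lt_rpow_of_exponent_gt hP.lam_pos hP.hl1
      have : (j : ℝ) + 1 ≤ k := by exact_mod_cast hlt
      linarith only [hγ, this]
    exact absurd (h.1.trans h'.2) (not_le.mpr h1)
  rcases lt_trichotomy j k with h1 | h1 | h1
  · exact absurd h1 (key h h')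
  · exact h1
  · exact absurd h1 (key h' h)

theorem cell_mono {γ γ' : ℝ} (hγ : γ ≤ γ') (j : ℕ) : P.cell γ' j ⊆ P.cell γ j := by
  intro a ha
  refine ⟨le_trans ?_ ha.1, le_trans ha.2 ?_⟩
  · apply Real.rpow_le_rpow_of_exponent_ge hP.lam_pos hP.hl1.le
    linarith
  · apply Real.rpow_le_rpow_of_exponent_ge hP.lam_pos hP.hl1.le
    linarith only [hγ]

theorem cell_le {γ a : ℝ} (hγ : 0 ≤ γ) {j : ℕ} (h : a ∈ P.cell γ j) : a ≤ P.lam ^ j := by
  refine h.2.trans ?_
  rw [← Real.rpow_natCast]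
  apply Real.rpow_le_rpow_of_exponent_ge hP.lam_pos hP.hl1.le
  linarith

theorem cell_ge {γ a : ℝ} (hγ : 0 ≤ γ) {j : ℕ} (h : a ∈ P.cell γ j) : P.lam ^ (j + 1) ≤ a := by
  refine le_trans ?_ h.1
  rw [← Real.rpow_natCast]
  apply Real.rpow_le_rpow_of_exponent_ge hP.lam_pos hP.hl1.le
  push_cast
  linarith

/-- the velocities of a cell are close, compared with the gaps -/
theorem six_del_le (j : ℕ) : 6 * P.del j ≤ P.lam ^ (j + 1) * (P.lam ^ (-(gg / 4)) - 1) := by
  have h1 := hP.del_le j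
  have hg := hP.gap_pos
  have hj := hP.lamj_pos j
  have hj1 := hP.lamj_le_one j
  have hw := hP.w_pos
  have hw1 : P.w ≤ 1 := hP.w_le.trans (by norm_num)
  have hl := hP.lam_pos
  have h2 : (P.lam ^ j) ^ 8 ≤ P.lam ^ j := by
    calc (P.lam ^ j) ^ 8 ≤ (P.lam ^ j) ^ 1 := pow_le_pow_of_le_one hj.le hj1 (by norm_num)
      _ = P.lam ^ j := pow_one _
  have h3 : P.kdel ≤ P.lam * (P.lam ^ (-(gg / 4)) - 1) / 10 ^ 4 := by
    refine hP.hk1.le.trans ?_
    have : (P.w * P.lam) ^ 2 ≤ P.lam := by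
      have h4 : P.w * P.lam ≤ 1 * P.lam := mul_le_mul_of_nonneg_right hw1 hl.le
      have h5 : (P.w * P.lam) ^ 2 ≤ (P.w * P.lam) * 1 := by
        rw [sq]
        apply mul_le_mul_of_nonneg_left _ (by (clear * - hw hl; positivity))
        linarith only [h4, hP.hl1]
      linarith only [h4, h5]
    (clear * - this hg; gcongr)
  calc 6 * P.del j ≤ 6 * (P.kdel * (P.lam ^ j) ^ 8) := by linarith only [h1]
    _ ≤ 6 * (P.lam * (P.lam ^ (-(gg / 4)) - 1) / 10 ^ 4 * P.lam ^ j) := by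
        have : P.kdel * (P.lam ^ j) ^ 8 ≤ P.lam * (P.lam ^ (-(gg / 4)) - 1) / 10 ^ 4 * P.lam ^ j := by
          apply mul_le_mul h3 h2 (by (clear * - hl; positivity)) (by (clear * - hl hg; positivity))
        linarith only [this]
    _ = 6 / 10 ^ 4 * (P.lam ^ (j + 1) * (P.lam ^ (-(gg / 4)) - 1)) := by ring
    _ ≤ 1 * (P.lam ^ (j + 1) * (P.lam ^ (-(gg / 4)) - 1)) := by
        apply mul_le_mul_of_nonneg_right (by norm_num)
        positivity
    _ = _ := one_mul _

/-- a point close to the enlarged cell `g/2` is in the enlarged cell `g/4` -/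
theorem cell_near {a a' : ℝ} {j : ℕ} (h : a ∈ P.cell (gg / 2) j) (h' : |a' - a| ≤ 6 * P.del j) :
    a' ∈ P.cell (gg / 4) j := by
  have hl := hP.lam_pos
  have h1 := hP.six_del_le j
  have hg := hP.gap_pos
  have hx : ∀ e : ℝ, e ≤ (j : ℝ) + 1 → P.lam ^ (j + 1) ≤ P.lam ^ e := by
    intro e he
    rw [← Real.rpow_natCast]
    apply Real.rpow_le_rpow_of_exponent_ge hl hP.hl1.le
    push_cast
    linarith only [he]
  have e1 : P.lam ^ ((j : ℝ) + 1 - gg / 2) = P.lam ^ ((j : ℝ) + 1 - gg / 4) * P.lam ^ (-(gg / 4)) := by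
    rw [← Real.rpow_add hl]
    congr 1
    ring
  have e2 : P.lam ^ ((j : ℝ) + gg / 4) = P.lam ^ ((j : ℝ) + gg / 2) * P.lam ^ (-(gg / 4)) := by
    rw [← Real.rpow_add hl]
    congr 1
    ring
  have h3 : P.lam ^ (j + 1) * (P.lam ^ (-(gg / 4)) - 1) ≤
      P.lam ^ ((j : ℝ) + 1 - gg / 4) * (P.lam ^ (-(gg / 4)) - 1) := by
    apply mul_le_mul_of_nonneg_right (hx _ _) hg.le
    unfold gg
    linarith only []
  have h4 : P.lam ^ (j + 1) * (P.lam ^ (-(gg / 4)) - 1) ≤
      P.lam ^ ((j : ℝ) + gg / 2) * (P.lam ^ (-(gg / 4)) - 1) := by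
    apply mul_le_mul_of_nonneg_right (hx _ _) hg.le
    unfold gg
    linarith only []
  obtain ⟨h5, h6⟩ := abs_le.mp h'
  obtain ⟨h7, h8⟩ := h
  rw [e1] at h7
  refine ⟨?_, ?_⟩
  · (clear * - h1 h3 h5 h7; linarith only [h7, h5, h3, h1])
  · rw [e2]
    (clear * - h1 h4 h6 h8; linarith only [h8, h6, h4, h1])

end Par.Good

end Vale.Agent.P140.NU
end
end

section

/-! the profile `Pi` as a profile with a radial weight; quadratic gain on it -/

open MeasureTheory Set Filter
open scoped ENNReal Topology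

noncomputable section

namespace Vale.Agent.P140.NU

/-- radial weight of `Pi` -/
def omPi (r T a : ℝ) : ℝ≥0∞ := ENNReal.ofReal (Real.exp (-(2 * (max (r - a * T) 0 / T))))

theorem adm_omPi (r : ℝ) {T : ℝ} (hT : 0 < T) : Adm (omPi r T) := by
  refine ⟨?_, ?_, ?_, ?_⟩
  · unfold omPi
    apply ENNReal.measurable_ofReal.comp
    apply Continuous.measurable
    fun_prop
  · intro a b hab
    unfold omPi
    apply ENNReal.ofReal_le_ofReal
    apply Real.exp_le_exp.mpr
    have : max (r - b * T) 0 ≤ max (r - a * T) 0 := by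
      apply max_le_max _ le_rfl
      nlinarith
    have h2 : max (r - b * T) 0 / T ≤ max (r - a * T) 0 / T := by gcongr
    linarith only [h2]
  · intro a b _ hb
    unfold omPi
    rw [← ENNReal.ofReal_mul (Real.exp_pos _).le, ← Real.exp_add]
    apply ENNReal.ofReal_le_ofReal
    apply Real.exp_le_exp.mpr
    have h1 : max (r - a * T) 0 ≤ max (r - (a + b) * T) 0 + b * T := by
      apply max_le
      · have := le_max_left (r - (a + b) * T) 0
        linarith
      · have := le_max_right (r - (a + b) * T) 0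
        nlinarith only [this, hT, hb]
    have h2 : max (r - a * T) 0 / T ≤ (max (r - (a + b) * T) 0 + b * T) / T := by gcongr
    rw [add_div, mul_div_assoc, div_self hT.ne', mul_one] at h2
    linarith only [h2]
  · intro a
    unfold omPi
    rw [ENNReal.ofReal_le_one, Real.exp_le_one_iff]
    have : 0 ≤ max (r - a * T) 0 / T := div_nonneg (le_max_right _ _) hT.le
    linarith

variable {P : Par}

theorem Pi_eq_prof (n : ℕ) (γ t : ℝ) (x : T3) :
    Pi P n γ t x = prof P (omPi (rr x) (P.TT n t)) γ t x := by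
  funext v
  unfold Pi prof omPi yy
  congr 1
  rw [← ENNReal.ofReal_mul (Real.exp_pos _).le, ← Real.exp_add]
  congr 2

theorem one_le_WW0 (t : ℝ) (x : T3) (v : V) : 1 ≤ WW P t x v := by
  unfold WW
  exact le_self_add

theorem le_prof (om : ℝ → ℝ≥0∞) (g t : ℝ) (x : T3) (v : V) :
    om ‖v‖ * ENNReal.ofReal (Real.exp (-(g * ‖v‖ ^ 2))) ≤ prof P om g t x v := by
  unfold prof
  exact le_mul_of_one_le_right zero_le (one_le_WW0 t x v)

theorem prof_anti_g (om : ℝ → ℝ≥0∞) {g g' : ℝ} (h : g ≤ g') (t : ℝ) (x : T3) (v : V) :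
    prof P om g' t x v ≤ prof P om g t x v := by
  unfold prof
  gcongr

/-- real bound of a finite constant -/
theorem const_le {C : ℝ≥0∞} (hC : C ≠ ⊤) : C ≤ ENNReal.ofReal (C.toReal + 1) := by
  rw [ENNReal.ofReal_add ENNReal.toReal_nonneg zero_le_one, ENNReal.ofReal_toReal hC]
  exact le_self_add

/-- constant of the quadratic bounds -/
def CGr : ℝ := (ENNReal.ofReal (Real.exp 16) * CQ).toReal + 1

theorem CGr_pos : 0 < CGr := by
  unfold CGr
  have := ENNReal.toReal_nonneg (a := ENNReal.ofReal (Real.exp 16) * CQ)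
  linarith

theorem le_CGr : ENNReal.ofReal (Real.exp 16) * CQ ≤ ENNReal.ofReal CGr :=
  const_le (ENNReal.mul_ne_top ENNReal.ofReal_ne_top CQ_ne_top)

/-- (GC) -/
theorem Gam_prof_prof {om om' : ℝ → ℝ≥0∞} (h0 : Adm om) (h0' : Adm om')
    {g : ℝ} (hg : g ∈ Icc (1 / 8 : ℝ) (1 / 4)) (t : ℝ) (x : T3) (v : V) :
    Gam (prof P om g t x) (prof P om' g t x) v ≤
      ENNReal.ofReal (CGr * (1 + ‖v‖)) *
        (om ‖v‖ * ENNReal.ofReal (Real.exp (-(g * ‖v‖ ^ 2)))) := by
  rw [ENNReal.ofReal_mul CGr_pos.le]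
  refine (Gam_prof_left P h0 h0' hg t x v).trans ?_
  gcongr
  exact le_CGr

theorem Gam_prof_prof' {om om' : ℝ → ℝ≥0∞} (h0 : Adm om) (h0' : Adm om')
    {g : ℝ} (hg : g ∈ Icc (1 / 8 : ℝ) (1 / 4)) (t : ℝ) (x : T3) (v : V) :
    Gam (prof P om g t x) (prof P om' g t x) v ≤
      ENNReal.ofReal (CGr * (1 + ‖v‖)) *
        (om' ‖v‖ * ENNReal.ofReal (Real.exp (-(g * ‖v‖ ^ 2)))) := by
  rw [ENNReal.ofReal_mul CGr_pos.le]
  refine (Gam_prof_right P h0 h0' hg t x v).trans ?_
  gcongr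
  exact le_CGr

/-- quadratic gain on the profile, at fixed parameters -/
theorem Gam_Pi_at (hP : P.Good) (n : ℕ) {γ : ℝ} (hγ : γ ∈ Icc (1 / 8 : ℝ) (1 / 6)) {t : ℝ}
    (ht : 0 ≤ t) (x : T3) (v : V) :
    Gam (Pi P n γ t x) (Pi P n γ t x) v ≤
      ENNReal.ofReal (CGr * (1 + ‖v‖)) * Pi P n γ t x v := by
  have hom := adm_omPi (rr x) (hP.TT_pos n ht)
  have hg : γ ∈ Icc (1 / 8 : ℝ) (1 / 4) := ⟨hγ.1, hγ.2.trans (by norm_num)⟩
  rw [Pi_eq_prof]
  refine (Gam_prof_prof hom hom hg t x v).trans ?_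
  gcongr
  exact le_prof _ _ _ _ _

end Vale.Agent.P140.NU
end
end

section

/-!
P140-NU, module G: monotonicity of the weights along flights.
-/

open MeasureTheory Set Filter
open scoped ENNReal Topology

noncomputable section

namespace Vale.Agent.P140.NU

variable {P : Par}

theorem ennrpow_neg_anti {a b : ℝ≥0∞} (h : a ≤ b) {e : ℝ} (he : 0 ≤ e) : b ^ (-e) ≤ a ^ (-e) := by
  rw [ENNReal.rpow_neg, ENNReal.rpow_neg, ENNReal.inv_le_inv]
  exact ENNReal.rpow_le_rpow h he

theorem sq_vp_sub_le_SS (hP : P.Good) (s : ℝ) (x : T3) (v : V) : (vp v - P.w) ^ 2 ≤ SS P s x v := by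
  unfold SS
  have := mul_le_mul_of_nonneg_left (dotE_le x v) hP.w_pos.le
  nlinarith only [this]

/-- the singular part of the weight vanishes for large horizontal velocities -/
theorem sing_zero_of_vp (hP : P.Good) (s : ℝ) (x : T3) {v : V} (hv : 2 < vp v) :
    ENNReal.ofReal (SS P s x v) ^ (-(3 / 4) : ℝ) - 1 = 0 := by
  have h1 := sq_vp_sub_le_SS hP s x v
  have h2 : P.w ≤ 1 := hP.w_le.trans (by norm_num)
  have h3 : (1 : ℝ) ≤ SS P s x v := by
    refine le_trans ?_ h1
    nlinarith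
  have h4 : (1 : ℝ≥0∞) ≤ ENNReal.ofReal (SS P s x v) := by
    rw [ENNReal.one_le_ofReal]
    exact h3
  have h5 := ennrpow_neg_anti h4 (e := 3 / 4) (by norm_num)
  rw [ENNReal.one_rpow] at h5
  exact tsub_eq_zero_of_le h5

theorem one_le_WW (t : ℝ) (x : T3) (v : V) : 1 ≤ WW P t x v := by
  unfold WW
  exact le_self_add

theorem WW_eq_one_of_vp (hP : P.Good) (t : ℝ) (x : T3) {v : V} (hv : 2 < vp v) :
    WW P t x v = 1 := by
  unfold WW
  rw [sing_zero_of_vp hP 1 x hv, sing_zero_of_vp hP (-1) x hv]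
  simp only [one_div, add_zero, ite_self]

/-- the singular weight is nondecreasing along flights -/
theorem WW_mono (hP : P.Good) {t t' : ℝ} (_h0 : 0 ≤ t) (htt : t ≤ t') (ht' : t' ≤ 1 / 50) (x : T3)
    (v : V) : WW P t x v ≤ WW P t' (mv x v (t' - t)) v := by
  by_cases hv : 2 < vp v
  · rw [WW_eq_one_of_vp hP t x hv]
    exact one_le_WW _ _ _
  push Not at hv
  by_cases hr : rr x ≤ 1 / 16 + 2 * t
  · have hs : |t' - t| = t' - t := abs_of_nonneg (by linarith only [htt])
    have hm : |t' - t| * vp v ≤ (t' - t) * 2 := by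
      rw [hs]
      exact mul_le_mul_of_nonneg_left hv (by linarith only [htt])
    have h1 : rr (mv x v (t' - t)) ≤ 1 / 16 + 2 * t' := by
      have := rr_mv_le x v (t' - t)
      linarith only [hr, hm, this]
    have hloc : rr x + |t' - t| * vp v < 1 / 2 := by linarith only [ht', hr, hm]
    have hloc0 : rr x + |(0 : ℝ)| * vp v < 1 / 2 := by
      rw [abs_zero, zero_mul]
      linarith only [htt, ht', hr]
    have hS : ∀ s : ℝ, ENNReal.ofReal (SS P s x v) ^ (-(3 / 4) : ℝ) ≤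
        ENNReal.ofReal (SS P s (mv x v (t' - t)) v) ^ (-(3 / 4) : ℝ) := by
      intro s
      apply ennrpow_neg_anti _ (by norm_num)
      apply ENNReal.ofReal_le_ofReal
      have := SS_anti P s hP.w_pos.le (by linarith only [htt] : (0 : ℝ) ≤ t' - t) hloc0 hloc
      rwa [mv_zero] at this
    unfold WW
    rw [if_pos hr, if_pos h1]
    exact add_le_add le_rfl (add_le_add (tsub_le_tsub_right (hS 1) 1) (tsub_le_tsub_right (hS (-1)) 1))
  · unfold WW
    rw [if_neg hr]
    simp only [add_zero, one_div, self_le_add_right]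

/-- `y` is nonincreasing along flights -/
theorem yy_anti (hP : P.Good) (n : ℕ) {t t' : ℝ} (h0 : 0 ≤ t) (htt : t ≤ t') (x : T3) (v : V) :
    yy P n t' (mv x v (t' - t)) v ≤ yy P n t x v := by
  have hT := hP.TT_pos n h0
  have hT' := hP.TT_pos n (h0.trans htt)
  have hTT : P.TT n t ≤ P.TT n t' := by
    unfold Par.TT
    linarith only [htt]
  have e : P.TT n t' - P.TT n t = t' - t := by
    unfold Par.TT
    ring
  have h1 : rr (mv x v (t' - t)) ≤ rr x + (t' - t) * ‖v‖ := by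
    have h2 := rr_mv_le x v (t' - t)
    rw [abs_of_nonneg (by linarith only [htt] : (0 : ℝ) ≤ t' - t)] at h2
    have h3 := mul_le_mul_of_nonneg_left (vp_le_norm v) (by linarith only [htt] : (0 : ℝ) ≤ t' - t)
    linarith only [h2, h3]
  have h4 : rr (mv x v (t' - t)) - ‖v‖ * P.TT n t' ≤ rr x - ‖v‖ * P.TT n t := by
    have h5 : (t' - t) * ‖v‖ = ‖v‖ * P.TT n t' - ‖v‖ * P.TT n t := by
      rw [← e]
      ring
    linarith only [h1, h5]
  unfold yy
  calc max (rr (mv x v (t' - t)) - ‖v‖ * P.TT n t') 0 / P.TT n t'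
      ≤ max (rr x - ‖v‖ * P.TT n t) 0 / P.TT n t' := by
        gcongr
    _ ≤ max (rr x - ‖v‖ * P.TT n t) 0 / P.TT n t := by
        apply div_le_div_of_nonneg_left (le_max_right _ _) hT hTT

/-- the profile is nondecreasing along flights (pointwise form) -/
theorem Pi_mono' (hP : P.Good) (n : ℕ) (γ : ℝ) {t t' : ℝ} (h0 : 0 ≤ t) (htt : t ≤ t')
    (ht' : t' ≤ 1 / 50) (x : T3) (v : V) :
    Pi P n γ t x v ≤ Pi P n γ t' (mv x v (t' - t)) v := by
  unfold Pi
  have h1 := yy_anti hP n h0 htt x v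
  have h2 := WW_mono hP h0 htt ht' x v
  gcongr

/-- the profile is nondecreasing along flights -/
theorem Pi_mono : EvP fun P => ∀ᶠ t0 in 𝓝[>] (0 : ℝ), ∀ n, ∀ γ, ∀ t ∈ Icc 0 (2 * t0),
    ∀ t' ∈ Icc t (2 * t0), ∀ x v, Pi P n γ t x v ≤ Pi P n γ t' (mv x v (t' - t)) v := by
  refine evP_good.mono fun P hP => ?_
  have e1 : ∀ᶠ t0 in 𝓝[>] (0 : ℝ), t0 < 1 / 100 :=
    eventually_nhdsWithin_of_eventually_nhds (eventually_lt_nhds (by norm_num))
  filter_upwards [e1] with t0 h0 n γ t ht t' ht' x v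
  exact Pi_mono' hP n γ ht.1 ht'.1 (by linarith [ht'.2]) x v

end Vale.Agent.P140.NU
end
end

section

/-!
P140-NU, module G: the Duhamel operator on the profile.
-/

open MeasureTheory Set Filter Metric
open scoped ENNReal Topology

noncomputable section

namespace Vale.Agent.P140.NU.Gb

variable {P : Par}

theorem ll_const_mul {A : V × S2 → ℝ≥0∞} (hA : Measurable A) (H : ℝ≥0∞) :
    ∫⁻ w : V, ∫⁻ ω : S2, H * A (w, ω) ∂surf = H * ∫⁻ w : V, ∫⁻ ω : S2, A (w, ω) ∂surf := by
  have h1 : ∀ w : V, ∫⁻ ω : S2, H * A (w, ω) ∂surf = H * ∫⁻ ω : S2, A (w, ω) ∂surf := fun w =>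
    lintegral_const_mul _ (hA.comp (measurable_const.prodMk measurable_id))
  simp_rw [h1]
  exact lintegral_const_mul _ (hA.lintegral_prod_right' (ν := surf))

theorem meas_Gam_int {f g : V → ℝ≥0∞} (hf : Measurable f) (hg : Measurable g) (v : V) :
    Measurable fun q : V × S2 => ENNReal.ofReal |relA v q.1 q.2| *
      (f (post v q.1 q.2) * g (postStar v q.1 q.2)) := by
  have e1 : Measurable fun q : V × S2 => ((v, q.1, q.2) : V × V × S2) := by fun_prop
  have e2 := measurable_relA.comp e1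
  have e3 := hf.comp (measurable_post.comp e1)
  have e4 := hg.comp (measurable_postStar.comp e1)
  have e5 := e2.abs.ennreal_ofReal.mul (e3.mul e4)
  exact e5

theorem Gam_const_mul {f g : V → ℝ≥0∞} (hf : Measurable f) (hg : Measurable g) (H : ℝ≥0∞) (v : V) :
    Gam f (fun u => H * g u) v = H * Gam f g v := by
  have h := ll_const_mul (meas_Gam_int hf hg v) H
  unfold Gam
  refine Eq.trans ?_ h
  refine lintegral_congr fun w => lintegral_congr fun ω => ?_
  ring

theorem meas_cf' (n : ℕ) (t : ℝ) (x : T3) : Measurable (cf P n t x) := by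
  have h := measurable_cf P n
  have h2 : Measurable fun v : V => ((t, x, v) : ℝ × T3 × V) := by fun_prop
  have h3 := h.comp h2
  exact h3

theorem meas_Pi' (n : ℕ) (γ t : ℝ) (x : T3) : Measurable (Pi P n γ t x) := by
  have h := measurable_Pi P n γ
  have h2 : Measurable fun v : V => ((t, x, v) : ℝ × T3 × V) := by fun_prop
  have h3 := h.comp h2
  exact h3

/-- the statement of `KK_Pi` for fixed parameters -/
def KKAt (P : Par) (CK t0 : ℝ) : Prop := ∀ n, P.j0 ≤ n →
    ∀ γ ∈ Icc (1 / 8 : ℝ) (1 / 6), ∀ t ∈ Icc 0 (2 * t0), ∀ x v,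
    KK P n t (Pi P n γ t) x v ≤ ENNReal.ofReal (CK * (P.c / rr x) / (1 + ‖v‖)) * Pi P n γ t x v ∧
    (KK P n t (Pi P n γ t) x v ≠ 0 → P.w * P.TT n t ≤ rr x)

/-- `UK_Pi`, from `KK_Pi` -/
theorem UK_Pi' (hP : P.Good) {CK t0 : ℝ} (hCK : 0 < CK) (ht0 : t0 ≤ 1 / 100) (hK : KKAt P CK t0)
    {n : ℕ} (hn : P.j0 ≤ n) {γ : ℝ} (hγ : γ ∈ Icc (1 / 8 : ℝ) (1 / 6)) {t1 t : ℝ} (h1 : 0 ≤ t1)
    (h1t : t1 ≤ t) (ht : t ≤ t0) (hT : P.TT n t ≤ 2 * P.TT n t1) (H : ℝ≥0∞) (x : T3) (v : V) :
    UK P n t1 (fun τ x v => H * Pi P n γ τ x v) t x v ≤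
      ENNReal.ofReal (10 ^ 20 * CK * P.c ^ 3) * H * Pi P n γ t x v := by
  have hc := hP.c_pos
  have hw := hP.w_pos
  have hT1 := hP.TT_pos n h1
  have key : ∀ τ ∈ Icc t1 t, KK P n τ ((fun τ x v => H * Pi P n γ τ x v) τ) (mv x v (τ - t)) v ≤
      ENNReal.ofReal (CK * (P.c / (P.w * P.TT n t1))) * H * Pi P n γ t x v := by
    intro τ hτ
    have hτ0 : 0 ≤ τ := h1.trans hτ.1
    have e1 : KK P n τ ((fun τ x v => H * Pi P n γ τ x v) τ) (mv x v (τ - t)) v =
        H * KK P n τ (Pi P n γ τ) (mv x v (τ - t)) v := by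
      unfold KK
      beta_reduce
      rw [Gam_const_mul (meas_cf' n τ _) (meas_Pi' n γ τ _)]
      ring
    rw [e1]
    obtain ⟨k1, k2⟩ := hK n hn γ hγ τ ⟨hτ0, by linarith only [h1, h1t, ht, hτ.2]⟩ (mv x v (τ - t)) v
    by_cases h0 : KK P n τ (Pi P n γ τ) (mv x v (τ - t)) v = 0
    · rw [h0, mul_zero]
      exact bot_le
    have k3 := k2 h0
    have k4 : Pi P n γ τ (mv x v (τ - t)) v ≤ Pi P n γ t x v := by
      have := Pi_mono' hP n γ hτ0 hτ.2 (by linarith only [ht0, ht]) (mv x v (τ - t)) v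
      rwa [mv_mv, sub_add_sub_cancel, sub_self, mv_zero] at this
    have hTτ : P.TT n t1 ≤ P.TT n τ := by
      unfold Par.TT
      linarith only [hτ.1]
    have k5 : P.w * P.TT n t1 ≤ rr (mv x v (τ - t)) :=
      (mul_le_mul_of_nonneg_left hTτ hw.le).trans k3
    have k6 : CK * (P.c / rr (mv x v (τ - t))) / (1 + ‖v‖) ≤ CK * (P.c / (P.w * P.TT n t1)) := by
      have a1 : P.c / rr (mv x v (τ - t)) ≤ P.c / (P.w * P.TT n t1) :=
        div_le_div_of_nonneg_left hc.le (by positivity) k5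
      have a2 : 0 ≤ CK * (P.c / (P.w * P.TT n t1)) := by (clear * - hCK hc hw hT1; positivity)
      rw [div_le_iff₀ (by (clear * -; positivity))]
      calc CK * (P.c / rr (mv x v (τ - t))) ≤ CK * (P.c / (P.w * P.TT n t1)) :=
            mul_le_mul_of_nonneg_left a1 hCK.le
        _ ≤ CK * (P.c / (P.w * P.TT n t1)) * (1 + ‖v‖) := by
            nlinarith only [a2, norm_nonneg v]
    calc H * KK P n τ (Pi P n γ τ) (mv x v (τ - t)) v
        ≤ H * (ENNReal.ofReal (CK * (P.c / (P.w * P.TT n t1))) * Pi P n γ t x v) := by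
          gcongr
          exact k1.trans (mul_le_mul' (ENNReal.ofReal_le_ofReal k6) k4)
      _ = _ := by ring
  calc UK P n t1 (fun τ x v => H * Pi P n γ τ x v) t x v
      ≤ ∫⁻ _τ in Icc t1 t, ENNReal.ofReal (CK * (P.c / (P.w * P.TT n t1))) * H * Pi P n γ t x v := by
        unfold UK
        exact setLIntegral_mono measurable_const key
    _ = ENNReal.ofReal (CK * (P.c / (P.w * P.TT n t1))) * H * Pi P n γ t x v *
        ENNReal.ofReal (t - t1) := by
        rw [setLIntegral_const, Real.volume_Icc]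
    _ = ENNReal.ofReal (CK * (P.c / (P.w * P.TT n t1)) * (t - t1)) * H * Pi P n γ t x v := by
        rw [ENNReal.ofReal_mul (p := CK * (P.c / (P.w * P.TT n t1))) (by (clear * - hCK hc hw hT1; positivity))]
        ring
    _ ≤ _ := by
        refine mul_le_mul_left (mul_le_mul_left (ENNReal.ofReal_le_ofReal ?_) _) _
        have e2 : t - t1 ≤ P.TT n t1 := by
          have : P.TT n t - P.TT n t1 = t - t1 := by
            unfold Par.TT
            ring
          linarith only [hT, this]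
        have e3 : P.c / P.w = 10 ^ 20 * P.c ^ 3 := by
          unfold Par.w
          (clear * - hc; field_simp)
        calc CK * (P.c / (P.w * P.TT n t1)) * (t - t1)
            ≤ CK * (P.c / (P.w * P.TT n t1)) * P.TT n t1 := by
              apply mul_le_mul_of_nonneg_left e2 (by (clear * - hCK hc hw hT1; positivity))
          _ = CK * (P.c / P.w) := by
              (clear * - hT1 hw hc hCK; field_simp)
          _ = 10 ^ 20 * CK * P.c ^ 3 := by
              rw [e3]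
              ring

/-- `UK_Pi` of the interface, from `KK_Pi` -/
theorem UK_Pi_of (h : ∃ CK : ℝ, 0 < CK ∧ EvP fun P => ∀ᶠ t0 in 𝓝[>] (0 : ℝ), KKAt P CK t0) :
    ∃ CA : ℝ, 0 < CA ∧ EvP fun P => ∀ᶠ t0 in 𝓝[>] (0 : ℝ), ∀ n, P.j0 ≤ n →
    ∀ γ ∈ Icc (1 / 8 : ℝ) (1 / 6), ∀ t1 t, 0 ≤ t1 → t1 ≤ t → t ≤ t0 →
    P.TT n t ≤ 2 * P.TT n t1 → ∀ H : ℝ≥0∞, ∀ x v,
    UK P n t1 (fun τ x v => H * Pi P n γ τ x v) t x v ≤
      ENNReal.ofReal (CA * P.c ^ 3) * H * Pi P n γ t x v := by
  obtain ⟨CK, hCK, hK⟩ := h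
  refine ⟨10 ^ 20 * CK, by positivity, evP_good.mono2 hK fun P hP h2 => ?_⟩
  have e1 : ∀ᶠ t0 in 𝓝[>] (0 : ℝ), t0 < 1 / 100 :=
    eventually_nhdsWithin_of_eventually_nhds (eventually_lt_nhds (by norm_num))
  filter_upwards [e1, h2] with t0 h0 hK n hn γ hγ t1 t h1 h1t ht hT H x v
  exact UK_Pi' hP hCK h0.le hK hn hγ h1 h1t ht hT H x v

end Vale.Agent.P140.NU.Gb
end
end

section

/-!
P140-NU, module G: first generation products.
-/

open MeasureTheory Set Filter Metric
open scoped ENNReal Topology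

noncomputable section

namespace Vale.Agent.P140.NU.Gb

variable {P : Par}

/-- the statement of module M on the support of the cold gas, for fixed parameters -/
def SuppAt (P : Par) (t0 : ℝ) : Prop := ∀ n, ∀ t ∈ Icc 0 (2 * t0), ∀ x v,
    cf P n t x v ≠ 0 → ∃ j ∈ Finset.Icc P.j0 n, rr x - P.w * t ∈ P.cell (gg / 2) j ∧
      v ∈ Box P j x ∧ √(SS P (sg j) x v) ≤ 4 * P.del j ∧
      cf P n t x v ≤ ENNReal.ofReal (P.amp j)

theorem rr_pos_of_cell (hP : P.Good) {γ t : ℝ} (ht : 0 ≤ t) {x : T3} {j : ℕ}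
    (h : rr x - P.w * t ∈ P.cell γ j) : 0 < rr x := by
  have h1 := hP.cell_pos h
  have h2 := mul_nonneg hP.w_pos.le ht
  linarith only [h1, h2]

/-- the cold gas at a point of the medium -/
theorem cf_at (hP : P.Good) {t0 : ℝ} (hS : SuppAt P t0) {n : ℕ} {t : ℝ} (ht : t ∈ Icc 0 (2 * t0))
    {x : T3} {j : ℕ} (h : rr x - P.w * t ∈ P.cell (gg / 2) j) (v : V) :
    cf P n t x v ≤ ENNReal.ofReal (P.amp j) ∧
      (cf P n t x v ≠ 0 → ‖v - uu P (sg j) x‖ ≤ 4 * P.del j) := by
  by_cases h0 : cf P n t x v = 0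
  · rw [h0]
    exact ⟨bot_le, fun h => absurd rfl h⟩
  · obtain ⟨k, _, h1, _, h2, h3⟩ := hS n t ht x v h0
    have hjk : k = j := hP.cell_inj (by unfold gg; norm_num) h1 h
    subst hjk
    refine ⟨h3, fun _ => ?_⟩
    rwa [sqrt_SS_eq_norm P _ (rr_pos_of_cell hP ht.1 h)] at h2

/-- products of cold-cold collisions -/
theorem Gam_cc (hP : P.Good) {t0 : ℝ} (hS : SuppAt P t0) {n : ℕ} {t : ℝ} (ht : t ∈ Icc 0 (2 * t0))
    {x : T3} {v : V} (h : Gam (cf P n t x) (cf P n t x) v ≠ 0) :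
    ∃ j ∈ Finset.Icc P.j0 n, rr x - P.w * t ∈ P.cell (gg / 2) j ∧
      √(SS P (sg j) x v) ≤ 6 * P.del j := by
  obtain ⟨w, ω, h1, h2⟩ := Gam_ne_zero h
  obtain ⟨j, hj, h3, _⟩ := hS n t ht x _ h1
  refine ⟨j, hj, h3, ?_⟩
  have hd := hP.del_pos j
  have h4 := Gam_beam_supp (u := uu P (sg j) x) (ρ := 4 * P.del j) (by (clear * - hd; positivity))
    (fun z hz => (cf_at hP hS ht h3 z).2 hz) (fun z hz => (cf_at hP hS ht h3 z).2 hz) h
  rw [sqrt_SS_eq_norm P _ (rr_pos_of_cell hP ht.1 h3)]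
  (by_contra nlg; linarith only [nlg, mul_pos (sub_pos.2 hd) (sub_pos.2 hd), mul_pos (sub_pos.2 (not_le.1 nlg)) (sub_pos.2 hd), mul_pos (sub_pos.2 (not_le.1 nlg)) (sub_pos.2 (not_le.1 nlg)), h4])

/-- products of cold-cold collisions: size -/
theorem Gam_cc_le (hP : P.Good) {t0 : ℝ} (hS : SuppAt P t0) {n : ℕ} {t : ℝ}
    (ht : t ∈ Icc 0 (2 * t0)) {x : T3} {j : ℕ} (h : rr x - P.w * t ∈ P.cell (gg / 2) j) (v : V) :
    Gam (cf P n t x) (cf P n t x) v ≤
      ENNReal.ofReal (64 * Real.pi * kap * (4 * P.del j) ^ 4) *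
        (ENNReal.ofReal (P.amp j) * ENNReal.ofReal (P.amp j)) := by
  have hd := hP.del_pos j
  exact Gam_beam_le (u := uu P (sg j) x) (ρ := 4 * P.del j) (by (clear * - hd; positivity))
    (fun z => (cf_at hP hS ht h z).1) (fun z => (cf_at hP hS ht h z).1)
    (fun z hz => (cf_at hP hS ht h z).2 hz) (fun z hz => (cf_at hP hS ht h z).2 hz) v

theorem six_del_le_one (hP : P.Good) (j : ℕ) : 6 * P.del j ≤ 1 := by
  refine (hP.six_del_le j).trans ?_
  have hl := hP.lam_pos
  have h1 : P.lam ^ (j + 1) * P.lam ^ (-(gg / 4)) ≤ 1 := by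
    rw [← Real.rpow_natCast, ← Real.rpow_add hl]
    apply Real.rpow_le_one hl.le hP.hl1.le
    push_cast
    unfold gg
    have : (0 : ℝ) ≤ j := Nat.cast_nonneg j
    (clear * -; linarith)
  have h2 : 0 < P.lam ^ (j + 1) := by positivity
  linarith

/-- flights of the products: they stay in their cell -/
theorem flight_near (hP : P.Good) {n : ℕ} {τ t : ℝ} (hτ : 0 ≤ τ) (hτt : τ ≤ t) (ht : t ≤ 1 / 50)
    {y : T3} {v : V} {j : ℕ} (hj : j ∈ Finset.Icc P.j0 n)
    (h : rr y - P.w * τ ∈ P.cell (gg / 2) j) (hv : √(SS P (sg j) y v) ≤ 6 * P.del j) :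
    rr (mv y v (t - τ)) - P.w * t ∈ P.cell (gg / 4) j ∧
      √(SS P (sg j) (mv y v (t - τ)) v) ≤ 6 * P.del j := by
  have hw := hP.w_pos
  have hw1 : P.w ≤ 1 := hP.w_le.trans (by norm_num)
  have hd := hP.del_pos j
  have hd1 := six_del_le_one hP j
  have hs : |t - τ| = t - τ := abs_of_nonneg (by linarith only [hτt])
  -- speed
  have hS2 := sq_vp_sub_le_SS hP (sg j) y v
  have hvp : |vp v - P.w| ≤ 6 * P.del j := (Real.abs_le_sqrt hS2).trans hv
  have hdot : |dotE y v - P.w| ≤ 6 * P.del j := (abs_dotE_sub_le_sqrt_SS P (sg j) y v).trans hv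
  obtain ⟨v1, v2⟩ := abs_le.mp hvp
  obtain ⟨d1, d2⟩ := abs_le.mp hdot
  -- locality
  have hry : rr y ≤ 1 / 64 + 1 / 50 := by
    have h1 := hP.cell_le (by unfold gg; norm_num) h
    have h2 : P.lam ^ j ≤ P.lam ^ P.j0 :=
      pow_le_pow_of_le_one hP.lam_pos.le hP.hl1.le (Finset.mem_Icc.mp hj).1
    have h3 := hP.hj
    have h4 : P.w * τ ≤ 1 * (1 / 50) := by
      apply mul_le_mul hw1 (hτt.trans ht) hτ (by norm_num)
    linarith only [h1, h2, h3, h4]
  have hm : |t - τ| * vp v ≤ 1 / 50 * 2 := by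
    rw [hs]
    apply mul_le_mul (by linarith only [hτ, ht]) (by linarith only [hw1, hd1, v2]) (vp_nonneg v) (by norm_num)
  have hloc : rr y + |t - τ| * vp v < 1 / 2 := by linarith only [hry, hm]
  have hloc0 : rr y + |(0 : ℝ)| * vp v < 1 / 2 := by
    rw [abs_zero, zero_mul]
    linarith only [hry]
  constructor
  · apply hP.cell_near h
    have u1 := rr_mv_le y v (t - τ)
    have u2 := rr_mv_ge hloc
    rw [hs] at u1
    have e1 : (t - τ) * (6 * P.del j) ≤ 6 * P.del j := by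
      have : t - τ ≤ 1 := by linarith only [hτ, ht]
      nlinarith only [hd, hτ, ht]
    have e2 : (t - τ) * (dotE y v - P.w) ≥ (t - τ) * (-(6 * P.del j)) :=
      mul_le_mul_of_nonneg_left d1 (by linarith only [hτt])
    have e3 : (t - τ) * (vp v - P.w) ≤ (t - τ) * (6 * P.del j) :=
      mul_le_mul_of_nonneg_left v2 (by linarith only [hτt])
    rw [abs_le]
    constructor
    · linarith only [e2, e1, u2]
    · linarith only [e3, e1, u1]
  · have h5 := SS_anti P (sg j) hw.le (by linarith only [hτt] : (0 : ℝ) ≤ t - τ) hloc0 hloc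
    rw [mv_zero] at h5
    exact (Real.sqrt_le_sqrt h5).trans hv

theorem bf_ne_zero {n : ℕ} {t : ℝ} {x : T3} {v : V} (h : bf P n t x v ≠ 0) :
    ∃ τ ∈ Icc 0 t, Gam (cf P n τ (mv x v (τ - t))) (cf P n τ (mv x v (τ - t))) v ≠ 0 := by
  by_contra hcon
  push Not at hcon
  apply h
  unfold bf
  rw [setLIntegral_congr_fun measurableSet_Icc (g := fun _ => 0) fun τ hτ => hcon τ hτ]
  simp only [lintegral_const, MeasurableSet.univ, Measure.restrict_apply, univ_inter, Real.volume_Icc, sub_zero, zero_mul]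

/-- support of the first generation products -/
theorem bf_supp' (hP : P.Good) {t0 : ℝ} (ht0 : t0 ≤ 1 / 100) (hS : SuppAt P t0) {n : ℕ} {t : ℝ}
    (ht : t ∈ Icc 0 (2 * t0)) {x : T3} {v : V} (h : bf P n t x v ≠ 0) :
    ∃ j ∈ Finset.Icc P.j0 n, rr x - P.w * t ∈ P.cell (gg / 4) j ∧
      √(SS P (sg j) x v) ≤ 6 * P.del j := by
  obtain ⟨τ, hτ, h1⟩ := bf_ne_zero h
  obtain ⟨j, hj, h2, h3⟩ := Gam_cc hP hS ⟨hτ.1, hτ.2.trans ht.2⟩ h1
  have h4 := flight_near hP hτ.1 hτ.2 (by linarith [ht.2]) hj h2 h3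
  rw [mv_mv, sub_add_sub_cancel, sub_self, mv_zero] at h4
  exact ⟨j, hj, h4⟩

/-- size of the first generation products -/
theorem bf_le' (hP : P.Good) {t0 : ℝ} (ht0 : t0 ≤ 1 / 100) (hS : SuppAt P t0) {n : ℕ} {t : ℝ}
    (ht : t ∈ Icc 0 (2 * t0)) {x : T3} {j : ℕ} (h : rr x - P.w * t ∈ P.cell (gg / 4) j) (v : V) :
    bf P n t x v ≤ ENNReal.ofReal (64 * Real.pi * kap * (4 * P.del j) ^ 4 * P.amp j ^ 2 * t) := by
  have key : ∀ τ ∈ Icc 0 t, Gam (cf P n τ (mv x v (τ - t))) (cf P n τ (mv x v (τ - t))) v ≤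
      ENNReal.ofReal (64 * Real.pi * kap * (4 * P.del j) ^ 4 * P.amp j ^ 2) := by
    intro τ hτ
    by_cases h0 : Gam (cf P n τ (mv x v (τ - t))) (cf P n τ (mv x v (τ - t))) v = 0
    · rw [h0]
      exact bot_le
    have hτ' : τ ∈ Icc 0 (2 * t0) := ⟨hτ.1, hτ.2.trans ht.2⟩
    obtain ⟨k, hk, h2, h3⟩ := Gam_cc hP hS hτ' h0
    have h4 := flight_near hP hτ.1 hτ.2 (by linarith only [ht0, ht.2]) hk h2 h3
    rw [mv_mv, sub_add_sub_cancel, sub_self, mv_zero] at h4
    have hkj : k = j := hP.cell_inj (by unfold gg; norm_num) h4.1 h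
    subst hkj
    refine (Gam_cc_le hP hS hτ' h2 v).trans (le_of_eq ?_)
    have h5 := kap_pos
    have h6 := hP.amp_pos k
    rw [← ENNReal.ofReal_mul h6.le, ← ENNReal.ofReal_mul (by (clear * - h5; positivity))]
    congr 1
    ring
  have h5 := kap_pos
  calc bf P n t x v ≤ ∫⁻ _τ in Icc 0 t,
        ENNReal.ofReal (64 * Real.pi * kap * (4 * P.del j) ^ 4 * P.amp j ^ 2) := by
        unfold bf
        exact setLIntegral_mono measurable_const key
    _ = ENNReal.ofReal (64 * Real.pi * kap * (4 * P.del j) ^ 4 * P.amp j ^ 2 * t) := by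
        rw [setLIntegral_const, Real.volume_Icc, sub_zero, ← ENNReal.ofReal_mul (by (clear * - h5; positivity))]

/-- outside the enlarged cells there are no first generation products -/
theorem bf_zero (hP : P.Good) {t0 : ℝ} (ht0 : t0 ≤ 1 / 100) (hS : SuppAt P t0) {n : ℕ} {t : ℝ}
    (ht : t ∈ Icc 0 (2 * t0)) {x : T3}
    (h : ∀ j ∈ Finset.Icc P.j0 n, rr x - P.w * t ∉ P.cell (gg / 4) j) (v : V) :
    bf P n t x v = 0 := by
  by_contra h0
  obtain ⟨j, hj, h1, _⟩ := bf_supp' hP ht0 hS ht h0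
  exact h j hj h1

/-- `bf_support` of the interface, from `cf_support` -/
theorem bf_support_of (h : EvP fun P => ∀ᶠ t0 in 𝓝[>] (0 : ℝ), SuppAt P t0) :
    EvP fun P => ∀ᶠ t0 in 𝓝[>] (0 : ℝ), ∀ n, ∀ t ∈ Icc 0 (2 * t0), ∀ x v,
    bf P n t x v ≠ 0 → ∃ j ∈ Finset.Icc P.j0 n, rr x - P.w * t ∈ P.cell (gg / 4) j ∧
      √(SS P (sg j) x v) ≤ 20 * P.del j := by
  refine evP_good.mono2 h fun P hP h2 => ?_
  have e1 : ∀ᶠ t0 in 𝓝[>] (0 : ℝ), t0 < 1 / 100 :=
    eventually_nhdsWithin_of_eventually_nhds (eventually_lt_nhds (by norm_num))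
  filter_upwards [e1, h2] with t0 h0 hS n t ht x v hb
  obtain ⟨j, hj, h3, h4⟩ := bf_supp' hP h0.le hS ht hb
  refine ⟨j, hj, h3, h4.trans ?_⟩
  have := hP.del_pos j
  linarith only [this]

end Vale.Agent.P140.NU.Gb
end
end

section

/-!
P140-NU, module G: amplitudes, masses and potentials of the cold gas and of the first generation
products.
-/

open MeasureTheory Set Filter Metric
open scoped ENNReal Topology

noncomputable section

namespace Vale.Agent.P140.NU.Gb

variable {P : Par}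

/-- constant in the bound for `bf` -/
def CbP (P : Par) : ℝ := 1024 * Real.pi * kap * P.c ^ 2 / (P.w ^ 2 * P.lam ^ 2)

theorem CbP_pos (hP : P.Good) : 0 < CbP P := by
  have h1 := hP.c_pos
  have h2 := hP.w_pos
  have h3 := hP.lam_pos
  have h4 := kap_pos
  unfold CbP
  positivity

/-- (GE) size of the first generation products -/
theorem bf_le2 (hP : P.Good) {t0 : ℝ} (ht0 : t0 ≤ 1 / 100) (hS : SuppAt P t0) {n : ℕ} {t : ℝ}
    (ht : t ∈ Icc 0 (2 * t0)) {x : T3} {j : ℕ} (h : rr x - P.w * t ∈ P.cell (gg / 4) j) (v : V) :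
    bf P n t x v ≤ ENNReal.ofReal (CbP P * t * (P.del j ^ 2 * (P.lam ^ j) ^ 2)⁻¹) := by
  refine (bf_le' hP ht0 hS ht h v).trans (le_of_eq ?_)
  congr 1
  have h1 := hP.c_pos
  have h2 := hP.w_pos
  have h3 := hP.lam_pos
  have h5 := hP.del_pos j
  unfold CbP Par.amp Par.imp
  field_simp
  ring

/-- the singular weight in the medium -/
theorem WW_ge {t : ℝ} {x : T3} (hr : rr x ≤ 1 / 16 + 2 * t) (j : ℕ) (v : V) :
    ENNReal.ofReal (SS P (sg j) x v) ^ (-(3 / 4) : ℝ) ≤ WW P t x v := by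
  unfold WW
  rw [if_pos hr]
  rcases neg_one_pow_eq_or ℝ j with h | h
  · have hs : sg j = 1 := h
    rw [hs, ← add_assoc]
    exact le_trans le_add_tsub le_self_add
  · have hs : sg j = -1 := h
    rw [hs, add_comm (ENNReal.ofReal (SS P 1 x v) ^ (-(3 / 4) : ℝ) - 1), ← add_assoc]
    exact le_trans le_add_tsub le_self_add

theorem rr_le_of_cell (hP : P.Good) {γ t : ℝ} (hγ : 0 ≤ γ) (h0 : 0 ≤ t) (ht : t ≤ 1 / 50) {x : T3}
    {j n : ℕ} (hj : j ∈ Finset.Icc P.j0 n) (h : rr x - P.w * t ∈ P.cell γ j) :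
    rr x ≤ 1 / 16 := by
  have h1 := hP.cell_le hγ h
  have h2 : P.lam ^ j ≤ P.lam ^ P.j0 :=
    pow_le_pow_of_le_one hP.lam_pos.le hP.hl1.le (Finset.mem_Icc.mp hj).1
  have h3 := hP.hj
  have h4 : P.w * t ≤ 1 * (1 / 50) := by
    apply mul_le_mul (hP.w_le.trans (by norm_num)) ht h0 (by norm_num)
  linarith only [h4, h3, h2, h1]

theorem norm_uu_le' (hP : P.Good) {x : T3} (hx : 0 < rr x) (j : ℕ) : ‖uu P (sg j) x‖ ≤ 2 := by
  have h := norm_uu_le P (sg j) hx hP.w_pos.le
  have h1 : |sg j| = 1 := by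
    unfold sg
    rw [abs_pow, abs_neg, abs_one, one_pow]
  have h2 := hP.w_le
  rw [h1] at h
  linarith

/-- support of `bf` in a cell -/
theorem bf_ball (hP : P.Good) {t0 : ℝ} (ht0 : t0 ≤ 1 / 100) (hS : SuppAt P t0) {n : ℕ} {t : ℝ}
    (ht : t ∈ Icc 0 (2 * t0)) {x : T3} {j : ℕ} (h : rr x - P.w * t ∈ P.cell (gg / 4) j) {v : V}
    (h0 : bf P n t x v ≠ 0) : ‖v - uu P (sg j) x‖ ≤ 6 * P.del j := by
  obtain ⟨k, _, h1, h2⟩ := bf_supp' hP ht0 hS ht h0
  have hkj : k = j := hP.cell_inj (by unfold gg; (clear * -; norm_num)) h1 h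
  subst hkj
  rwa [sqrt_SS_eq_norm P _ (rr_pos_of_cell hP ht.1 h)] at h2

theorem lintegral_ball_le {f : V → ℝ≥0∞} {M : ℝ≥0∞} {u : V} {ρ : ℝ} (hρ : 0 ≤ ρ)
    (hM : ∀ y, f y ≤ M) (hs : ∀ y, f y ≠ 0 → ‖y - u‖ ≤ ρ) :
    ∫⁻ y, f y ≤ M * ENNReal.ofReal (kap * ρ ^ 3) := by
  calc ∫⁻ y, f y ≤ ∫⁻ y, (closedBall u ρ).indicator (fun _ => M) y := by
        refine lintegral_mono fun y => ?_
        by_cases h : f y = 0
        · rw [h]
          exact bot_le
        · rw [indicator_of_mem (by rw [mem_closedBall, dist_eq_norm]; exact hs y h)]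
          exact hM y
    _ = _ := by
        rw [lintegral_indicator measurableSet_closedBall, setLIntegral_const, vol_closedBall u hρ]

/-- mass of `bf` -/
theorem bf_mass (hP : P.Good) {t0 : ℝ} (ht0 : t0 ≤ 1 / 100) (hS : SuppAt P t0) {n : ℕ} {t : ℝ}
    (ht : t ∈ Icc 0 (2 * t0)) {x : T3} {j : ℕ} (h : rr x - P.w * t ∈ P.cell (gg / 4) j) :
    ∫⁻ v, bf P n t x v ≤ ENNReal.ofReal (216 * kap * CbP P * t * (P.del j * ((P.lam ^ j) ^ 2)⁻¹)) := by
  have h1 := hP.del_pos j
  have h2 := CbP_pos hP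
  have h3 := kap_pos
  have h4 := hP.lam_pos
  have h5 := ht.1
  refine (lintegral_ball_le (by positivity) (bf_le2 hP ht0 hS ht h)
    (fun v hv => bf_ball hP ht0 hS ht h hv)).trans (le_of_eq ?_)
  rw [← ENNReal.ofReal_mul (by (clear * - h2 h5 h1 h4; positivity))]
  congr 1
  field_simp
  ring

/-- potential, far from the support -/
theorem Pot_far {f : V → ℝ≥0∞} {u v : V} {ρ : ℝ} (hs : ∀ y, f y ≠ 0 → ‖y - u‖ ≤ ρ)
    (hv : 2 * ρ ≤ ‖v - u‖) (hv0 : 0 < ‖v - u‖) :
    Pot f v ≤ ENNReal.ofReal (2 * ‖v - u‖⁻¹) * ∫⁻ y, f y := by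
  unfold Pot
  rw [← lintegral_const_mul' _ _ ENNReal.ofReal_ne_top]
  refine lintegral_mono fun y => ?_
  by_cases h : f y = 0
  · simp only [h, mul_zero, le_refl]
  · have h1 := hs y h
    have h2 : ‖v - u‖ ≤ ‖y - v‖ + ‖y - u‖ := by
      have := norm_sub_le (y - u) (y - v)
      rw [sub_sub_sub_cancel_left] at this
      linarith only [this]
    have h3 : ‖v - u‖ / 2 ≤ ‖y - v‖ := by linarith
    beta_reduce
    gcongr
    calc ‖y - v‖⁻¹ ≤ (‖v - u‖ / 2)⁻¹ := inv_anti₀ (by positivity) h3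
      _ = 2 * ‖v - u‖⁻¹ := by
        rw [inv_div]
        ring

end Vale.Agent.P140.NU.Gb
end
end

section

/-! gain of two functions supported in a small ball -/

open MeasureTheory Set Filter
open scoped ENNReal Topology

namespace Vale.Agent.P140.NU

/-- potential of a function supported in a ball -/
theorem Pot_ball {f : V → ℝ≥0∞} {M : ℝ≥0∞} {u : V} {ρ : ℝ} (hρ : 0 < ρ)
    (hM : ∀ y, f y ≤ M) (hf : ∀ y, f y ≠ 0 → ‖y - u‖ ≤ ρ) (v : V) :
    Pot f v ≤ M * ENNReal.ofReal (12 * ρ ^ 2) := by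
  have hm : ∫⁻ y, f y ≤ M * ENNReal.ofReal (5 * ρ ^ 3) := by
    have h1 : ∫⁻ y, f y ≤ ∫⁻ y, (Metric.closedBall u ρ).indicator (fun _ => M) y := by
      refine lintegral_mono fun y => ?_
      by_cases h0 : f y = 0
      · rw [h0]; exact zero_le
      · rw [indicator_of_mem (show y ∈ Metric.closedBall u ρ by
          rw [Metric.mem_closedBall, dist_eq_norm]; exact hf y h0)]
        exact hM y
    refine h1.trans ?_
    rw [lintegral_indicator measurableSet_closedBall, setLIntegral_const,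
      EuclideanSpace.volume_closedBall_fin_three]
    gcongr
    rw [← ENNReal.ofReal_pow hρ.le, ← ENNReal.ofReal_mul (by positivity)]
    apply ENNReal.ofReal_le_ofReal
    have h8 := Real.pi_lt_d2
    have : 0 < ρ ^ 3 := by positivity
    nlinarith only [this, h8]
  refine (Pot_bathtub hM hm v hρ).trans ?_
  have e : ENNReal.ofReal ρ⁻¹ * (M * ENNReal.ofReal (5 * ρ ^ 3)) =
      M * ENNReal.ofReal (5 * ρ ^ 2) := by
    rw [mul_left_comm, ← ENNReal.ofReal_mul (by positivity)]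
    congr 2
    field_simp
  rw [e, ← mul_add, ← ENNReal.ofReal_add (by (clear * - hρ; positivity)) (by positivity)]
  gcongr
  have h8 := Real.pi_lt_d2
  have : 0 < ρ ^ 2 := by positivity
  linarith only [mul_nonneg (sq_nonneg (ρ : ℝ)) (le_of_lt (sub_pos.2 h8)), sq_nonneg (ρ : ℝ)]

end Vale.Agent.P140.NU
end

section

/-!
P140, non-uniqueness: the statements of module G (proved in `NU/G/Main.lean`).
-/
end

section

/-!
P140-NU, module E: parameters, the rates `pp`, `qq`, `qb`.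
-/

open MeasureTheory Set Filter
open scoped ENNReal Topology

noncomputable section

namespace Vale.Agent.P140.NU.E

/-- the facts on the parameters used in module E -/
structure GoodE (P : Par) : Prop where
  hc : 10 ^ 16 ≤ P.c
  hl0 : 1 / 2 < P.lam
  hl1 : P.lam < 1
  hk0 : 0 < P.kdel
  hk1 : P.kdel ≤ P.m1 / 10 ^ 6
  hj : P.lam ^ P.j0 ≤ 1 / 64

theorem m1_pos' {c : ℝ} (hc : 0 < c) :
    0 < (c / (100 * (400 * √c))) * (1 / (10 ^ 20 * c ^ 2)) / (10 ^ 5 * c) := by
  have : 0 < √c := Real.sqrt_pos.2 hc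
  positivity

theorem evGoodE : EvP GoodE := by
  unfold EvP
  filter_upwards [eventually_ge_atTop (10 ^ 16 : ℝ)] with c hc
  have hc0 : 0 < c := lt_of_lt_of_le (by norm_num) hc
  have e1 : ∀ᶠ lam in 𝓝[<] (1 : ℝ), 1 / 2 < lam :=
    eventually_nhdsWithin_of_eventually_nhds (eventually_gt_nhds (by norm_num))
  filter_upwards [e1, self_mem_nhdsWithin] with lam h1 h2
  filter_upwards with K
  have hm := m1_pos' hc0
  have e2 : ∀ᶠ kdel in 𝓝[>] (0 : ℝ), kdel <
      (c / (100 * (400 * √c))) * (1 / (10 ^ 20 * c ^ 2)) / (10 ^ 5 * c) / 10 ^ 6 :=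
    eventually_nhdsWithin_of_eventually_nhds (eventually_lt_nhds (by positivity))
  filter_upwards [e2, self_mem_nhdsWithin] with kdel h3 h4
  intro j0 hj
  exact ⟨hc, h1, h2, h4, h3.le, hj⟩

namespace GoodE

variable {P : Par} (hP : GoodE P)

include hP

theorem c_pos : 0 < P.c := lt_of_lt_of_le (by norm_num) hP.hc

theorem lam_pos : 0 < P.lam := lt_trans (by (clear * -; norm_num)) hP.hl0

theorem sqrt_c_ge : 10 ^ 8 ≤ √P.c := by
  apply Real.le_sqrt_of_sq_le
  have := hP.hc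
  norm_num at this ⊢
  exact this

theorem sq_sqrt_c : √P.c ^ 2 = P.c := Real.sq_sqrt hP.c_pos.le

theorem w_pos : 0 < P.w := by
  have := hP.c_pos
  unfold Par.w
  positivity

theorem w_mul : P.w * P.c ^ 2 = 1 / 10 ^ 20 := by
  have := hP.c_pos
  unfold Par.w
  field_simp

theorem w_le : P.w ≤ 1 / 10 ^ 52 := by
  have h := hP.hc
  unfold Par.w
  apply one_div_le_one_div_of_le (by norm_num)
  have : (10 ^ 16 : ℝ) ^ 2 ≤ P.c ^ 2 := by (clear * - h; gcongr)
  linarith

theorem Vg_ge : 4 * 10 ^ 10 ≤ P.Vg := by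
  have := hP.sqrt_c_ge
  unfold Par.Vg
  linarith only [this]

theorem Vg_pos : 0 < P.Vg := lt_of_lt_of_le (by norm_num) hP.Vg_ge

theorem Vg_sq : P.Vg ^ 2 = 160000 * P.c := by
  unfold Par.Vg
  rw [mul_pow, hP.sq_sqrt_c]
  norm_num

theorem Lam_eq : P.Lam = √P.c / 40000 := by
  have h := hP.sq_sqrt_c
  have h2 : 0 < √P.c := lt_of_lt_of_le (by norm_num) hP.sqrt_c_ge
  unfold Par.Lam Par.Vg
  rw [div_eq_div_iff (by positivity) (by norm_num)]
  linarith

theorem Lam_ge : 2500 ≤ P.Lam := by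
  rw [hP.Lam_eq]
  have := hP.sqrt_c_ge
  linarith only [this]

theorem Lam_pos : 0 < P.Lam := lt_of_lt_of_le (by norm_num) hP.Lam_ge

theorem Lam_mul_Vg : P.Lam * P.Vg = P.c / 100 := by
  have := hP.Vg_pos
  unfold Par.Lam
  (clear * - this; field_simp)

/-- `Λ ≤ c / 10^8`, `Λ^2 = c/(1.6 10^9)` -/
theorem Lam_sq : P.Lam ^ 2 = P.c / (16 * 10 ^ 8) := by
  rw [hP.Lam_eq, div_pow, hP.sq_sqrt_c]
  (clear * -; norm_num)

theorem m1_pos : 0 < P.m1 := by
  have h1 := hP.Lam_pos
  have h2 := hP.w_pos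
  have h3 := hP.c_pos
  unfold Par.m1
  positivity

theorem m2_pos : 0 < P.m2 := by
  have h1 := hP.Lam_pos
  have h2 := hP.w_pos
  unfold Par.m2
  positivity

/-- `Λ w` is tiny -/
theorem Lam_w_le : P.Lam * P.w ≤ 1 / 10 ^ 44 := by
  have h1 := hP.hc
  have h3 := hP.c_pos
  have h4 : P.Lam ≤ P.c := by
    nlinarith only [h1, hP.Lam_sq]
  have h5 : P.Lam * P.w ≤ P.c * P.w := by
    gcongr
    exact hP.w_pos.le
  have h6 : P.c * P.w * P.c = 1 / 10 ^ 20 := by rw [← hP.w_mul]; ring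
  have h7 : P.c * P.w * 10 ^ 16 ≤ P.c * P.w * P.c := by
    have := mul_pos h3 hP.w_pos
    (clear * - h1 this; gcongr)
  nlinarith only [h6, h7, hP.Lam_sq, hP.w_pos, hP.Lam_pos]

theorem m2_le : P.m2 ≤ 1 / 10 ^ 38 := by
  have := hP.Lam_w_le
  unfold Par.m2
  linarith only [this]

theorem m1_eq : P.m1 = P.m2 / (10 ^ 11 * P.c) := by
  have h3 := hP.c_pos
  unfold Par.m1 Par.m2
  field_simp

theorem m1_le_m2 : P.m1 * 10 ^ 27 ≤ P.m2 := by
  have h3 := hP.c_pos
  have h := hP.hc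
  rw [hP.m1_eq, div_mul_eq_mul_div, div_le_iff₀ (by positivity)]
  have := hP.m2_pos
  linarith only [mul_nonneg (sub_nonneg.2 h) (le_of_lt (sub_pos.2 this))]

theorem w_lt_one : P.w < 1 := lt_of_le_of_lt hP.w_le (by norm_num)

theorem ss_pos (n : ℕ) : 0 < P.ss n := by
  have h1 := hP.lam_pos
  have h2 := hP.w_pos
  unfold Par.ss
  positivity

theorem TT_pos (n : ℕ) {t : ℝ} (ht : 0 ≤ t) : 0 < P.TT n t := by
  have := hP.ss_pos n
  unfold Par.TT
  linarith only [ht, this]

theorem w_mul_TT (n : ℕ) (t : ℝ) : P.w * P.TT n t = P.w * t + P.lam ^ (n + 1) := by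
  have := hP.w_pos
  unfold Par.TT Par.ss
  field_simp

theorem del_pos (j : ℕ) : 0 < P.del j := by
  have h1 := hP.lam_pos
  have h2 := hP.hk0
  unfold Par.del
  (clear * - h2 h1; positivity)

theorem del_le (j : ℕ) : P.del j ≤ P.m1 / 10 ^ 6 := by
  refine le_trans ?_ hP.hk1
  unfold Par.del
  have h1 : (P.lam ^ j) ^ P.Q ≤ 1 :=
    pow_le_one₀ (pow_pos hP.lam_pos j).le (pow_le_one₀ hP.lam_pos.le hP.hl1.le)
  exact mul_le_of_le_one_right hP.hk0.le h1

theorem del_le_one (j : ℕ) : P.del j ≤ 1 / 10 ^ 40 := by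
  have h1 := hP.del_le j
  have h2 := hP.m1_le_m2
  have h3 := hP.m2_le
  have h4 := hP.m1_pos
  norm_num at h1 h2 h3 ⊢
  linarith only [h3, h2, h1, h4]

/-- labels of cell `j ≤ n` are at least `λ^{n+1}` -/
theorem le_of_mem_cell {γ : ℝ} (hγ : 0 ≤ γ) {j n : ℕ} (hj : j ≤ n) {a : ℝ}
    (ha : a ∈ P.cell γ j) : P.lam ^ (n + 1) ≤ a := by
  refine le_trans ?_ ha.1
  rw [← Real.rpow_natCast]
  apply Real.rpow_le_rpow_of_exponent_ge hP.lam_pos hP.hl1.le
  push_cast
  have : (j : ℝ) ≤ n := by exact_mod_cast hj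
  linarith only [hγ, this]

theorem cell_subset {γ γ' : ℝ} (h : γ ≤ γ') (j : ℕ) : P.cell γ' j ⊆ P.cell γ j := by
  intro a ha
  constructor
  · refine le_trans ?_ ha.1
    exact Real.rpow_le_rpow_of_exponent_ge hP.lam_pos hP.hl1.le (by linarith)
  · refine ha.2.trans ?_
    exact Real.rpow_le_rpow_of_exponent_ge hP.lam_pos hP.hl1.le (by linarith only [h])

/-- in a cell `j ≤ n` one is outside the core -/
theorem wT_le_rr {γ : ℝ} (hγ : 0 ≤ γ) {j n : ℕ} (hj : j ≤ n) {t : ℝ} {x : T3}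
    (ha : rr x - P.w * t ∈ P.cell γ j) : P.w * P.TT n t ≤ rr x := by
  rw [hP.w_mul_TT]
  have := hP.le_of_mem_cell hγ hj ha
  linarith only [this]

theorem rr_pos_of_cell {γ : ℝ} (hγ : 0 ≤ γ) {j n : ℕ} (hj : j ≤ n) {t : ℝ} (ht : 0 ≤ t) {x : T3}
    (ha : rr x - P.w * t ∈ P.cell γ j) : 0 < rr x := by
  have h1 := hP.wT_le_rr hγ hj ha
  have h2 := mul_pos hP.w_pos (hP.TT_pos n ht)
  linarith only [h1, h2]

end GoodE

/-! ### the rates -/

variable {P : Par} (hP : GoodE P)

include hP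

theorem pp_term_nonneg (n : ℕ) (t : ℝ) (x : T3) (v : V) (j : ℕ)
    (h : P.m2 ≤ √(SS P (sg j) x v) ∨
      (P.m1 ≤ √(SS P (sg j) x v) ∧ P.a1 (P.TT n t) ≤ rr x - P.w * P.TT n t)) :
    0 ≤ (1 - 1 / 100) * (2 * Real.pi) * (P.c / rr x) * (√(SS P (sg j) x v) - 4 * P.del j) := by
  have h1 : P.m1 ≤ √(SS P (sg j) x v) := by
    rcases h with h | h
    · have := hP.m1_le_m2
      have := hP.m1_pos
      (clear n t; linarith)
    · exact h.1
  have h2 := hP.del_le j
  have h3 := hP.c_pos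
  have h4 := rr_nonneg x
  have h5 := hP.m1_pos
  have h6 : 0 ≤ √(SS P (sg j) x v) - 4 * P.del j := by linarith only [h1, h2, h5]
  have h7 := Real.pi_pos
  have h8 : 0 ≤ P.c / rr x := by positivity
  exact mul_nonneg (mul_nonneg (by positivity) h8) h6

theorem pp_nonneg (n : ℕ) (t : ℝ) (x : T3) (v : V) : 0 ≤ pp P n t x v := by
  unfold pp
  apply Finset.sum_nonneg
  intro j _
  split_ifs with h
  · exact pp_term_nonneg hP n t x v j h.2.2.2
  · exact le_rfl

theorem pp_le_qq (n : ℕ) (t : ℝ) (x : T3) (v : V) : pp P n t x v ≤ qq P n t x v := by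
  have h3 := hP.c_pos
  have h4 := rr_nonneg x
  have h7 := Real.pi_pos
  have h8 : 0 ≤ P.c / rr x := by (clear * - h3 h4; positivity)
  have hq : ∀ j, 0 ≤ (1 + 1 / 100) * (2 * Real.pi) * (P.c / rr x) *
      (√(SS P (sg j) x v) + 4 * P.del j) := by
    intro j
    have := hP.del_pos j
    (clear * - h3 h4 this; positivity)
  unfold pp qq
  apply Finset.sum_le_sum
  intro j _
  by_cases h : rr x - P.w * t ∈ P.cell (gg / 2) j
  · rw [if_pos h]
    split_ifs with h'
    · have h9 := hP.del_pos j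
      have h10 : √(SS P (sg j) x v) - 4 * P.del j ≤ √(SS P (sg j) x v) + 4 * P.del j := by
        linarith only [h9]
      have h11 : (1 - 1 / 100) * (2 * Real.pi) * (P.c / rr x) ≤
          (1 + 1 / 100) * (2 * Real.pi) * (P.c / rr x) := by
        gcongr
        norm_num
      have h12 : 0 ≤ √(SS P (sg j) x v) + 4 * P.del j := by (clear * - h9; positivity)
      calc (1 - 1 / 100) * (2 * Real.pi) * (P.c / rr x) * (√(SS P (sg j) x v) - 4 * P.del j)
          ≤ (1 - 1 / 100) * (2 * Real.pi) * (P.c / rr x) *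
            (√(SS P (sg j) x v) + 4 * P.del j) := by
              apply mul_le_mul_of_nonneg_left h10
              exact mul_nonneg (by (clear * -; positivity)) h8
        _ ≤ _ := mul_le_mul_of_nonneg_right h11 h12
    · exact hq j
  · rw [if_neg h, if_neg]
    intro h'
    apply h
    apply hP.cell_subset _ j h'.1
    unfold gg; norm_num

theorem qq_nonneg (n : ℕ) (t : ℝ) (x : T3) (v : V) : 0 ≤ qq P n t x v :=
  (pp_nonneg hP n t x v).trans (pp_le_qq hP n t x v)

theorem qb_nonneg (n : ℕ) (t : ℝ) (x : T3) (v : V) : 0 ≤ qb P n t x v := by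
  have h3 := hP.c_pos
  have h4 := rr_nonneg x
  have h7 := Real.pi_pos
  unfold qb
  apply Finset.sum_nonneg
  intro j _
  split_ifs with h
  · have := hP.del_pos j
    (clear * - h3 h4 this; positivity)
  · exact le_rfl

theorem qb_le_qq (n : ℕ) (t : ℝ) (x : T3) (v : V) : qb P n t x v ≤ qq P n t x v := by
  have h3 := hP.c_pos
  have h4 := rr_nonneg x
  have h7 := Real.pi_pos
  unfold qb qq
  apply Finset.sum_le_sum
  intro j _
  by_cases h : rr x - P.w * t ∈ P.cell (gg / 2) j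
  · rw [if_pos h]
    split_ifs with h'
    · exact le_rfl
    · have := hP.del_pos j
      (clear * - h3 h4 this; positivity)
  · rw [if_neg h, if_neg]
    intro h'
    exact h h'.1

/-- crude bound for the collision rate -/
theorem qq_le (n : ℕ) {t : ℝ} (ht : 0 ≤ t) (x : T3) (v : V) :
    qq P n t x v ≤ (n + 1) * (7 * (P.c / P.lam ^ (n + 1)) * (‖v‖ + 3)) := by
  have h3 := hP.c_pos
  have h0 := hP.lam_pos
  have h7 := Real.pi_pos
  have h8 := Real.pi_lt_d2
  have hb : ∀ j ∈ Finset.Icc P.j0 n, rr x - P.w * t ∈ P.cell (gg / 2) j →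
    (1 + 1 / 100) * (2 * Real.pi) * (P.c / rr x) * (√(SS P (sg j) x v) + 4 * P.del j)
      ≤ 7 * (P.c / P.lam ^ (n + 1)) * (‖v‖ + 3) := by
    intro j hj h
    have hjn : j ≤ n := (Finset.mem_Icc.1 hj).2
    have h1 := hP.le_of_mem_cell (by unfold gg; norm_num) hjn h
    have hr : P.lam ^ (n + 1) ≤ rr x := by
      have := mul_nonneg hP.w_pos.le ht
      linarith only [h1, this]
    have hl : 0 < P.lam ^ (n + 1) := pow_pos h0 _
    have h5 := sqrt_SS_le (P := P) (s := sg j) x v hP.w_pos.le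
    have h6 : |sg j| = 1 := by unfold sg; rw [abs_pow, abs_neg, abs_one, one_pow]
    have h9 := hP.del_le_one j
    have h10 := hP.w_le
    have h11 : √(SS P (sg j) x v) + 4 * P.del j ≤ ‖v‖ + 3 := by
      rw [h6] at h5
      norm_num at h9 h10
      linarith only [h5, h9, h10]
    have h12 := hP.del_pos j
    have h13 : (1 + 1 / 100) * (2 * Real.pi) ≤ 7 := by linarith only [h8]
    have h14 : 0 ≤ P.c / rr x := div_nonneg h3.le (rr_nonneg x)
    (clear * - h13 h3 h0 hr h14 h11 h12; gcongr)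
  unfold qq
  refine (Finset.sum_le_sum (g := fun _ => 7 * (P.c / P.lam ^ (n + 1)) * (‖v‖ + 3)) ?_).trans ?_
  · intro j hj
    split_ifs with h
    · exact hb j hj h
    · have := norm_nonneg v
      (clear * - h3 h0; positivity)
  rw [Finset.sum_const, nsmul_eq_mul]
  apply mul_le_mul_of_nonneg_right
  · have : (Finset.Icc P.j0 n).card ≤ n + 1 := by
      rw [Nat.card_Icc]; omega
    exact_mod_cast this
  · have := norm_nonneg v
    positivity

/-- the rates along a flight -/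
theorem intervalIntegrable_of_le {f : ℝ → T3 → V → ℝ}
    (hf : Measurable fun p : ℝ × T3 × V => f p.1 p.2.1 p.2.2)
    (n : ℕ) (h0 : ∀ t x v, 0 ≤ f t x v) (h1 : ∀ t x v, f t x v ≤ qq P n t x v)
    (t : ℝ) {a b : ℝ} (ha : 0 ≤ a) (hb : 0 ≤ b) (x : T3) (v : V) :
    IntervalIntegrable (fun τ => f τ (mv x v (τ - t)) v) volume a b := by
  have hm : Measurable fun τ : ℝ => f τ (mv x v (τ - t)) v := by
    have h2 : Measurable fun τ : ℝ => ((τ, mv x v (τ - t), v) : ℝ × T3 × V) := by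
      refine measurable_id.prodMk (Measurable.prodMk ?_ measurable_const)
      have h3 : Measurable fun τ : ℝ => ((τ - t, x, v) : ℝ × T3 × V) := by fun_prop
      exact measurable_mv.comp h3
    exact hf.comp h2
  refine (intervalIntegrable_const (c := (n + 1) * (7 * (P.c / P.lam ^ (n + 1)) * (‖v‖ + 3)))
    (a := a) (b := b) (μ := volume)).mono_fun hm.aestronglyMeasurable ?_
  rw [EventuallyLE, ae_restrict_iff' measurableSet_uIoc]
  refine Eventually.of_forall fun τ hτ => ?_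
  have hτ0 : 0 ≤ τ := by
    have := hτ.1
    have h5 : 0 ≤ min a b := le_min ha hb
    linarith only [this, h5]
  rw [Real.norm_eq_abs, abs_of_nonneg (h0 _ _ _)]
  refine ((h1 _ _ _).trans (qq_le hP n hτ0 _ _)).trans ?_
  exact le_abs_self _

theorem ii_pp (n : ℕ) (t : ℝ) {a b : ℝ} (ha : 0 ≤ a) (hb : 0 ≤ b) (x : T3) (v : V) :
    IntervalIntegrable (fun τ => pp P n τ (mv x v (τ - t)) v) volume a b :=
  intervalIntegrable_of_le hP (measurable_pp P n) n (pp_nonneg hP n) (pp_le_qq hP n) t ha hb x v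

theorem ii_qq (n : ℕ) (t : ℝ) {a b : ℝ} (ha : 0 ≤ a) (hb : 0 ≤ b) (x : T3) (v : V) :
    IntervalIntegrable (fun τ => qq P n τ (mv x v (τ - t)) v) volume a b :=
  intervalIntegrable_of_le hP (measurable_qq P n) n (qq_nonneg hP n) (fun _ _ _ => le_rfl)
    t ha hb x v

theorem ii_qb (n : ℕ) (t : ℝ) {a b : ℝ} (ha : 0 ≤ a) (hb : 0 ≤ b) (x : T3) (v : V) :
    IntervalIntegrable (fun τ => qb P n τ (mv x v (τ - t)) v) volume a b :=
  intervalIntegrable_of_le hP (measurable_qb P n) n (qb_nonneg hP n) (qb_le_qq hP n) t ha hb x v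

/-- the clock -/
theorem ii_clock (n : ℕ) {a b : ℝ} (ha : 0 ≤ a) (hb : 0 ≤ b) :
    IntervalIntegrable (fun τ => P.Lam / P.TT n τ) volume a b := by
  apply ContinuousOn.intervalIntegrable
  unfold Par.TT
  apply ContinuousOn.div (by fun_prop) (by fun_prop)
  intro τ hτ
  have hτ0 : 0 ≤ τ := by
    have := hτ.1
    have h5 : 0 ≤ min a b := le_min ha hb
    linarith
  have := hP.ss_pos n
  positivity

theorem integral_clock (n : ℕ) {a b : ℝ} (ha : 0 ≤ a) (hb : 0 ≤ b) :
    ∫ τ in a..b, P.Lam / P.TT n τ = P.Lam * Real.log (P.TT n b / P.TT n a) := by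
  have h1 := hP.ss_pos n
  have h : ∀ τ ∈ uIcc a b, HasDerivAt (fun τ => P.Lam * Real.log (P.TT n τ))
      (P.Lam / P.TT n τ) τ := by
    intro τ hτ
    have hτ0 : 0 ≤ τ := by
      have := hτ.1
      have h5 : 0 ≤ min a b := le_min ha hb
      linarith only [this, h5]
    have h2 : HasDerivAt (fun τ => P.TT n τ) 1 τ := by
      unfold Par.TT
      exact (hasDerivAt_id τ).add_const _
    have h3 := (h2.log (hP.TT_pos n hτ0).ne').const_mul P.Lam
    refine h3.congr_deriv ?_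
    ring
  rw [intervalIntegral.integral_eq_sub_of_hasDerivAt h (ii_clock hP n ha hb),
    Real.log_div (hP.TT_pos n hb).ne' (hP.TT_pos n ha).ne']
  ring

theorem exp_neg_clock (n : ℕ) {a b : ℝ} (ha : 0 ≤ a) (hb : 0 ≤ b) :
    Real.exp (-∫ τ in a..b, P.Lam / P.TT n τ) = (P.TT n a / P.TT n b) ^ P.Lam := by
  have h1 := hP.TT_pos n ha
  have h2 := hP.TT_pos n hb
  rw [integral_clock hP n ha hb, Real.rpow_def_of_pos (by positivity), Real.log_div h2.ne' h1.ne',
    Real.log_div h1.ne' h2.ne']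
  congr 1
  ring

end Vale.Agent.P140.NU.E
end
end

section

/-!
P140-NU, module E: basic facts on the weight `wt`.
-/

open MeasureTheory Set Filter
open scoped ENNReal Topology

noncomputable section

namespace Vale.Agent.P140.NU.E

variable {P : Par} (hP : GoodE P)

/-- success rate along the flight which is at `x` at time `t` -/
def pf (P : Par) (n : ℕ) (t : ℝ) (x : T3) (v : V) (τ : ℝ) : ℝ := pp P n τ (mv x v (τ - t)) v

/-- collision rate plus clock along the flight which is at `x` at time `t` -/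
def gf (P : Par) (n : ℕ) (t : ℝ) (x : T3) (v : V) (τ : ℝ) : ℝ :=
  qq P n τ (mv x v (τ - t)) v + P.Lam / P.TT n τ

theorem wt_eq_surv (n : ℕ) (te t : ℝ) (x : T3) (v : V) :
    wt P n te t x v = surv (pf P n t x v) (gf P n t x v) t te := rfl

include hP

theorem ii_pf (n : ℕ) (t : ℝ) {a b : ℝ} (ha : 0 ≤ a) (hb : 0 ≤ b) (x : T3) (v : V) :
    IntervalIntegrable (pf P n t x v) volume a b := ii_pp hP n t ha hb x v

theorem ii_gf (n : ℕ) (t : ℝ) {a b : ℝ} (ha : 0 ≤ a) (hb : 0 ≤ b) (x : T3) (v : V) :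
    IntervalIntegrable (gf P n t x v) volume a b :=
  (ii_qq hP n t ha hb x v).add (ii_clock hP n ha hb)

theorem pf_nonneg (n : ℕ) (t : ℝ) (x : T3) (v : V) (τ : ℝ) : 0 ≤ pf P n t x v τ :=
  pp_nonneg hP n _ _ _

theorem clock_nonneg (n : ℕ) {τ : ℝ} (hτ : 0 ≤ τ) : 0 ≤ P.Lam / P.TT n τ :=
  div_nonneg hP.Lam_pos.le (hP.TT_pos n hτ).le

theorem pf_le_gf (n : ℕ) (t : ℝ) (x : T3) (v : V) {τ : ℝ} (hτ : 0 ≤ τ) :
    pf P n t x v τ ≤ gf P n t x v τ := by
  have h1 := pp_le_qq hP n τ (mv x v (τ - t)) v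
  have h2 := clock_nonneg hP n hτ
  unfold pf gf
  linarith

theorem wt_nonneg (n : ℕ) {te t : ℝ} (ht : t ≤ te) (x : T3) (v : V) :
    0 ≤ wt P n te t x v := by
  rw [wt_eq_surv]
  exact surv_nonneg ht fun s _ => pf_nonneg hP n t x v s

theorem wt_le_one (n : ℕ) {te t : ℝ} (h0 : 0 ≤ t) (ht : t ≤ te) (x : T3) (v : V) :
    wt P n te t x v ≤ 1 := by
  rw [wt_eq_surv]
  exact surv_le_one ht (ii_pf hP n t h0 (h0.trans ht) x v) (ii_gf hP n t h0 (h0.trans ht) x v)
    fun s hs => pf_le_gf hP n t x v (h0.trans hs.1)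

/-- a nonzero weight means a possible success -/
theorem exists_pp_ne_zero (n : ℕ) {te t : ℝ} (ht : t ≤ te) {x : T3} {v : V}
    (h : wt P n te t x v ≠ 0) : ∃ τ ∈ Icc t te, pp P n τ (mv x v (τ - t)) v ≠ 0 := by
  by_contra hcon
  push Not at hcon
  apply h
  rw [wt_eq_surv]
  unfold surv
  have : ∫ τ in t..te, pf P n t x v τ * Real.exp (-∫ s in t..τ, gf P n t x v s) =
      ∫ τ in t..te, (0 : ℝ) := by
    apply intervalIntegral.integral_congr
    intro τ hτ
    rw [uIcc_of_le ht] at hτ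
    simp only
    unfold pf
    rw [hcon τ hτ, zero_mul]
  rw [this]
  simp

omit hP in
theorem of_pp_ne_zero {n : ℕ} {t : ℝ} {x : T3} {v : V} (h : pp P n t x v ≠ 0) :
    rr x ≤ P.Vg * P.TT n t ∧ ‖v‖ ≤ P.Vg := by
  unfold pp at h
  obtain ⟨j, _, hj⟩ := Finset.exists_ne_zero_of_sum_ne_zero h
  split_ifs at hj with h1
  · exact ⟨h1.2.1, h1.2.2.1⟩
  · exact absurd rfl hj

theorem wt_support (n : ℕ) {te t : ℝ} (ht : t ≤ te) {x : T3} {v : V}
    (h : wt P n te t x v ≠ 0) :
    ‖v‖ ≤ P.Vg ∧ rr x ≤ P.Vg * P.TT n te + (te - t) * P.Vg := by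
  obtain ⟨τ, hτ, h1⟩ := exists_pp_ne_zero hP n ht h
  obtain ⟨h2, h3⟩ := of_pp_ne_zero h1
  refine ⟨h3, ?_⟩
  have h4 := rr_le_mv x v (τ - t)
  rw [abs_of_nonneg (by linarith [hτ.1])] at h4
  have h5 : (τ - t) * vp v ≤ (te - t) * P.Vg := by
    apply mul_le_mul (by linarith only [hτ.2]) ((vp_le_norm v).trans h3) (vp_nonneg v)
      (by linarith only [ht])
  have h6 : P.Vg * P.TT n τ ≤ P.Vg * P.TT n te := by
    apply mul_le_mul_of_nonneg_left _ hP.Vg_pos.le
    unfold Par.TT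
    linarith only [hτ.2]
  linarith only [h2, h4, h5, h6]

/-- the weight is small far away -/
theorem wt_le_rpow (n : ℕ) {te t : ℝ} (h0 : 0 ≤ t) (ht : t ≤ te) {x : T3} (hx : 0 < rr x)
    (v : V) : wt P n te t x v ≤ (2 * P.Vg * P.TT n t / rr x) ^ P.Lam := by
  have hT := hP.TT_pos n h0
  have hV := hP.Vg_pos
  set T := P.TT n t with hTdef
  by_cases h1 : rr x ≤ 2 * P.Vg * T
  · refine (wt_le_one hP n h0 ht x v).trans ?_
    apply Real.one_le_rpow _ hP.Lam_pos.le
    rw [le_div_iff₀ hx]; (clear * - h1; linarith)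
  push Not at h1
  by_cases hv : ‖v‖ ≤ P.Vg
  swap
  · have : wt P n te t x v = 0 := by
      by_contra h
      exact hv (wt_support hP n ht h).1
    rw [this]; (clear * - hV hT hx; positivity)
  -- entrance time
  set m : ℝ := t + (rr x / P.Vg - T) / 2 with hm
  have htm : t ≤ m := by
    have : T ≤ rr x / P.Vg := by
      rw [le_div_iff₀ hV]
      linarith only [h1, hx]
    rw [hm]; linarith only [this]
  have hzero : ∀ τ, t ≤ τ → τ < m → pf P n t x v τ = 0 := by
    intro τ h2 h3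
    by_contra h4
    have h5 := (of_pp_ne_zero h4).1
    have h6 := rr_le_mv x v (τ - t)
    rw [abs_of_nonneg (by linarith only [h2])] at h6
    have h7 : (τ - t) * vp v ≤ (τ - t) * P.Vg :=
      mul_le_mul_of_nonneg_left ((vp_le_norm v).trans hv) (by linarith only [h2])
    have h8 : P.TT n τ = T + (τ - t) := by rw [hTdef]; unfold Par.TT; ring
    rw [h8] at h5
    have h9 : rr x ≤ P.Vg * (T + 2 * (τ - t)) := by linarith only [h5, h6, h7]
    have h10 : P.Vg * (T + 2 * (τ - t)) < P.Vg * (rr x / P.Vg) := by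
      apply mul_lt_mul_of_pos_left _ hV
      rw [hm] at h3; linarith only [h3]
    rw [mul_div_cancel₀ _ hV.ne'] at h10
    linarith only [h5, h6, h7, h10]
  by_cases hmte : m ≤ te
  · have ip := ii_pf hP n t h0 (h0.trans ht) x v
    have ig := ii_gf hP n t h0 (h0.trans ht) x v
    rw [wt_eq_surv, surv_split htm hmte ip ig]
    have e1 : surv (pf P n t x v) (gf P n t x v) t m = 0 := by
      unfold surv
      rw [intervalIntegral.integral_of_le htm, ← integral_Ico_eq_integral_Ioc]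
      rw [setIntegral_congr_fun (g := fun _ => (0 : ℝ)) measurableSet_Ico]
      · simp only [integral_zero]
      · intro τ hτ
        simp only
        rw [hzero τ hτ.1 hτ.2, zero_mul]
    have e2 : surv (pf P n t x v) (gf P n t x v) m te ≤ 1 :=
      surv_le_one hmte (sub_right ip htm hmte) (sub_right ig htm hmte)
        fun s hs => pf_le_gf hP n t x v ((h0.trans htm).trans hs.1)
    have e2' : 0 ≤ surv (pf P n t x v) (gf P n t x v) m te :=
      surv_nonneg hmte fun s _ => pf_nonneg hP n t x v s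
    have e3 : Real.exp (-∫ s in t..m, gf P n t x v s) ≤
        Real.exp (-∫ s in t..m, P.Lam / P.TT n s) := by
      apply Real.exp_le_exp.2
      apply neg_le_neg
      apply intervalIntegral.integral_mono_on htm (ii_clock hP n h0 (h0.trans htm))
        (sub_left ig htm hmte)
      intro s hs
      have := qq_nonneg hP n s (mv x v (s - t)) v
      unfold gf
      linarith only [this]
    rw [exp_neg_clock hP n h0 (h0.trans htm)] at e3
    have e4 : P.TT n t / P.TT n m ≤ 2 * P.Vg * T / rr x := by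
      have h8 : P.TT n m = (T + rr x / P.Vg) / 2 := by
        have : P.TT n m = T + (m - t) := by rw [hTdef]; unfold Par.TT; ring
        rw [this, hm]; ring
      rw [h8, div_le_div_iff₀ (by (clear * - hT hx hV; positivity)) hx, ← hTdef]
      have h9 : P.Vg * (rr x / P.Vg) = rr x := mul_div_cancel₀ _ hV.ne'
      linarith only [mul_eq_zero_of_left (sub_eq_zero.2 h9) (T - (0)), mul_pos hT (mul_pos hV hT)]
    have e5 : (P.TT n t / P.TT n m) ^ P.Lam ≤ (2 * P.Vg * T / rr x) ^ P.Lam :=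
      Real.rpow_le_rpow (div_nonneg hT.le (hP.TT_pos n (h0.trans htm)).le) e4 hP.Lam_pos.le
    rw [e1, zero_add]
    calc Real.exp (-∫ s in t..m, gf P n t x v s) * surv (pf P n t x v) (gf P n t x v) m te
        ≤ Real.exp (-∫ s in t..m, gf P n t x v s) * 1 :=
          mul_le_mul_of_nonneg_left e2 (Real.exp_pos _).le
      _ ≤ _ := by rw [mul_one]; exact e3.trans e5
  · push Not at hmte
    have e0 : wt P n te t x v = 0 := by
      by_contra h
      obtain ⟨τ, hτ, h2⟩ := exists_pp_ne_zero hP n ht h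
      exact h2 (hzero τ hτ.1 (lt_of_le_of_lt hτ.2 hmte))
    rw [e0]; positivity

/-- the weight along a flight -/
theorem wt_along (n : ℕ) {te t t' : ℝ} (h0 : 0 ≤ t) (htt : t ≤ t') (ht' : t' ≤ te)
    (x : T3) (v : V) :
    wt P n te t' (mv x v (t' - t)) v - wt P n te t x v =
      ∫ τ in t..t', ((qq P n τ (mv x v (τ - t)) v + P.Lam / P.TT n τ) *
        wt P n te τ (mv x v (τ - t)) v - pp P n τ (mv x v (τ - t)) v) := by
  have hte : 0 ≤ te := (h0.trans htt).trans ht'
  have ip := ii_pf hP n t h0 hte x v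
  have ig := ii_gf hP n t h0 hte x v
  have key : ∀ τ, wt P n te τ (mv x v (τ - t)) v =
      surv (pf P n t x v) (gf P n t x v) τ te := by
    intro τ
    rw [wt_eq_surv]
    have e1 : pf P n τ (mv x v (τ - t)) v = pf P n t x v := by
      ext s
      unfold pf
      rw [mv_mv]
      congr 2
      ring
    have e2 : gf P n τ (mv x v (τ - t)) v = gf P n t x v := by
      ext s
      unfold gf
      rw [mv_mv]
      congr 3
      ring
    rw [e1, e2]
  rw [key, wt_eq_surv, surv_along (htt.trans ht') ip ig le_rfl htt ht']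
  apply intervalIntegral.integral_congr
  intro τ _
  simp only
  rw [key]
  rfl

omit hP

/-- module E, basic facts on the weight -/
theorem wt_facts : EvP fun P => ∀ᶠ t0 in 𝓝[>] (0 : ℝ), ∀ n, P.j0 ≤ n → P.ss n ≤ t0 →
    ∀ t ∈ Icc 0 (2 * t0), ∀ x v, 0 ≤ wt P n (2 * t0) t x v ∧ wt P n (2 * t0) t x v ≤ 1 ∧
    (wt P n (2 * t0) t x v ≠ 0 → ‖v‖ ≤ P.Vg ∧ rr x ≤ 6 * P.Vg * t0) ∧
    (0 < rr x → wt P n (2 * t0) t x v ≤ (2 * P.Vg * P.TT n t / rr x) ^ P.Lam) := by
  refine evGoodE.mono fun P hP => ?_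
  refine eventually_nhdsWithin_of_forall fun t0 (ht0 : 0 < t0) n _ hs t ht x v => ?_
  refine ⟨wt_nonneg hP n ht.2 x v, wt_le_one hP n ht.1 ht.2 x v, fun h => ?_,
    fun hx => wt_le_rpow hP n ht.1 ht.2 hx v⟩
  obtain ⟨h1, h2⟩ := wt_support hP n ht.2 h
  refine ⟨h1, h2.trans ?_⟩
  have h3 := hP.Vg_pos
  have h4 : P.Vg * P.TT n (2 * t0) ≤ P.Vg * (3 * t0) := by
    apply mul_le_mul_of_nonneg_left _ h3.le
    unfold Par.TT
    linarith only [hs]
  have h5 : (2 * t0 - t) * P.Vg ≤ 2 * t0 * P.Vg :=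
    mul_le_mul_of_nonneg_right (by linarith only [ht.1]) h3.le
  linarith only [mul_pos (sub_pos.2 h3) (sub_pos.2 ht0), h5, h4]

theorem wt_meas : EvP fun P => ∀ n te, Measurable fun p : ℝ × T3 × V => wt P n te p.1 p.2.1 p.2.2 :=
  EvP.of_forall fun P n te => measurable_wt P n te

theorem et_meas : EvP fun P => ∀ n te, Measurable fun p : ℝ × T3 × V => et P n te p.1 p.2.1 p.2.2 :=
  EvP.of_forall fun P n te => measurable_et P n te

end Vale.Agent.P140.NU.E
end
end

section

/-! P140, non-uniqueness, module T: import this file (`NU/T/Sph.lean`: T1-T3, `NU/T/Carl.lean`: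
T4, T5 (Carleman representation), `NU/T/Weak.lean`: T6, T7). -/
end
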