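import Vale.Agent.P140.MathlibUsed
import Vale.Agent.P140.Bd3.B1
import Vale.Agent.P140.Bd3.B3
import Vale.Agent.P140.Bd3.B5

set_option linter.all false

attribute [local instance 5000] Vale.Agent.P140.Sc.a01 Vale.Agent.P140.Sc.a02 Vale.Agent.P140.Sc.a03 Vale.Agent.P140.Sc.a04 Vale.Agent.P140.Sc.a05 Vale.Agent.P140.Sc.a06 Vale.Agent.P140.Sc.a07 Vale.Agent.P140.Sc.a08 Vale.Agent.P140.Sc.a09 Vale.Agent.P140.Sc.a10 Vale.Agent.P140.Sc.a11 Vale.Agent.P140.Sc.a12 Vale.Agent.P140.Sc.a13 Vale.Agent.P140.Sc.a14 Vale.Agent.P140.Sc.a15 Vale.Agent.P140.Sc.a16 Vale.Agent.P140.Sc.a17 Vale.Agent.P140.Sc.a18 Vale.Agent.P140.Sc.a19 Vale.Agent.P140.Sc.a20 Vale.Agent.P140.Sc.a21 Vale.Agent.P140.Sc.a22 Vale.Agent.P140.Sc.a23 Vale.Agent.P140.Sc.a24 Vale.Agent.P140.Sc.a25 Vale.Agent.P140.Sc.a26 Vale.Agent.P140.Sc.a27 Vale.Agent.P140.Sc.a28 Vale.Agent.P140.Sc.a29 Vale.Agent.P140.Sc.a30 Vale.Agent.P140.Sc.a31 Vale.Agent.P140.Sc.a32 Vale.Agent.P140.Sc.a33 Vale.Agent.P140.Sc.r01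 Vale.Agent.P140.Sc.r02 Vale.Agent.P140.Sc.r03 Vale.Agent.P140.Sc.r04 Vale.Agent.P140.Sc.r05 Vale.Agent.P140.Sc.r06 Vale.Agent.P140.Sc.r07 Vale.Agent.P140.Sc.r08 Vale.Agent.P140.Sc.r09 Vale.Agent.P140.Sc.r10 Vale.Agent.P140.Sc.r11 Vale.Agent.P140.Sc.r12 Vale.Agent.P140.Sc.r13 Vale.Agent.P140.Sc.r14 Vale.Agent.P140.Sc.r15 Vale.Agent.P140.Sc.r16 Vale.Agent.P140.Sc.r17 Vale.Agent.P140.Sc.r18

section

open MeasureTheory Set Filter
open scoped ENNReal Topology NNReal

noncomputable section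

namespace Vale.Agent.P140

end Vale.Agent.P140
end
end

section

open MeasureTheory Set Filter
open scoped ENNReal Topology NNReal

noncomputable section

namespace Vale.Agent.P140

theorem volume_T3 : (volume : Measure T3) univ = 1 := by
  have h : (volume : Measure T3) = Measure.pi (fun _ : Fin 3 => (volume : Measure UnitAddCircle)) :=
    rfl
  rw [h, Measure.pi_univ]
  simp [AddCircle.measure_univ]

theorem lintegral_T3_V {f : V → ℝ≥0∞} (hf : Measurable f) :
    ∫⁻ p : T3 × V, f p.2 = ∫⁻ v : V, f v := by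
  have h : Measurable fun p : T3 × V => f p.2 := hf.comp measurable_snd
  rw [Measure.volume_eq_prod, lintegral_prod _ h.aemeasurable]
  simp only [lintegral_const]
  rw [volume_T3, mul_one]

end Vale.Agent.P140
end
end

section

/-! Galilean translations in velocity. -/

open MeasureTheory Set Filter Metric
open scoped ENNReal Topology

noncomputable section

namespace Vale.Agent.P140

/-- translation -/
def trv (u : V) (f : V → ℝ≥0∞) (v : V) : ℝ≥0∞ := f (v - u)

end Vale.Agent.P140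
end
end

section

open MeasureTheory Set Filter
open scoped ENNReal Topology NNReal

noncomputable section

namespace Vale.Agent.P140

variable {F0 : T3 → V → ℝ} {F G : ℝ → T3 → V → ℝ}

theorem wInt2_split {f : T3 → V → ℝ} (hf : Measurable fun p : T3 × V => f p.1 p.2)
    (hf0 : ∀ x v, 0 ≤ f x v) : wInt psi2 f = (∫⁻ p : T3 × V, ENNReal.ofReal (f p.1 p.2))
      + ∫⁻ p : T3 × V, ENNReal.ofReal (‖p.2‖ ^ 2 * f p.1 p.2) := by
  unfold wInt psi2
  rw [← lintegral_add_left hf.ennreal_ofReal]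
  apply lintegral_congr
  intro p
  rw [← ENNReal.ofReal_mul (by positivity), ← ENNReal.ofReal_add (hf0 _ _)
    (mul_nonneg (by positivity) (hf0 _ _))]
  congr 1
  ring

theorem wInt2_datum (hF : IsDatum F0) : wInt psi2 F0 < ⊤ := by
  refine lt_of_le_of_lt ?_ hF.finite
  unfold wInt psi2
  apply lintegral_mono
  intro p
  simp only
  rw [← ENNReal.ofReal_mul (by positivity)]
  apply ENNReal.ofReal_le_ofReal
  have h0 := hF.nonneg p.1 p.2
  have h1 : 0 ≤ |Real.log (F0 p.1 p.2)| := abs_nonneg _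
  linarith only [mul_nonneg h0 h1]

/-- equality for almost every time gives equality for every time -/
theorem eq_of_ae_eq (hF : IsRenormEntropySol F0 F) (hG : IsRenormEntropySol F0 G) {T : ℝ}
    (h : ∀ᵐ t ∂(volume.restrict (Ioc 0 T)), wDist psi2 (F t) (G t) = 0) {t : ℝ} (ht : 0 ≤ t)
    (htT : t < T) : ∀ᵐ p : T3 × V, F t p.1 p.2 = G t p.1 p.2 := by
  have mF := measurable_slice2 hF.measurable
  have mG := measurable_slice2 hG.measurable
  have h1 : ∀ᵐ s ∂(volume.restrict (Ioo t T)), ∀ θ : T3 × V → ℝ,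
      ∫ p : T3 × V, F s p.1 p.2 * θ p = ∫ p : T3 × V, G s p.1 p.2 * θ p := by
    have hsub : Ioo t T ⊆ Ioc 0 T := fun s hs => ⟨ht.trans_lt hs.1, hs.2.le⟩
    filter_upwards [ae_restrict_of_ae_restrict_of_subset hsub h] with s hs θ
    unfold wDist at hs
    have hz : Measurable fun p : T3 × V => psi2 p.2 * ENNReal.ofReal |F s p.1 p.2 - G s p.1 p.2| :=
      (measurable_psi2.comp measurable_snd).mul ((mF s).sub (mG s)).abs.ennreal_ofReal
    rw [lintegral_eq_zero_iff hz] at hs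
    apply integral_congr_ae
    filter_upwards [hs] with p hp
    have h2 : psi2 p.2 ≠ 0 := by
      unfold psi2
      rw [Ne, ENNReal.ofReal_eq_zero, not_le]
      positivity
    have h3 : |F s p.1 p.2 - G s p.1 p.2| ≤ 0 := by
      have h4 : psi2 p.2 * ENNReal.ofReal |F s p.1 p.2 - G s p.1 p.2| = 0 := hp
      rcases mul_eq_zero.mp h4 with h5 | h5
      · exact absurd h5 h2
      · exact ENNReal.ofReal_eq_zero.mp h5
    have h6 : F s p.1 p.2 = G s p.1 p.2 := by
      have := abs_nonneg (F s p.1 p.2 - G s p.1 p.2)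
      have h7 : |F s p.1 p.2 - G s p.1 p.2| = 0 := le_antisymm h3 this
      have := abs_eq_zero.mp h7
      linarith
    rw [h6]
  -- test with the sign of the difference
  set θ : T3 × V → ℝ := fun p => if G t p.1 p.2 ≤ F t p.1 p.2 then 1 else -1 with hθ
  have mθ : Measurable θ := Measurable.ite (measurableSet_le (mG t) (mF t)) measurable_const
    measurable_const
  have bθ : ∀ p, |θ p| ≤ 1 := by
    intro p
    simp only [hθ]
    split_ifs <;> simp
  have cF := hF.weak_cont θ mθ ⟨1, bθ⟩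
  have cG := hG.weak_cont θ mθ ⟨1, bθ⟩
  have hsub2 : Ico t T ⊆ Ici 0 := fun s hs => ht.trans hs.1
  have h2 : EqOn (fun s => ∫ p : T3 × V, F s p.1 p.2 * θ p)
      (fun s => ∫ p : T3 × V, G s p.1 p.2 * θ p) (Ico t T) := by
    have h3 : ∀ᵐ s ∂(volume.restrict (Ico t T)), (∫ p : T3 × V, F s p.1 p.2 * θ p)
        = ∫ p : T3 × V, G s p.1 p.2 * θ p := by
      rw [← restrict_Ioo_eq_restrict_Ico]
      filter_upwards [h1] with s hs
      exact hs θ
    apply Measure.eqOn_of_ae_eq h3 (cF.mono hsub2) (cG.mono hsub2)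
    rw [interior_Ico, closure_Ioo htT.ne]
    exact Ico_subset_Icc_self
  have h3 := h2 ⟨le_rfl, htT⟩
  simp only at h3
  have iF := (hF.integrable t ht).mul_bdd (c := 1) mθ.aestronglyMeasurable
    (Eventually.of_forall fun p => by rw [Real.norm_eq_abs]; exact bθ p)
  have iG := (hG.integrable t ht).mul_bdd (c := 1) mθ.aestronglyMeasurable
    (Eventually.of_forall fun p => by rw [Real.norm_eq_abs]; exact bθ p)
  have h4 : ∫ p : T3 × V, (F t p.1 p.2 * θ p - G t p.1 p.2 * θ p) = 0 := by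
    rw [integral_sub iF iG, h3, sub_self]
  have h5 : ∀ p : T3 × V, F t p.1 p.2 * θ p - G t p.1 p.2 * θ p = |F t p.1 p.2 - G t p.1 p.2| := by
    intro p
    simp only [hθ]
    split_ifs with hc
    · rw [abs_of_nonneg (by linarith)]
      ring
    · rw [abs_of_neg (by linarith [not_le.mp hc])]
      ring
  have i2 : Integrable fun p : T3 × V => F t p.1 p.2 * θ p - G t p.1 p.2 * θ p := iF.sub iG
  rw [integral_eq_zero_iff_of_nonneg (fun p => by
    simp only [Pi.zero_apply]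
    rw [h5]
    exact abs_nonneg _) i2] at h4
  filter_upwards [h4] with p hp
  have h6 : F t p.1 p.2 * θ p - G t p.1 p.2 * θ p = 0 := hp
  rw [h5] at h6
  have := abs_eq_zero.mp h6
  linarith

end Vale.Agent.P140
end
end

section

/-! Relative entropy with respect to a general Maxwellian. -/

open MeasureTheory Set Filter
open scoped ENNReal Topology NNReal

noncomputable section

namespace Vale.Agent.P140

/-- real Maxwellian `ρ exp(-2c|v-u|²)` -/
def Mr (ρ c : ℝ) (u : V) (v : V) : ℝ := ρ * Real.exp (-(2 * c * ‖v - u‖ ^ 2))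

theorem ofReal_Mr {ρ c : ℝ} (hρ : 0 < ρ) (u v : V) :
    ENNReal.ofReal (Mr ρ c u v) = trv u (MxE ρ c) v := by
  unfold trv MxE Mr gau
  rw [ENNReal.ofReal_mul hρ.le]

/-- entropy density -/
def entD (p m : ℝ) : ℝ := p * Real.log (p / m) - p + m

theorem hell {p m : ℝ} (hp : 0 ≤ p) (hm : 0 < m) :
    (Real.sqrt p - Real.sqrt m) ^ 2 ≤ entD p m := by
  unfold entD
  rcases hp.eq_or_lt with h0 | hp0
  · rw [← h0]
    simp [Real.sq_sqrt hm.le]
  · have hs : 0 < Real.sqrt p := Real.sqrt_pos.mpr hp0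
    have ht : 0 < Real.sqrt m := Real.sqrt_pos.mpr hm
    have e1 : Real.log (p / m) = 2 * Real.log (Real.sqrt p / Real.sqrt m) := by
      have : p / m = (Real.sqrt p / Real.sqrt m) ^ 2 := by
        rw [div_pow, Real.sq_sqrt hp, Real.sq_sqrt hm.le]
      rw [this, Real.log_pow]
      norm_num
    have h1 := Real.one_sub_inv_le_log_of_pos (show 0 < Real.sqrt p / Real.sqrt m by positivity)
    rw [inv_div] at h1
    rw [e1]
    have h2 : p * (1 - Real.sqrt m / Real.sqrt p) ≤ p * Real.log (Real.sqrt p / Real.sqrt m) :=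
      mul_le_mul_of_nonneg_left h1 hp
    have e2 : p * (1 - Real.sqrt m / Real.sqrt p) = p - Real.sqrt p * Real.sqrt m := by
      have e3 : p = Real.sqrt p * Real.sqrt p := (Real.mul_self_sqrt hp).symm
      field_simp
      nlinarith
    rw [e2] at h2
    have e4 : Real.sqrt p ^ 2 = p := Real.sq_sqrt hp
    have e5 : Real.sqrt m ^ 2 = m := Real.sq_sqrt hm.le
    linarith only [e5, e4, h2]

theorem entD_nonneg {p m : ℝ} (hp : 0 ≤ p) (hm : 0 < m) : 0 ≤ entD p m :=
  le_trans (sq_nonneg _) (hell hp hm)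

end Vale.Agent.P140
end
end

section

/-! Relative entropy with respect to a general Maxwellian: monotonicity. -/

open MeasureTheory Set Filter
open scoped ENNReal Topology NNReal

noncomputable section

namespace Vale.Agent.P140

variable {F0 : T3 → V → ℝ} {F : ℝ → T3 → V → ℝ}

theorem log_Maxw (v : V) : Real.log (Maxw v) =
    -(3 / 2) * Real.log (2 * Real.pi) - ‖v‖ ^ 2 / 2 := by
  unfold Maxw
  rw [Real.log_mul (by positivity) (Real.exp_pos _).ne', Real.log_exp,
    Real.log_rpow (by positivity)]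
  ring

theorem measurable_Mr (ρ c : ℝ) (u : V) : Measurable (Mr ρ c u) := by
  unfold Mr
  apply Continuous.measurable
  fun_prop

theorem measurable_entD {α : Type*} [MeasurableSpace α] {f g : α → ℝ} (hf : Measurable f)
    (hg : Measurable g) : Measurable fun a => entD (f a) (g a) := by
  unfold entD
  exact ((hf.mul (Real.measurable_log.comp (hf.div hg))).sub hf).add hg

/-- entropy relative to a general Maxwellian -/
def entA (ρ c : ℝ) (u : V) (f : T3 → V → ℝ) : ℝ≥0∞ :=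
  ∫⁻ p : T3 × V, ENNReal.ofReal (entD (f p.1 p.2) (Mr ρ c u p.2))

theorem relEntropy_eq {f : T3 → V → ℝ} (hf : Measurable fun p : T3 × V => f p.1 p.2) :
    relEntropy f = ∫⁻ p : T3 × V, ENNReal.ofReal (entD (f p.1 p.2) (Maxw p.2)) := by
  have hm : Measurable fun p : T3 × V => ENNReal.ofReal (entD (f p.1 p.2) (Maxw p.2)) :=
    (measurable_entD hf (measurable_Maxw.comp measurable_snd)).ennreal_ofReal
  rw [Measure.volume_eq_prod, lintegral_prod _ hm.aemeasurable]
  rfl

theorem lintegral_Mr_eq {ρ c : ℝ} (hρ : 0 < ρ) (u : V) :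
    ∫⁻ p : T3 × V, ENNReal.ofReal (Mr ρ c u p.2) = ∫⁻ v, MxE ρ c v := by
  have hm : Measurable fun v => ENNReal.ofReal (Mr ρ c u v) := (measurable_Mr ρ c u).ennreal_ofReal
  rw [lintegral_T3_V hm]
  simp only [ofReal_Mr hρ]
  exact lintegral_sub_right_eq_self (MxE ρ c) u

theorem lintegral_MxE_ne_top {ρ c : ℝ} (hc : 0 < c) : ∫⁻ v, MxE ρ c v ≠ ⊤ := by
  unfold MxE
  rw [lintegral_const_mul _ (measurable_gau _)]
  exact ENNReal.mul_ne_top ENNReal.ofReal_ne_top (lintegral_gau (by positivity))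

theorem lintegral_Maxw_ne_top : ∫⁻ p : T3 × V, ENNReal.ofReal (Maxw p.2) ≠ ⊤ := by
  have e : ∀ v : V, Maxw v = Mr ((2 * Real.pi) ^ (-(3 / 2) : ℝ)) (1 / 4) 0 v := by
    intro v
    unfold Maxw Mr
    rw [sub_zero]
    congr 2
    ring
  simp only [e]
  rw [lintegral_Mr_eq (by positivity)]
  exact lintegral_MxE_ne_top (by norm_num)

end Vale.Agent.P140
end
end

section

/-!
P140-NU, module J: the truncated kernel.
-/

open MeasureTheory Set Filter
open scoped ENNReal Topology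

noncomputable section

namespace Vale.Agent.P140.NU.J

/-- `|a| - 1/N ≤ b_N` if the energy is at most `N²` -/
theorem bN_ge {N : ℕ} (hN : 1 ≤ N) {v w : V} (h : ‖v‖ ^ 2 + ‖w‖ ^ 2 ≤ (N : ℝ) ^ 2) (ω : S2) :
    |relA v w ω| ≤ DL.bN N v w ω + 1 / N := by
  have hN' : (0 : ℝ) < N := Nat.cast_pos.2 hN
  unfold DL.bN
  split_ifs with hc
  · exact le_add_of_nonneg_right (by positivity)
  · have h1 : ¬ (1 ≤ (N : ℝ) * |relA v w ω|) := fun h2 => hc ⟨h, h2⟩
    rw [not_le] at h1
    rw [zero_add, le_div_iff₀ hN', mul_comm]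
    exact h1.le

private theorem kern_meas (N : ℕ) (v w : V) :
    Measurable fun ω : S2 => ENNReal.ofReal (DL.bN N v w ω) :=
  ENNReal.measurable_ofReal.comp (Measurable.comp
    (g := fun p : V × V × S2 => DL.bN N p.1 p.2.1 p.2.2)
    (f := fun ω : S2 => (v, w, ω)) (DL.measurable_bN N)
    (measurable_const.prodMk (measurable_const.prodMk measurable_id)))

private theorem kern_const {N : ℕ} (hN : 1 ≤ N) :
    ∫⁻ _ : S2, ENNReal.ofReal (1 / (N : ℝ)) ∂surf = ENNReal.ofReal (4 * Real.pi / N) := by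
  have hN' : (0 : ℝ) < N := Nat.cast_pos.2 hN
  rw [lintegral_const, surf_univ, ← ENNReal.ofReal_mul (by positivity)]
  congr 1
  ring

theorem lint_bN_le (N : ℕ) (v w : V) :
    ∫⁻ ω, ENNReal.ofReal (DL.bN N v w ω) ∂surf ≤ ENNReal.ofReal (2 * Real.pi * ‖v - w‖) := by
  rw [← lint_relA v w]
  exact lintegral_mono fun ω => ENNReal.ofReal_le_ofReal (DL.bN_le N v w ω)

theorem lint_bN_ge {N : ℕ} (hN : 1 ≤ N) {v w : V} (h : ‖v‖ ^ 2 + ‖w‖ ^ 2 ≤ (N : ℝ) ^ 2) :
    ENNReal.ofReal (2 * Real.pi * ‖v - w‖ - 4 * Real.pi / N) ≤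
      ∫⁻ ω, ENNReal.ofReal (DL.bN N v w ω) ∂surf := by
  have hN' : (0 : ℝ) < N := Nat.cast_pos.2 hN
  rw [ENNReal.ofReal_sub _ (by positivity), tsub_le_iff_right, ← lint_relA v w, ← kern_const hN,
    ← lintegral_add_left (kern_meas N v w)]
  refine lintegral_mono fun ω => ?_
  rw [← ENNReal.ofReal_add (DL.bN_nonneg N v w ω) (by positivity)]
  exact ENNReal.ofReal_le_ofReal (bN_ge hN h ω)

theorem lint_bN_eq_zero {N : ℕ} {v w : V} (h : (N : ℝ) ^ 2 < ‖v‖ ^ 2 + ‖w‖ ^ 2) (ω : S2) :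
    DL.bN N v w ω = 0 := by
  unfold DL.bN
  exact if_neg fun hc => absurd hc.1 (not_le.2 h)

/-- lower bound of the truncated gain of a weight with values in `[0,1]` -/
theorem lint_bN_weight {N : ℕ} (hN : 1 ≤ N) {v w : V} (h : ‖v‖ ^ 2 + ‖w‖ ^ 2 ≤ (N : ℝ) ^ 2)
    {φ : S2 → ℝ} (hφ : Measurable φ) (h0 : ∀ ω, 0 ≤ φ ω) (h1 : ∀ ω, φ ω ≤ 1) {m : ℝ}
    (hm : ENNReal.ofReal m ≤ ∫⁻ ω, ENNReal.ofReal (|relA v w ω| * φ ω) ∂surf) :
    ENNReal.ofReal (m - 4 * Real.pi / N) ≤
      ∫⁻ ω, ENNReal.ofReal (DL.bN N v w ω) * ENNReal.ofReal (φ ω) ∂surf := by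
  have hN' : (0 : ℝ) < N := Nat.cast_pos.2 hN
  have hk : Measurable fun ω : S2 => ENNReal.ofReal (DL.bN N v w ω) * ENNReal.ofReal (φ ω) :=
    (kern_meas N v w).mul hφ.ennreal_ofReal
  rw [ENNReal.ofReal_sub _ (by positivity), tsub_le_iff_right, ← kern_const hN,
    ← lintegral_add_left hk]
  refine hm.trans (lintegral_mono fun ω => ?_)
  have hb := DL.bN_nonneg N v w ω
  rw [← ENNReal.ofReal_mul hb, ← ENNReal.ofReal_add (mul_nonneg hb (h0 ω)) (by positivity)]
  refine ENNReal.ofReal_le_ofReal ?_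
  have h2 : |relA v w ω| * φ ω ≤ (DL.bN N v w ω + 1 / N) * φ ω :=
    mul_le_mul_of_nonneg_right (bN_ge hN h ω) (h0 ω)
  have h3 : 1 / (N : ℝ) * φ ω ≤ 1 / (N : ℝ) * 1 :=
    mul_le_mul_of_nonneg_left (h1 ω) (by positivity)
  rw [add_mul] at h2
  rw [mul_one] at h3
  exact h2.trans (add_le_add_right h3 _)

end Vale.Agent.P140.NU.J
end
end

section

/-!
P140, non-uniqueness: the statements of the modules.
-/
end

section

open MeasureTheory Set Filter
open scoped ENNReal Topology NNReal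

noncomputable section

namespace Vale.Agent.P140.DL

theorem measurable_ofReal_Maxw : Measurable fun v : V => ENNReal.ofReal (Maxw v) :=
  measurable_Maxw.ennreal_ofReal

theorem ofReal_Maxw_ne_zero (v : V) : ENNReal.ofReal (Maxw v) ≠ 0 :=
  (ENNReal.ofReal_pos.mpr (Maxw_pos v)).ne'

theorem measurable_ofReal_exp : Measurable fun t : ℝ => ENNReal.ofReal (Real.exp (-t)) :=
  (Real.measurable_exp.comp measurable_neg).ennreal_ofReal

theorem measurable_MaxwX : Measurable fun p : T3 × V => ENNReal.ofReal (Maxw p.2) :=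
  measurable_ofReal_Maxw.comp measurable_snd

theorem ofReal_exp_ne_zero (t : ℝ) : ENNReal.ofReal (Real.exp (-t)) ≠ 0 :=
  (ENNReal.ofReal_pos.mpr (Real.exp_pos _)).ne'

theorem integral_Maxw_eq_one : ∫ v : V, Maxw v = 1 := by
  have h := GaussianFourier.integral_rexp_neg_mul_sq_norm (V := V) (b := 1 / 2) (by norm_num)
  have h2 : Module.finrank ℝ V = 3 := by simp
  rw [h2] at h
  unfold Maxw
  rw [integral_const_mul]
  have h3 : ∀ v : V, Real.exp (-(‖v‖ ^ 2 / 2)) = Real.exp (-(1 / 2) * ‖v‖ ^ 2) := by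
    intro v
    congr 1
    ring
  simp only [h3]
  rw [h, show Real.pi / (1 / 2) = 2 * Real.pi by ring, show ((3 : ℕ) : ℝ) / 2 = 3 / 2 by norm_num,
    ← Real.rpow_add (by positivity)]
  norm_num

theorem integrable_Maxw : Integrable Maxw := by
  by_contra h
  have h1 := integral_undef h
  rw [integral_Maxw_eq_one] at h1
  norm_num at h1

theorem lintegral_Maxw_eq_one : ∫⁻ v : V, ENNReal.ofReal (Maxw v) = 1 := by
  rw [← ofReal_integral_eq_lintegral_ofReal integrable_Maxw
    (Eventually.of_forall fun v => (Maxw_pos v).le), integral_Maxw_eq_one]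
  simp

instance : IsProbabilityMeasure mV := by
  constructor
  unfold mV
  rw [withDensity_apply _ MeasurableSet.univ, Measure.restrict_univ]
  exact lintegral_Maxw_eq_one

instance : IsProbabilityMeasure nuE := by
  constructor
  unfold nuE
  rw [withDensity_apply _ MeasurableSet.univ, Measure.restrict_univ,
    ← ofReal_integral_eq_lintegral_ofReal (integrableOn_exp_neg_Ioi 0)
    (Eventually.of_forall fun v => (Real.exp_pos _).le), integral_exp_neg_Ioi_zero]
  simp

instance : IsProbabilityMeasure (volume : Measure T3) := by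
  have h : IsProbabilityMeasure (volume : Measure UnitAddCircle) := ⟨by
    rw [UnitAddCircle.measure_univ]⟩
  exact Measure.pi.instIsProbabilityMeasure _

instance : IsProbabilityMeasure muM := by
  unfold muM
  infer_instance

instance : IsProbabilityMeasure PP := by
  unfold PP
  infer_instance

instance : IsProbabilityMeasure zet := by
  unfold zet
  infer_instance

instance : IsFiniteMeasure surf := by
  constructor
  rw [surf_univ]
  exact ENNReal.ofReal_lt_top

instance : IsFiniteMeasure P4 := by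
  unfold P4
  infer_instance

theorem muM_eq : muM = (volume : Measure (T3 × V)).withDensity fun p => ENNReal.ofReal (Maxw p.2) := by
  unfold muM mV
  rw [prod_withDensity_right measurable_ofReal_Maxw]
  rfl

theorem ae_muM {P : T3 × V → Prop} : (∀ᵐ p ∂muM, P p) ↔ ∀ᵐ p : T3 × V, P p := by
  rw [muM_eq, ae_withDensity_iff measurable_MaxwX]
  simp only [ofReal_Maxw_ne_zero, ne_eq, not_false_eq_true, forall_const]

theorem PP_eq : PP = ((volume : Measure (ℝ × T3 × V)).restrict (Ioi 0 ×ˢ univ)).withDensity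
    fun q => ENNReal.ofReal (Real.exp (-q.1)) * ENNReal.ofReal (Maxw q.2.2) := by
  unfold PP nuE
  rw [muM_eq, prod_withDensity measurable_ofReal_exp measurable_MaxwX]
  congr 1
  rw [Measure.volume_eq_prod ℝ (T3 × V), ← Measure.prod_restrict, Measure.restrict_univ]

theorem ae_PP {P : ℝ × T3 × V → Prop} :
    (∀ᵐ q ∂PP, P q) ↔ ∀ᵐ q : ℝ × T3 × V, 0 < q.1 → P q := by
  have hm : Measurable fun q : ℝ × T3 × V =>
      ENNReal.ofReal (Real.exp (-q.1)) * ENNReal.ofReal (Maxw q.2.2) :=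
    (measurable_ofReal_exp.comp measurable_fst).mul
      (measurable_ofReal_Maxw.comp (measurable_snd.comp measurable_snd))
  rw [PP_eq, ae_withDensity_iff hm, ae_restrict_iff' (measurableSet_Ioi.prod MeasurableSet.univ)]
  simp only [mul_eq_zero, ofReal_Maxw_ne_zero, ofReal_exp_ne_zero, or_self, ne_eq,
    not_false_eq_true, forall_const, mem_prod, mem_Ioi, mem_univ, and_true]

theorem lintegral_mV {f : V → ℝ≥0∞} (hf : Measurable f) :
    ∫⁻ v, f v ∂mV = ∫⁻ v, ENNReal.ofReal (Maxw v) * f v := by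
  unfold mV
  rw [lintegral_withDensity_eq_lintegral_mul _ measurable_ofReal_Maxw hf]
  rfl

theorem integral_mV (f : V → ℝ) : ∫ v, f v ∂mV = ∫ v, Maxw v * f v := by
  unfold mV
  rw [integral_withDensity_eq_integral_toReal_smul measurable_ofReal_Maxw
    (Eventually.of_forall fun v => ENNReal.ofReal_lt_top)]
  simp only [ENNReal.toReal_ofReal (Maxw_pos _).le, smul_eq_mul]

theorem lintegral_muM {f : T3 × V → ℝ≥0∞} (hf : Measurable f) :
    ∫⁻ p, f p ∂muM = ∫⁻ p : T3 × V, ENNReal.ofReal (Maxw p.2) * f p := by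
  rw [muM_eq, lintegral_withDensity_eq_lintegral_mul _ measurable_MaxwX hf]
  rfl

theorem integral_muM (f : T3 × V → ℝ) : ∫ p, f p ∂muM = ∫ p : T3 × V, Maxw p.2 * f p := by
  rw [muM_eq, integral_withDensity_eq_integral_toReal_smul measurable_MaxwX
    (Eventually.of_forall fun v => ENNReal.ofReal_lt_top)]
  simp only [ENNReal.toReal_ofReal (Maxw_pos _).le, smul_eq_mul]

theorem integrable_muM {f : T3 × V → ℝ} (hf : Measurable f) :
    Integrable f muM ↔ Integrable fun p : T3 × V => Maxw p.2 * f p := by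
  have _ := hf
  rw [muM_eq, integrable_withDensity_iff_integrable_smul' measurable_MaxwX
    (Eventually.of_forall fun v => ENNReal.ofReal_lt_top)]
  simp only [ENNReal.toReal_ofReal (Maxw_pos _).le, smul_eq_mul]

theorem lintegral_nuE {f : ℝ → ℝ≥0∞} (hf : Measurable f) :
    ∫⁻ t, f t ∂nuE = ∫⁻ t in Ioi 0, ENNReal.ofReal (Real.exp (-t)) * f t := by
  unfold nuE
  rw [lintegral_withDensity_eq_lintegral_mul _ measurable_ofReal_exp hf]
  rfl

theorem integral_nuE (f : ℝ → ℝ) : ∫ t, f t ∂nuE = ∫ t in Ioi 0, Real.exp (-t) * f t := by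
  unfold nuE
  rw [integral_withDensity_eq_integral_toReal_smul measurable_ofReal_exp
    (Eventually.of_forall fun v => ENNReal.ofReal_lt_top)]
  simp only [ENNReal.toReal_ofReal (Real.exp_pos _).le, smul_eq_mul]

theorem lintegral_PP {f : ℝ × T3 × V → ℝ≥0∞} (hf : Measurable f) :
    ∫⁻ q, f q ∂PP = ∫⁻ t in Ioi 0, ENNReal.ofReal (Real.exp (-t)) *
      ∫⁻ p : T3 × V, ENNReal.ofReal (Maxw p.2) * f (t, p) := by
  unfold PP
  rw [lintegral_prod _ hf.aemeasurable, lintegral_nuE hf.lintegral_prod_right']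
  refine lintegral_congr fun t => ?_
  have h1 : Measurable fun p : T3 × V => f (t, p) := hf.comp measurable_prodMk_left
  rw [lintegral_muM h1]

theorem lintegral_PP_assoc {f : ℝ × T3 × V → ℝ≥0∞} (hf : Measurable f) :
    ∫⁻ q, f q ∂PP = ∫⁻ z, (∫⁻ v : V, ENNReal.ofReal (Maxw v) * f (z.1, z.2, v)) ∂zet := by
  unfold PP zet
  have hm : Measurable fun z : ℝ × T3 =>
      ∫⁻ v : V, ENNReal.ofReal (Maxw v) * f (z.1, z.2, v) := by
    refine Measurable.lintegral_prod_right' (f := fun q : (ℝ × T3) × V =>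
      ENNReal.ofReal (Maxw q.2) * f (q.1.1, q.1.2, q.2)) ?_
    exact (measurable_ofReal_Maxw.comp measurable_snd).mul (hf.comp (by fun_prop))
  rw [lintegral_prod _ hf.aemeasurable, lintegral_prod _ hm.aemeasurable]
  refine lintegral_congr fun t => ?_
  unfold muM
  have h1 : Measurable fun p : T3 × V => f (t, p) := hf.comp measurable_prodMk_left
  rw [lintegral_prod _ h1.aemeasurable]
  refine lintegral_congr fun x => ?_
  have h2 : Measurable fun v : V => f (t, x, v) := h1.comp measurable_prodMk_left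
  exact lintegral_mV h2

theorem lintegral_P4 {f : (ℝ × T3) × V × V × S2 → ℝ≥0∞} (hf : Measurable f) :
    ∫⁻ q, f q ∂P4 = ∫⁻ z, (∫⁻ v : V, ∫⁻ w : V, ∫⁻ o,
      ENNReal.ofReal (Maxw v * Maxw w) * f (z, v, w, o) ∂surf) ∂zet := by
  unfold P4
  rw [lintegral_prod _ hf.aemeasurable]
  refine lintegral_congr fun z => ?_
  have h1 : Measurable fun r : V × V × S2 => f (z, r) := hf.comp measurable_prodMk_left
  rw [lintegral_prod _ h1.aemeasurable, lintegral_mV h1.lintegral_prod_right']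
  refine lintegral_congr fun v => ?_
  have h2 : Measurable fun r : V × S2 => f (z, v, r) := h1.comp measurable_prodMk_left
  have h4 : Measurable fun w : V => ENNReal.ofReal (Maxw w) * ∫⁻ o, f (z, v, w, o) ∂surf :=
    measurable_ofReal_Maxw.mul h2.lintegral_prod_right'
  rw [lintegral_prod _ h2.aemeasurable, lintegral_mV h2.lintegral_prod_right',
    ← lintegral_const_mul _ h4]
  refine lintegral_congr fun w => ?_
  have h3 : Measurable fun o : S2 => f (z, v, w, o) := h2.comp measurable_prodMk_left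
  rw [lintegral_const_mul _ h3, ENNReal.ofReal_mul (Maxw_pos v).le, mul_assoc]

/-- restriction to a bounded time interval is dominated by the reference measure -/
theorem restrict_le_nuE (T : ℝ) :
    (volume : Measure ℝ).restrict (Ioc 0 T) ≤ ENNReal.ofReal (Real.exp T) • nuE := by
  refine Measure.le_iff.mpr fun s hs => ?_
  unfold nuE
  rw [Measure.smul_apply, withDensity_apply _ hs, smul_eq_mul,
    ← lintegral_const_mul _ measurable_ofReal_exp, Measure.restrict_apply hs,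
    Measure.restrict_restrict hs]
  calc volume (s ∩ Ioc 0 T) = ∫⁻ _ in s ∩ Ioc 0 T, 1 := by rw [setLIntegral_one]
    _ ≤ ∫⁻ t in s ∩ Ioc 0 T, ENNReal.ofReal (Real.exp T) * ENNReal.ofReal (Real.exp (-t)) := by
        refine setLIntegral_mono' (hs.inter measurableSet_Ioc) fun t ht => ?_
        rw [← ENNReal.ofReal_mul (Real.exp_pos _).le, ← Real.exp_add]
        rw [← ENNReal.ofReal_one]
        refine ENNReal.ofReal_le_ofReal (Real.one_le_exp ?_)
        have := ht.2.2
        linarith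
    _ ≤ _ := lintegral_mono_set (inter_subset_inter_right _ Ioc_subset_Ioi_self)

theorem restrict_prod_le_PP (T : ℝ) :
    ((volume : Measure ℝ).restrict (Ioc 0 T)).prod muM ≤ ENNReal.ofReal (Real.exp T) • PP := by
  unfold PP
  refine Measure.le_iff.mpr fun s hs => ?_
  rw [Measure.smul_apply, Measure.prod_apply hs, Measure.prod_apply hs, smul_eq_mul]
  calc ∫⁻ x in Ioc 0 T, muM (Prod.mk x ⁻¹' s)
      ≤ ∫⁻ x, muM (Prod.mk x ⁻¹' s) ∂(ENNReal.ofReal (Real.exp T) • nuE) :=
        lintegral_mono' (restrict_le_nuE T) le_rfl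
    _ = _ := by rw [lintegral_smul_measure, smul_eq_mul]

end Vale.Agent.P140.DL
end
end

section

open MeasureTheory Set Filter
open scoped ENNReal Topology NNReal

noncomputable section

namespace Vale.Agent.P140.DL

theorem lintegral_flow_muM (t : ℝ) {f : T3 × V → ℝ≥0∞} (hf : Measurable f) :
    ∫⁻ p, f (flow t p) ∂muM = ∫⁻ p, f p ∂muM := by
  unfold muM
  rw [lintegral_prod_symm (fun p => f (flow t p)) (hf.comp (measurable_flow t)).aemeasurable,
    lintegral_prod_symm f hf.aemeasurable]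
  congr 1
  ext v
  unfold flow
  exact lintegral_add_right_eq_self (fun x => f (x, v)) (toTorus (t • v))

theorem measurePreserving_flow_muM (t : ℝ) : MeasurePreserving (flow t) muM muM := by
  refine ⟨measurable_flow t, ?_⟩
  ext s hs
  rw [Measure.map_apply (measurable_flow t) hs, ← lintegral_indicator_one hs,
    ← lintegral_indicator_one ((measurable_flow t) hs)]
  exact lintegral_flow_muM t (measurable_one.indicator hs)

theorem measurePreserving_stFlow_PP : MeasurePreserving stFlow PP PP :=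
  (MeasurePreserving.id nuE).skew_product measurable_flow_uncurry
    (Eventually.of_forall fun t => (measurePreserving_flow_muM t).map_eq)

/-- association of time-position-velocity -/
theorem measurePreserving_assoc_PP :
    MeasurePreserving (fun q : ℝ × T3 × V => ((q.1, q.2.1), q.2.2)) PP (zet.prod mV) :=
  (measurePreserving_prodAssoc nuE (volume : Measure T3) mV).symm

/-- the collision transformation as a measurable equivalence -/
def tau : ((ℝ × T3) × V × V × S2) ≃ᵐ ((ℝ × T3) × V × V × S2) where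
  toFun q := (q.1, post q.2.1 q.2.2.1 q.2.2.2, postStar q.2.1 q.2.2.1 q.2.2.2, q.2.2.2)
  invFun q := (q.1, post q.2.1 q.2.2.1 q.2.2.2, postStar q.2.1 q.2.2.1 q.2.2.2, q.2.2.2)
  left_inv := by
    intro q
    simp [post_post, postStar_post]
  right_inv := by
    intro q
    simp [post_post, postStar_post]
  measurable_toFun := by
    have h1 := measurable_post.comp (measurable_snd : Measurable fun q : (ℝ × T3) × V × V × S2 => q.2)
    have h2 := measurable_postStar.comp
      (measurable_snd : Measurable fun q : (ℝ × T3) × V × V × S2 => q.2)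
    exact measurable_fst.prodMk (h1.prodMk (h2.prodMk
      (measurable_snd.snd.snd : Measurable fun q : (ℝ × T3) × V × V × S2 => q.2.2.2)))
  measurable_invFun := by
    have h1 := measurable_post.comp (measurable_snd : Measurable fun q : (ℝ × T3) × V × V × S2 => q.2)
    have h2 := measurable_postStar.comp
      (measurable_snd : Measurable fun q : (ℝ × T3) × V × V × S2 => q.2)
    exact measurable_fst.prodMk (h1.prodMk (h2.prodMk
      (measurable_snd.snd.snd : Measurable fun q : (ℝ × T3) × V × V × S2 => q.2.2.2)))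

theorem tau_apply (q : (ℝ × T3) × V × V × S2) : tau q =
    (q.1, post q.2.1 q.2.2.1 q.2.2.2, postStar q.2.1 q.2.2.1 q.2.2.2, q.2.2.2) := rfl

theorem Maxw_post (v w : V) (o : S2) :
    Maxw (post v w o) * Maxw (postStar v w o) = Maxw v * Maxw w := by
  have h := energy_post v w o
  have key : ∀ a b : V, Maxw a * Maxw b = ((2 * Real.pi) ^ (-(3 / 2) : ℝ)) ^ 2 *
      Real.exp (-((‖a‖ ^ 2 + ‖b‖ ^ 2) / 2)) := by
    intro a b
    have h1 : -((‖a‖ ^ 2 + ‖b‖ ^ 2) / 2) = -(‖a‖ ^ 2 / 2) + -(‖b‖ ^ 2 / 2) := by ring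
    rw [h1, Real.exp_add]
    unfold Maxw
    ring
  rw [key, key, h]

theorem lintegral_tau {f : (ℝ × T3) × V × V × S2 → ℝ≥0∞} (hf : Measurable f) :
    ∫⁻ q, f (tau q) ∂P4 = ∫⁻ q, f q ∂P4 := by
  rw [lintegral_P4 (f := fun q => f (tau q)) (hf.comp tau.measurable), lintegral_P4 hf]
  refine lintegral_congr fun z => ?_
  have hH : Measurable fun q : V × V × S2 =>
      ENNReal.ofReal (Maxw q.1 * Maxw q.2.1) * f (z, q.1, q.2.1, q.2.2) := by
    refine Measurable.mul ?_ (hf.comp (measurable_const.prodMk measurable_id))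
    exact ((measurable_Maxw.comp measurable_fst).mul
      (measurable_Maxw.comp (measurable_fst.comp measurable_snd))).ennreal_ofReal
  rw [← lintegral_coll hH]
  refine lintegral_congr fun v => lintegral_congr fun w => lintegral_congr fun o => ?_
  simp only [tau_apply, Maxw_post]

theorem measurePreserving_tau : MeasurePreserving tau P4 P4 := by
  refine ⟨tau.measurable, Measure.ext_of_lintegral _ fun f hf => ?_⟩
  rw [lintegral_map hf tau.measurable]
  exact lintegral_tau hf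

theorem measurable_den0 {f : T3 → V → ℝ} (hf : Measurable fun p : T3 × V => f p.1 p.2) :
    Measurable (den0 f) :=
  hf.div (measurable_Maxw.comp measurable_snd)

theorem Maxw_mul_den0 (f : T3 → V → ℝ) (p : T3 × V) : Maxw p.2 * den0 f p = f p.1 p.2 := by
  unfold den0
  rw [mul_div_cancel₀ _ (Maxw_pos p.2).ne']

theorem measurable_hE : Measurable hE :=
  ((measurable_id.mul Real.measurable_log).sub measurable_id).add measurable_const

theorem Maxw_mul_hE (f : T3 → V → ℝ) (p : T3 × V) :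
    Maxw p.2 * hE (den0 f p) = entD (f p.1 p.2) (Maxw p.2) := by
  have h := Maxw_mul_den0 f p
  have h2 : f p.1 p.2 / Maxw p.2 = den0 f p := rfl
  unfold hE entD
  rw [h2, mul_add, mul_sub, ← mul_assoc, h, mul_one]

theorem relEntropy_eq_hE {f : T3 → V → ℝ} (hf : Measurable fun p : T3 × V => f p.1 p.2) :
    relEntropy f = ∫⁻ p, ENNReal.ofReal (hE (den0 f p)) ∂muM := by
  have hm : Measurable fun p : T3 × V => ENNReal.ofReal (hE (den0 f p)) :=
    (measurable_hE.comp (measurable_den0 hf)).ennreal_ofReal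
  rw [relEntropy_eq hf, lintegral_muM hm]
  refine lintegral_congr fun p => ?_
  rw [← Maxw_mul_hE, ENNReal.ofReal_mul (Maxw_pos p.2).le]

theorem lintegral_den0 {f : T3 → V → ℝ} (hf : Measurable fun p : T3 × V => f p.1 p.2)
    {ψ : V → ℝ≥0∞} (hψ : Measurable ψ) :
    ∫⁻ p, ψ p.2 * ENNReal.ofReal (den0 f p) ∂muM = wInt ψ f := by
  have hm : Measurable fun p : T3 × V => ψ p.2 * ENNReal.ofReal (den0 f p) :=
    (hψ.comp measurable_snd).mul (measurable_den0 hf).ennreal_ofReal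
  rw [lintegral_muM hm]
  unfold wInt
  refine lintegral_congr fun p => ?_
  rw [mul_left_comm, ← ENNReal.ofReal_mul (Maxw_pos p.2).le, Maxw_mul_den0]

theorem integral_den0 (f : T3 → V → ℝ) (θ : T3 × V → ℝ) :
    ∫ p, den0 f p * θ p ∂muM = ∫ p : T3 × V, f p.1 p.2 * θ p := by
  rw [integral_muM]
  refine integral_congr_ae (Eventually.of_forall fun p => ?_)
  show Maxw p.2 * (den0 f p * θ p) = f p.1 p.2 * θ p
  rw [← mul_assoc, Maxw_mul_den0]

theorem lintegral_den0_sub {f g : T3 → V → ℝ} (hf : Measurable fun p : T3 × V => f p.1 p.2)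
    (hg : Measurable fun p : T3 × V => g p.1 p.2) :
    ∫⁻ p, ENNReal.ofReal |den0 f p - den0 g p| ∂muM = wDist psi0 f g := by
  have hm : Measurable fun p : T3 × V => |den0 f p - den0 g p| :=
    ((measurable_den0 hf).sub (measurable_den0 hg)).abs
  rw [lintegral_muM hm.ennreal_ofReal]
  unfold wDist
  refine lintegral_congr fun p => ?_
  rw [← ENNReal.ofReal_mul (Maxw_pos p.2).le]
  have h1 : Maxw p.2 * |den0 f p - den0 g p| = |f p.1 p.2 - g p.1 p.2| := by
    rw [← Maxw_mul_den0 f p, ← Maxw_mul_den0 g p, ← mul_sub, abs_mul, abs_of_pos (Maxw_pos p.2)]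
  rw [h1, psi0, one_mul]

theorem integrable_den0 {f : T3 → V → ℝ} (hf : Measurable fun p : T3 × V => f p.1 p.2) :
    Integrable (den0 f) muM ↔ Integrable fun p : T3 × V => f p.1 p.2 := by
  rw [integrable_muM (measurable_den0 hf)]
  have h1 : (fun p : T3 × V => Maxw p.2 * den0 f p) = fun p : T3 × V => f p.1 p.2 := by
    funext p
    exact Maxw_mul_den0 f p
  rw [h1]

theorem cden_eq (F : ℝ → T3 → V → ℝ) (q : ℝ × T3 × V) : cden F q = den F (stFlow q) := rfl

theorem cden_time (F : ℝ → T3 → V → ℝ) (t : ℝ) (p : T3 × V) :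
    cden F (t, p) = den0 (F t) (flow t p) := rfl

end Vale.Agent.P140.DL
end
end

section

open MeasureTheory Set Filter
open scoped ENNReal Topology NNReal

noncomputable section

namespace Vale.Agent.P140.DL

theorem osc_gauss_t (a : ℝ) :
    ∫ t : ℝ, Complex.exp (-(Real.pi * t ^ 2)) *
      Complex.exp (((-(2 * Real.pi * (t * a)) : ℝ) : ℂ) * Complex.I)
      = ((Real.exp (-(Real.pi * a ^ 2)) : ℝ) : ℂ) := by
  have h := fourierIntegral_gaussian (b := (Real.pi : ℂ)) (by simpa using Real.pi_pos)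
    (((-(2 * Real.pi * a) : ℝ) : ℂ))
  have e1 : ((Real.pi : ℂ) / (Real.pi : ℂ)) ^ (1 / 2 : ℂ) = 1 := by
    rw [div_self (by exact_mod_cast Real.pi_ne_zero), Complex.one_cpow]
  rw [e1, one_mul] at h
  have e2 : -(((-(2 * Real.pi * a) : ℝ) : ℂ)) ^ 2 / (4 * (Real.pi : ℂ)) =
      ((-(Real.pi * a ^ 2) : ℝ) : ℂ) := by
    have hp : (Real.pi : ℂ) ≠ 0 := by exact_mod_cast Real.pi_ne_zero
    push_cast
    field_simp
    ring
  rw [e2, ← Complex.ofReal_exp] at h
  rw [← h]
  apply integral_congr_ae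
  filter_upwards with t
  rw [mul_comm]
  congr 1
  · congr 1
    push_cast
    ring
  · congr 1
    ring

theorem lint_gauss (b : ℝ) (hb : 0 < b) (a0 : ℝ) :
    ∫⁻ a : ℝ, ENNReal.ofReal (Real.exp (-(b * (a - a0) ^ 2))) =
      ENNReal.ofReal (Real.sqrt (Real.pi / b)) := by
  have h0 : ∫⁻ a : ℝ, ENNReal.ofReal (Real.exp (-(b * (a - a0) ^ 2))) =
      ∫⁻ a : ℝ, ENNReal.ofReal (Real.exp (-(b * a ^ 2))) :=
    lintegral_sub_right_eq_self (μ := volume)
      (fun a : ℝ => ENNReal.ofReal (Real.exp (-(b * a ^ 2)))) a0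
  have hI : Integrable (fun a : ℝ => Real.exp (-(b * a ^ 2))) := by
    have := integrable_exp_neg_mul_sq hb
    simpa [neg_mul] using this
  rw [h0, ← ofReal_integral_eq_lintegral_ofReal hI (Eventually.of_forall fun a => (Real.exp_pos _).le)]
  have := integral_gaussian b
  simp only [neg_mul] at this
  rw [this]

theorem osc_inner {k : V} (hk : k ≠ 0) (v : V) :
    ∫⁻ w : V, ENNReal.ofReal (Maxw w) *
      ENNReal.ofReal (Real.exp (-(Real.pi * (inner ℝ k v - inner ℝ k w) ^ 2)))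
      ≤ ENNReal.ofReal (1 / ‖k‖) := by
  have hk0 : 0 < ‖k‖ := norm_pos_iff.mpr hk
  set e : V := (‖k‖)⁻¹ • k with he
  have hen : ‖e‖ = 1 := by
    rw [he, norm_smul, norm_inv, norm_norm, inv_mul_cancel₀ hk0.ne']
  have hke : k = ‖k‖ • e := by
    rw [he, smul_smul, mul_inv_cancel₀ hk0.ne', one_smul]
  obtain ⟨b1, b2, hn, hi, hint⟩ := exists_frame e hen
  have hm : Measurable fun w : V => ENNReal.ofReal (Maxw w) *
      ENNReal.ofReal (Real.exp (-(Real.pi * (inner ℝ k v - inner ℝ k w) ^ 2))) := by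
    have h1 : Measurable Maxw := measurable_Maxw
    fun_prop
  rw [hint _ hm]
  set a0 : ℝ := inner ℝ k v / ‖k‖ with ha0
  have hkv : inner ℝ k v = ‖k‖ * a0 := by
    rw [ha0]; field_simp
  have hbd : ∀ (a : ℝ) (q : ℝ × ℝ), ENNReal.ofReal (Maxw (a • e + (q.1 • b1 + q.2 • b2))) *
      ENNReal.ofReal (Real.exp (-(Real.pi * (inner ℝ k v -
        inner ℝ k (a • e + (q.1 • b1 + q.2 • b2))) ^ 2))) ≤
      ENNReal.ofReal (Real.exp (-(Real.pi * ‖k‖ ^ 2 * (a - a0) ^ 2))) *
        (ENNReal.ofReal ((2 * Real.pi)⁻¹) * (ENNReal.ofReal (Real.exp (-(1 / 2 * (q.1 - 0) ^ 2))) *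
          ENNReal.ofReal (Real.exp (-(1 / 2 * (q.2 - 0) ^ 2))))) := by
    intro a q
    have hik : inner ℝ k (a • e + (q.1 • b1 + q.2 • b2)) = ‖k‖ * a := by
      have h1 : inner ℝ k (a • e + (q.1 • b1 + q.2 • b2)) =
          ‖k‖ * inner ℝ (a • e + (q.1 • b1 + q.2 • b2)) e := by
        rw [real_inner_comm (a • e + (q.1 • b1 + q.2 • b2)) k]
        conv_lhs => rw [hke]
        rw [real_inner_smul_right]
      rw [h1, hi]
    rw [hik, hkv, ← ENNReal.ofReal_mul (Maxw_pos _).le, ← ENNReal.ofReal_mul (by positivity),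
      ← ENNReal.ofReal_mul (by positivity), ← ENNReal.ofReal_mul (by positivity)]
    apply ENNReal.ofReal_le_ofReal
    unfold Maxw
    rw [hn]
    have e1 : (2 * Real.pi) ^ (-(3 / 2) : ℝ) ≤ (2 * Real.pi)⁻¹ := by
      rw [← Real.rpow_neg_one]
      apply Real.rpow_le_rpow_of_exponent_le
      · linarith only [Real.pi_gt_three]
      · norm_num
    have e2 : Real.exp (-((a ^ 2 + (q.1 ^ 2 + q.2 ^ 2)) / 2)) ≤
        Real.exp (-(1 / 2 * (q.1 - 0) ^ 2)) * Real.exp (-(1 / 2 * (q.2 - 0) ^ 2)) := by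
      rw [← Real.exp_add]
      apply Real.exp_le_exp.mpr
      linarith only [sq_nonneg a]
    have e3 : Real.exp (-(Real.pi * (‖k‖ * a0 - ‖k‖ * a) ^ 2)) =
        Real.exp (-(Real.pi * ‖k‖ ^ 2 * (a - a0) ^ 2)) := by
      congr 1; ring
    rw [e3]
    calc (2 * Real.pi) ^ (-(3 / 2) : ℝ) * Real.exp (-((a ^ 2 + (q.1 ^ 2 + q.2 ^ 2)) / 2)) *
        Real.exp (-(Real.pi * ‖k‖ ^ 2 * (a - a0) ^ 2))
        ≤ ((2 * Real.pi)⁻¹ * (Real.exp (-(1 / 2 * (q.1 - 0) ^ 2)) *
          Real.exp (-(1 / 2 * (q.2 - 0) ^ 2)))) *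
          Real.exp (-(Real.pi * ‖k‖ ^ 2 * (a - a0) ^ 2)) := by
          gcongr
      _ = _ := by ring
  refine (lintegral_mono fun a => lintegral_mono fun q => hbd a q).trans ?_
  have hq : ∫⁻ q : ℝ × ℝ, ENNReal.ofReal (Real.exp (-(1 / 2 * (q.1 - 0) ^ 2))) *
      ENNReal.ofReal (Real.exp (-(1 / 2 * (q.2 - 0) ^ 2))) =
      ENNReal.ofReal (Real.sqrt (Real.pi / (1 / 2))) *
        ENNReal.ofReal (Real.sqrt (Real.pi / (1 / 2))) := by
    have h := lintegral_prod_mul (μ := (volume : Measure ℝ)) (ν := (volume : Measure ℝ))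
      (f := fun x : ℝ => ENNReal.ofReal (Real.exp (-(1 / 2 * (x - 0) ^ 2))))
      (g := fun x : ℝ => ENNReal.ofReal (Real.exp (-(1 / 2 * (x - 0) ^ 2))))
      (by fun_prop) (by fun_prop)
    rw [lint_gauss (1 / 2) (by norm_num) 0] at h
    exact h
  have mq : Measurable fun q : ℝ × ℝ => ENNReal.ofReal (Real.exp (-(1 / 2 * (q.1 - 0) ^ 2))) *
      ENNReal.ofReal (Real.exp (-(1 / 2 * (q.2 - 0) ^ 2))) := by fun_prop
  have hin : ∀ a : ℝ, ∫⁻ q : ℝ × ℝ, ENNReal.ofReal (Real.exp (-(Real.pi * ‖k‖ ^ 2 * (a - a0) ^ 2))) *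
        (ENNReal.ofReal ((2 * Real.pi)⁻¹) * (ENNReal.ofReal (Real.exp (-(1 / 2 * (q.1 - 0) ^ 2))) *
          ENNReal.ofReal (Real.exp (-(1 / 2 * (q.2 - 0) ^ 2))))) =
      ENNReal.ofReal (Real.exp (-(Real.pi * ‖k‖ ^ 2 * (a - a0) ^ 2))) := by
    intro a
    rw [lintegral_const_mul _ (mq.const_mul _), lintegral_const_mul _ mq, hq,
      ← ENNReal.ofReal_mul (by positivity), ← ENNReal.ofReal_mul (by positivity)]
    have : (2 * Real.pi)⁻¹ * (Real.sqrt (Real.pi / (1 / 2)) * Real.sqrt (Real.pi / (1 / 2))) = 1 := by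
      rw [Real.mul_self_sqrt (by positivity)]
      have := Real.pi_pos
      field_simp
    rw [this, ENNReal.ofReal_one, mul_one]
  simp only [hin]
  rw [lint_gauss (Real.pi * ‖k‖ ^ 2) (by positivity) a0]
  apply ENNReal.ofReal_le_ofReal
  apply le_of_eq
  have h1 : Real.pi / (Real.pi * ‖k‖ ^ 2) = (1 / ‖k‖) ^ 2 := by
    have := Real.pi_pos
    field_simp
  rw [h1, Real.sqrt_sq (by positivity)]

theorem lint_Maxw_lt : ∫⁻ v : V, ENNReal.ofReal (Maxw v) < ⊤ := by
  have h := GaussianFourier.integrable_cexp_neg_mul_sq_norm_add (V := V) (b := ((1 / 2 : ℝ) : ℂ))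
    (by simp) 0 (0 : V)
  have h1 : Integrable Maxw := by
    refine (h.norm.const_mul ((2 * Real.pi) ^ (-(3 / 2) : ℝ))).congr (Eventually.of_forall fun v => ?_)
    simp only [Complex.norm_exp, zero_mul, add_zero]
    unfold Maxw
    congr 2
    rw [← Complex.ofReal_neg, ← Complex.ofReal_pow, ← Complex.ofReal_mul, Complex.ofReal_re]
    ring
  exact h1.lintegral_lt_top

theorem osc_integrable {g : V → ℂ} (hg : Measurable g)
    (hA : ∫⁻ v : V, ‖g v‖ₑ ^ 2 / ENNReal.ofReal (Maxw v) ≠ ⊤) : Integrable g := by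
  refine ⟨hg.aestronglyMeasurable, ?_⟩
  refine lt_of_le_of_lt (lintegral_mono fun v => ?_)
    (lt_of_le_of_lt (lintegral_add_left' (f := fun v => ‖g v‖ₑ ^ 2 / ENNReal.ofReal (Maxw v)) ?_
      (fun v => ENNReal.ofReal (Maxw v))).le (ENNReal.add_lt_top.mpr ⟨lt_top_iff_ne_top.mpr hA,
        lint_Maxw_lt⟩))
  · show ‖g v‖ₑ ≤ ‖g v‖ₑ ^ 2 / ENNReal.ofReal (Maxw v) + ENNReal.ofReal (Maxw v)
    rcases le_total ‖g v‖ₑ (ENNReal.ofReal (Maxw v)) with h | h
    · exact h.trans le_add_self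
    · have hM : ENNReal.ofReal (Maxw v) ≠ 0 := by
        simpa using Maxw_pos v
      have h2 : ‖g v‖ₑ ≤ ‖g v‖ₑ ^ 2 / ENNReal.ofReal (Maxw v) := by
        rw [ENNReal.le_div_iff_mul_le (Or.inl hM) (Or.inl ENNReal.ofReal_ne_top), sq]
        gcongr
      exact h2.trans le_self_add
  · have h1 : Measurable Maxw := measurable_Maxw
    exact Measurable.aemeasurable (by fun_prop)

theorem osc_amgm {g : V → ℂ} (v w : V) :
    2 * (‖g v‖ₑ * ‖g w‖ₑ) ≤ ‖g v‖ₑ ^ 2 / ENNReal.ofReal (Maxw v) * ENNReal.ofReal (Maxw w) +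
      ‖g w‖ₑ ^ 2 / ENNReal.ofReal (Maxw w) * ENNReal.ofReal (Maxw v) := by
  have hp := Maxw_pos v
  have hq := Maxw_pos w
  rw [← ofReal_norm, ← ofReal_norm, ← ENNReal.ofReal_pow (norm_nonneg _),
    ← ENNReal.ofReal_pow (norm_nonneg _), ← ENNReal.ofReal_div_of_pos hp,
    ← ENNReal.ofReal_div_of_pos hq, ← ENNReal.ofReal_mul (by positivity),
    ← ENNReal.ofReal_mul (by positivity), ← ENNReal.ofReal_mul (by positivity),
    ← ENNReal.ofReal_add (by positivity) (by positivity),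
    show (2 : ℝ≥0∞) = ENNReal.ofReal 2 by simp, ← ENNReal.ofReal_mul (by norm_num)]
  apply ENNReal.ofReal_le_ofReal
  set x := ‖g v‖
  set y := ‖g w‖
  have h : 2 * (x * y) * (Maxw v * Maxw w) ≤ x ^ 2 * Maxw w ^ 2 + y ^ 2 * Maxw v ^ 2 := by
    linarith only [sq_nonneg (x * Maxw w - y * Maxw v)]
  have e : x ^ 2 / Maxw v * Maxw w + y ^ 2 / Maxw w * Maxw v =
      (x ^ 2 * Maxw w ^ 2 + y ^ 2 * Maxw v ^ 2) / (Maxw v * Maxw w) := by
    field_simp
  rw [e, le_div_iff₀ (by positivity)]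
  exact h

/-- the double integral estimate -/
theorem osc_double {k : V} (hk : k ≠ 0) {g : V → ℂ} (hg : Measurable g) :
    ∫⁻ p : V × V, ‖g p.1‖ₑ * ‖g p.2‖ₑ *
      ENNReal.ofReal (Real.exp (-(Real.pi * (inner ℝ k p.1 - inner ℝ k p.2) ^ 2)))
      ≤ ENNReal.ofReal (1 / ‖k‖) * ∫⁻ v : V, ‖g v‖ₑ ^ 2 / ENNReal.ofReal (Maxw v) := by
  have hM : Measurable Maxw := measurable_Maxw
  set E : V → V → ℝ≥0∞ := fun v w =>
    ENNReal.ofReal (Real.exp (-(Real.pi * (inner ℝ k v - inner ℝ k w) ^ 2))) with hE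
  have hEs : ∀ v w, E v w = E w v := by
    intro v w
    simp only [hE]
    congr 3
    ring
  have mE : Measurable fun p : V × V => E p.1 p.2 := by
    simp only [hE]
    fun_prop
  set P : V → ℝ≥0∞ := fun v => ‖g v‖ₑ ^ 2 / ENNReal.ofReal (Maxw v) with hP
  have mP : Measurable P := by
    simp only [hP]
    measurability
  have mQ : Measurable fun v => ENNReal.ofReal (Maxw v) := hM.ennreal_ofReal
  have h1 : ∀ p : V × V, 2 * (‖g p.1‖ₑ * ‖g p.2‖ₑ * E p.1 p.2) ≤
      P p.1 * (ENNReal.ofReal (Maxw p.2) * E p.1 p.2) +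
        P p.2 * (ENNReal.ofReal (Maxw p.1) * E p.2 p.1) := by
    intro p
    have := osc_amgm (g := g) p.1 p.2
    calc 2 * (‖g p.1‖ₑ * ‖g p.2‖ₑ * E p.1 p.2) = 2 * (‖g p.1‖ₑ * ‖g p.2‖ₑ) * E p.1 p.2 := by ring
      _ ≤ (P p.1 * ENNReal.ofReal (Maxw p.2) + P p.2 * ENNReal.ofReal (Maxw p.1)) * E p.1 p.2 := by
          gcongr
      _ = _ := by rw [hEs p.2 p.1]; ring
  have mA : Measurable fun p : V × V => P p.1 * (ENNReal.ofReal (Maxw p.2) * E p.1 p.2) :=
    (mP.comp measurable_fst).mul ((mQ.comp measurable_snd).mul mE)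
  have hA : ∫⁻ p : V × V, P p.1 * (ENNReal.ofReal (Maxw p.2) * E p.1 p.2) ≤
      ENNReal.ofReal (1 / ‖k‖) * ∫⁻ v, P v := by
    rw [Measure.volume_eq_prod, lintegral_prod _ mA.aemeasurable, mul_comm,
      ← lintegral_mul_const _ mP]
    apply lintegral_mono
    intro v
    have mEv : Measurable (E v) := by
      simp only [hE]
      fun_prop
    have m1 : Measurable fun w : V => ENNReal.ofReal (Maxw w) * E v w := mQ.mul mEv
    have e1 : ∫⁻ w : V, P v * (ENNReal.ofReal (Maxw w) * E v w) =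
        P v * ∫⁻ w : V, ENNReal.ofReal (Maxw w) * E v w := lintegral_const_mul _ m1
    dsimp only
    rw [e1]
    gcongr
    exact osc_inner hk v
  have hB : ∫⁻ p : V × V, P p.2 * (ENNReal.ofReal (Maxw p.1) * E p.2 p.1) =
      ∫⁻ p : V × V, P p.1 * (ENNReal.ofReal (Maxw p.2) * E p.1 p.2) := by
    have := (Measure.measurePreserving_swap (μ := (volume : Measure V))
      (ν := (volume : Measure V))).lintegral_comp mA
    rw [Measure.volume_eq_prod, ← this]
    rfl
  have h2 : 2 * ∫⁻ p : V × V, ‖g p.1‖ₑ * ‖g p.2‖ₑ * E p.1 p.2 ≤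
      2 * (ENNReal.ofReal (1 / ‖k‖) * ∫⁻ v, P v) := by
    rw [← lintegral_const_mul' _ _ (by simp)]
    refine (lintegral_mono h1).trans ?_
    rw [lintegral_add_left mA, hB, two_mul]
    gcongr
  exact (ENNReal.mul_le_mul_iff_right (by simp) (by simp)).mp h2

/-- oscillatory integral estimate -/
theorem osc_bound {T : ℝ} (hT : 0 ≤ T) {k : V} (hk : k ≠ 0) {g : V → ℂ} (hg : Measurable g) :
    ∫⁻ t in Ioc 0 T, ‖∫ v : V, Complex.exp (((-(2 * Real.pi * (t * inner ℝ k v)) : ℝ) : ℂ)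
        * Complex.I) * g v‖ₑ ^ 2
      ≤ ENNReal.ofReal (Real.exp (Real.pi * T ^ 2) / ‖k‖) *
        ∫⁻ v : V, ‖g v‖ₑ ^ 2 / ENNReal.ofReal (Maxw v) := by
  have hk0 : 0 < ‖k‖ := norm_pos_iff.mpr hk
  by_cases hA : ∫⁻ v : V, ‖g v‖ₑ ^ 2 / ENNReal.ofReal (Maxw v) = ⊤
  · rw [hA, ENNReal.mul_top]
    · exact le_top
    · have : 0 < Real.exp (Real.pi * T ^ 2) / ‖k‖ := by positivity
      simpa using this
  have hgi := osc_integrable hg hA
  set c : ℝ → V → ℂ := fun t v =>
    Complex.exp (((-(2 * Real.pi * (t * inner ℝ k v)) : ℝ) : ℂ) * Complex.I) with hc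
  have hcn : ∀ t v, ‖c t v‖ = 1 := by
    intro t v
    simp only [hc]
    rw [Complex.norm_exp_ofReal_mul_I]
  set I : ℝ → ℂ := fun t => ∫ v, c t v * g v with hI
  set γ : ℝ → ℂ := fun t => Complex.exp (-(Real.pi * t ^ 2)) with hγ
  set G : ℝ × (V × V) → ℂ := fun p =>
    γ p.1 * ((c p.1 p.2.1 * g p.2.1) * (starRingEnd ℂ) (c p.1 p.2.2 * g p.2.2)) with hG
  have mc : Measurable fun p : ℝ × V => c p.1 p.2 := by
    simp only [hc]
    fun_prop
  have mγ : Measurable γ := by
    simp only [hγ]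
    fun_prop
  have mG : Measurable G := by
    have m1 : Measurable fun p : ℝ × (V × V) => c p.1 p.2.1 :=
      (mc.comp (by fun_prop : Measurable fun p : ℝ × (V × V) => (p.1, p.2.1)) :)
    have m2 : Measurable fun p : ℝ × (V × V) => c p.1 p.2.2 :=
      (mc.comp (by fun_prop : Measurable fun p : ℝ × (V × V) => (p.1, p.2.2)) :)
    have m3 : Measurable fun p : ℝ × (V × V) => g p.2.1 := hg.comp (by fun_prop)
    have m4 : Measurable fun p : ℝ × (V × V) => g p.2.2 := hg.comp (by fun_prop)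
    exact (mγ.comp measurable_fst).mul ((m1.mul m3).mul
      (Complex.continuous_conj.measurable.comp (m2.mul m4)))
  have hγi : Integrable (fun t : ℝ => Real.exp (-(Real.pi * t ^ 2))) := by
    have := integrable_exp_neg_mul_sq Real.pi_pos
    simpa [neg_mul] using this
  have hγn : ∀ t : ℝ, γ t = ((Real.exp (-(Real.pi * t ^ 2)) : ℝ) : ℂ) := by
    intro t
    simp only [hγ]
    push_cast
    rfl
  have hGi : Integrable G ((volume : Measure ℝ).prod ((volume : Measure V).prod volume)) := by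
    have h1 : Integrable (fun p : ℝ × (V × V) => Real.exp (-(Real.pi * p.1 ^ 2)) *
        (‖g p.2.1‖ * ‖g p.2.2‖)) ((volume : Measure ℝ).prod ((volume : Measure V).prod volume)) :=
      hγi.mul_prod (hgi.norm.mul_prod hgi.norm)
    refine h1.mono' mG.aestronglyMeasurable (Eventually.of_forall fun p => ?_)
    simp only [hG, norm_mul, RCLike.norm_conj, hcn, one_mul, hγn]
    rw [Complex.norm_real, Real.norm_of_nonneg (Real.exp_pos _).le]
  have hin : ∀ t, ∫ q, G (t, q) ∂((volume : Measure V).prod volume) =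
      ((Real.exp (-(Real.pi * t ^ 2)) * ‖I t‖ ^ 2 : ℝ) : ℂ) := by
    intro t
    simp only [hG]
    rw [integral_const_mul, integral_prod_mul (fun v => c t v * g v)
      (fun v => (starRingEnd ℂ) (c t v * g v)), integral_conj, Complex.mul_conj, hγn]
    push_cast
    congr 1
    rw [Complex.normSq_eq_norm_sq]
    push_cast
    rfl
  have hphi : Integrable fun t => Real.exp (-(Real.pi * t ^ 2)) * ‖I t‖ ^ 2 := by
    have h1 := hGi.integral_prod_left
    simp only [hin] at h1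
    exact h1.re.congr (Eventually.of_forall fun t => by
      simp only [RCLike.re_eq_complex_re, Complex.ofReal_re])
  have hswap : ∫ t, ∫ q, G (t, q) ∂((volume : Measure V).prod volume) =
      ∫ q, (∫ t, G (t, q)) ∂((volume : Measure V).prod volume) :=
    integral_integral_swap (f := fun t q => G (t, q)) hGi
  have ht : ∀ q : V × V, ∫ t, G (t, q) = g q.1 * (starRingEnd ℂ) (g q.2) *
      ((Real.exp (-(Real.pi * (inner ℝ k q.1 - inner ℝ k q.2) ^ 2)) : ℝ) : ℂ) := by
    intro q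
    rw [← osc_gauss_t, ← integral_const_mul]
    apply integral_congr_ae
    filter_upwards with t
    simp only [hG, hγ, hc, map_mul]
    have e : (starRingEnd ℂ) (Complex.exp (((-(2 * Real.pi * (t * inner ℝ k q.2)) : ℝ) : ℂ) *
        Complex.I)) = Complex.exp (-((((-(2 * Real.pi * (t * inner ℝ k q.2)) : ℝ) : ℂ) *
        Complex.I))) := by
      rw [← Complex.exp_conj, map_mul, Complex.conj_ofReal, Complex.conj_I, mul_neg]
    rw [e]
    have e2 : Complex.exp (((-(2 * Real.pi * (t * (inner ℝ k q.1 - inner ℝ k q.2))) : ℝ) : ℂ) *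
        Complex.I) = Complex.exp (((-(2 * Real.pi * (t * inner ℝ k q.1)) : ℝ) : ℂ) *
        Complex.I) * Complex.exp (-((((-(2 * Real.pi * (t * inner ℝ k q.2)) : ℝ) : ℂ) *
        Complex.I))) := by
      rw [← Complex.exp_add]
      congr 1
      push_cast
      ring
    rw [e2]
    ring
  have hmain : ∫⁻ t, ENNReal.ofReal (Real.exp (-(Real.pi * t ^ 2)) * ‖I t‖ ^ 2) ≤
      ENNReal.ofReal (1 / ‖k‖) * ∫⁻ v : V, ‖g v‖ₑ ^ 2 / ENNReal.ofReal (Maxw v) := by
    rw [← ofReal_integral_eq_lintegral_ofReal hphi (Eventually.of_forall fun t => by positivity)]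
    have h1 : ENNReal.ofReal (∫ t, Real.exp (-(Real.pi * t ^ 2)) * ‖I t‖ ^ 2) =
        ‖∫ q, (∫ t, G (t, q)) ∂((volume : Measure V).prod volume)‖ₑ := by
      rw [← hswap]
      simp only [hin]
      rw [integral_complex_ofReal, ← ofReal_norm, Complex.norm_real,
        Real.norm_of_nonneg (integral_nonneg fun t => by positivity)]
    rw [h1]
    refine (enorm_integral_le_lintegral_enorm _).trans ((le_of_eq ?_).trans (osc_double hk hg))
    rw [Measure.volume_eq_prod]
    apply lintegral_congr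
    intro q
    rw [ht q, enorm_mul, enorm_mul]
    congr 1
    · congr 1
      rw [← ofReal_norm, ← ofReal_norm, RCLike.norm_conj]
    · rw [← ofReal_norm, Complex.norm_real, Real.norm_of_nonneg (Real.exp_pos _).le]
  have hlast : ∀ t ∈ Ioc 0 T, ‖I t‖ₑ ^ 2 ≤ ENNReal.ofReal (Real.exp (Real.pi * T ^ 2)) *
      ENNReal.ofReal (Real.exp (-(Real.pi * t ^ 2)) * ‖I t‖ ^ 2) := by
    intro t ht
    rw [← ofReal_norm, ← ENNReal.ofReal_pow (norm_nonneg _),
      ← ENNReal.ofReal_mul (by positivity)]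
    apply ENNReal.ofReal_le_ofReal
    rw [← mul_assoc, ← Real.exp_add]
    have h1 : (1 : ℝ) ≤ Real.exp (Real.pi * T ^ 2 + -(Real.pi * t ^ 2)) := by
      apply Real.one_le_exp
      have : t ^ 2 ≤ T ^ 2 := by
        have := ht.1; have := ht.2
        gcongr
      linarith only [mul_nonneg (sub_nonneg.2 this) (le_of_lt (sub_pos.2 Real.pi_pos))]
    linarith only [mul_nonneg (sub_nonneg.2 h1) (sq_nonneg ‖I t‖)]
  calc ∫⁻ t in Ioc 0 T, ‖I t‖ₑ ^ 2
      ≤ ∫⁻ t in Ioc 0 T, ENNReal.ofReal (Real.exp (Real.pi * T ^ 2)) *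
        ENNReal.ofReal (Real.exp (-(Real.pi * t ^ 2)) * ‖I t‖ ^ 2) :=
        setLIntegral_mono' measurableSet_Ioc hlast
    _ ≤ ∫⁻ t, ENNReal.ofReal (Real.exp (Real.pi * T ^ 2)) *
        ENNReal.ofReal (Real.exp (-(Real.pi * t ^ 2)) * ‖I t‖ ^ 2) :=
        lintegral_mono' Measure.restrict_le_self le_rfl
    _ = ENNReal.ofReal (Real.exp (Real.pi * T ^ 2)) *
        ∫⁻ t, ENNReal.ofReal (Real.exp (-(Real.pi * t ^ 2)) * ‖I t‖ ^ 2) :=
        lintegral_const_mul' _ _ ENNReal.ofReal_ne_top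
    _ ≤ ENNReal.ofReal (Real.exp (Real.pi * T ^ 2)) * (ENNReal.ofReal (1 / ‖k‖) *
        ∫⁻ v : V, ‖g v‖ₑ ^ 2 / ENNReal.ofReal (Maxw v)) := by
        gcongr
    _ = _ := by
        rw [← mul_assoc, ← ENNReal.ofReal_mul (by positivity), mul_one_div]

end Vale.Agent.P140.DL
end
end

section

open MeasureTheory Set Filter
open scoped ENNReal Topology NNReal

noncomputable section

namespace Vale.Agent.P140.DL

/-- velocity average at time `t` of the free transport of `g` -/
def freeAvg (ψ : V → ℝ) (g : T3 → V → ℝ) (t : ℝ) (x : T3) : ℝ :=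
  ∫ v : V, g (x - toTorus (t • v)) v * ψ v

/-- frequency as a vector -/
def kvec (k : Fin 3 → ℤ) : V := WithLp.toLp 2 fun i => (k i : ℝ)

/-- modulus of continuity of translations -/
def modT (z : T3) : ℝ≥0∞ := ⨆ k : {k : Fin 3 → ℤ // k ≠ 0},
  ‖UnitAddTorus.mFourier k.1 z - 1‖ₑ ^ 2 / ENNReal.ofReal ‖kvec k.1‖

theorem kvec_ne_zero {k : Fin 3 → ℤ} (hk : k ≠ 0) : kvec k ≠ 0 := by
  intro h
  apply hk
  funext i
  have h1 := congrArg (fun w : V => w i) h
  simpa [kvec] using h1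

theorem abs_le_norm_kvec (k : Fin 3 → ℤ) (i : Fin 3) : |(k i : ℝ)| ≤ ‖kvec k‖ := by
  have := PiLp.norm_apply_le (kvec k) i
  simpa [kvec] using this

theorem enorm_mFourier_sub_one_sq_le (k : Fin 3 → ℤ) (z : T3) :
    ‖UnitAddTorus.mFourier k z - 1‖ₑ ^ 2 ≤ 4 := by
  have h1 : ‖UnitAddTorus.mFourier k z - 1‖ ≤ 2 := by
    calc ‖UnitAddTorus.mFourier k z - 1‖ ≤ ‖UnitAddTorus.mFourier k z‖ + ‖(1 : ℂ)‖ := norm_sub_le _ _
      _ ≤ 1 + 1 := by
          apply add_le_add
          · exact (ContinuousMap.norm_coe_le_norm _ z).trans UnitAddTorus.mFourier_norm.le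
          · simp
      _ = 2 := by norm_num
  have h2 : ‖UnitAddTorus.mFourier k z - 1‖ₑ ≤ 2 := by
    rw [← ofReal_norm]
    calc ENNReal.ofReal ‖UnitAddTorus.mFourier k z - 1‖ ≤ ENNReal.ofReal 2 :=
          ENNReal.ofReal_le_ofReal h1
      _ = 2 := by simp
  calc ‖UnitAddTorus.mFourier k z - 1‖ₑ ^ 2 ≤ 2 ^ 2 := by gcongr
    _ = 4 := by norm_num

theorem finite_kvec_lt (N : ℝ) : {k : Fin 3 → ℤ | ‖kvec k‖ < N}.Finite := by
  apply Set.Finite.subset (s := Set.pi univ fun _ : Fin 3 => Icc (-⌈N⌉) ⌈N⌉)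
  · exact Set.Finite.pi fun _ => Set.finite_Icc _ _
  · intro k hk i _
    have h1 := (abs_le_norm_kvec k i).trans (le_of_lt hk)
    have h2 := abs_le.mp (h1.trans (Int.le_ceil N))
    constructor
    · exact_mod_cast h2.1
    · exact_mod_cast h2.2

theorem modT_tendsto : Tendsto modT (𝓝 0) (𝓝 0) := by
  rw [ENNReal.tendsto_nhds_zero]
  intro ε hε
  obtain ⟨N, hN⟩ : ∃ N : ℕ, 4 / (N : ℝ≥0∞) < ε ∧ 0 < N := by
    have h1 : Tendsto (fun n : ℕ => 4 / ((n : ℝ≥0∞))) atTop (𝓝 0) :=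
      ENNReal.Tendsto.const_div ENNReal.tendsto_nat_nhds_top (Or.inr (by norm_num)) |>.trans
        (by simp)
    have h2 := (h1.eventually (gt_mem_nhds hε)).and (eventually_gt_atTop 0)
    exact h2.exists
  have hfin := finite_kvec_lt N
  have h3 : ∀ k ∈ {k : Fin 3 → ℤ | ‖kvec k‖ < N}, ∀ᶠ z : T3 in 𝓝 0, k ≠ 0 →
      ‖UnitAddTorus.mFourier k z - 1‖ₑ ^ 2 / ENNReal.ofReal ‖kvec k‖ ≤ ε := by
    intro k _
    by_cases hk : k = 0
    · exact Eventually.of_forall fun z h => absurd hk h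
    have hpos : 0 < ‖kvec k‖ := norm_pos_iff.mpr (kvec_ne_zero hk)
    have h4 : Tendsto (fun z : T3 => ‖UnitAddTorus.mFourier k z - 1‖ₑ ^ 2
        / ENNReal.ofReal ‖kvec k‖) (𝓝 0) (𝓝 (‖UnitAddTorus.mFourier k (0 : T3) - 1‖ₑ ^ 2
        / ENNReal.ofReal ‖kvec k‖)) := by
      have h5 : Tendsto (fun z : T3 => ‖UnitAddTorus.mFourier k z - 1‖ₑ ^ 2) (𝓝 0)
          (𝓝 (‖UnitAddTorus.mFourier k (0 : T3) - 1‖ₑ ^ 2)) := by
        apply Continuous.tendsto
        fun_prop
      apply ENNReal.Tendsto.div_const h5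
      right
      simpa using hpos
    have h6 : UnitAddTorus.mFourier k (0 : T3) = 1 := by
      have := mFourier_toTorus k 0
      rw [toTorus_zero] at this
      rw [this]
      simp
    rw [h6] at h4
    simp only [sub_self, enorm_zero, ne_eq, OfNat.ofNat_ne_zero, not_false_eq_true, zero_pow,
      ENNReal.zero_div] at h4
    filter_upwards [h4.eventually (gt_mem_nhds hε)] with z hz _
    exact hz.le
  filter_upwards [(hfin.eventually_all).mpr h3] with z hz
  apply iSup_le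
  rintro ⟨k, hk⟩
  by_cases hkN : ‖kvec k‖ < N
  · exact hz k hkN hk
  · push Not at hkN
    calc ‖UnitAddTorus.mFourier k z - 1‖ₑ ^ 2 / ENNReal.ofReal ‖kvec k‖
        ≤ 4 / ENNReal.ofReal N := by
          gcongr
          exact enorm_mFourier_sub_one_sq_le k z
      _ = 4 / (N : ℝ≥0∞) := by rw [ENNReal.ofReal_natCast]
      _ ≤ ε := hN.1.le

theorem measurable_freeAvg {ψ : V → ℝ} (mψ : Measurable ψ) {u : ℝ → T3 → V → ℝ}
    (mu : Measurable fun q : ℝ × T3 × V => u q.1 q.2.1 q.2.2) :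
    Measurable fun z : ℝ × T3 => freeAvg ψ (u z.1) z.1 z.2 := by
  unfold freeAvg
  have h1 : Measurable fun q : (ℝ × T3) × V =>
      u q.1.1 (q.1.2 - toTorus (q.1.1 • q.2)) q.2 * ψ q.2 := by
    apply Measurable.mul _ (mψ.comp measurable_snd)
    have h2 : Measurable fun q : (ℝ × T3) × V =>
        ((q.1.1, (q.1.2 - toTorus (q.1.1 • q.2)), q.2) : ℝ × T3 × V) := by
      apply Measurable.prodMk (by fun_prop)
      apply Measurable.prodMk _ measurable_snd
      apply Measurable.sub (by fun_prop)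
      exact measurable_toTorus.comp (by fun_prop)
    exact mu.comp h2
  exact (h1.stronglyMeasurable.integral_prod_right' (f := fun q : (ℝ × T3) × V =>
      u q.1.1 (q.1.2 - toTorus (q.1.1 • q.2)) q.2 * ψ q.2)).measurable


theorem volume_T3_eq : (volume : Measure T3)
    = Measure.pi fun _ : Fin 3 => AddCircle.haarAddCircle (T := (1 : ℝ)) := by
  have h : (volume : Measure UnitAddCircle) = AddCircle.haarAddCircle := by
    rw [AddCircle.volume_eq_smul_haarAddCircle]
    simp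
  change Measure.pi (fun _ : Fin 3 => (volume : Measure UnitAddCircle)) = _
  rw [h]

theorem parseval_lp (f : Lp ℂ 2 (Measure.pi fun _ : Fin 3 => AddCircle.haarAddCircle (T := (1 : ℝ)))) :
    HasSum (fun k : Fin 3 → ℤ => ‖∫ x, UnitAddTorus.mFourier (-k) x * f x
        ∂(Measure.pi fun _ : Fin 3 => AddCircle.haarAddCircle (T := (1 : ℝ)))‖ ^ 2)
      (∫ x, ‖f x‖ ^ 2 ∂(Measure.pi fun _ : Fin 3 => AddCircle.haarAddCircle (T := (1 : ℝ)))) :=
  UnitAddTorus.hasSum_sq_mFourierCoeff f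

theorem parseval_pi {f : T3 → ℂ}
    (hf : MemLp f 2 (Measure.pi fun _ : Fin 3 => AddCircle.haarAddCircle (T := (1 : ℝ)))) :
    HasSum (fun k : Fin 3 → ℤ => ‖∫ x, UnitAddTorus.mFourier (-k) x * f x
        ∂(Measure.pi fun _ : Fin 3 => AddCircle.haarAddCircle (T := (1 : ℝ)))‖ ^ 2)
      (∫ x, ‖f x‖ ^ 2 ∂(Measure.pi fun _ : Fin 3 => AddCircle.haarAddCircle (T := (1 : ℝ)))) := by
  have h1 := parseval_lp (hf.toLp f)
  have h2 : ∀ k : Fin 3 → ℤ, ∫ x, UnitAddTorus.mFourier (-k) x * hf.toLp f x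
        ∂(Measure.pi fun _ : Fin 3 => AddCircle.haarAddCircle (T := (1 : ℝ)))
      = ∫ x, UnitAddTorus.mFourier (-k) x * f x
        ∂(Measure.pi fun _ : Fin 3 => AddCircle.haarAddCircle (T := (1 : ℝ))) := by
    intro k
    apply integral_congr_ae
    filter_upwards [hf.coeFn_toLp] with x hx
    rw [hx]
  have h3 : ∫ x, ‖hf.toLp f x‖ ^ 2
        ∂(Measure.pi fun _ : Fin 3 => AddCircle.haarAddCircle (T := (1 : ℝ)))
      = ∫ x, ‖f x‖ ^ 2
        ∂(Measure.pi fun _ : Fin 3 => AddCircle.haarAddCircle (T := (1 : ℝ))) := by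
    apply integral_congr_ae
    filter_upwards [hf.coeFn_toLp] with x hx
    rw [hx]
  rw [h3] at h1
  simp_rw [h2] at h1
  exact h1

theorem parseval_memLp {f : T3 → ℂ} (hf : MemLp f 2) :
    ∑' k : Fin 3 → ℤ, ‖∫ x, UnitAddTorus.mFourier (-k) x * f x‖ₑ ^ 2 = ∫⁻ x, ‖f x‖ₑ ^ 2 := by
  have h0 := hf
  rw [volume_T3_eq] at h0
  have h1 := parseval_pi h0
  rw [← volume_T3_eq] at h1
  have h4 : ∫⁻ x, ‖f x‖ₑ ^ 2 = ENNReal.ofReal (∫ x, ‖f x‖ ^ 2) := by
    rw [ofReal_integral_eq_lintegral_ofReal (hf.integrable_norm_pow (by norm_num))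
      (Eventually.of_forall fun x => by positivity)]
    congr 1
    ext x
    rw [ENNReal.ofReal_pow (norm_nonneg _), ofReal_norm]
  rw [h4, ← h1.tsum_eq, ENNReal.ofReal_tsum_of_nonneg (fun k => by positivity) h1.summable]
  congr 1
  ext k
  rw [ENNReal.ofReal_pow (norm_nonneg _), ofReal_norm]

theorem bessel_T3 {f : T3 → ℂ} (hf : Measurable f) :
    ∑' k : Fin 3 → ℤ, ‖∫ x, UnitAddTorus.mFourier (-k) x * f x‖ₑ ^ 2 ≤ ∫⁻ x, ‖f x‖ₑ ^ 2 := by
  by_cases h : ∫⁻ x, ‖f x‖ₑ ^ 2 = ⊤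
  · rw [h]
    exact le_top
  · apply le_of_eq
    apply parseval_memLp
    refine ⟨hf.aestronglyMeasurable, ?_⟩
    rw [eLpNorm_lt_top_iff_lintegral_rpow_enorm_lt_top (by norm_num) (by norm_num)]
    simpa using lt_top_iff_ne_top.mpr h

theorem memLp_two_of_lintegral {f : T3 → ℂ} (hf : Measurable f) (h : ∫⁻ x, ‖f x‖ₑ ^ 2 ≠ ⊤) :
    MemLp f 2 := by
  refine ⟨hf.aestronglyMeasurable, ?_⟩
  rw [eLpNorm_lt_top_iff_lintegral_rpow_enorm_lt_top (by norm_num) (by norm_num)]
  simpa using lt_top_iff_ne_top.mpr h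

theorem lintegral_Maxw_V_ne_top : ∫⁻ v : V, ENNReal.ofReal (Maxw v) ≠ ⊤ := by
  have h := GaussianFourier.integrable_cexp_neg_mul_sq_norm_add (V := V) (b := ((1 / 2 : ℝ) : ℂ))
    (by simp) 0 (0 : V)
  have h2 := h.2
  unfold HasFiniteIntegral at h2
  unfold Maxw
  simp_rw [ENNReal.ofReal_mul (by positivity : (0:ℝ) ≤ (2 * Real.pi) ^ (-(3 / 2) : ℝ))]
  rw [lintegral_const_mul _ (by fun_prop)]
  apply ENNReal.mul_ne_top ENNReal.ofReal_ne_top
  refine ne_of_lt (lt_of_le_of_lt (lintegral_mono fun v => ?_) h2)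
  rw [← ofReal_norm, Complex.norm_exp]
  apply ENNReal.ofReal_le_ofReal
  apply le_of_eq
  congr 1
  simp only [zero_mul, add_zero, neg_mul, Complex.neg_re]
  rw [← Complex.ofReal_pow, ← Complex.ofReal_mul, Complex.ofReal_re]
  ring

theorem cs_Maxw {a : V → ℝ} (ma : Measurable a) :
    (∫⁻ v, ENNReal.ofReal |a v|) ^ 2
      ≤ (∫⁻ v, ENNReal.ofReal (a v ^ 2) / ENNReal.ofReal (Maxw v))
        * ∫⁻ v, ENNReal.ofReal (Maxw v) := by
  have mM := measurable_Maxw
  have hs : ∀ v, 0 < √(Maxw v) := fun v => Real.sqrt_pos.mpr (Maxw_pos v)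
  have h1 := ENNReal.lintegral_mul_le_Lp_mul_Lq (volume : Measure V) Real.HolderConjugate.two_two
    (f := fun v => ENNReal.ofReal (|a v| / √(Maxw v))) (g := fun v => ENNReal.ofReal √(Maxw v))
    (by exact Measurable.aemeasurable (by fun_prop)) (by exact Measurable.aemeasurable (by fun_prop))
  have h2 : ∀ v, ((fun v => ENNReal.ofReal (|a v| / √(Maxw v))) * fun v => ENNReal.ofReal √(Maxw v)) v
      = ENNReal.ofReal |a v| := by
    intro v
    simp only [Pi.mul_apply]
    rw [← ENNReal.ofReal_mul (by positivity), div_mul_cancel₀ _ (hs v).ne']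
  simp_rw [h2] at h1
  have h3 : ∀ v, ENNReal.ofReal (|a v| / √(Maxw v)) ^ (2 : ℝ)
      = ENNReal.ofReal (a v ^ 2) / ENNReal.ofReal (Maxw v) := by
    intro v
    rw [← ENNReal.ofReal_div_of_pos (Maxw_pos v), ENNReal.rpow_two, ← ENNReal.ofReal_pow (by positivity),
      div_pow, sq_abs, Real.sq_sqrt (Maxw_pos v).le]
  have h4 : ∀ v, ENNReal.ofReal √(Maxw v) ^ (2 : ℝ) = ENNReal.ofReal (Maxw v) := by
    intro v
    rw [ENNReal.rpow_two, ← ENNReal.ofReal_pow (by positivity), Real.sq_sqrt (Maxw_pos v).le]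
  simp_rw [h3, h4] at h1
  calc (∫⁻ v, ENNReal.ofReal |a v|) ^ 2 ≤ ((∫⁻ v, ENNReal.ofReal (a v ^ 2) / ENNReal.ofReal (Maxw v)) ^ (1 / 2 : ℝ)
        * (∫⁻ v, ENNReal.ofReal (Maxw v)) ^ (1 / 2 : ℝ)) ^ 2 := by gcongr
    _ = _ := by
        rw [mul_pow, ← ENNReal.rpow_two, ← ENNReal.rpow_two, ← ENNReal.rpow_mul,
          ← ENNReal.rpow_mul]
        norm_num

theorem mFourier_add_pt (n : Fin 3 → ℤ) (x y : T3) :
    UnitAddTorus.mFourier n (x + y) = UnitAddTorus.mFourier n x * UnitAddTorus.mFourier n y := by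
  obtain ⟨a, rfl⟩ := surjective_toTorus x
  obtain ⟨b, rfl⟩ := surjective_toTorus y
  rw [← toTorus_add, mFourier_toTorus, mFourier_toTorus, mFourier_toTorus, ← Complex.exp_add]
  congr 1
  rw [← mul_add, ← Finset.sum_add_distrib]
  congr 1
  apply Finset.sum_congr rfl
  intro i _
  simp only [PiLp.add_apply]
  push_cast
  ring

theorem mFourier_neg_neg (n : Fin 3 → ℤ) (z : T3) :
    UnitAddTorus.mFourier (-n) (-z) = UnitAddTorus.mFourier n z := by
  obtain ⟨a, rfl⟩ := surjective_toTorus z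
  rw [← toTorus_neg, mFourier_toTorus, mFourier_toTorus]
  congr 2
  apply Finset.sum_congr rfl
  intro i _
  simp only [PiLp.neg_apply, Pi.neg_apply]
  push_cast
  ring

theorem norm_mFourier_pt_le (n : Fin 3 → ℤ) (z : T3) : ‖UnitAddTorus.mFourier n z‖ ≤ 1 :=
  (ContinuousMap.norm_coe_le_norm _ z).trans UnitAddTorus.mFourier_norm.le

theorem mFourier_neg_toTorus (k : Fin 3 → ℤ) (t : ℝ) (v : V) :
    UnitAddTorus.mFourier (-k) (toTorus (t • v))
      = Complex.exp (((-(2 * Real.pi * (t * inner ℝ (kvec k) v)) : ℝ) : ℂ) * Complex.I) := by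
  rw [mFourier_toTorus]
  congr 1
  have h : inner ℝ (kvec k) v = ∑ j, (k j : ℝ) * v j := by
    rw [PiLp.inner_apply]
    apply Finset.sum_congr rfl
    intro j _
    simp [kvec, mul_comm]
  rw [h]
  push_cast
  rw [Finset.mul_sum, Finset.mul_sum, Finset.mul_sum, ← Finset.sum_neg_distrib, Finset.sum_mul]
  apply Finset.sum_congr rfl
  intro j _
  simp only [PiLp.smul_apply, smul_eq_mul, Pi.neg_apply]
  push_cast
  ring

theorem coeff_diff {f : T3 → ℝ} (hf : Integrable f) (k : Fin 3 → ℤ) (z : T3) :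
    ∫ x, UnitAddTorus.mFourier (-k) x * ((f (x + z) - f x : ℝ) : ℂ)
      = (UnitAddTorus.mFourier k z - 1) * ∫ x, UnitAddTorus.mFourier (-k) x * (f x : ℂ) := by
  have hi : ∀ {h : T3 → ℝ}, Integrable h →
      Integrable fun x => UnitAddTorus.mFourier (-k) x * (h x : ℂ) := by
    intro h hh
    exact hh.ofReal.bdd_mul (c := 1) (by exact Continuous.aestronglyMeasurable (by fun_prop)) (Eventually.of_forall fun x => norm_mFourier_pt_le _ x)
  have hz : Integrable fun x => f (x + z) := hf.comp_add_right z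
  have h1 : ∫ x, UnitAddTorus.mFourier (-k) x * (f (x + z) : ℂ)
      = UnitAddTorus.mFourier k z * ∫ x, UnitAddTorus.mFourier (-k) x * (f x : ℂ) := by
    rw [← integral_const_mul, ← integral_add_right_eq_self (μ := (volume : Measure T3)) (fun x =>
      UnitAddTorus.mFourier k z * (UnitAddTorus.mFourier (-k) x * (f x : ℂ))) z]
    congr 1
    ext x
    rw [mFourier_add_pt (-k) x z, ← mul_assoc, ← mul_assoc]
    congr 1
    have h2 : UnitAddTorus.mFourier (-k) z * UnitAddTorus.mFourier k z = 1 := by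
      rw [← mFourier_neg_neg k z, ← mFourier_add_pt, add_neg_cancel]
      have := mFourier_toTorus (-k) 0
      rw [toTorus_zero] at this
      rw [this]
      simp
    linear_combination (-UnitAddTorus.mFourier (-k) x) * h2
  have h3 : ∀ x, UnitAddTorus.mFourier (-k) x * ((f (x + z) - f x : ℝ) : ℂ)
      = UnitAddTorus.mFourier (-k) x * (f (x + z) : ℂ) - UnitAddTorus.mFourier (-k) x * (f x : ℂ) := by
    intro x
    push_cast
    ring
  simp_rw [h3]
  rw [integral_sub (hi hz) (hi hf), h1]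
  ring

theorem sub_eq_flow (t : ℝ) (x : T3) (v : V) : (x - toTorus (t • v), v) = flow (-t) (x, v) := by
  unfold flow
  rw [neg_smul, toTorus_neg, sub_eq_add_neg]

theorem integrable_of_weighted {g : T3 → V → ℝ} (mg : Measurable fun p : T3 × V => g p.1 p.2)
    (hg : ∫⁻ p : T3 × V, ENNReal.ofReal (g p.1 p.2 ^ 2) / ENNReal.ofReal (Maxw p.2) < ⊤) :
    Integrable fun p : T3 × V => g p.1 p.2 := by
  refine ⟨mg.aestronglyMeasurable, ?_⟩
  unfold HasFiniteIntegral
  have mM := measurable_Maxw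
  have h2 : ∫⁻ p : T3 × V, ENNReal.ofReal (Maxw p.2) ≠ ⊤ := by
    rw [Measure.volume_eq_prod, lintegral_prod _ (by fun_prop)]
    simp only [lintegral_const]
    exact ENNReal.mul_ne_top lintegral_Maxw_V_ne_top (measure_ne_top _ _)
  refine lt_of_le_of_lt (b := ∫⁻ p : T3 × V, (ENNReal.ofReal (g p.1 p.2 ^ 2) / ENNReal.ofReal (Maxw p.2)
    + ENNReal.ofReal (Maxw p.2))) (lintegral_mono fun p => ?_) ?_
  · rw [Real.enorm_eq_ofReal_abs, ← ENNReal.ofReal_div_of_pos (Maxw_pos _),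
      ← ENNReal.ofReal_add (div_nonneg (sq_nonneg _) (Maxw_pos _).le) (Maxw_pos _).le]
    apply ENNReal.ofReal_le_ofReal
    have hM := Maxw_pos p.2
    rw [← sq_abs, ← sub_nonneg]
    have h3 : |g p.1 p.2| ^ 2 / Maxw p.2 + Maxw p.2 - |g p.1 p.2|
        = ((|g p.1 p.2| - Maxw p.2) ^ 2 + |g p.1 p.2| * Maxw p.2) / Maxw p.2 := by
      field_simp
      ring
    rw [h3]
    (clear * - hM; positivity)
  · rw [lintegral_add_right _ (by fun_prop)]
    exact ENNReal.add_lt_top.mpr ⟨hg, lt_top_iff_ne_top.mpr h2⟩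


theorem enorm_cast_complex (r : ℝ) : ‖(r : ℂ)‖ₑ = ENNReal.ofReal |r| := by
  rw [← ofReal_norm, Complex.norm_real, Real.norm_eq_abs]

section main

variable {ψ : V → ℝ} {g : T3 → V → ℝ}

theorem measurable_shift (mψ : Measurable ψ) (mg : Measurable fun p : T3 × V => g p.1 p.2)
    (t : ℝ) : Measurable fun p : T3 × V => g (p.1 - toTorus (t • p.2)) p.2 * ψ p.2 := by
  apply Measurable.mul _ (mψ.comp measurable_snd)
  have h2 : Measurable fun p : T3 × V => ((p.1 - toTorus (t • p.2), p.2) : T3 × V) := by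
    apply Measurable.prodMk _ measurable_snd
    apply Measurable.sub measurable_fst
    exact measurable_toTorus.comp (by fun_prop)
  exact mg.comp h2

theorem integrable_shift (mψ : Measurable ψ) (bψ : ∀ v, |ψ v| ≤ 1)
    (hi : Integrable fun p : T3 × V => g p.1 p.2) (t : ℝ) :
    Integrable fun p : T3 × V => g (p.1 - toTorus (t • p.2)) p.2 * ψ p.2 := by
  have h1 : Integrable fun p : T3 × V => g (flow (-t) p).1 (flow (-t) p).2 :=
    (measurePreserving_flow (-t)).integrable_comp_of_integrable hi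
  have h2 : Integrable fun p : T3 × V => g (p.1 - toTorus (t • p.2)) p.2 := by
    refine h1.congr (Eventually.of_forall fun p => ?_)
    have := sub_eq_flow t p.1 p.2
    simp only
    rw [show flow (-t) p = (p.1 - toTorus (t • p.2), p.2) from this.symm]
  exact h2.mul_bdd (c := 1) (mψ.comp measurable_snd).aestronglyMeasurable
    (Eventually.of_forall fun p => by simpa using bψ p.2)

theorem coeff_freeAvg (mψ : Measurable ψ) (bψ : ∀ v, |ψ v| ≤ 1)
    (hi : Integrable fun p : T3 × V => g p.1 p.2) (t : ℝ) (k : Fin 3 → ℤ) :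
    ∫ x, UnitAddTorus.mFourier (-k) x * (freeAvg ψ g t x : ℂ)
      = ∫ v : V, Complex.exp (((-(2 * Real.pi * (t * inner ℝ (kvec k) v)) : ℝ) : ℂ) * Complex.I)
        * ((ψ v : ℂ) * ∫ y, UnitAddTorus.mFourier (-k) y * (g y v : ℂ)) := by
  have h0 := integrable_shift mψ bψ hi t
  have h1 : ∀ x, UnitAddTorus.mFourier (-k) x * (freeAvg ψ g t x : ℂ)
      = ∫ v : V, UnitAddTorus.mFourier (-k) x * ((g (x - toTorus (t • v)) v * ψ v : ℝ) : ℂ) := by
    intro x
    unfold freeAvg
    rw [integral_const_mul, integral_complex_ofReal]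
  simp_rw [h1]
  have hint : Integrable (fun p : T3 × V => UnitAddTorus.mFourier (-k) p.1
      * ((g (p.1 - toTorus (t • p.2)) p.2 * ψ p.2 : ℝ) : ℂ)) := by
    exact h0.ofReal.bdd_mul (c := 1) (by exact Continuous.aestronglyMeasurable (by fun_prop))
      (Eventually.of_forall fun p => norm_mFourier_pt_le _ p.1)
  rw [Measure.volume_eq_prod] at hint
  rw [integral_integral_swap (f := fun (x : T3) (v : V) => UnitAddTorus.mFourier (-k) x
      * ((g (x - toTorus (t • v)) v * ψ v : ℝ) : ℂ)) hint]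
  congr 1
  ext v
  rw [← integral_add_right_eq_self (μ := (volume : Measure T3)) _ (toTorus (t • v))]
  simp only [add_sub_cancel_right]
  rw [← integral_const_mul, ← integral_const_mul]
  congr 1
  ext y
  rw [mFourier_add_pt, mFourier_neg_toTorus]
  push_cast
  ring

theorem lintegral_freeAvg_sq_ne_top (mψ : Measurable ψ) (bψ : ∀ v, |ψ v| ≤ 1)
    (mg : Measurable fun p : T3 × V => g p.1 p.2)
    (hg : ∫⁻ p : T3 × V, ENNReal.ofReal (g p.1 p.2 ^ 2) / ENNReal.ofReal (Maxw p.2) < ⊤) (t : ℝ) :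
    ∫⁻ x, ‖(freeAvg ψ g t x : ℂ)‖ₑ ^ 2 ≠ ⊤ := by
  have mM := measurable_Maxw
  have ms := measurable_shift mψ mg t
  have h1 : ∀ x, ‖(freeAvg ψ g t x : ℂ)‖ₑ ^ 2
      ≤ (∫⁻ v, ENNReal.ofReal (g (x - toTorus (t • v)) v ^ 2) / ENNReal.ofReal (Maxw v))
        * ∫⁻ v, ENNReal.ofReal (Maxw v) := by
    intro x
    have mx : Measurable fun v => g (x - toTorus (t • v)) v * ψ v := (ms.comp measurable_prodMk_left :)
    refine le_trans ?_ (le_trans (cs_Maxw mx) ?_)
    · gcongr
      unfold freeAvg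
      rw [enorm_cast_complex, ← Real.enorm_eq_ofReal_abs]
      refine (enorm_integral_le_lintegral_enorm _).trans (le_of_eq ?_)
      congr 1
      ext v
      rw [Real.enorm_eq_ofReal_abs]
    · refine mul_le_mul_left (lintegral_mono fun v => ?_) _
      refine ENNReal.div_le_div_right (ENNReal.ofReal_le_ofReal ?_) _
      rw [mul_pow]
      refine mul_le_of_le_one_right (sq_nonneg _) ?_
      rw [← sq_abs]
      exact pow_le_one₀ (abs_nonneg _) (bψ v)
  have mq : Measurable fun p : T3 × V => ENNReal.ofReal (g p.1 p.2 ^ 2)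
      / ENNReal.ofReal (Maxw p.2) := by fun_prop
  have mq2 : Measurable fun p : T3 × V => ENNReal.ofReal (g (p.1 - toTorus (t • p.2)) p.2 ^ 2)
      / ENNReal.ofReal (Maxw p.2) := by
    have h2 : Measurable fun p : T3 × V => ((p.1 - toTorus (t • p.2), p.2) : T3 × V) := by
      apply Measurable.prodMk _ measurable_snd
      apply Measurable.sub measurable_fst
      exact measurable_toTorus.comp (by fun_prop)
    have h2' : Measurable fun p : T3 × V => g (p.1 - toTorus (t • p.2)) p.2 := mg.comp h2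
    exact (h2'.pow_const 2).ennreal_ofReal.div (mM.comp measurable_snd).ennreal_ofReal
  have mq3 : Measurable fun x : T3 => ∫⁻ v, ENNReal.ofReal (g (x - toTorus (t • v)) v ^ 2)
      / ENNReal.ofReal (Maxw v) :=
    Measurable.lintegral_prod_right' (f := fun p : T3 × V =>
      ENNReal.ofReal (g (p.1 - toTorus (t • p.2)) p.2 ^ 2) / ENNReal.ofReal (Maxw p.2)) mq2
  have h5 : ∫⁻ p : T3 × V, ENNReal.ofReal (g (p.1 - toTorus (t • p.2)) p.2 ^ 2)
      / ENNReal.ofReal (Maxw p.2)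
      = ∫⁻ x : T3, ∫⁻ v, ENNReal.ofReal (g (x - toTorus (t • v)) v ^ 2)
        / ENNReal.ofReal (Maxw v) := by
    rw [Measure.volume_eq_prod, lintegral_prod (fun p : T3 × V =>
      ENNReal.ofReal (g (p.1 - toTorus (t • p.2)) p.2 ^ 2) / ENNReal.ofReal (Maxw p.2))
      mq2.aemeasurable]
  refine ne_of_lt (lt_of_le_of_lt (lintegral_mono h1) ?_)
  rw [lintegral_mul_const _ mq3, ← h5]
  apply ENNReal.mul_lt_top _ (lt_top_iff_ne_top.mpr lintegral_Maxw_V_ne_top)
  have h3 : ∫⁻ p, ENNReal.ofReal (g (flow (-t) p).1 (flow (-t) p).2 ^ 2)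
      / ENNReal.ofReal (Maxw (flow (-t) p).2) = _ := lintegral_flow (-t) mq
  have h4 : ∀ p : T3 × V, ENNReal.ofReal (g (flow (-t) p).1 (flow (-t) p).2 ^ 2)
      / ENNReal.ofReal (Maxw (flow (-t) p).2)
      = ENNReal.ofReal (g (p.1 - toTorus (t • p.2)) p.2 ^ 2) / ENNReal.ofReal (Maxw p.2) := by
    intro p
    rw [show flow (-t) p = (p.1 - toTorus (t • p.2), p.2) from (sub_eq_flow t p.1 p.2).symm]
  simp only [h4] at h3
  rw [h3]
  exact hg

/-- translation estimate in `L²` for averages of free transport -/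
theorem freeAvg_transl {T : ℝ} (hT : 0 ≤ T) {ψ : V → ℝ} (mψ : Measurable ψ)
    (bψ : ∀ v, |ψ v| ≤ 1) {g : T3 → V → ℝ} (mg : Measurable fun p : T3 × V => g p.1 p.2)
    (hg : ∫⁻ p : T3 × V, ENNReal.ofReal (g p.1 p.2 ^ 2) / ENNReal.ofReal (Maxw p.2) < ⊤)
    (z : T3) :
    ∫⁻ t in Ioc 0 T, ∫⁻ x : T3,
        ENNReal.ofReal (|freeAvg ψ g t (x + z) - freeAvg ψ g t x| ^ 2)
      ≤ modT z * ENNReal.ofReal (Real.exp (Real.pi * T ^ 2)) *
        ∫⁻ p : T3 × V, ENNReal.ofReal (g p.1 p.2 ^ 2) / ENNReal.ofReal (Maxw p.2) := by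
  have mM := measurable_Maxw
  have hi := integrable_of_weighted mg hg
  -- measurability of averages
  have mF : Measurable fun z : ℝ × T3 => freeAvg ψ g z.1 z.2 :=
    measurable_freeAvg mψ (u := fun _ => g) (mg.comp measurable_snd)
  have mFt : ∀ t, Measurable fun x : T3 => freeAvg ψ g t x := fun t =>
    (mF.comp measurable_prodMk_left :)
  -- Fourier coefficients of the data
  let gh : (Fin 3 → ℤ) → V → ℂ := fun k v => ∫ y, UnitAddTorus.mFourier (-k) y * (g y v : ℂ)
  have mgh : ∀ k, Measurable (gh k) := by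
    intro k
    have h1 : Measurable fun q : V × T3 => UnitAddTorus.mFourier (-k) q.2 * (g q.2 q.1 : ℂ) := by
      apply Measurable.mul
      · exact (UnitAddTorus.mFourier (-k)).continuous.measurable.comp measurable_snd
      · exact Complex.measurable_ofReal.comp (mg.comp measurable_swap)
    exact (h1.stronglyMeasurable.integral_prod_right' (f := fun q : V × T3 =>
      UnitAddTorus.mFourier (-k) q.2 * (g q.2 q.1 : ℂ))).measurable
  let I : (Fin 3 → ℤ) → ℝ → ℂ := fun k t =>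
    ∫ v : V, Complex.exp (((-(2 * Real.pi * (t * inner ℝ (kvec k) v)) : ℝ) : ℂ) * Complex.I)
        * ((ψ v : ℂ) * gh k v)
  have mI : ∀ k, Measurable (I k) := by
    intro k
    have h1 : Measurable fun q : ℝ × V =>
        Complex.exp (((-(2 * Real.pi * (q.1 * inner ℝ (kvec k) q.2)) : ℝ) : ℂ) * Complex.I)
        * ((ψ q.2 : ℂ) * gh k q.2) := by
      have := mgh k
      apply Measurable.mul
      · apply Continuous.measurable
        fun_prop
      · fun_prop
    exact (h1.stronglyMeasurable.integral_prod_right' (f := fun q : ℝ × V =>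
        Complex.exp (((-(2 * Real.pi * (q.1 * inner ℝ (kvec k) q.2)) : ℝ) : ℂ) * Complex.I)
        * ((ψ q.2 : ℂ) * gh k q.2))).measurable
  -- Parseval at each time
  have hP : ∀ t, ∫⁻ x : T3, ENNReal.ofReal (|freeAvg ψ g t (x + z) - freeAvg ψ g t x| ^ 2)
      = ∑' k, ‖UnitAddTorus.mFourier k z - 1‖ₑ ^ 2 * ‖I k t‖ₑ ^ 2 := by
    intro t
    have hf : MemLp (fun x => (freeAvg ψ g t x : ℂ)) 2 :=
      memLp_two_of_lintegral (Complex.measurable_ofReal.comp (mFt t))
        (lintegral_freeAvg_sq_ne_top mψ bψ mg hg t)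
    have hfr : MemLp (fun x => freeAvg ψ g t x) 2 := by
      have := hf.re
      simpa using this
    have hfi : Integrable (fun x => freeAvg ψ g t x) := hfr.integrable (by norm_num)
    have hz : MemLp (fun x => freeAvg ψ g t (x + z)) 2 :=
      hfr.comp_measurePreserving (measurePreserving_add_right volume z)
    have hD : MemLp (fun x => ((freeAvg ψ g t (x + z) - freeAvg ψ g t x : ℝ) : ℂ)) 2 :=
      (hz.sub hfr).ofReal
    have h1 := parseval_memLp hD
    have h2 : ∀ k, ∫ x, UnitAddTorus.mFourier (-k) x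
        * ((freeAvg ψ g t (x + z) - freeAvg ψ g t x : ℝ) : ℂ)
        = (UnitAddTorus.mFourier k z - 1) * I k t := by
      intro k
      rw [coeff_diff hfi k z, coeff_freeAvg mψ bψ hi t k]
    simp_rw [h2, enorm_mul, mul_pow] at h1
    rw [h1]
    congr 1
    ext x
    rw [enorm_cast_complex, ENNReal.ofReal_pow (abs_nonneg _)]
  simp_rw [hP]
  rw [lintegral_tsum (fun k => by have := mI k; exact Measurable.aemeasurable (by fun_prop))]
  -- each frequency
  have hk : ∀ k : Fin 3 → ℤ, ∫⁻ t in Ioc 0 T, ‖UnitAddTorus.mFourier k z - 1‖ₑ ^ 2 * ‖I k t‖ₑ ^ 2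
      ≤ modT z * ENNReal.ofReal (Real.exp (Real.pi * T ^ 2)) *
        ∫⁻ v, ‖gh k v‖ₑ ^ 2 / ENNReal.ofReal (Maxw v) := by
    intro k
    rw [lintegral_const_mul _ (by have := mI k; fun_prop)]
    by_cases hk0 : k = 0
    · subst hk0
      rw [UnitAddTorus.mFourier_zero]
      simp
    have hkv := kvec_ne_zero hk0
    have hpos : 0 < ‖kvec k‖ := norm_pos_iff.mpr hkv
    have h1 := osc_bound hT hkv (g := fun v => (ψ v : ℂ) * gh k v)
      (by have := mgh k; fun_prop)
    have h2 : ∫⁻ v : V, ‖(ψ v : ℂ) * gh k v‖ₑ ^ 2 / ENNReal.ofReal (Maxw v)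
        ≤ ∫⁻ v, ‖gh k v‖ₑ ^ 2 / ENNReal.ofReal (Maxw v) := by
      gcongr with v
      rw [enorm_mul]
      refine mul_le_of_le_one_left (by positivity) ?_
      rw [enorm_cast_complex]
      exact ENNReal.ofReal_le_one.mpr (bψ v)
    have h3 : ‖UnitAddTorus.mFourier k z - 1‖ₑ ^ 2 / ENNReal.ofReal ‖kvec k‖ ≤ modT z :=
      le_iSup (fun k : {k : Fin 3 → ℤ // k ≠ 0} =>
        ‖UnitAddTorus.mFourier k.1 z - 1‖ₑ ^ 2 / ENNReal.ofReal ‖kvec k.1‖) ⟨k, hk0⟩
    calc ‖UnitAddTorus.mFourier k z - 1‖ₑ ^ 2 * ∫⁻ t in Ioc 0 T, ‖I k t‖ₑ ^ 2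
        ≤ ‖UnitAddTorus.mFourier k z - 1‖ₑ ^ 2
          * (ENNReal.ofReal (Real.exp (Real.pi * T ^ 2) / ‖kvec k‖) *
            ∫⁻ v, ‖gh k v‖ₑ ^ 2 / ENNReal.ofReal (Maxw v)) := by
          gcongr
          exact h1.trans (by gcongr)
      _ = (‖UnitAddTorus.mFourier k z - 1‖ₑ ^ 2 / ENNReal.ofReal ‖kvec k‖)
          * ENNReal.ofReal (Real.exp (Real.pi * T ^ 2)) *
            ∫⁻ v, ‖gh k v‖ₑ ^ 2 / ENNReal.ofReal (Maxw v) := by
          rw [ENNReal.ofReal_div_of_pos hpos, div_eq_mul_inv, div_eq_mul_inv]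
          ring
      _ ≤ _ := by gcongr
  refine (ENNReal.tsum_le_tsum hk).trans ?_
  rw [ENNReal.tsum_mul_left]
  gcongr
  rw [← lintegral_tsum (fun k => by have := mgh k; exact Measurable.aemeasurable (by fun_prop))]
  have hb : ∀ v, ∑' k, ‖gh k v‖ₑ ^ 2 / ENNReal.ofReal (Maxw v)
      ≤ ∫⁻ x, ENNReal.ofReal (g x v ^ 2) / ENNReal.ofReal (Maxw v) := by
    intro v
    simp_rw [div_eq_mul_inv]
    have mv : Measurable fun x : T3 => g x v := mg.comp measurable_prodMk_right
    rw [ENNReal.tsum_mul_right, lintegral_mul_const _ (by fun_prop)]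
    gcongr
    refine (bessel_T3 (f := fun x => (g x v : ℂ)) (by fun_prop)).trans (le_of_eq ?_)
    congr 1
    ext x
    rw [enorm_cast_complex, ← ENNReal.ofReal_pow (abs_nonneg _), sq_abs]
  refine (lintegral_mono hb).trans (le_of_eq ?_)
  have mq : Measurable fun p : T3 × V => ENNReal.ofReal (g p.1 p.2 ^ 2)
      / ENNReal.ofReal (Maxw p.2) := by fun_prop
  rw [Measure.volume_eq_prod, lintegral_prod_symm _ mq.aemeasurable]

end main

end Vale.Agent.P140.DL
end
end

section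

open MeasureTheory Set Filter
open scoped ENNReal Topology NNReal

noncomputable section

namespace Vale.Agent.P140.DL

namespace V3

/-- joint measurability of velocity averages -/
theorem meas_avg3 {ψ : V → ℝ} (mψ : Measurable ψ) {w : ℝ → T3 → V → ℝ}
    (mw : Measurable fun q : ℝ × T3 × V => w q.1 q.2.1 q.2.2) :
    Measurable fun z : ℝ × ℝ × T3 => freeAvg ψ (w z.1) z.2.1 z.2.2 := by
  unfold freeAvg
  have h : Measurable fun q : (ℝ × ℝ × T3) × V =>
      w q.1.1 (q.1.2.2 - toTorus (q.1.2.1 • q.2)) q.2 * ψ q.2 := by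
    apply Measurable.mul
    · exact mw.comp (Measurable.prodMk (by fun_prop) (Measurable.prodMk (Measurable.sub
        (by fun_prop) (measurable_toTorus.comp (by fun_prop))) measurable_snd))
    · exact mψ.comp measurable_snd
  exact h.stronglyMeasurable.integral_prod_right'.measurable

theorem integrable_Maxw : Integrable Maxw := by
  have h := lintegral_Maxw_ne_top
  have hm : Measurable fun p : T3 × V => ENNReal.ofReal (Maxw p.2) :=
    (measurable_Maxw.comp measurable_snd).ennreal_ofReal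
  rw [Measure.volume_eq_prod, lintegral_prod _ hm.aemeasurable] at h
  simp only [lintegral_const, measure_univ, mul_one] at h
  refine ⟨measurable_Maxw.aestronglyMeasurable, ?_⟩
  rw [hasFiniteIntegral_iff_enorm]
  refine lt_of_eq_of_lt (lintegral_congr fun v => ?_) (lt_top_iff_ne_top.2 h)
  rw [Real.enorm_eq_ofReal_abs, abs_of_pos (Maxw_pos v)]

theorem le_add_sq {a δ : ℝ} (hδ : 0 < δ) : |a| ≤ δ + 1 / δ * |a| ^ 2 := by
  have h1 : 0 ≤ (|a| - δ) ^ 2 := sq_nonneg _
  have h2 : |a| * δ ≤ δ ^ 2 + |a| ^ 2 := by linarith only [mul_nonneg (abs_nonneg a) hδ.le, h1]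
  have h3 : |a| = |a| * δ / δ := by field_simp
  rw [h3, div_le_iff₀ hδ]
  calc |a| * δ ≤ δ ^ 2 + |a| ^ 2 := h2
    _ = (δ + 1 / δ * |a| ^ 2) * δ := by field_simp
    _ = _ := by rw [← h3]

/-- `L¹` translation estimate for averages of free transport of bounded data -/
theorem avg_l1 {T : ℝ} (hT : 0 < T) {ψ : V → ℝ} (mψ : Measurable ψ)
    (bψ : ∀ v, |ψ v| ≤ 1) {g : T3 → V → ℝ} (mg : Measurable fun p : T3 × V => g p.1 p.2)
    {c : ℝ} (hg : ∀ x v, |g x v| ≤ c * Maxw v) (z : T3) {δ : ℝ} (hδ : 0 < δ) :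
    ∫⁻ t in Ioc 0 T, ∫⁻ x : T3, ENNReal.ofReal |freeAvg ψ g t (x + z) - freeAvg ψ g t x| ≤
      ENNReal.ofReal (δ * T) + ENNReal.ofReal (1 / δ) *
        (modT z * ENNReal.ofReal (Real.exp (Real.pi * T ^ 2)) *
          (ENNReal.ofReal (c ^ 2) * ∫⁻ p : T3 × V, ENNReal.ofReal (Maxw p.2))) := by
  have h0 : ∫⁻ p : T3 × V, ENNReal.ofReal (g p.1 p.2 ^ 2) / ENNReal.ofReal (Maxw p.2) ≤
      ENNReal.ofReal (c ^ 2) * ∫⁻ p : T3 × V, ENNReal.ofReal (Maxw p.2) := by
    rw [← lintegral_const_mul' _ _ ENNReal.ofReal_ne_top]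
    refine lintegral_mono fun p => ?_
    apply ENNReal.div_le_of_le_mul
    rw [← ENNReal.ofReal_mul (by positivity), ← ENNReal.ofReal_mul (by
      have := (Maxw_pos p.2).le
      positivity)]
    apply ENNReal.ofReal_le_ofReal
    have h1 := pow_le_pow_left₀ (abs_nonneg _) (hg p.1 p.2) 2
    rw [sq_abs] at h1
    calc g p.1 p.2 ^ 2 ≤ (c * Maxw p.2) ^ 2 := h1
      _ = c ^ 2 * Maxw p.2 * Maxw p.2 := by ring
  have h2 := freeAvg_transl hT.le mψ bψ mg (h0.trans_lt (ENNReal.mul_lt_top ENNReal.ofReal_lt_top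
    (lt_top_iff_ne_top.2 lintegral_Maxw_ne_top))) z
  calc ∫⁻ t in Ioc 0 T, ∫⁻ x : T3, ENNReal.ofReal |freeAvg ψ g t (x + z) - freeAvg ψ g t x|
      ≤ ∫⁻ t in Ioc 0 T, (ENNReal.ofReal δ + ENNReal.ofReal (1 / δ) *
        ∫⁻ x : T3, ENNReal.ofReal (|freeAvg ψ g t (x + z) - freeAvg ψ g t x| ^ 2)) := by
        refine lintegral_mono fun t => ?_
        calc ∫⁻ x : T3, ENNReal.ofReal |freeAvg ψ g t (x + z) - freeAvg ψ g t x|
            ≤ ∫⁻ x : T3, (ENNReal.ofReal δ + ENNReal.ofReal (1 / δ) *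
              ENNReal.ofReal (|freeAvg ψ g t (x + z) - freeAvg ψ g t x| ^ 2)) := by
              refine lintegral_mono fun x => ?_
              rw [← ENNReal.ofReal_mul (by positivity), ← ENNReal.ofReal_add hδ.le (by positivity)]
              exact ENNReal.ofReal_le_ofReal (le_add_sq hδ)
          _ = _ := by
              rw [lintegral_add_left measurable_const, lintegral_const_mul' _ _
                ENNReal.ofReal_ne_top, lintegral_const, measure_univ, mul_one]
    _ = ENNReal.ofReal (δ * T) + ENNReal.ofReal (1 / δ) * ∫⁻ t in Ioc 0 T, ∫⁻ x : T3,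
        ENNReal.ofReal (|freeAvg ψ g t (x + z) - freeAvg ψ g t x| ^ 2) := by
        rw [lintegral_add_left measurable_const, lintegral_const_mul' _ _
          ENNReal.ofReal_ne_top, setLIntegral_const, Real.volume_Ioc, sub_zero,
          ENNReal.ofReal_mul hδ.le]
    _ ≤ _ := by
        gcongr
        exact h2.trans (by gcongr)

/-- truncation -/
def cut (K : ℝ) (r : ℝ → T3 → V → ℝ) (s : ℝ) (x : T3) (v : V) : ℝ :=
  max (-(K * Maxw v)) (min (r s x v) (K * Maxw v))

/-- remainder of the truncation -/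
def rst (K : ℝ) (r : ℝ → T3 → V → ℝ) (s : ℝ) (x : T3) (v : V) : ℝ := r s x v - cut K r s x v

theorem cut_add_rst (K : ℝ) (r : ℝ → T3 → V → ℝ) (s : ℝ) (x : T3) (v : V) :
    cut K r s x v + rst K r s x v = r s x v := by
  unfold rst
  ring

theorem measurable_cut (K : ℝ) {r : ℝ → T3 → V → ℝ}
    (mr : Measurable fun q : ℝ × T3 × V => r q.1 q.2.1 q.2.2) :
    Measurable fun q : ℝ × T3 × V => cut K r q.1 q.2.1 q.2.2 := by
  have hM : Measurable fun q : ℝ × T3 × V => K * Maxw q.2.2 :=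
    (measurable_Maxw.comp (measurable_snd.comp measurable_snd)).const_mul K
  exact hM.neg.max (mr.min hM)

theorem measurable_rst (K : ℝ) {r : ℝ → T3 → V → ℝ}
    (mr : Measurable fun q : ℝ × T3 × V => r q.1 q.2.1 q.2.2) :
    Measurable fun q : ℝ × T3 × V => rst K r q.1 q.2.1 q.2.2 :=
  mr.sub (measurable_cut K mr)

theorem abs_cut_le {K : ℝ} (hK : 0 ≤ K) (r : ℝ → T3 → V → ℝ) (s : ℝ) (x : T3) (v : V) :
    |cut K r s x v| ≤ K * Maxw v := by
  have h : 0 ≤ K * Maxw v := mul_nonneg hK (Maxw_pos v).le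
  unfold cut
  rw [abs_le]
  exact ⟨le_max_left _ _, max_le (by linarith) (min_le_right _ _)⟩

theorem abs_rst_le {K : ℝ} (hK : 0 ≤ K) (r : ℝ → T3 → V → ℝ) (s : ℝ) (x : T3) (v : V) :
    |rst K r s x v| ≤ max (|r s x v| - K * Maxw v) 0 := by
  have h : 0 ≤ K * Maxw v := mul_nonneg hK (Maxw_pos v).le
  unfold rst cut
  rcases le_total (r s x v) (K * Maxw v) with h1 | h1
  · rw [min_eq_left h1]
    rcases le_total (-(K * Maxw v)) (r s x v) with h2 | h2
    · rw [max_eq_right h2, sub_self, abs_zero]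
      exact le_max_right _ _
    · rw [max_eq_left h2]
      refine le_trans (le_of_eq ?_) (le_max_left _ _)
      rw [abs_of_nonpos (by linarith), abs_of_nonpos (by linarith : r s x v ≤ 0)]
      ring
  · rw [min_eq_right h1, max_eq_right (by linarith)]
    refine le_trans (le_of_eq ?_) (le_max_left _ _)
    rw [abs_of_nonneg (by linarith), abs_of_nonneg (by linarith : 0 ≤ r s x v)]

theorem ofReal_rst_le (K : ℝ≥0) (r : ℝ → T3 → V → ℝ) (s : ℝ) (x : T3) (v : V) :
    ENNReal.ofReal |rst K r s x v| ≤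
      ENNReal.ofReal (Maxw v) * (ENNReal.ofReal (|r s x v| / Maxw v) - K) := by
  have hM := Maxw_pos v
  have h1 : (K : ℝ≥0∞) = ENNReal.ofReal (K : ℝ) := (ENNReal.ofReal_coe_nnreal).symm
  rw [h1, ← ENNReal.ofReal_sub _ K.coe_nonneg, ← ENNReal.ofReal_mul hM.le]
  have h2 : Maxw v * (|r s x v| / Maxw v - K) = |r s x v| - K * Maxw v := by
    field_simp
  rw [h2]
  rcases le_total (|r s x v| - K * Maxw v) 0 with h3 | h3
  · have h4 := abs_rst_le K.coe_nonneg r s x v
    rw [max_eq_right h3] at h4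
    have h5 := le_antisymm h4 (abs_nonneg _)
    rw [h5]
    simp
  · have h4 := abs_rst_le K.coe_nonneg r s x v
    rw [max_eq_left h3] at h4
    exact ENNReal.ofReal_le_ofReal h4

/-- integral of the remainder along characteristics -/
def bet (T : ℝ) (K : ℝ) (r : ℝ → T3 → V → ℝ) (t : ℝ) (x : T3) : ℝ≥0∞ :=
  ∫⁻ v : V, ∫⁻ s in Ioc 0 T, ENNReal.ofReal |rst K r s (x - toTorus (t • v)) v|

theorem measurable_bet (T K : ℝ) {r : ℝ → T3 → V → ℝ}
    (mr : Measurable fun q : ℝ × T3 × V => r q.1 q.2.1 q.2.2) :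
    Measurable fun z : ℝ × T3 => bet T K r z.1 z.2 := by
  unfold bet
  have h : Measurable fun q : ((ℝ × T3) × V) × ℝ =>
      ENNReal.ofReal |rst K r q.2 (q.1.1.2 - toTorus (q.1.1.1 • q.1.2)) q.1.2| := by
    apply Measurable.ennreal_ofReal
    apply Measurable.abs
    exact (measurable_rst K mr).comp (Measurable.prodMk measurable_snd (Measurable.prodMk
      (Measurable.sub (by fun_prop) (measurable_toTorus.comp (by fun_prop))) (by fun_prop)))
  exact Measurable.lintegral_prod_right' (f := fun q : (ℝ × T3) × V => ∫⁻ s in Ioc 0 T,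
    ENNReal.ofReal |rst K r s (q.1.2 - toTorus (q.1.1 • q.2)) q.2|)
    (Measurable.lintegral_prod_right' h)

attribute [local irreducible] bet in
theorem measurable_bet' (T K : ℝ) {r : ℝ → T3 → V → ℝ}
    (mr : Measurable fun q : ℝ × T3 × V => r q.1 q.2.1 q.2.2) (t : ℝ) :
    Measurable fun x : T3 => bet T K r t x :=
  (measurable_bet T K mr).comp measurable_prodMk_left

theorem flow_neg_eq (t : ℝ) (x : T3) (v : V) : flow (-t) (x, v) = (x - toTorus (t • v), v) := by
  unfold flow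
  simp only [neg_smul, toTorus_neg, sub_eq_add_neg]

theorem lintegral_bet (T K t : ℝ) {r : ℝ → T3 → V → ℝ}
    (mr : Measurable fun q : ℝ × T3 × V => r q.1 q.2.1 q.2.2) :
    ∫⁻ x, bet T K r t x = ∫⁻ p : T3 × V, ∫⁻ s in Ioc 0 T, ENNReal.ofReal |rst K r s p.1 p.2| := by
  have hm : Measurable fun p : T3 × V => ∫⁻ s in Ioc 0 T, ENNReal.ofReal |rst K r s p.1 p.2| := by
    have h : Measurable fun q : (T3 × V) × ℝ => ENNReal.ofReal |rst K r q.2 q.1.1 q.1.2| := by
      apply Measurable.ennreal_ofReal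
      apply Measurable.abs
      exact (measurable_rst K mr).comp (Measurable.prodMk measurable_snd measurable_fst)
    exact Measurable.lintegral_prod_right' h
  have hm2 : Measurable fun p : T3 × V => ∫⁻ s in Ioc 0 T,
      ENNReal.ofReal |rst K r s (flow (-t) p).1 (flow (-t) p).2| := hm.comp (measurable_flow (-t))
  rw [← lintegral_flow (-t) hm, Measure.volume_eq_prod, lintegral_prod _ hm2.aemeasurable]
  simp only [flow_neg_eq]
  rfl

attribute [local irreducible] cut rst Maxw toTorus in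
theorem lintegral_rst_le {T : ℝ} {K : ℝ≥0} {r : ℝ → T3 → V → ℝ}
    (mr : Measurable fun q : ℝ × T3 × V => r q.1 q.2.1 q.2.2) :
    ∫⁻ p : T3 × V, ∫⁻ s in Ioc 0 T, ENNReal.ofReal |rst K r s p.1 p.2| ≤
      ∫⁻ q : ℝ × T3 × V, (ENNReal.ofReal (|r q.1 q.2.1 q.2.2| / Maxw q.2.2) - K)
        ∂(((volume : Measure ℝ).restrict (Ioc 0 T)).prod muM) := by
  have h0 : Measurable fun q : ℝ × T3 × V => |r q.1 q.2.1 q.2.2| / Maxw q.2.2 :=
    mr.abs.div (measurable_Maxw.comp (measurable_snd.comp measurable_snd))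
  have h1 : Measurable fun q : ℝ × T3 × V =>
      ENNReal.ofReal (|r q.1 q.2.1 q.2.2| / Maxw q.2.2) - (K : ℝ≥0∞) :=
    h0.ennreal_ofReal.sub_const _
  have h2 : Measurable fun q : (T3 × V) × ℝ => ENNReal.ofReal |rst K r q.2 q.1.1 q.1.2| := by
    apply Measurable.ennreal_ofReal
    apply Measurable.abs
    exact (measurable_rst K mr).comp (Measurable.prodMk measurable_snd measurable_fst)
  have h3 : ∀ s, ∫⁻ p : T3 × V, ENNReal.ofReal |rst K r s p.1 p.2| ≤
      ∫⁻ p : T3 × V, (ENNReal.ofReal (|r s p.1 p.2| / Maxw p.2) - K) ∂muM := by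
    intro s
    have h5 : Measurable fun p : T3 × V => |r s p.1 p.2| / Maxw p.2 :=
      h0.comp measurable_prodMk_left
    have h4 : Measurable fun p : T3 × V => ENNReal.ofReal (|r s p.1 p.2| / Maxw p.2) - (K : ℝ≥0∞) :=
      h5.ennreal_ofReal.sub_const _
    rw [lintegral_muM h4]
    exact lintegral_mono fun p => ofReal_rst_le K r s p.1 p.2
  calc ∫⁻ p : T3 × V, ∫⁻ s in Ioc 0 T, ENNReal.ofReal |rst K r s p.1 p.2|
      = ∫⁻ s in Ioc 0 T, ∫⁻ p : T3 × V, ENNReal.ofReal |rst K r s p.1 p.2| :=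
        lintegral_lintegral_swap h2.aemeasurable
    _ ≤ ∫⁻ s in Ioc 0 T, ∫⁻ p : T3 × V, (ENNReal.ofReal (|r s p.1 p.2| / Maxw p.2) - K) ∂muM :=
        lintegral_mono h3
    _ = _ := (lintegral_prod _ h1.aemeasurable).symm


end V3

end Vale.Agent.P140.DL
end
end

section

open MeasureTheory Set Filter
open scoped ENNReal Topology NNReal

noncomputable section

namespace Vale.Agent.P140.DL

theorem s4_quot : IsOpenQuotientMap toTorus := by
  have h1 : IsOpenQuotientMap (Pi.map fun (_ : Fin 3) (x : ℝ) => (x : UnitAddCircle)) :=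
    IsOpenQuotientMap.piMap fun _ => QuotientAddGroup.isOpenQuotientMap_mk
  exact h1.comp (EuclideanSpace.equiv (Fin 3) ℝ).toHomeomorph.isOpenQuotientMap

theorem s4_cont {f : ℝ × T3 × V → ℝ}
    (h : Continuous fun p : ℝ × V × V => f (p.1, toTorus p.2.1, p.2.2)) : Continuous f := by
  have h1 : IsOpenQuotientMap (Prod.map (id : ℝ → ℝ) (Prod.map toTorus (id : V → V))) :=
    IsOpenQuotientMap.id.prodMap (s4_quot.prodMap IsOpenQuotientMap.id)
  exact h1.isQuotientMap.continuous_iff.mpr h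

/-- the transport derivative of the lift of a test function -/
def s4_D (φ : ℝ → T3 → V → ℝ) (p : ℝ × V × V) : ℝ :=
  fderiv ℝ (fun p : ℝ × V × V => φ p.1 (toTorus p.2.1) p.2.2) p (1, p.2.2, 0)

theorem s4_D_cont {φ : ℝ → T3 → V → ℝ} (hφ : IsTest φ) : Continuous (s4_D φ) := by
  have h1 : Continuous (fderiv ℝ (fun p : ℝ × V × V => φ p.1 (toTorus p.2.1) p.2.2)) :=
    hφ.smooth.continuous_fderiv (by simp)
  exact h1.clm_apply (by fun_prop)

theorem s4_line {φ : ℝ → T3 → V → ℝ} (hφ : IsTest φ) (y v : V) (t : ℝ) :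
    HasDerivAt (fun s => φ s (toTorus y + toTorus (s • v)) v) (s4_D φ (t, y + t • v, v)) t := by
  have h1 : HasFDerivAt (fun p : ℝ × V × V => φ p.1 (toTorus p.2.1) p.2.2)
      (fderiv ℝ (fun p : ℝ × V × V => φ p.1 (toTorus p.2.1) p.2.2) (t, y + t • v, v))
      (t, y + t • v, v) :=
    ((hφ.smooth.differentiable (by simp)) _).hasFDerivAt
  have h2 : HasDerivAt (fun s : ℝ => ((s, y + s • v, v) : ℝ × V × V)) (1, v, 0) t := by
    have h3 : HasDerivAt (fun s : ℝ => y + s • v) v t := by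
      simpa using ((hasDerivAt_id t).smul_const v).const_add y
    exact (hasDerivAt_id t).prodMk (h3.prodMk (hasDerivAt_const t v))
  have h4 := h1.comp_hasDerivAt t h2
  have h5 : (fun s => φ s (toTorus y + toTorus (s • v)) v) =
      (fun p : ℝ × V × V => φ p.1 (toTorus p.2.1) p.2.2) ∘
        (fun s : ℝ => ((s, y + s • v, v) : ℝ × V × V)) := by
    funext s
    simp only [Function.comp, toTorus_add]
  rw [h5]
  exact h4

theorem s4_transport {φ : ℝ → T3 → V → ℝ} (hφ : IsTest φ) (t : ℝ) (y v : V) :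
    transport (fun t x => φ t x v) t (toTorus y) v = s4_D φ (t, y, v) := by
  unfold transport
  have h1 := s4_line hφ (y - t • v) v t
  rw [sub_add_cancel] at h1
  have h2 : HasDerivAt (fun s => φ (t + s) (toTorus (y - t • v) + toTorus ((t + s) • v)) v)
      (s4_D φ (t, y, v)) 0 := by
    have h3 : HasDerivAt (fun s => φ s (toTorus (y - t • v) + toTorus (s • v)) v)
      (s4_D φ (t, y, v)) (t + 0) := by rwa [add_zero]
    exact h3.comp_const_add t 0
  have h4 : (fun s : ℝ => φ (t + s) (toTorus y + toTorus (s • v)) v) =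
      fun s => φ (t + s) (toTorus (y - t • v) + toTorus ((t + s) • v)) v := by
    funext s
    rw [← toTorus_add, ← toTorus_add, add_smul]
    congr 2
    abel
  rw [h4]
  exact h2.deriv

theorem s4_cont_phi {φ : ℝ → T3 → V → ℝ} (hφ : IsTest φ) :
    Continuous fun q : ℝ × T3 × V => φ q.1 q.2.1 q.2.2 :=
  s4_cont hφ.smooth.continuous

theorem s4_cont_tr {φ : ℝ → T3 → V → ℝ} (hφ : IsTest φ) :
    Continuous fun q : ℝ × T3 × V => transport (fun t x => φ t x q.2.2) q.1 q.2.1 q.2.2 := by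
  apply s4_cont
  have h1 : (fun p : ℝ × V × V => transport (fun t x => φ t x p.2.2) p.1 (toTorus p.2.1) p.2.2) =
      s4_D φ := by
    funext p
    exact s4_transport hφ p.1 p.2.1 p.2.2
  rw [h1]
  exact s4_D_cont hφ

theorem s4_bdd {f : ℝ × T3 × V → ℝ} (hf : Continuous f) {R : ℝ}
    (h : ∀ q : ℝ × T3 × V, R < |q.1| ∨ R < ‖q.2.2‖ → f q = 0) : ∃ C, ∀ q, ‖f q‖ ≤ C := by
  have hK : IsCompact ((Icc (-R) R) ×ˢ ((univ : Set T3) ×ˢ Metric.closedBall (0 : V) R)) :=
    isCompact_Icc.prod (isCompact_univ.prod (isCompact_closedBall 0 R))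
  obtain ⟨C, hC⟩ := hK.exists_bound_of_continuousOn hf.continuousOn
  refine ⟨max C 0, fun q => ?_⟩
  by_cases hq : R < |q.1| ∨ R < ‖q.2.2‖
  · rw [h q hq, norm_zero]
    exact le_max_right _ _
  · rw [not_or, not_lt, not_lt] at hq
    refine (hC q ?_).trans (le_max_left _ _)
    exact ⟨abs_le.mp hq.1, mem_univ _, mem_closedBall_zero_iff.mpr hq.2⟩

/-- vanishing of the transport derivative -/
theorem s4_tr_zero {φ : ℝ → T3 → V → ℝ} {R : ℝ}
    (h : ∀ t x v, R < |t| ∨ R < ‖v‖ → φ t x v = 0) {t : ℝ} {x : T3} {v : V}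
    (hq : R < |t| ∨ R < ‖v‖) : transport (fun t x => φ t x v) t x v = 0 := by
  unfold transport
  rcases hq with h1 | h1
  · have h2 : (fun s : ℝ => φ (t + s) (x + toTorus (s • v)) v) =ᶠ[𝓝 0] fun _ => 0 := by
      have h3 : ContinuousAt (fun s : ℝ => |t + s|) 0 := by fun_prop
      have h4 : R < |t + 0| := by rwa [add_zero]
      filter_upwards [h3.eventually_const_lt h4] with s hs
      exact h _ _ _ (Or.inl hs)
    rw [h2.deriv_eq, deriv_const]
  · have h2 : (fun s : ℝ => φ (t + s) (x + toTorus (s • v)) v) = fun _ => 0 := by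
      funext s
      exact h _ _ _ (Or.inr h1)
    rw [h2, deriv_const]

/-- mild equation with integrable right-hand side implies the weak form -/
theorem weakTransport_of_mild {U R : ℝ → T3 → V → ℝ} {U0 : T3 → V → ℝ}
    (mU : Measurable fun q : ℝ × T3 × V => U q.1 q.2.1 q.2.2)
    (mR : Measurable fun q : ℝ × T3 × V => R q.1 q.2.1 q.2.2)
    (mU0 : Measurable fun p : T3 × V => U0 p.1 p.2)
    (iU0 : Integrable fun p : T3 × V => U0 p.1 p.2)
    (iU : ∀ T, Integrable (fun q : ℝ × T3 × V => U q.1 q.2.1 q.2.2)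
      ((volume.restrict (Ioc 0 T)).prod volume))
    (iR : ∀ T, Integrable (fun q : ℝ × T3 × V => R q.1 q.2.1 q.2.2)
      ((volume.restrict (Ioc 0 T)).prod volume))
    (h : ∀ᵐ p : T3 × V, ∀ t, 0 ≤ t →
      along U (t, p) = U0 p.1 p.2 + ∫ s in Ioc 0 t, along R (s, p)) :
    WeakTransport U R U0 := by
  intro φ hφ
  obtain ⟨R0, hR0⟩ := hφ.compact
  set T : ℝ := max R0 0 + 1 with hT
  have hTpos : 0 < T := by
    have := le_max_right R0 0
    linarith
  have hTR : ∀ t, T ≤ t → R0 < |t| := by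
    intro t ht
    have h1 := le_max_left R0 0
    have h2 := le_abs_self t
    linarith
  set μ := (volume.restrict (Ioc 0 T) : Measure ℝ) with hμ
  have cφ := s4_cont_phi hφ
  have cτ := s4_cont_tr hφ
  obtain ⟨Cφ, hCφ⟩ := s4_bdd cφ (R := R0) fun q hq => hR0 _ _ _ hq
  obtain ⟨Cτ, hCτ⟩ := s4_bdd cτ (R := R0) fun q hq => s4_tr_zero hR0 hq
  -- the multipliers along the flow
  set Z : ℝ × T3 × V → ℝ := fun q => φ (stFlow q).1 (stFlow q).2.1 (stFlow q).2.2 with hZ
  set Θ : ℝ × T3 × V → ℝ := fun q =>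
    transport (fun t x => φ t x (stFlow q).2.2) (stFlow q).1 (stFlow q).2.1 (stFlow q).2.2 with hΘ
  have mZ : Measurable Z := cφ.measurable.comp measurable_stFlow
  have mΘ : Measurable Θ := cτ.measurable.comp measurable_stFlow
  have bZ : ∀ q, ‖Z q‖ ≤ Cφ := fun q => hCφ _
  have bΘ : ∀ q, ‖Θ q‖ ≤ Cτ := fun q => hCτ _
  have aU := integrable_along (iU T)
  have aR := integrable_along (iR T)
  have i1 : Integrable (fun q => along U q * Θ q) (μ.prod volume) :=
    aU.mul_bdd (c := Cτ) mΘ.aestronglyMeasurable (Eventually.of_forall bΘ)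
  have i2 : Integrable (fun q => along R q * Z q) (μ.prod volume) :=
    aR.mul_bdd (c := Cφ) mZ.aestronglyMeasurable (Eventually.of_forall bZ)
  have i12 : Integrable (fun q => along U q * Θ q + along R q * Z q) (μ.prod volume) := i1.add i2
  have i3 : Integrable fun p : T3 × V => U0 p.1 p.2 * φ 0 p.1 p.2 := by
    refine iU0.mul_bdd (c := Cφ) ?_ (Eventually.of_forall fun p => hCφ (0, p))
    exact (cφ.comp (by fun_prop : Continuous fun p : T3 × V => ((0 : ℝ), p))).aestronglyMeasurable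
  have h1 : ∫ p : ℝ × T3 × V in Ioi 0 ×ˢ univ,
      (U p.1 p.2.1 p.2.2 * transport (fun t x => φ t x p.2.2) p.1 p.2.1 p.2.2
        + R p.1 p.2.1 p.2.2 * φ p.1 p.2.1 p.2.2)
      = ∫ q : ℝ × T3 × V, (along U q * Θ q + along R q * Z q) ∂(μ.prod volume) := by
    rw [← (measurePreserving_stFlow_restrict (Ioi 0)).integral_comp measurableEmbedding_stFlow]
    rw [hμ, ← restrict_prod_univ]
    apply setIntegral_eq_of_subset_of_forall_sdiff_eq_zero
    · exact measurableSet_Ioi.prod MeasurableSet.univ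
    · exact Set.prod_mono Ioc_subset_Ioi_self (Subset.refl _)
    · rintro q ⟨hq1, hq2⟩
      have h4 : T < q.1 := by
        by_contra h5
        exact hq2 ⟨⟨hq1.1, not_lt.mp h5⟩, mem_univ _⟩
      have h5 : R0 < |(stFlow q).1| := hTR _ h4.le
      rw [s4_tr_zero hR0 (Or.inl h5), hR0 _ _ _ (Or.inl h5), mul_zero, mul_zero, add_zero]
  rw [h1, integral_prod_symm _ i12, ← integral_add i12.integral_prod_right i3]
  have h2 : ∀ᵐ p : T3 × V, (∫ t, (along U (t, p) * Θ (t, p) + along R (t, p) * Z (t, p)) ∂μ)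
      + U0 p.1 p.2 * φ 0 p.1 p.2 = 0 := by
    filter_upwards [h, aR.prod_left_ae, i1.prod_left_ae, i2.prod_left_ae] with p hp hr j1 j2
    obtain ⟨y, hy⟩ := surjective_toTorus p.1
    have h8 : IntervalIntegrable (fun s => along R (s, p)) volume 0 T := by
      rw [intervalIntegrable_iff_integrableOn_Ioc_of_le hTpos.le]
      exact hr
    have hline : ∀ t : ℝ, HasDerivAt (fun s => φ s (p.1 + toTorus (s • p.2)) p.2)
        (Θ (t, p)) t := by
      intro t
      have h9 := s4_line hφ y p.2 t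
      rw [← s4_transport hφ, toTorus_add, hy] at h9
      exact h9
    have hsm : ContDiff ℝ 1 (fun s => φ s (p.1 + toTorus (s • p.2)) p.2) := by
      have h10 : (fun s => φ s (p.1 + toTorus (s • p.2)) p.2) =
          (fun q : ℝ × V × V => φ q.1 (toTorus q.2.1) q.2.2) ∘
            (fun s : ℝ => ((s, y + s • p.2, p.2) : ℝ × V × V)) := by
        funext s
        simp only [Function.comp, toTorus_add, hy]
      rw [h10]
      exact (hφ.smooth.of_le (by exact_mod_cast le_top)).comp (by fun_prop)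
    have h9 := ibp_primitive (r := fun s => along R (s, p))
      (z := fun s => φ s (p.1 + toTorus (s • p.2)) p.2) (θ := fun s => Θ (s, p)) hTpos.le h8
      hsm.contDiffOn (fun t _ => hline t) (hR0 _ _ _ (Or.inl (hTR T le_rfl))) (U0 p.1 p.2)
    rw [intervalIntegral.integral_of_le hTpos.le, intervalIntegral.integral_of_le hTpos.le] at h9
    have h11 : ∫ x in Ioc 0 T, Θ (x, p) * (U0 p.1 p.2 + ∫ s in (0:ℝ)..x, along R (s, p))
        = ∫ x in Ioc 0 T, along U (x, p) * Θ (x, p) := by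
      apply setIntegral_congr_fun measurableSet_Ioc
      intro x hx
      simp only
      rw [intervalIntegral.integral_of_le hx.1.le, ← hp x hx.1.le, mul_comm]
    have h12 : φ 0 (p.1 + toTorus ((0 : ℝ) • p.2)) p.2 = φ 0 p.1 p.2 := by
      rw [zero_smul, toTorus_zero, add_zero]
    rw [h11, h12] at h9
    rw [hμ, integral_add j1 j2]
    have h13 : ∫ x in Ioc 0 T, along R (x, p) * Z (x, p) =
        ∫ x in Ioc 0 T, along R (x, p) * φ x (p.1 + toTorus (x • p.2)) p.2 := rfl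
    rw [h13]
    linarith
  rw [integral_congr_ae h2, integral_zero]

/-- chain rule for the composition with a primitive -/
theorem s4_chain {r : ℝ → ℝ} {c T : ℝ} (hT : 0 ≤ T) (hr : IntervalIntegrable r volume 0 T)
    {β : ℝ → ℝ} (hβ : ContDiffOn ℝ 1 β (Ici 0))
    (hf : ∀ t ∈ Icc 0 T, 0 ≤ c + ∫ s in (0:ℝ)..t, r s) :
    β (c + ∫ s in (0:ℝ)..T, r s) = β c
      + ∫ t in (0:ℝ)..T, derivWithin β (Ici 0) (c + ∫ s in (0:ℝ)..t, r s) * r t := by
  have hac := ac_primitive hr c
  have hu : uIcc 0 T = Icc 0 T := uIcc_of_le hT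
  have hcont := hac.continuousOn
  obtain ⟨K, hK⟩ : ∃ K : ℝ≥0, LipschitzOnWith K β ((fun t => c + ∫ s in (0:ℝ)..t, r s) '' uIcc 0 T) := by
    have hcomp : IsCompact ((fun t => c + ∫ s in (0:ℝ)..t, r s) '' uIcc 0 T) :=
      isCompact_uIcc.image_of_continuousOn hcont
    obtain ⟨R, hR⟩ := hcomp.isBounded.subset_closedBall 0
    obtain ⟨K, hK⟩ := (hβ.mono (fun x (hx : x ∈ Icc 0 R) => mem_Ici.mpr hx.1)).exists_lipschitzOnWith (by decide)
      (convex_Icc 0 R) isCompact_Icc
    refine ⟨K, hK.mono ?_⟩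
    rintro z ⟨t, ht, rfl⟩
    rw [hu] at ht
    refine ⟨hf t ht, ?_⟩
    have h1 := hR ⟨t, by rwa [hu], rfl⟩
    rw [mem_closedBall_zero_iff] at h1
    exact (le_abs_self _).trans h1
  have hac2 := ac_comp hac hK
  have h := hac2.integral_deriv_eq_sub
  have h2 : ∫ x in (0:ℝ)..T, deriv (fun t => β (c + ∫ s in (0:ℝ)..t, r s)) x
      = ∫ t in (0:ℝ)..T, derivWithin β (Ici 0) (c + ∫ s in (0:ℝ)..t, r s) * r t := by
    apply intervalIntegral.integral_congr_ae
    filter_upwards [ae_hasDerivAt_primitive hr c, (countable_singleton T).ae_notMem volume]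
      with t ht htT hmem
    rw [uIoc_of_le hT] at hmem
    have htlt : t < T := lt_of_le_of_ne hmem.2 htT
    have hmem2 : t ∈ Icc 0 T := ⟨hmem.1.le, hmem.2⟩
    have hd := ht (by rw [hu]; exact hmem2)
    have h3 : HasDerivWithinAt β (derivWithin β (Ici 0) (c + ∫ s in (0:ℝ)..t, r s)) (Ici 0)
        (c + ∫ s in (0:ℝ)..t, r s) :=
      ((hβ.differentiableOn (by simp)) _ (hf t hmem2)).hasDerivWithinAt
    have h4 := h3.comp (h := fun t => c + ∫ s in (0:ℝ)..t, r s) t
      (hd.hasDerivWithinAt (s := Icc 0 T)) (fun s hs => hf s hs)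
    exact (h4.hasDerivAt (Icc_mem_nhds hmem.1 htlt)).deriv
  rw [h2] at h
  simp only [intervalIntegral.integral_same, add_zero] at h
  linarith

theorem s4_beta_le {β : ℝ → ℝ} (hβ : ContDiffOn ℝ 1 β (Ici 0)) (β0 : β 0 = 0) {C : ℝ}
    (hC : ∀ z, 0 ≤ z → |derivWithin β (Ici 0) z| ≤ C / (1 + z)) : 0 ≤ C ∧
    ∀ z, 0 ≤ z → |β z| ≤ C * z := by
  have hC0 : 0 ≤ C := by
    have := hC 0 le_rfl
    rw [add_zero, div_one] at this
    exact (abs_nonneg _).trans this
  refine ⟨hC0, fun z hz => ?_⟩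
  have h1 := (convex_Ici (0 : ℝ)).norm_image_sub_le_of_norm_derivWithin_le (f := β) (C := C)
    (hβ.differentiableOn (by simp)) (fun x hx => ?_) (mem_Ici.mpr (le_refl (0 : ℝ)))
    (mem_Ici.mpr hz)
  · rw [β0, sub_zero, sub_zero, Real.norm_eq_abs, Real.norm_eq_abs, abs_of_nonneg hz] at h1
    exact h1
  · have hx0 : (0 : ℝ) ≤ x := hx
    rw [Real.norm_eq_abs]
    exact (hC x hx0).trans (div_le_self hC0 (by linarith))

/-- mild solutions with renormalizable collision terms are renormalized solutions -/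
theorem IsMildC.renorm {F0 : T3 → V → ℝ} {F : ℝ → T3 → V → ℝ} (h : IsMildC F0 F)
    (i0 : Integrable fun p : T3 × V => F0 p.1 p.2)
    (iF : ∀ T, Integrable (fun q : ℝ × T3 × V => F q.1 q.2.1 q.2.2)
      ((volume.restrict (Ioc 0 T)).prod volume))
    (hg : ∀ T : ℝ, ∫⁻ p : ℝ × T3 × V in Icc 0 T ×ˢ univ,
      gain (F p.1 p.2.1) p.2.2 / ENNReal.ofReal (1 + F p.1 p.2.1 p.2.2 / Maxw p.2.2) < ⊤)
    (hl : ∀ T : ℝ, ∫⁻ p : ℝ × T3 × V in Icc 0 T ×ˢ univ,
      loss (F p.1 p.2.1) p.2.2 / ENNReal.ofReal (1 + F p.1 p.2.1 p.2.2 / Maxw p.2.2) < ⊤)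
    {β : ℝ → ℝ} (hβ : ContDiffOn ℝ 1 β (Ici 0)) (β0 : β 0 = 0)
    (bβ : ∃ C, ∀ z, 0 ≤ z → |derivWithin β (Ici 0) z| ≤ C / (1 + z)) :
    WeakTransport (fun t x v => Maxw v * β (F t x v / Maxw v))
      (fun t x v => derivWithin β (Ici 0) (F t x v / Maxw v) * coll (F t x) v)
      (fun x v => Maxw v * β (F0 x v / Maxw v)) := by
  obtain ⟨C, hC⟩ := bβ
  obtain ⟨hC0, hCβ⟩ := s4_beta_le hβ β0 hC
  have cβ : Continuous fun z => β (max z 0) :=
    hβ.continuousOn.comp_continuous (by fun_prop) (fun z => mem_Ici.mpr (le_max_right _ _))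
  have cβ' : Continuous fun z => derivWithin β (Ici 0) (max z 0) :=
    (hβ.continuousOn_derivWithin (uniqueDiffOn_Ici 0) le_rfl).comp_continuous (by fun_prop)
      (fun z => mem_Ici.mpr (le_max_right _ _))
  have hM : Measurable fun q : ℝ × T3 × V => Maxw q.2.2 := measurable_Maxw.comp (by fun_prop)
  have hM0 : Measurable fun q : T3 × V => Maxw q.2 := measurable_Maxw.comp (by fun_prop)
  have pF : ∀ t x v, 0 ≤ F t x v / Maxw v := fun t x v => div_nonneg (h.nonneg t x v) (Maxw_pos v).le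
  have pF0 : ∀ x v, 0 ≤ F0 x v / Maxw v := fun x v => div_nonneg (h.nonneg0 x v) (Maxw_pos v).le
  have mU : Measurable fun q : ℝ × T3 × V => Maxw q.2.2 * β (F q.1 q.2.1 q.2.2 / Maxw q.2.2) := by
    have h1 := hM.mul (cβ.measurable.comp (h.measurable.div hM))
    have h2 : (fun q : ℝ × T3 × V => Maxw q.2.2 * β (F q.1 q.2.1 q.2.2 / Maxw q.2.2)) =
        fun q : ℝ × T3 × V => Maxw q.2.2 * β (max (F q.1 q.2.1 q.2.2 / Maxw q.2.2) 0) := by
      funext q
      rw [max_eq_left (pF _ _ _)]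
    rw [h2]
    exact h1
  have mU0 : Measurable fun q : T3 × V => Maxw q.2 * β (F0 q.1 q.2 / Maxw q.2) := by
    have h1 := hM0.mul (cβ.measurable.comp (h.measurable0.div hM0))
    have h2 : (fun q : T3 × V => Maxw q.2 * β (F0 q.1 q.2 / Maxw q.2)) =
        fun q : T3 × V => Maxw q.2 * β (max (F0 q.1 q.2 / Maxw q.2) 0) := by
      funext q
      rw [max_eq_left (pF0 _ _)]
    rw [h2]
    exact h1
  have mR : Measurable fun q : ℝ × T3 × V =>
      derivWithin β (Ici 0) (F q.1 q.2.1 q.2.2 / Maxw q.2.2) * coll (F q.1 q.2.1) q.2.2 := by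
    have h1 := (cβ'.measurable.comp (h.measurable.div hM)).mul (measurable_coll_st h.measurable)
    have h2 : (fun q : ℝ × T3 × V =>
        derivWithin β (Ici 0) (F q.1 q.2.1 q.2.2 / Maxw q.2.2) * coll (F q.1 q.2.1) q.2.2) =
        fun q : ℝ × T3 × V => derivWithin β (Ici 0) (max (F q.1 q.2.1 q.2.2 / Maxw q.2.2) 0) *
          coll (F q.1 q.2.1) q.2.2 := by
      funext q
      rw [max_eq_left (pF _ _ _)]
    rw [h2]
    exact h1
  have bd : ∀ {m z : ℝ}, 0 < m → 0 ≤ z → ‖m * β (z / m)‖ ≤ C * z := by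
    intro m z hm hz
    rw [norm_mul, Real.norm_of_nonneg hm.le, Real.norm_eq_abs]
    calc m * |β (z / m)| ≤ m * (C * (z / m)) :=
          mul_le_mul_of_nonneg_left (hCβ _ (div_nonneg hz hm.le)) hm.le
      _ = C * z := by field_simp
  have iU : ∀ T, Integrable (fun q : ℝ × T3 × V => Maxw q.2.2 * β (F q.1 q.2.1 q.2.2 / Maxw q.2.2))
      ((volume.restrict (Ioc 0 T)).prod volume) := by
    intro T
    refine ((iF T).const_mul C).mono' mU.aestronglyMeasurable (Eventually.of_forall fun q => ?_)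
    exact bd (Maxw_pos _) (h.nonneg _ _ _)
  have iU0 : Integrable (fun q : T3 × V => Maxw q.2 * β (F0 q.1 q.2 / Maxw q.2)) := by
    refine (i0.const_mul C).mono' mU0.aestronglyMeasurable (Eventually.of_forall fun q => ?_)
    exact bd (Maxw_pos _) (h.nonneg0 _ _)
  have iR : ∀ T, Integrable (fun q : ℝ × T3 × V =>
      derivWithin β (Ici 0) (F q.1 q.2.1 q.2.2 / Maxw q.2.2) * coll (F q.1 q.2.1) q.2.2)
      ((volume.restrict (Ioc 0 T)).prod volume) := by
    intro T
    refine ⟨mR.aestronglyMeasurable, ?_⟩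
    have hsub : Ioc (0 : ℝ) T ×ˢ (univ : Set (T3 × V)) ⊆ Icc 0 T ×ˢ univ :=
      Set.prod_mono Ioc_subset_Icc_self (Subset.refl _)
    have hg1 := lt_of_le_of_lt (lintegral_mono_set hsub) (hg T)
    have hl1 := lt_of_le_of_lt (lintegral_mono_set hsub) (hl T)
    rw [restrict_prod_univ] at hg1 hl1
    have hgm : Measurable fun p : ℝ × T3 × V =>
        gain (F p.1 p.2.1) p.2.2 / ENNReal.ofReal (1 + F p.1 p.2.1 p.2.2 / Maxw p.2.2) :=
      (measurable_gain_st h.measurable).div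
        (measurable_const.add (h.measurable.div hM)).ennreal_ofReal
    refine lt_of_le_of_lt (lintegral_mono fun q => ?_)
      (show ∫⁻ q : ℝ × T3 × V, ENNReal.ofReal C *
        (gain (F q.1 q.2.1) q.2.2 / ENNReal.ofReal (1 + F q.1 q.2.1 q.2.2 / Maxw q.2.2)
        + loss (F q.1 q.2.1) q.2.2 / ENNReal.ofReal (1 + F q.1 q.2.1 q.2.2 / Maxw q.2.2))
          ∂((volume.restrict (Ioc 0 T)).prod volume) < ⊤ by
        rw [lintegral_const_mul' _ _ ENNReal.ofReal_ne_top, lintegral_add_left hgm]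
        exact ENNReal.mul_lt_top ENNReal.ofReal_lt_top (ENNReal.add_lt_top.mpr ⟨hg1, hl1⟩))
    have hpos : 0 < 1 + F q.1 q.2.1 q.2.2 / Maxw q.2.2 := by
      have := pF q.1 q.2.1 q.2.2
      linarith
    have h3 : ‖derivWithin β (Ici 0) (F q.1 q.2.1 q.2.2 / Maxw q.2.2)‖ₑ ≤
        ENNReal.ofReal C * (ENNReal.ofReal (1 + F q.1 q.2.1 q.2.2 / Maxw q.2.2))⁻¹ := by
      rw [← ENNReal.ofReal_inv_of_pos hpos, ← ENNReal.ofReal_mul hC0, ← ofReal_norm,
        Real.norm_eq_abs, ← div_eq_mul_inv]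
      exact ENNReal.ofReal_le_ofReal (hC _ (pF _ _ _))
    have h4 : ‖coll (F q.1 q.2.1) q.2.2‖ₑ ≤ gain (F q.1 q.2.1) q.2.2 + loss (F q.1 q.2.1) q.2.2 := by
      unfold coll
      refine (enorm_sub_le).trans ?_
      apply add_le_add
      · rw [Real.enorm_eq_ofReal ENNReal.toReal_nonneg]
        exact ENNReal.ofReal_toReal_le
      · rw [Real.enorm_eq_ofReal ENNReal.toReal_nonneg]
        exact ENNReal.ofReal_toReal_le
    rw [← ENNReal.add_div, enorm_mul, ENNReal.div_eq_inv_mul, ← mul_assoc]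
    exact mul_le_mul' h3 h4
  refine weakTransport_of_mild mU mR mU0 iU0 iU iR ?_
  filter_upwards [h.gain_fin, h.loss_fin, h.mild] with p hgp hlp hmp
  intro t ht
  have hpm : Measurable fun s : ℝ => ((s, p) : ℝ × T3 × V) := by fun_prop
  have mg : Measurable fun s => gainA F (s, p) := (measurable_gainA h.measurable).comp hpm
  have ml : Measurable fun s => lossA F (s, p) := (measurable_lossA h.measurable).comp hpm
  have hMp := Maxw_pos p.2
  set r : ℝ → ℝ := fun s => ((gainA F (s, p)).toReal - (lossA F (s, p)).toReal) / Maxw p.2 with hr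
  have hri : IntervalIntegrable r volume 0 t := by
    rw [intervalIntegrable_iff_integrableOn_Ioc_of_le ht]
    apply Integrable.div_const
    exact (integrable_toReal_of_lintegral_ne_top mg.aemeasurable (hgp t).ne).sub
      (integrable_toReal_of_lintegral_ne_top ml.aemeasurable (hlp t).ne)
  have hval : ∀ s, 0 ≤ s → F0 p.1 p.2 / Maxw p.2 + ∫ s' in (0:ℝ)..s, r s' =
      along F (s, p) / Maxw p.2 := by
    intro s hs
    rw [hmp s hs, intervalIntegral.integral_of_le hs, hr, integral_div, add_div]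
  have hch := s4_chain (c := F0 p.1 p.2 / Maxw p.2) ht hri hβ (fun s hs => by
    rw [hval s hs.1]
    exact div_nonneg (h.nonneg _ _ _) hMp.le)
  rw [hval t ht, intervalIntegral.integral_of_le ht] at hch
  change Maxw p.2 * β (along F (t, p) / Maxw p.2) = Maxw p.2 * β (F0 p.1 p.2 / Maxw p.2) +
    ∫ s in Ioc 0 t, derivWithin β (Ici 0) (along F (s, p) / Maxw p.2) *
      ((gainA F (s, p)).toReal - (lossA F (s, p)).toReal)
  rw [hch, mul_add, ← integral_const_mul]
  congr 1
  apply setIntegral_congr_fun measurableSet_Ioc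
  intro s hs
  simp only
  rw [hval s hs.1.le, hr]
  field_simp

end Vale.Agent.P140.DL
end
end

namespace Vale.Agent.P140.Sc
open MeasureTheory ENNReal Vale.Agent.P140 Vale.Agent.P140.DL
theorem a34 : SFinite mV := inferInstance
theorem a42 : SFinite nuE := inferInstance
theorem a35 : SFinite muM := inferInstance
theorem a36 : SFinite zet := inferInstance
attribute [local instance 5000] a34 a35 a36
theorem a37 : SFinite (mV.prod surf) := inferInstance
theorem a38 : SFinite (mV.prod (mV.prod surf)) := inferInstance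
theorem a39 : SFinite (mV.prod mV) := inferInstance
theorem a40 : SFinite (zet.prod mV) := inferInstance
end Vale.Agent.P140.Sc
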