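import Vale.Agent.P140.MathlibUsed
import Vale.Agent.P140.Bd3.B1
import Vale.Agent.P140.Bd3.B3
import Vale.Agent.P140.Bd3.B4

set_option linter.all false

attribute [local instance 5000] Vale.Agent.P140.Sc.a01 Vale.Agent.P140.Sc.a02 Vale.Agent.P140.Sc.a03 Vale.Agent.P140.Sc.a04 Vale.Agent.P140.Sc.a05 Vale.Agent.P140.Sc.a06 Vale.Agent.P140.Sc.a07 Vale.Agent.P140.Sc.a08 Vale.Agent.P140.Sc.a09 Vale.Agent.P140.Sc.a10 Vale.Agent.P140.Sc.a11 Vale.Agent.P140.Sc.a12 Vale.Agent.P140.Sc.a13 Vale.Agent.P140.Sc.a14 Vale.Agent.P140.Sc.a15 Vale.Agent.P140.Sc.a16 Vale.Agent.P140.Sc.a17 Vale.Agent.P140.Sc.a18 Vale.Agent.P140.Sc.a19 Vale.Agent.P140.Sc.a20 Vale.Agent.P140.Sc.a21 Vale.Agent.P140.Sc.a22 Vale.Agent.P140.Sc.a23 Vale.Agent.P140.Sc.a24 Vale.Agent.P140.Sc.a25 Vale.Agent.P140.Sc.a26 Vale.Agent.P140.Sc.a27 Vale.Agent.P140.Sc.a28 Vale.Agent.P140.Sc.a29 Vale.Agent.P140.Sc.a30 Vale.Agent.P140.Sc.a31 Vale.Agent.P140.Sc.a32 Vale.Agent.P140.Sc.a33 Vale.Agent.P140.Sc.r01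 Vale.Agent.P140.Sc.r02 Vale.Agent.P140.Sc.r03 Vale.Agent.P140.Sc.r04 Vale.Agent.P140.Sc.r05 Vale.Agent.P140.Sc.r06 Vale.Agent.P140.Sc.r07 Vale.Agent.P140.Sc.r08 Vale.Agent.P140.Sc.r09 Vale.Agent.P140.Sc.r10 Vale.Agent.P140.Sc.r11 Vale.Agent.P140.Sc.r12 Vale.Agent.P140.Sc.r13 Vale.Agent.P140.Sc.r14 Vale.Agent.P140.Sc.r15 Vale.Agent.P140.Sc.r16 Vale.Agent.P140.Sc.r17 Vale.Agent.P140.Sc.r18

section

/-!
P140, non-uniqueness, module M (medium): geometry near the line.
-/

open MeasureTheory Set Filter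
open scoped ENNReal Topology

noncomputable section

namespace Vale.Agent.P140.NU.Med

theorem rep_mem' (x : T3) (i : Fin 3) : rep x i ∈ Ico (-1 / 2 : ℝ) (-1 / 2 + 1) :=
  (AddCircle.equivIco (1 : ℝ) (-1 / 2) (x i)).2

theorem rep_mem (x : T3) (i : Fin 3) : rep x i ∈ Ico (-1 / 2 : ℝ) (1 / 2) := by
  obtain ⟨h1, h2⟩ := rep_mem' x i
  exact ⟨h1, by linarith only [h2]⟩

theorem coe_rep (x : T3) (i : Fin 3) : ((rep x i : ℝ) : UnitAddCircle) = x i :=
  AddCircle.coe_equivIco

theorem abs_rep_le (x : T3) (i : Fin 3) : |rep x i| ≤ 1 / 2 := by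
  have h := rep_mem x i
  rw [abs_le]
  constructor
  · have := h.1; linarith only [this]
  · exact h.2.le

theorem norm_coe_of_le {a : ℝ} (h : |a| ≤ 1 / 2) : ‖(a : UnitAddCircle)‖ = |a| :=
  (AddCircle.norm_coe_eq_abs_iff (p := (1 : ℝ)) one_ne_zero).2 (by simpa only [abs_one, one_div] using h)

theorem norm_eq_abs_rep (x : T3) (i : Fin 3) : ‖x i‖ = |rep x i| := by
  have h := norm_coe_of_le (abs_rep_le x i)
  rwa [coe_rep x i] at h

theorem rep_eq_of_coe {x : T3} {i : Fin 3} {a : ℝ} (h : (a : UnitAddCircle) = x i)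
    (ha : |a| < 1 / 2) : rep x i = a := by
  have h3 : a ∈ Ico (-1 / 2 : ℝ) (-1 / 2 + 1) := by
    rw [abs_lt] at ha
    exact ⟨by linarith only [ha], by linarith only [ha]⟩
  exact (AddCircle.coe_eq_coe_iff_of_mem_Ico (rep_mem' x i) h3).1 ((coe_rep x i).trans h.symm)

theorem rep_mv {x : T3} {v : V} {t : ℝ} {i : Fin 3} (h : |rep x i + t * v i| < 1 / 2) :
    rep (mv x v t) i = rep x i + t * v i := by
  apply rep_eq_of_coe _ h
  unfold mv toTorus
  simp only [Pi.add_apply, PiLp.smul_apply, smul_eq_mul]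
  rw [← coe_rep x i]
  rfl

theorem rr_sq (x : T3) : rr x ^ 2 = rep x 0 ^ 2 + rep x 1 ^ 2 := by
  unfold rr
  rw [Real.sq_sqrt (by (clear * -; positivity)), norm_eq_abs_rep, norm_eq_abs_rep, sq_abs, sq_abs]

theorem rr_nonneg (x : T3) : 0 ≤ rr x := Real.sqrt_nonneg _

theorem abs_rep0_le (x : T3) : |rep x 0| ≤ rr x := by
  apply abs_le_of_sq_le_sq _ (rr_nonneg x)
  rw [rr_sq]; linarith only [sq_nonneg (rep x 1)]

theorem abs_rep1_le (x : T3) : |rep x 1| ≤ rr x := by
  apply abs_le_of_sq_le_sq _ (rr_nonneg x)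
  rw [rr_sq]; (clear * -; linarith only [sq_nonneg (rep x 0)])

theorem vp_sq (v : V) : vp v ^ 2 = v 0 ^ 2 + v 1 ^ 2 := by
  unfold vp; rw [Real.sq_sqrt (by positivity)]

theorem vp_nonneg (v : V) : 0 ≤ vp v := Real.sqrt_nonneg _

theorem abs_v0_le (v : V) : |v 0| ≤ vp v := by
  apply abs_le_of_sq_le_sq _ (vp_nonneg v)
  rw [vp_sq]; linarith only [sq_nonneg (v 1)]

theorem abs_v1_le (v : V) : |v 1| ≤ vp v := by
  apply abs_le_of_sq_le_sq _ (vp_nonneg v)
  rw [vp_sq]; (by_contra nlg; linarith only [nlg, mul_pos (sub_pos.2 (not_le.1 nlg)) (sub_pos.2 (not_le.1 nlg)), mul_nonneg (sq_nonneg (v.ofLp 0 : (fun x => ℝ) 0)) (le_of_lt (sub_pos.2 (not_le.1 nlg)))])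

/-- scalar product `x ⬝ v` (horizontal parts) -/
def dd (x : T3) (v : V) : ℝ := rep x 0 * v 0 + rep x 1 * v 1

theorem dotE_eq (x : T3) (v : V) : dotE x v = dd x v / rr x := rfl

theorem dd_sq (x : T3) (v : V) : dd x v ^ 2 + crossE x v ^ 2 = rr x ^ 2 * vp v ^ 2 := by
  rw [rr_sq, vp_sq]; unfold dd crossE; ring

/-- near the line the representative moves linearly -/
theorem rep_mv_of {x : T3} {v : V} {t : ℝ} (h : rr x + |t| * vp v < 1 / 2) :
    rep (mv x v t) 0 = rep x 0 + t * v 0 ∧ rep (mv x v t) 1 = rep x 1 + t * v 1 := by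
  constructor
  · apply rep_mv
    calc |rep x 0 + t * v 0| ≤ |rep x 0| + |t * v 0| := abs_add_le _ _
      _ ≤ rr x + |t| * vp v := by
          rw [abs_mul]
          exact add_le_add (abs_rep0_le x) (mul_le_mul_of_nonneg_left (abs_v0_le v) (abs_nonneg _))
      _ < 1 / 2 := h
  · apply rep_mv
    calc |rep x 1 + t * v 1| ≤ |rep x 1| + |t * v 1| := abs_add_le _ _
      _ ≤ rr x + |t| * vp v := by
          rw [abs_mul]
          exact add_le_add (abs_rep1_le x) (mul_le_mul_of_nonneg_left (abs_v1_le v) (abs_nonneg _))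
      _ < 1 / 2 := h

theorem dd_mv {x : T3} {v : V} {t : ℝ} (h : rr x + |t| * vp v < 1 / 2) :
    dd (mv x v t) v = dd x v + t * vp v ^ 2 := by
  obtain ⟨h0, h1⟩ := rep_mv_of h
  unfold dd; rw [h0, h1, vp_sq]; ring

theorem crossE_mv {x : T3} {v : V} {t : ℝ} (h : rr x + |t| * vp v < 1 / 2) :
    crossE (mv x v t) v = crossE x v := by
  obtain ⟨h0, h1⟩ := rep_mv_of h
  unfold crossE; rw [h0, h1]; ring

theorem rr_mv_sq {x : T3} {v : V} {t : ℝ} (h : rr x + |t| * vp v < 1 / 2) :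
    rr (mv x v t) ^ 2 = rr x ^ 2 + 2 * t * dd x v + t ^ 2 * vp v ^ 2 := by
  obtain ⟨h0, h1⟩ := rep_mv_of h
  rw [rr_sq, h0, h1, rr_sq, vp_sq]; unfold dd; ring

theorem mv_mv (x : T3) (v : V) (s t : ℝ) : mv (mv x v s) v t = mv x v (s + t) := by
  unfold mv
  rw [add_smul, toTorus_add, add_assoc]

theorem mv_zero (x : T3) (v : V) : mv x v 0 = x := by
  unfold mv; simp [toTorus_zero]

theorem mv_neg_mv (x : T3) (v : V) (t : ℝ) : mv (mv x v (-t)) v t = x := by
  rw [mv_mv]; simp [mv_zero]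

end Vale.Agent.P140.NU.Med
end
end

section

/-!
P140, non-uniqueness, module M (medium): parameters and support of the free flow.
-/

open MeasureTheory Set Filter
open scoped ENNReal Topology

noncomputable section

namespace Vale.Agent.P140.NU.Med

/-- the conditions on the parameters used in the medium module -/
structure Good (P : Par) : Prop where
  hc : 1 ≤ P.c
  l0 : 9 / 10 < P.lam
  l1 : P.lam < 1
  k0 : 0 < P.kdel
  kw : P.kdel ≤ P.w / 10000
  k1 : P.lam ^ (-(gg / 2)) + P.kdel ≤ P.lam ^ (-gg)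
  k2 : P.lam ^ gg + P.kdel ≤ P.lam ^ (gg / 2)
  k3 : P.lam ^ (-gg) + 3 * P.kdel ≤ P.lam ^ (-(2 * gg))
  k4 : P.lam ^ (2 * gg) + P.kdel ≤ P.lam ^ gg
  hj0 : P.lam ^ P.j0 ≤ 1 / 64

theorem EvP.mono {φ ψ : Par → Prop} (h : EvP φ) (hi : ∀ P, φ P → ψ P) : EvP ψ := by
  unfold EvP at *
  refine h.mono fun c h1 => h1.mono fun l h2 => h2.mono fun K h3 => h3.mono fun k h4 j0 hj => ?_
  exact hi _ (h4 j0 hj)

theorem good_ev : EvP Good := by
  unfold EvP
  filter_upwards [eventually_ge_atTop (1 : ℝ)] with c hc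
  have hl : ∀ᶠ lam in 𝓝[<] (1 : ℝ), lam ∈ Ioo (9 / 10 : ℝ) 1 :=
    Ioo_mem_nhdsLT (by norm_num)
  filter_upwards [hl] with lam hlam
  refine Eventually.of_forall fun K => ?_
  have hl0 : 0 < lam := by have := hlam.1; linarith only [this]
  have hl1 := hlam.2
  have e1 : lam ^ (-(gg / 2)) < lam ^ (-gg) :=
    Real.rpow_lt_rpow_of_exponent_gt hl0 hl1 (by unfold gg; norm_num)
  have e2 : lam ^ gg < lam ^ (gg / 2) :=
    Real.rpow_lt_rpow_of_exponent_gt hl0 hl1 (by unfold gg; norm_num)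
  have e3 : lam ^ (-gg) < lam ^ (-(2 * gg)) :=
    Real.rpow_lt_rpow_of_exponent_gt hl0 hl1 (by unfold gg; norm_num)
  have e4 : lam ^ (2 * gg) < lam ^ gg :=
    Real.rpow_lt_rpow_of_exponent_gt hl0 hl1 (by unfold gg; norm_num)
  set m : ℝ := min (1 / (10 ^ 20 * c ^ 2) / 10000) (min (lam ^ (-gg) - lam ^ (-(gg / 2)))
    (min (lam ^ (gg / 2) - lam ^ gg) (min ((lam ^ (-(2 * gg)) - lam ^ (-gg)) / 3)
      (lam ^ gg - lam ^ (2 * gg))))) with hm
  have hm0 : 0 < m := by
    rw [hm]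
    refine lt_min (by (clear * - hc; positivity)) (lt_min (by linarith only [e1]) (lt_min (by linarith only [e2])
      (lt_min (by linarith only [e3]) (by linarith only [e4]))))
  have hk : ∀ᶠ k in 𝓝[>] (0 : ℝ), k ∈ Ioc 0 m := Ioc_mem_nhdsGT hm0
  filter_upwards [hk] with k hk j0 hj0
  have h0 := hk.2
  rw [hm] at h0
  simp only [le_min_iff] at h0
  obtain ⟨a1, a2, a3, a4, a5⟩ := h0
  exact
    { hc := hc
      l0 := hlam.1
      l1 := hl1
      k0 := hk.1
      kw := a1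
      k1 := by change lam ^ (-(gg / 2)) + k ≤ lam ^ (-gg); linarith only [a2]
      k2 := by change lam ^ gg + k ≤ lam ^ (gg / 2); linarith only [a3]
      k3 := by change lam ^ (-gg) + 3 * k ≤ lam ^ (-(2 * gg)); linarith only [a4]
      k4 := by change lam ^ (2 * gg) + k ≤ lam ^ gg; linarith only [a5]
      hj0 := hj0 }

namespace Good

variable {P : Par} (h : Good P)
include h

theorem lpos : 0 < P.lam := by have := h.l0; linarith

theorem w_pos : 0 < P.w := by
  have := h.hc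
  unfold Par.w; (clear * - this; positivity)

theorem w_le : P.w ≤ 1 / 10 ^ 20 := by
  have := h.hc
  unfold Par.w
  apply div_le_div_of_nonneg_left (by norm_num) (by (clear * -; norm_num))
  nlinarith only [this]

theorem kdel_le : P.kdel ≤ 1 / 10 ^ 24 := by
  have := h.kw
  have := h.w_le
  calc P.kdel ≤ P.w / 10000 := h.kw
    _ ≤ (1 / 10 ^ 20) / 10000 := by (clear * - this; gcongr)
    _ = 1 / 10 ^ 24 := by norm_num

theorem del_pos (j : ℕ) : 0 < P.del j := by
  have := h.lpos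
  have := h.k0
  unfold Par.del; positivity

theorem lamj_le_one (j : ℕ) : P.lam ^ j ≤ 1 := pow_le_one₀ h.lpos.le h.l1.le

theorem del_le_mul (j : ℕ) : P.del j ≤ P.kdel * P.lam ^ j := by
  unfold Par.del
  apply mul_le_mul_of_nonneg_left _ h.k0.le
  apply pow_le_of_le_one (pow_nonneg h.lpos.le _) (h.lamj_le_one j)
  unfold Par.Q; omega

theorem del_le (j : ℕ) : P.del j ≤ P.kdel :=
  (h.del_le_mul j).trans (mul_le_of_le_one_right h.k0.le (h.lamj_le_one j))

theorem imp_pos (j : ℕ) : 0 < P.imp j := by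
  have := h.lpos
  have := h.del_pos j
  unfold Par.imp; positivity

theorem amp_pos (j : ℕ) : 0 < P.amp j := by
  have := h.imp_pos j
  have := h.del_pos j
  have := h.w_pos
  have := h.hc
  unfold Par.amp; positivity

theorem cell_le {γ : ℝ} {j : ℕ} {r : ℝ} (hγ : 0 ≤ γ) (hr : r ∈ P.cell γ j) : r ≤ P.lam ^ j := by
  refine hr.2.trans ?_
  rw [← Real.rpow_natCast]
  exact Real.rpow_le_rpow_of_exponent_ge h.lpos h.l1.le (by linarith)

theorem le_cell {γ : ℝ} {j : ℕ} {r : ℝ} (hγ : 0 ≤ γ) (hr : r ∈ P.cell γ j) :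
    P.lam ^ (j + 1) ≤ r := by
  refine le_trans ?_ hr.1
  rw [← Real.rpow_natCast]
  push_cast
  exact Real.rpow_le_rpow_of_exponent_ge h.lpos h.l1.le (by linarith)

theorem cell_pos {γ : ℝ} {j : ℕ} {r : ℝ} (hr : r ∈ P.cell γ j) : 0 < r :=
  lt_of_lt_of_le (Real.rpow_pos_of_pos h.lpos _) hr.1

theorem cell_unique {γ : ℝ} {i j : ℕ} {r : ℝ} (hγ : 0 < γ) (hi : r ∈ P.cell γ i)
    (hj : r ∈ P.cell γ j) : i = j := by
  have key : ∀ i j : ℕ, r ∈ P.cell γ i → r ∈ P.cell γ j → j ≤ i := by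
    intro i j hi hj
    have h1 : P.lam ^ ((i : ℝ) + 1 - γ) ≤ P.lam ^ ((j : ℝ) + γ) := hi.1.trans hj.2
    have h2 : (j : ℝ) + γ ≤ (i : ℝ) + 1 - γ := by
      by_contra hcon
      push Not at hcon
      exact absurd h1 (not_le.2 (Real.rpow_lt_rpow_of_exponent_gt h.lpos h.l1 hcon))
    have h3 : (j : ℝ) < i + 1 := by linarith only [hγ, h2]
    have : j < i + 1 := by exact_mod_cast h3
    omega
  exact le_antisymm (key j i hj hi) (key i j hi hj)

theorem lamj_le_of_le {j : ℕ} (hj : P.j0 ≤ j) : P.lam ^ j ≤ 1 / 64 :=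
  (pow_le_pow_of_le_one h.lpos.le h.l1.le hj).trans h.hj0

end Good

/-- lower and upper bounds of the distance along a flight -/
theorem flight_bounds {r0 u D0 C t w δ p r : ℝ} (hr0 : 0 < r0) (hw : 0 < w) (hwu : w ≤ u)
    (hu : u ≤ w + δ) (hC : |C| ≤ p * u) (hD : 0 < D0) (hDC : D0 ^ 2 + C ^ 2 = r0 ^ 2 * u ^ 2)
    (hr : 0 ≤ r) (hr2 : r ^ 2 = r0 ^ 2 + 2 * t * D0 + t ^ 2 * u ^ 2) (ht : 0 ≤ t) (hp : 0 ≤ p)
    (hpr : p ≤ r0) : r0 - p ≤ r - t * w ∧ r - t * w ≤ r0 + t * δ := by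
  have hu0 : 0 < u := by linarith only [hw, hwu]
  have hC2 : C ^ 2 ≤ (p * u) ^ 2 := sq_le_sq' (by have := neg_abs_le C; linarith only [hC, this]) ((le_abs_self C).trans hC)
  constructor
  · have h1 : u * (r0 - p) ≤ D0 := by
      apply le_of_sq_le_sq _ hD.le
      linarith only [mul_nonneg (mul_nonneg hp hu0.le) (mul_nonneg (sub_nonneg.2 hpr) hu0.le), hC2, hDC]
    have h2 : r0 - p + t * u ≤ r := by
      apply le_of_sq_le_sq _ hr
      linarith only [mul_nonneg (sub_nonneg.2 hp) (sub_nonneg.2 hpr), mul_nonneg (sub_nonneg.2 hp) (sub_nonneg.2 hp), mul_nonneg (sub_nonneg.2 h1) (sub_nonneg.2 ht), hr2]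
    linarith only [mul_nonneg (sub_nonneg.2 hwu) (sub_nonneg.2 ht), h2]
  · have h1 : D0 ≤ r0 * u := by
      apply le_of_sq_le_sq _ (by positivity)
      (by_contra nlg; linarith only [nlg, mul_eq_zero_of_left (sub_eq_zero.2 hDC) (D0 ^ 2 - ((r0 * u) ^ 2)), mul_pos (sub_pos.2 (not_le.1 nlg)) (sub_pos.2 (not_le.1 nlg)), mul_nonneg (sq_nonneg (C : ℝ)) (le_of_lt (sub_pos.2 (not_le.1 nlg)))])
    have h2 : r ≤ r0 + t * u := by
      apply le_of_sq_le_sq _ (by (clear * - hr0 ht hu0; positivity))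
      linarith only [mul_nonneg (sub_nonneg.2 h1) (sub_nonneg.2 ht), hr2]
    nlinarith only [h2, hu, ht]

/-- distance to the cold velocity -/
theorem SS_bound {r u D C w δ p z : ℝ} (hr : 0 < r) (hw : 0 < w) (hw1 : w ≤ 1 / 4)
    (hwu : w ≤ u) (hu : u ≤ w + δ) (hδ : 0 ≤ δ) (hδ1 : δ ≤ 1 / 4) (hC : |C| ≤ p * u)
    (hD : 0 < D) (hDC : D ^ 2 + C ^ 2 = r ^ 2 * u ^ 2) (hp : 0 ≤ p) (hpr : p ≤ δ * r)
    (hz : |z| ≤ δ) : u ^ 2 + w ^ 2 - 2 * w * (D / r) + z ^ 2 ≤ (2 * δ) ^ 2 := by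
  have hu0 : 0 < u := by linarith only [hw, hwu]
  have hC2 : C ^ 2 ≤ (p * u) ^ 2 := sq_le_sq' (by have := neg_abs_le C; linarith only [hC, this]) ((le_abs_self C).trans hC)
  have hz2 : z ^ 2 ≤ δ ^ 2 := sq_le_sq' (by have := neg_abs_le z; linarith only [hz, this]) ((le_abs_self z).trans hz)
  have hp2 : p ^ 2 ≤ (δ * r) ^ 2 := by (clear * - hp hpr; gcongr)
  have hd2 : δ ^ 2 ≤ 1 / 16 := by nlinarith only [hδ1, hwu, hu]
  have h1 : u * r * (1 - δ ^ 2) ≤ D := by
    apply le_of_sq_le_sq _ hD.le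
    have e1 : (p * u) ^ 2 ≤ (δ * r) ^ 2 * u ^ 2 := by
      rw [mul_pow]; exact mul_le_mul_of_nonneg_right hp2 (sq_nonneg u)
    have e2 : (1 - δ ^ 2) ^ 2 ≤ 1 - δ ^ 2 := by (by_contra nlg; linarith only [nlg, mul_nonneg (le_of_lt (sub_pos.2 (not_le.1 nlg))) (sub_nonneg.2 hd2), mul_nonneg (sq_nonneg (1 * δ : ℝ)) (sq_nonneg (1 - δ ^ 2 : ℝ))])
    have e3 : (u * r * (1 - δ ^ 2)) ^ 2 ≤ (u * r) ^ 2 * (1 - δ ^ 2) := by
      rw [mul_pow]; exact mul_le_mul_of_nonneg_left e2 (sq_nonneg _)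
    linarith
  have h2 : u * (1 - δ ^ 2) ≤ D / r := by
    rw [le_div_iff₀ hr]; linarith only [h1]
  have h3 : (u - w) ^ 2 ≤ δ ^ 2 := sq_le_sq' (by linarith only [hwu, hu]) (by linarith only [hu])
  have h4 : w * u * δ ^ 2 ≤ (1 / 4) * (1 / 2) * δ ^ 2 := by
    apply mul_le_mul_of_nonneg_right _ (sq_nonneg δ)
    nlinarith only [hw1, hw, hu, hδ1]
  (by_contra nlg; linarith only [nlg, mul_nonneg (sub_nonneg.2 h4) (le_of_lt (sub_pos.2 hw)), mul_nonneg (sub_nonneg.2 h3) (le_of_lt (sub_pos.2 hw)), mul_nonneg (sub_nonneg.2 hz2) (le_of_lt (sub_pos.2 hw)), mul_pos (sub_pos.2 (not_le.1 nlg)) (sub_pos.2 hw), mul_nonneg (sq_nonneg (1 * z : ℝ)) (le_of_lt (sub_pos.2 hw)), mul_nonneg (sq_nonneg (1 * w : ℝ)) (sub_nonneg.2 h2)])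

end Vale.Agent.P140.NU.Med
end
end

section

/-!
P140, non-uniqueness, module M (medium): support of the free flow of the cold gas.
-/

open MeasureTheory Set Filter
open scoped ENNReal Topology

noncomputable section

namespace Vale.Agent.P140.NU.Med

variable {P : Par}

theorem coldj_ne_zero {j : ℕ} {x : T3} {v : V} (hne : coldj P j x v ≠ 0) :
    rr x ∈ P.cell gg j ∧ v ∈ Box P j x := by
  unfold coldj at hne
  by_contra hcon
  rw [if_neg hcon] at hne
  exact hne rfl

theorem coldj_of_mem {j : ℕ} {x : T3} {v : V} (h1 : rr x ∈ P.cell gg j) (h2 : v ∈ Box P j x) :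
    coldj P j x v = P.amp j := by
  unfold coldj; rw [if_pos ⟨h1, h2⟩]

theorem gg_pos : 0 < gg := by unfold gg; norm_num

theorem coldn_of_mem (h : Good P) {n j : ℕ} {x : T3} {v : V} (hj : j ∈ Finset.Icc P.j0 n)
    (h1 : rr x ∈ P.cell gg j) (h2 : v ∈ Box P j x) : coldn P n x v = P.amp j := by
  unfold coldn
  rw [Finset.sum_eq_single j]
  · exact coldj_of_mem h1 h2
  · intro i _ hij
    by_contra hne
    exact hij (h.cell_unique gg_pos (coldj_ne_zero hne).1 h1)
  · intro hcon; exact absurd hj hcon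

theorem coldn_ne_zero {n : ℕ} {x : T3} {v : V} (hne : coldn P n x v ≠ 0) :
    ∃ j ∈ Finset.Icc P.j0 n, rr x ∈ P.cell gg j ∧ v ∈ Box P j x := by
  obtain ⟨j, hj, hne⟩ := Finset.exists_ne_zero_of_sum_ne_zero hne
  exact ⟨j, hj, coldj_ne_zero hne⟩

theorem vp_le_one (h : Good P) {j : ℕ} {x : T3} {v : V} (hv : v ∈ Box P j x) : vp v ≤ 1 := by
  have h1 := hv.2.1
  have h2 := h.w_le
  have h3 := h.del_le j
  have h4 := h.kdel_le
  norm_num at h2 h4
  linarith

theorem dotE_pos_iff {x : T3} {v : V} (hr : 0 < rr x) : 0 < dotE x v ↔ 0 < dd x v := by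
  rw [dotE_eq]
  constructor
  · intro h
    have := mul_pos h hr
    rwa [div_mul_cancel₀ _ hr.ne'] at this
  · intro h; exact div_pos h hr

theorem imp_le (h : Good P) (j : ℕ) : P.imp j ≤ P.kdel * P.lam ^ (j + 1) := by
  unfold Par.imp
  exact mul_le_mul_of_nonneg_right (h.del_le j) (pow_nonneg h.lpos.le _)

theorem imp_le_lam (h : Good P) (j : ℕ) : P.imp j ≤ P.lam ^ (j + 1) := by
  refine (imp_le h j).trans ?_
  have h1 := h.kdel_le
  have h2 := pow_nonneg h.lpos.le (j + 1)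
  norm_num at h1
  linarith only [mul_nonneg (sub_nonneg.2 h2) (sub_nonneg.2 h1), mul_nonneg (mul_self_nonneg (1 : ℝ)) (sub_nonneg.2 h2)]

theorem rpow_add_one_sub (h : Good P) (j : ℕ) (γ : ℝ) :
    P.lam ^ ((j : ℝ) + 1 - γ) = P.lam ^ (j + 1) * P.lam ^ (-γ) := by
  rw [sub_eq_add_neg, Real.rpow_add h.lpos]
  congr 1
  rw [← Real.rpow_natCast]; push_cast; rfl

theorem rpow_add_gam (h : Good P) (j : ℕ) (γ : ℝ) :
    P.lam ^ ((j : ℝ) + γ) = P.lam ^ j * P.lam ^ γ := by
  rw [Real.rpow_add h.lpos, Real.rpow_natCast]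

/-- **(M1)** support of the free flow -/
theorem flow_support (h : Good P) {t : ℝ} (ht : 0 ≤ t) (ht1 : t ≤ 1 / 10) {n : ℕ} {x : T3} {v : V}
    (hne : coldn P n (mv x v (-t)) v ≠ 0) :
    ∃ j ∈ Finset.Icc P.j0 n, rr (mv x v (-t)) ∈ P.cell gg j ∧ v ∈ Box P j (mv x v (-t)) ∧
      rr x - P.w * t ∈ P.cell (gg / 2) j ∧ v ∈ Box P j x ∧
      √(SS P (sg j) x v) ≤ 4 * P.del j := by
  obtain ⟨j, hj, hc, hb⟩ := coldn_ne_zero hne
  refine ⟨j, hj, hc, hb, ?_⟩
  set y := mv x v (-t) with hy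
  have hxy : x = mv y v t := (mv_neg_mv x v t).symm
  have hvp1 := vp_le_one h hb
  have hj0 : P.j0 ≤ j := (Finset.mem_Icc.1 hj).1
  have hry1 : rr y ≤ 1 / 64 := (h.cell_le gg_pos.le hc).trans (h.lamj_le_of_le hj0)
  have hry0 : 0 < rr y := h.cell_pos hc
  have hnear : rr y + |t| * vp v < 1 / 2 := by
    rw [abs_of_nonneg ht]
    nlinarith only [ht1, hry1, ht, hvp1]
  obtain ⟨hb1, hb2, hb3, hb4, hb5⟩ := hb
  have hD0 : 0 < dd y v := (dotE_pos_iff hry0).1 hb4
  have hlam1 : P.lam ^ (j + 1) ≤ rr y := h.le_cell gg_pos.le hc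
  have himp0 := (h.imp_pos j).le
  have hrx2 : rr x ^ 2 = rr y ^ 2 + 2 * t * dd y v + t ^ 2 * vp v ^ 2 := by
    rw [hxy]; exact rr_mv_sq hnear
  obtain ⟨f1, f2⟩ := flight_bounds hry0 h.w_pos hb1 hb2 hb3 hD0 (dd_sq y v) (rr_nonneg x) hrx2 ht
    himp0 ((imp_le_lam h j).trans hlam1)
  have hlj : 0 ≤ P.lam ^ (j + 1) := pow_nonneg h.lpos.le _
  have hlj' : 0 ≤ P.lam ^ j := pow_nonneg h.lpos.le _
  have hcell : rr x - P.w * t ∈ P.cell (gg / 2) j := by
    constructor
    · refine le_trans ?_ (f1.trans (by linarith only []))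
      have e1 := hc.1
      rw [rpow_add_one_sub h] at e1 ⊢
      have e2 := imp_le h j
      (clear * - e1 e2 h hlj; linarith only [mul_le_mul_of_nonneg_left h.k1 hlj, e2, e1])
    · refine le_trans (by linarith only []) (f2.trans ?_)
      have e1 := hc.2
      rw [rpow_add_gam h] at e1 ⊢
      have e2 := h.del_le_mul j
      have e3 : t * P.del j ≤ P.kdel * P.lam ^ j := by
        have := (h.del_pos j).le
        nlinarith only [hb1, hb2, e2, ht1]
      nlinarith only [e1, e3, mul_le_mul_of_nonneg_left h.k2 hlj']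
  have hrx0 : 0 < rr x := by
    have := h.cell_pos hcell
    have := h.w_pos
    (clear n hj hne hy hxy hvp1 hj0 hry1 hry0 hnear hb3 hb4 hb5 hD0 hlam1 himp0 hrx2; nlinarith)
  have hddx : dd x v = dd y v + t * vp v ^ 2 := by
    rw [hxy]; exact dd_mv hnear
  have hcrx : crossE x v = crossE y v := by
    rw [hxy]; exact crossE_mv hnear
  have hDx : 0 < dd x v := by rw [hddx]; (clear * - hD0 ht; positivity)
  refine ⟨hcell, ⟨hb1, hb2, by rw [hcrx]; exact hb3, (dotE_pos_iff hrx0).2 hDx, hb5⟩, ?_⟩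
  have hδ0 := (h.del_pos j).le
  have hδ1 : P.del j ≤ 1 / 4 := by
    have := h.del_le j
    have h4 := h.kdel_le
    norm_num at h4
    linarith only [this, h4]
  have hw1 : P.w ≤ 1 / 4 := by have := h.w_le; norm_num at this; linarith only [this]
  have hrx1 : P.lam ^ (j + 1) ≤ rr x := by
    have := h.le_cell (by have := gg_pos; linarith only [this]) hcell
    have := h.w_pos
    (clear n hj hne hy hxy hvp1 hj0 hry1 hry0 hnear hb3 hb4 hb5 hD0 hlam1 himp0 hrx2 hrx0 hddx hcrx hDx hδ0 hδ1 hw1; nlinarith)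
  have key := SS_bound (z := v 2 - sg j) hrx0 h.w_pos hw1 hb1 hb2 hδ0 hδ1 (by rw [hcrx]; exact hb3)
    hDx (dd_sq x v) himp0 (p := P.imp j) (by
      unfold Par.imp; exact mul_le_mul_of_nonneg_left hrx1 hδ0) hb5
  have hSS : SS P (sg j) x v ≤ (2 * P.del j) ^ 2 := by
    unfold SS; rw [dotE_eq]; exact key
  calc √(SS P (sg j) x v) ≤ √((2 * P.del j) ^ 2) := Real.sqrt_le_sqrt hSS
    _ = 2 * P.del j := Real.sqrt_sq (by linarith only [hb1, hb2])
    _ ≤ 4 * P.del j := by linarith only [hb1, hb2]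

theorem back_bounds {r u D C t w δ p r0 : ℝ} (hw : 0 < w) (hwu : w ≤ u)
    (hu : u ≤ w + δ) (hC : |C| ≤ p * u) (hD : 0 < D) (hDC : D ^ 2 + C ^ 2 = r ^ 2 * u ^ 2)
    (hr : 0 ≤ r) (hr0 : 0 ≤ r0) (hr2 : r0 ^ 2 = r ^ 2 - 2 * t * D + t ^ 2 * u ^ 2) (ht : 0 ≤ t)
    (hp : 0 ≤ p) (hpos : 0 < r - t * w - t * δ - p) :
    0 < D - t * u ^ 2 ∧ r - t * w - t * δ - p ≤ r0 ∧ r0 ≤ r - t * w + p := by
  have hu0 : 0 < u := by linarith only [hw, hwu]
  have hC2 : C ^ 2 ≤ (p * u) ^ 2 := sq_le_sq' (by have := neg_abs_le C; linarith only [hC, this]) ((le_abs_self C).trans hC)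
  have htu : t * u ≤ t * w + t * δ := by linarith only [mul_nonneg (sub_nonneg.2 hu) (sub_nonneg.2 ht)]
  have htu0 : t * w ≤ t * u := by nlinarith only [hwu, ht]
  have hδ : 0 ≤ δ := by linarith only [hwu, hu]
  have htδ : 0 ≤ t * δ := mul_nonneg ht hδ
  have htw : 0 ≤ t * w := mul_nonneg ht hw.le
  have hpr : p ≤ r := by linarith only [hpos, htu, htu0, htw]
  have h1 : u * (r - p) ≤ D := by
    apply le_of_sq_le_sq _ hD.le
    linarith only [mul_nonneg (mul_nonneg hp hu0.le) (mul_nonneg (sub_nonneg.2 hpr) hu0.le), hC2, hDC]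
  have h1' : D ≤ r * u := by
    apply le_of_sq_le_sq _ (by (clear * - hr hu0; positivity))
    nlinarith only [hDC]
  have h2 : u * (r - p - t * u) ≤ D - t * u ^ 2 := by nlinarith only [h1]
  have h3 : 0 < u * (r - p - t * u) := mul_pos hu0 (by linarith only [hpos, htu])
  have h4 : (D - t * u ^ 2) ^ 2 + C ^ 2 = r0 ^ 2 * u ^ 2 := by
    rw [hr2]; linarith
  refine ⟨by linarith only [h1, h3], ?_, ?_⟩
  · have h5 : u * (r - p - t * u) ≤ u * r0 := by
      apply le_of_sq_le_sq _ (by (clear * - hu0 hr0; positivity))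
      have : (u * (r - p - t * u)) ^ 2 ≤ (D - t * u ^ 2) ^ 2 := by
        apply pow_le_pow_left₀ h3.le h2
      nlinarith only [h4, this]
    have h6 := le_of_mul_le_mul_left h5 hu0
    linarith only [htu, h6]
  · have h5 : r0 * u ≤ (r - t * u + p) * u := by
      apply le_of_sq_le_sq _ (mul_nonneg (by linarith only [hp, hpos, htu]) hu0.le)
      have e1 : D - t * u ^ 2 ≤ u * (r - t * u) := by nlinarith only [h1']
      have e2 : (D - t * u ^ 2) ^ 2 ≤ (u * (r - t * u)) ^ 2 := by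
        apply pow_le_pow_left₀ (by linarith only [h1, h3]) e1
      have e3 : 0 ≤ (r - t * u) * p * u ^ 2 := by
        apply mul_nonneg (mul_nonneg (by linarith only [hp, hpos, htu]) hp) (sq_nonneg u)
      linarith
    have h6 := le_of_mul_le_mul_right h5 hu0
    linarith only [htu0, h6]

/-- **(M3)**, pointwise form -/
theorem flow_back (h : Good P) {t : ℝ} (ht : 0 ≤ t) (ht1 : t ≤ 1 / 10) {j : ℕ} {x : T3} {v : V}
    (hj0 : P.j0 ≤ j) (hc : rr x - P.w * t ∈ P.cell (2 * gg) j) (hb : v ∈ Box P j x) :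
    rr (mv x v (-t)) ∈ P.cell gg j ∧ v ∈ Box P j (mv x v (-t)) := by
  have hvp1 := vp_le_one h hb
  have hg := gg_pos
  have hrt1 : rr x - P.w * t ≤ 1 / 64 := (h.cell_le (by linarith only [hg]) hc).trans (h.lamj_le_of_le hj0)
  have hrt0 : 0 < rr x - P.w * t := h.cell_pos hc
  have hw0 := h.w_pos
  have hw1 := h.w_le
  norm_num at hw1
  have hrx0 : 0 < rr x := by linarith only [mul_nonneg (sub_nonneg.2 ht) (le_of_lt (sub_pos.2 hw0)), hrt0]
  have hwt : P.w * t ≤ 1 / 10 := by nlinarith only [ht1, hw1, ht]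
  have hnear : rr x + |(-t)| * vp v < 1 / 2 := by
    rw [abs_neg, abs_of_nonneg ht]
    nlinarith only [ht1, hrt1, hwt, ht, hvp1]
  obtain ⟨hb1, hb2, hb3, hb4, hb5⟩ := hb
  have hD0 : 0 < dd x v := (dotE_pos_iff hrx0).1 hb4
  have himp0 := (h.imp_pos j).le
  have hlj : 0 < P.lam ^ (j + 1) := pow_pos h.lpos _
  have hlj' : 0 < P.lam ^ j := pow_pos h.lpos _
  have hδ0 := (h.del_pos j).le
  have e1 := hc.1
  have e1' := hc.2
  rw [rpow_add_one_sub h] at e1
  rw [rpow_add_gam h] at e1'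
  have e2 := imp_le h j
  have e3 : t * P.del j ≤ 2 * P.kdel * P.lam ^ (j + 1) := by
    have a1 := h.del_le_mul j
    have a2 : P.lam ^ j ≤ 2 * P.lam ^ (j + 1) := by
      rw [pow_succ]
      have := h.l0
      nlinarith only [hlj', this]
    have a3 : t * P.del j ≤ P.del j := by nlinarith only [hb1, hb2, ht1]
    have a4 := mul_le_mul_of_nonneg_left a2 h.k0.le
    linarith only [a1, a3, a4]
  have e4 : P.lam ^ (j + 1) * P.lam ^ (-gg) ≤ rr x - t * P.w - t * P.del j - P.imp j := by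
    have := mul_le_mul_of_nonneg_left h.k3 hlj.le
    linarith only [this, e3, e2, e1]
  have hpos : 0 < rr x - t * P.w - t * P.del j - P.imp j :=
    lt_of_lt_of_le (mul_pos hlj (Real.rpow_pos_of_pos h.lpos _)) e4
  obtain ⟨f0, f1, f2⟩ := back_bounds h.w_pos hb1 hb2 hb3 hD0 (dd_sq x v) hrx0.le
    (rr_nonneg (mv x v (-t))) (by rw [rr_mv_sq hnear]; ring) ht himp0 hpos
  have hcell : rr (mv x v (-t)) ∈ P.cell gg j := by
    constructor
    · rw [rpow_add_one_sub h]; exact e4.trans f1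
    · rw [rpow_add_gam h]
      have a1 : P.imp j ≤ P.kdel * P.lam ^ j := by
        refine e2.trans (mul_le_mul_of_nonneg_left ?_ h.k0.le)
        exact pow_le_pow_of_le_one h.lpos.le h.l1.le (by (clear * -; omega))
      have := mul_le_mul_of_nonneg_left h.k4 hlj'.le
      linarith only [this, a1, f2, e1']
  refine ⟨hcell, hb1, hb2, ?_, ?_, hb5⟩
  · rw [crossE_mv hnear]; exact hb3
  · rw [dotE_pos_iff (h.cell_pos hcell), dd_mv hnear]
    have : dd x v + -t * vp v ^ 2 = dd x v - t * vp v ^ 2 := by ring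
    rw [this]; exact f0

theorem cf_support' (h : Good P) {t0 : ℝ} (ht0 : t0 ≤ 1 / 20) (n : ℕ) (t : ℝ)
    (ht : t ∈ Icc 0 (2 * t0)) (x : T3) (v : V) (hne : cf P n t x v ≠ 0) :
    ∃ j ∈ Finset.Icc P.j0 n, rr x - P.w * t ∈ P.cell (gg / 2) j ∧
      v ∈ Box P j x ∧ √(SS P (sg j) x v) ≤ 4 * P.del j ∧
      cf P n t x v ≤ ENNReal.ofReal (P.amp j) := by
  have hne' : coldn P n (mv x v (-t)) v ≠ 0 := by
    intro h0
    apply hne
    unfold cf; rw [h0]; simp
  obtain ⟨j, hj, h1, h2, h3, h4, h5⟩ := flow_support h ht.1 (by linarith only [ht0, ht.2]) hne'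
  refine ⟨j, hj, h3, h4, h5, ?_⟩
  unfold cf
  rw [coldn_of_mem h hj h1 h2]

theorem t0_ev : ∀ᶠ t0 in 𝓝[>] (0 : ℝ), t0 ≤ 1 / 20 := by
  filter_upwards [Ioc_mem_nhdsGT (show (0 : ℝ) < 1 / 20 by norm_num)] with a ha
  exact ha.2

/-- (M1) support of the free flow of the cold gas -/
theorem cf_support : EvP fun P => ∀ᶠ t0 in 𝓝[>] (0 : ℝ), ∀ n, ∀ t ∈ Icc 0 (2 * t0), ∀ x v,
    cf P n t x v ≠ 0 → ∃ j ∈ Finset.Icc P.j0 n, rr x - P.w * t ∈ P.cell (gg / 2) j ∧
      v ∈ Box P j x ∧ √(SS P (sg j) x v) ≤ 4 * P.del j ∧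
      cf P n t x v ≤ ENNReal.ofReal (P.amp j) :=
  EvP.mono good_ev fun _ h => t0_ev.mono fun _ ht0 => cf_support' h ht0

end Vale.Agent.P140.NU.Med
end
end

section

/-!
P140, non-uniqueness, module M (medium): volume of the velocity boxes.
-/

open MeasureTheory Set Filter
open scoped ENNReal Topology

noncomputable section

namespace Vale.Agent.P140.NU.Med

variable {P : Par}

/-- vertical velocity and horizontal velocity -/
def toC (v : V) : ℝ × ℂ := (v 2, ⟨v 0, v 1⟩)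

theorem mp_toC : MeasurePreserving toC (volume : Measure V) (volume : Measure (ℝ × ℂ)) := by
  have h1 : MeasurePreserving (@WithLp.ofLp 2 (Fin 3 → ℝ)) := PiLp.volume_preserving_ofLp (Fin 3)
  have h2 := volume_preserving_piFinSuccAbove (fun _ : Fin 3 => ℝ) 2
  have h3 : MeasurePreserving (Complex.measurableEquivPi.symm) :=
    Complex.volume_preserving_equiv_pi.symm
  have h4 : MeasurePreserving (Prod.map id Complex.measurableEquivPi.symm : ℝ × (Fin 2 → ℝ) → ℝ × ℂ)
      volume volume := (MeasurePreserving.id (volume : Measure ℝ)).prod h3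
  have h5 := h4.comp (h2.comp h1)
  have e : toC = (Prod.map id Complex.measurableEquivPi.symm : ℝ × (Fin 2 → ℝ) → ℝ × ℂ) ∘
      (⇑(MeasurableEquiv.piFinSuccAbove (fun _ : Fin 3 => ℝ) 2) ∘ @WithLp.ofLp 2 (Fin 3 → ℝ)) := by
    funext v
    unfold toC
    apply Prod.ext
    · rfl
    · apply Complex.ext
      · simp only [Fin.isValue, Nat.reduceAdd, MeasurableEquiv.piFinSuccAbove, Function.comp_apply, Prod.map_snd, Complex.measurableEquivPi_symm_apply, Complex.add_re, Complex.ofReal_re, Complex.mul_re, Complex.I_re, mul_zero, Complex.ofReal_im, Complex.I_im, mul_one, sub_self, add_zero]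
        rfl
      · simp only [Fin.isValue, Nat.reduceAdd, MeasurableEquiv.piFinSuccAbove, Function.comp_apply, Prod.map_snd, Complex.measurableEquivPi_symm_apply, Complex.add_im, Complex.ofReal_im, Complex.mul_im, Complex.ofReal_re, Complex.I_im, mul_one, Complex.I_re, mul_zero, add_zero, zero_add]
        rfl
  rw [e]; exact h5

/-- circular sector -/
def Sec (w1 w2 s : ℝ) : Set ℂ := {z | w1 ≤ ‖z‖ ∧ ‖z‖ ≤ w2 ∧ |z.im| ≤ s * ‖z‖ ∧ 0 < z.re}

theorem measurableSet_Sec (w1 w2 s : ℝ) : MeasurableSet (Sec w1 w2 s) := by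
  have h1 : MeasurableSet {z : ℂ | w1 ≤ ‖z‖} := measurableSet_le (by fun_prop) (by fun_prop)
  have h2 : MeasurableSet {z : ℂ | ‖z‖ ≤ w2} := measurableSet_le (by fun_prop) (by fun_prop)
  have h3 : MeasurableSet {z : ℂ | |z.im| ≤ s * ‖z‖} :=
    measurableSet_le (by fun_prop) (by fun_prop)
  have h4 : MeasurableSet {z : ℂ | 0 < z.re} :=
    measurableSet_lt measurable_const Complex.measurable_re
  exact h1.inter (h2.inter (h3.inter h4))

theorem lintegral_prod_fst {A B : Set ℝ} (f : ℝ → ℝ≥0∞)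
    (hf : Measurable f) :
    ∫⁻ p in A ×ˢ B, f p.1 = (∫⁻ a in A, f a) * volume B := by
  rw [Measure.volume_eq_prod, ← Measure.prod_restrict]
  have h := lintegral_prod (μ := volume.restrict A) (ν := volume.restrict B)
    (fun p : ℝ × ℝ => f p.1) (hf.comp measurable_fst).aemeasurable
  rw [h]
  simp only [lintegral_const, Measure.restrict_apply MeasurableSet.univ, univ_inter]
  rw [lintegral_mul_const _ hf]

theorem vol_Sec {w1 w2 s : ℝ} (h1 : 0 < w1) (h2 : w1 ≤ w2) (hs0 : 0 ≤ s) (hs1 : s < 1) :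
    volume (Sec w1 w2 s) = ENNReal.ofReal (Real.arcsin s * (w2 ^ 2 - w1 ^ 2)) := by
  have hα0 : 0 ≤ Real.arcsin s := Real.arcsin_nonneg.2 hs0
  have hα1 : Real.arcsin s < Real.pi / 2 := Real.arcsin_lt_pi_div_two.2 hs1
  have hπ := Real.pi_pos
  rw [← lintegral_indicator_one (measurableSet_Sec w1 w2 s),
    ← Complex.lintegral_comp_polarCoord_symm]
  have hpt : ∀ p ∈ polarCoord.target,
      ENNReal.ofReal p.1 • (Sec w1 w2 s).indicator (1 : ℂ → ℝ≥0∞) (Complex.polarCoord.symm p)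
      = (Icc w1 w2 ×ˢ Icc (-Real.arcsin s) (Real.arcsin s)).indicator
        (fun p : ℝ × ℝ => ENNReal.ofReal p.1) p := by
    intro p hp
    rw [polarCoord_target] at hp
    obtain ⟨hp1, hp2⟩ := hp
    simp only [mem_Ioi] at hp1
    have hn : ‖Complex.polarCoord.symm p‖ = p.1 := by
      rw [Complex.norm_polarCoord_symm, abs_of_pos hp1]
    have hre : (Complex.polarCoord.symm p).re = p.1 * Real.cos p.2 := by
      rw [Complex.polarCoord_symm_apply]
      simp [Complex.cos_ofReal_re, Complex.sin_ofReal_re]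
    have him : (Complex.polarCoord.symm p).im = p.1 * Real.sin p.2 := by
      rw [Complex.polarCoord_symm_apply]
      simp [Complex.cos_ofReal_re, Complex.sin_ofReal_re]
    have hiff : Complex.polarCoord.symm p ∈ Sec w1 w2 s ↔
        p ∈ Icc w1 w2 ×ˢ Icc (-Real.arcsin s) (Real.arcsin s) := by
      unfold Sec
      simp only [mem_ofPred_eq, hn, hre, him, mem_prod, mem_Icc]
      constructor
      · rintro ⟨a1, a2, a3, a4⟩
        have hcos : 0 < Real.cos p.2 := by
          by_contra hcon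
          push Not at hcon
          (clear * - a4 hp1 hcon; nlinarith)
        have hm : p.2 ∈ Ioo (-(Real.pi / 2)) (Real.pi / 2) := by
          constructor
          · by_contra hcon
            push Not at hcon
            have := Real.cos_nonpos_of_pi_div_two_le_of_le (x := -p.2) (by linarith only [hcon])
              (by linarith only [hα0, hα1, hp2.1])
            rw [Real.cos_neg] at this
            linarith only [hcos, this]
          · by_contra hcon
            push Not at hcon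
            have := Real.cos_nonpos_of_pi_div_two_le_of_le hcon (by linarith only [hα0, hα1, hp2.2])
            linarith only [hcos, this]
        have hsin : |Real.sin p.2| ≤ s := by
          rw [abs_mul, abs_of_pos hp1] at a3
          nlinarith only [a3, hp1]
        rw [abs_le] at hsin
        refine ⟨⟨a1, a2⟩, ?_, ?_⟩
        · have := Real.arcsin_le_arcsin hsin.1
          rw [Real.arcsin_neg, Real.arcsin_sin hm.1.le hm.2.le] at this
          exact this
        · have := Real.arcsin_le_arcsin hsin.2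
          rw [Real.arcsin_sin hm.1.le hm.2.le] at this
          exact this
      · rintro ⟨⟨a1, a2⟩, a3, a4⟩
        refine ⟨a1, a2, ?_, ?_⟩
        · rw [abs_mul, abs_of_pos hp1, mul_comm s]
          apply mul_le_mul_of_nonneg_left _ hp1.le
          rw [abs_le]
          constructor
          · have := Real.sin_le_sin_of_le_of_le_pi_div_two (x := -Real.arcsin s) (y := p.2)
              (by linarith only [hα1]) (by linarith only [hα1, a4]) a3
            rw [Real.sin_neg, Real.sin_arcsin (by linarith only [hs0]) hs1.le] at this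
            exact this
          · have := Real.sin_le_sin_of_le_of_le_pi_div_two (x := p.2) (y := Real.arcsin s)
              (by linarith only [hα1, a3]) (by linarith only [hα1]) a4
            rw [Real.sin_arcsin (by linarith only [hs0]) hs1.le] at this
            exact this
        · exact mul_pos hp1 (Real.cos_pos_of_mem_Ioo ⟨by linarith only [hα1, a3], by linarith⟩)
    by_cases hm : Complex.polarCoord.symm p ∈ Sec w1 w2 s
    · rw [indicator_of_mem hm, indicator_of_mem (hiff.1 hm)]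
      simp
    · rw [indicator_of_notMem hm, indicator_of_notMem (fun hc => hm (hiff.2 hc))]
      simp
  rw [setLIntegral_congr_fun polarCoord.open_target.measurableSet hpt,
    lintegral_indicator (measurableSet_Icc.prod measurableSet_Icc),
    Measure.restrict_restrict (measurableSet_Icc.prod measurableSet_Icc)]
  have hsub : (Icc w1 w2 ×ˢ Icc (-Real.arcsin s) (Real.arcsin s)) ∩ polarCoord.target
      = Icc w1 w2 ×ˢ Icc (-Real.arcsin s) (Real.arcsin s) := by
    apply inter_eq_left.2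
    rw [polarCoord_target]
    apply Set.prod_mono
    · intro a ha; exact lt_of_lt_of_le h1 ha.1
    · intro a ha; exact ⟨by linarith only [hα0, hα1, ha.1], by linarith [ha.2]⟩
  rw [hsub, lintegral_prod_fst (fun a => ENNReal.ofReal a) (by fun_prop),
    Real.volume_Icc]
  have h3 : ∫⁻ a in Icc w1 w2, ENNReal.ofReal a = ENNReal.ofReal ((w2 ^ 2 - w1 ^ 2) / 2) := by
    rw [← ofReal_integral_eq_lintegral_ofReal]
    · rw [integral_Icc_eq_integral_Ioc, ← intervalIntegral.integral_of_le h2]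
      congr 1
      rw [integral_id]
    · exact (continuous_id.integrableOn_Icc)
    · filter_upwards [ae_restrict_mem measurableSet_Icc] with a ha
      exact h1.le.trans ha.1
  rw [h3, ← ENNReal.ofReal_mul (by linarith only [mul_nonneg (sub_nonneg.2 h2) (sub_nonneg.2 h2), mul_nonneg (le_of_lt (sub_pos.2 h1)) (sub_nonneg.2 h2)])]
  congr 1
  ring

/-- the direction of a point -/
def dirC (x : T3) : ℂ := ⟨rep x 0 / rr x, rep x 1 / rr x⟩

theorem norm_dirC {x : T3} (hx : 0 < rr x) : ‖dirC x‖ = 1 := by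
  have h1 : ‖dirC x‖ ^ 2 = 1 := by
    rw [← Complex.normSq_eq_norm_sq, Complex.normSq_apply]
    unfold dirC
    simp only
    have h2 := rr_sq x
    have h3 : rr x ^ 2 ≠ 0 := by positivity
    field_simp
    linarith
  have h2 := norm_nonneg (dirC x)
  nlinarith only [h1, h2]

/-- horizontal part of the box -/
def SecX (w1 w2 s : ℝ) (x : T3) : Set ℂ := (fun z => starRingEnd ℂ (dirC x) * z) ⁻¹' Sec w1 w2 s

theorem mp_rot {x : T3} (hx : 0 < rr x) :
    MeasurePreserving (fun z : ℂ => starRingEnd ℂ (dirC x) * z) := by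
  have h1 : ‖starRingEnd ℂ (dirC x)‖ = 1 := by rw [RCLike.norm_conj]; exact norm_dirC hx
  let a : Circle := ⟨starRingEnd ℂ (dirC x), mem_sphere_zero_iff_norm.2 h1⟩
  have := (rotation a).measurePreserving
  exact this

theorem vol_SecX {w1 w2 s : ℝ} (h1 : 0 < w1) (h2 : w1 ≤ w2) (hs0 : 0 ≤ s) (hs1 : s < 1)
    {x : T3} (hx : 0 < rr x) :
    volume (SecX w1 w2 s x) = ENNReal.ofReal (Real.arcsin s * (w2 ^ 2 - w1 ^ 2)) := by
  unfold SecX
  rw [(mp_rot hx).measure_preimage (measurableSet_Sec _ _ _).nullMeasurableSet,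
    vol_Sec h1 h2 hs0 hs1]

theorem Box_eq (j : ℕ) {x : T3} (hx : 0 < rr x) :
    Box P j x = toC ⁻¹' (Icc (sg j - P.del j) (sg j + P.del j) ×ˢ
      SecX P.w (P.w + P.del j) (P.imp j / rr x) x) := by
  ext v
  have hn : ‖starRingEnd ℂ (dirC x) * (⟨v 0, v 1⟩ : ℂ)‖ = vp v := by
    rw [norm_mul, RCLike.norm_conj, norm_dirC hx, one_mul]
    unfold vp
    rw [Complex.norm_eq_sqrt_sq_add_sq]
  have hre : (starRingEnd ℂ (dirC x) * (⟨v 0, v 1⟩ : ℂ)).re = dotE x v := by
    unfold dirC dotE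
    simp only [Complex.mul_re, Complex.conj_re, Complex.conj_im]
    ring
  have him : (starRingEnd ℂ (dirC x) * (⟨v 0, v 1⟩ : ℂ)).im = crossE x v / rr x := by
    unfold dirC crossE
    simp only [Complex.mul_im, Complex.conj_re, Complex.conj_im]
    ring
  unfold Box SecX Sec toC
  simp only [mem_ofPred_eq, mem_preimage, mem_prod, mem_Icc, hn, hre, him]
  rw [abs_div, abs_of_pos hx, div_mul_eq_mul_div, div_le_div_iff_of_pos_right hx]
  constructor
  · rintro ⟨a1, a2, a3, a4, a5⟩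
    have a6 := abs_le.1 a5
    exact ⟨⟨by linarith only [a6], by linarith only [a6]⟩, a1, a2, a3, a4⟩
  · rintro ⟨⟨a5, a6⟩, a1, a2, a3, a4⟩
    exact ⟨a1, a2, a3, a4, abs_le.2 ⟨by linarith only [a5], by linarith only [a6]⟩⟩

theorem measurableSet_Box (j : ℕ) {x : T3} (hx : 0 < rr x) : MeasurableSet (Box P j x) := by
  rw [Box_eq j hx]
  apply mp_toC.measurable
  exact measurableSet_Icc.prod ((mp_rot hx).measurable (measurableSet_Sec _ _ _))

theorem vol_Box (h : Good P) (j : ℕ) {x : T3} (hx : 0 < rr x) (hp : P.imp j < rr x) :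
    volume (Box P j x) = ENNReal.ofReal (2 * P.del j *
      (Real.arcsin (P.imp j / rr x) * ((P.w + P.del j) ^ 2 - P.w ^ 2))) := by
  have hs : MeasurableSet (SecX P.w (P.w + P.del j) (P.imp j / rr x) x) :=
    (mp_rot hx).measurable (measurableSet_Sec _ _ _)
  rw [Box_eq j hx, mp_toC.measure_preimage (measurableSet_Icc.prod hs).nullMeasurableSet,
    Measure.volume_eq_prod, Measure.prod_prod, Real.volume_Icc,
    vol_SecX h.w_pos (by have := (h.del_pos j).le; linarith)
      (div_nonneg (h.imp_pos j).le hx.le) ((div_lt_one hx).2 hp) hx,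
    ← ENNReal.ofReal_mul (by have := (h.del_pos j).le; linarith only [this])]
  congr 1
  ring

/-- amplitude times volume -/
theorem amp_vol_Box (h : Good P) (j : ℕ) {x : T3} (hx : 0 < rr x) (hp : P.imp j < rr x) :
    ENNReal.ofReal (P.amp j) * volume (Box P j x) = ENNReal.ofReal (P.c *
      (1 + P.del j / (2 * P.w)) * (Real.arcsin (P.imp j / rr x) / P.imp j)) := by
  rw [vol_Box h j hx hp, ← ENNReal.ofReal_mul (h.amp_pos j).le]
  congr 1
  unfold Par.amp
  have h1 := h.w_pos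
  have h2 := h.del_pos j
  have h3 := h.imp_pos j
  field_simp
  ring

theorem arcsin_le {s : ℝ} (hs0 : 0 ≤ s) (hs1 : s ≤ 1 / 100) :
    Real.arcsin s ≤ s * (1 + 1 / 5000) := by
  have h1 : 0 ≤ Real.arcsin s := Real.arcsin_nonneg.2 hs0
  have h2 : Real.arcsin s < Real.pi / 2 := Real.arcsin_lt_pi_div_two.2 (by linarith)
  have h3 := Real.le_tan h1 h2
  rw [Real.tan_arcsin] at h3
  refine h3.trans ?_
  rw [div_le_iff₀ (Real.sqrt_pos.2 (by nlinarith only [hs1, hs0])), mul_assoc]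
  apply le_mul_of_one_le_right hs0
  have h4 : 1 / (1 + 1 / 5000 : ℝ) ≤ √(1 - s ^ 2) := by
    apply Real.le_sqrt_of_sq_le
    nlinarith only [hs1, hs0]
  calc (1 : ℝ) = (1 + 1 / 5000) * (1 / (1 + 1 / 5000)) := by norm_num
    _ ≤ _ := by (clear * - h4; gcongr)

theorem le_arcsin {s : ℝ} (hs0 : 0 ≤ s) (hs1 : s ≤ 1) : s ≤ Real.arcsin s := by
  have := Real.sin_le (Real.arcsin_nonneg.2 hs0)
  rwa [Real.sin_arcsin (by linarith only [hs0]) hs1] at this

theorem amp_vol_le (h : Good P) (j : ℕ) {x : T3} (hx : P.lam ^ (j + 1) ≤ rr x) :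
    ENNReal.ofReal (P.amp j) * volume (Box P j x) ≤
      ENNReal.ofReal ((1 + 1 / 1000) * P.c / rr x) := by
  have hx0 : 0 < rr x := lt_of_lt_of_le (pow_pos h.lpos _) hx
  have himp := imp_le h j
  have hk := h.kdel_le
  norm_num at hk
  have hs : P.imp j / rr x ≤ 1 / 100 := by
    rw [div_le_iff₀ hx0]
    nlinarith [h.k0]
  have hp : P.imp j < rr x := by nlinarith only [hx0, himp, hx, hk, h.k0]
  rw [amp_vol_Box h j hx0 hp]
  apply ENNReal.ofReal_le_ofReal
  have h1 := arcsin_le (div_nonneg (h.imp_pos j).le hx0.le) hs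
  have h2 : P.del j / (2 * P.w) ≤ 1 / 20000 := by
    rw [div_le_iff₀ (by have := h.w_pos; (clear * - this; positivity))]
    have := h.kw
    have := h.del_le j
    (clear x hx hx0 himp hk hs hp h1; linarith)
  have hc := h.hc
  have hi := h.imp_pos j
  have h3 : Real.arcsin (P.imp j / rr x) / P.imp j ≤ (1 + 1 / 5000) / rr x := by
    rw [div_le_div_iff₀ hi hx0]
    calc Real.arcsin (P.imp j / rr x) * rr x ≤ (P.imp j / rr x * (1 + 1 / 5000)) * rr x := by
          gcongr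
      _ = (1 + 1 / 5000) * P.imp j := by field_simp
  have h4 : 0 ≤ Real.arcsin (P.imp j / rr x) / P.imp j :=
    div_nonneg (Real.arcsin_nonneg.2 (div_nonneg hi.le hx0.le)) hi.le
  calc P.c * (1 + P.del j / (2 * P.w)) * (Real.arcsin (P.imp j / rr x) / P.imp j)
      ≤ P.c * (1 + 1 / 20000) * ((1 + 1 / 5000) / rr x) := by (clear * - h2 hc h3 h4; gcongr)
    _ = P.c / rr x * ((1 + 1 / 20000) * (1 + 1 / 5000)) := by ring
    _ ≤ P.c / rr x * (1 + 1 / 1000) := by
        apply mul_le_mul_of_nonneg_left (by norm_num) (by positivity)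
    _ = (1 + 1 / 1000) * P.c / rr x := by ring

theorem le_amp_vol (h : Good P) (j : ℕ) {x : T3} (hx : P.lam ^ (j + 1) ≤ rr x) :
    ENNReal.ofReal (P.c / rr x) ≤ ENNReal.ofReal (P.amp j) * volume (Box P j x) := by
  have hx0 : 0 < rr x := lt_of_lt_of_le (pow_pos h.lpos _) hx
  have himp := imp_le h j
  have hk := h.kdel_le
  norm_num at hk
  have hp : P.imp j < rr x := by nlinarith [h.k0]
  rw [amp_vol_Box h j hx0 hp]
  apply ENNReal.ofReal_le_ofReal
  have hi := h.imp_pos j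
  have h1 := le_arcsin (div_nonneg hi.le hx0.le) ((div_lt_one hx0).2 hp).le
  have hc := h.hc
  have hδ := h.del_pos j
  have hw := h.w_pos
  have h3 : 1 / rr x ≤ Real.arcsin (P.imp j / rr x) / P.imp j := by
    rw [div_le_div_iff₀ hx0 hi, one_mul]
    calc P.imp j = (P.imp j / rr x) * rr x := by field_simp
      _ ≤ _ := by gcongr
  calc P.c / rr x = P.c * 1 * (1 / rr x) := by ring
    _ ≤ P.c * (1 + P.del j / (2 * P.w)) * (Real.arcsin (P.imp j / rr x) / P.imp j) := by
        gcongr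
        have : 0 ≤ P.del j / (2 * P.w) := by (clear * - hδ hw; positivity)
        linarith only [this]

/-- (M2) density of the free cold gas, upper bound -/
theorem cf_mass_le' (h : Good P) {t0 : ℝ} (ht0 : t0 ≤ 1 / 20) (n : ℕ) (t : ℝ)
    (ht : t ∈ Icc 0 (2 * t0)) (x : T3) :
    ∫⁻ v, cf P n t x v ≤ ENNReal.ofReal ((1 + 1 / 1000) * P.c / rr x) := by
  by_cases hex : ∃ j ∈ Finset.Icc P.j0 n, rr x - P.w * t ∈ P.cell (gg / 2) j
  · obtain ⟨j, hj, hc⟩ := hex
    have hg := gg_pos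
    have hx1 : P.lam ^ (j + 1) ≤ rr x := by
      have := h.le_cell (by (clear * - hg; linarith)) hc
      have := mul_nonneg h.w_pos.le ht.1
      (clear ht0 n hj; linarith)
    have hx0 : 0 < rr x := lt_of_lt_of_le (pow_pos h.lpos _) hx1
    refine le_trans ?_ (amp_vol_le h j hx1)
    rw [← setLIntegral_const]
    rw [← lintegral_indicator (measurableSet_Box j hx0)]
    apply lintegral_mono
    intro v
    by_cases hne : cf P n t x v = 0
    · rw [hne]; exact zero_le
    · obtain ⟨i, hi, h1, h2, _, h4⟩ := cf_support' h ht0 n t ht x v hne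
      have hij : i = j := h.cell_unique (by linarith only [hg]) h1 hc
      subst hij
      rw [indicator_of_mem h2]
      exact h4
  · have h0 : ∀ v, cf P n t x v = 0 := by
      intro v
      by_contra hne
      obtain ⟨i, hi, h1, _⟩ := cf_support' h ht0 n t ht x v hne
      exact hex ⟨i, hi, h1⟩
    simp only [h0, lintegral_const, measure_univ_of_isAddLeftInvariant, zero_mul, one_div, zero_le]

/-- (M3) density of the free cold gas, lower bound in the reduced cells -/
theorem cf_mass_ge' (h : Good P) {t0 : ℝ} (ht0 : t0 ≤ 1 / 20) (n : ℕ) (t : ℝ)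
    (ht : t ∈ Icc 0 (2 * t0)) (x : T3)
    (hex : ∃ j ∈ Finset.Icc P.j0 n, rr x - P.w * t ∈ P.cell (2 * gg) j) :
    ENNReal.ofReal (P.c / rr x) ≤ ∫⁻ v, cf P n t x v := by
  obtain ⟨j, hj, hc⟩ := hex
  have hg := gg_pos
  have hx1 : P.lam ^ (j + 1) ≤ rr x := by
    have := h.le_cell (by linarith only [hg]) hc
    have := mul_nonneg h.w_pos.le ht.1
    (clear ht0 n hj; linarith)
  have hx0 : 0 < rr x := lt_of_lt_of_le (pow_pos h.lpos _) hx1
  refine (le_amp_vol h j hx1).trans ?_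
  rw [← setLIntegral_const]
  rw [← lintegral_indicator (measurableSet_Box j hx0)]
  apply lintegral_mono
  intro v
  by_cases hv : v ∈ Box P j x
  · rw [indicator_of_mem hv]
    obtain ⟨h1, h2⟩ := flow_back h ht.1 (by linarith only [ht0, ht.2]) (Finset.mem_Icc.1 hj).1 hc hv
    unfold cf
    rw [coldn_of_mem h hj h1 h2]
  · rw [indicator_of_notMem hv]; exact zero_le

/-- (M2) density of the free cold gas, upper bound -/
theorem cf_mass_le : EvP fun P => ∀ᶠ t0 in 𝓝[>] (0 : ℝ), ∀ n, ∀ t ∈ Icc 0 (2 * t0), ∀ x,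
    ∫⁻ v, cf P n t x v ≤ ENNReal.ofReal ((1 + 1 / 1000) * P.c / rr x) :=
  EvP.mono good_ev fun _ h => t0_ev.mono fun _ ht0 => cf_mass_le' h ht0

/-- (M3) density of the free cold gas, lower bound in the reduced cells -/
theorem cf_mass_ge : EvP fun P => ∀ᶠ t0 in 𝓝[>] (0 : ℝ), ∀ n, ∀ t ∈ Icc 0 (2 * t0), ∀ x,
    (∃ j ∈ Finset.Icc P.j0 n, rr x - P.w * t ∈ P.cell (2 * gg) j) →
    ENNReal.ofReal (P.c / rr x) ≤ ∫⁻ v, cf P n t x v :=
  EvP.mono good_ev fun _ h => t0_ev.mono fun _ ht0 => cf_mass_ge' h ht0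

end Vale.Agent.P140.NU.Med
end
end

section

open MeasureTheory Set

namespace Vale.Agent.P140

noncomputable def pp (v : V) (o : S2) : ENNReal :=
  ENNReal.ofReal ((inner ℝ v (o : V)) ^ 2 * (‖v‖ ^ 2 - (inner ℝ v (o : V)) ^ 2))

end Vale.Agent.P140
end

section

/-!
P140, module S: horizontal coordinates on the torus; integrals over the velocity space and over
the torus in horizontal coordinates.
-/

open MeasureTheory Set Filter
open scoped ENNReal Topology

noncomputable section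

namespace Vale.Agent.P140.NU.S

/-- product measure on `Fin 3 → ℝ` in the coordinates `((0, 1), 2)` -/
theorem lint_pi3 (μ : Fin 3 → Measure ℝ) [∀ i, SigmaFinite (μ i)] {F : (Fin 3 → ℝ) → ℝ≥0∞}
    (hF : Measurable F) :
    ∫⁻ y, F y ∂(Measure.pi μ) = ∫⁻ q : ℝ × ℝ, ∫⁻ z, F ![q.1, q.2, z] ∂(μ 2) ∂((μ 0).prod (μ 1)) := by
  have h1 := measurePreserving_piFinSuccAbove μ 2
  have h2 := measurePreserving_piFinTwo (fun j : Fin 2 => μ ((2 : Fin 3).succAbove j))
  have h3 := (MeasurePreserving.id (μ 2)).prod h2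
  have h4 := h3.comp h1
  have hm : Measurable fun p : ℝ × ℝ × ℝ => F ![p.2.1, p.2.2, p.1] := by
    apply hF.comp
    rw [measurable_pi_iff]
    intro i
    fin_cases i
    · exact measurable_fst.comp measurable_snd
    · exact measurable_snd.comp measurable_snd
    · exact measurable_fst
  have h5 := h4.lintegral_comp hm
  have h6 : ∀ y : Fin 3 → ℝ, F ![y 0, y 1, y 2] = F y := by
    intro y
    congr 1
    funext i
    fin_cases i <;> rfl
  calc ∫⁻ y, F y ∂(Measure.pi μ) = ∫⁻ y : Fin 3 → ℝ, F ![y 0, y 1, y 2] ∂(Measure.pi μ) := by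
        simp_rw [h6]
    _ = ∫⁻ p : ℝ × ℝ × ℝ, F ![p.2.1, p.2.2, p.1] ∂((μ 2).prod ((μ 0).prod (μ 1))) := h5
    _ = _ := by
        rw [lintegral_prod_symm _ hm.aemeasurable]

/-- the velocity space in horizontal coordinates -/
theorem lint_vec' {F : V → ℝ≥0∞} (hF : Measurable F) :
    ∫⁻ w, F w = ∫⁻ q : ℝ × ℝ, ∫⁻ z : ℝ, F (vec q z) := by
  have h1 : MeasurePreserving (@WithLp.toLp 2 (Fin 3 → ℝ)) := PiLp.volume_preserving_toLp (Fin 3)
  rw [← h1.lintegral_comp hF]
  have h2 : Measurable fun y : Fin 3 → ℝ => F (WithLp.toLp 2 y) := hF.comp h1.measurable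
  rw [volume_pi, lint_pi3 (fun _ => volume) h2]
  rfl

/-- the horizontal coordinates of a point of the torus -/
def xi (x : T3) : ℝ × ℝ := (rep x 0, rep x 1)

theorem tor_zero (X : ℝ × ℝ) : tor X 0 = (X.1 : UnitAddCircle) := rfl
theorem tor_one (X : ℝ × ℝ) : tor X 1 = (X.2 : UnitAddCircle) := rfl
theorem tor_two (X : ℝ × ℝ) : tor X 2 = ((0 : ℝ) : UnitAddCircle) := rfl

theorem measurable_vec : Measurable fun p : (ℝ × ℝ) × ℝ => vec p.1 p.2 := by
  unfold vec
  apply (PiLp.continuous_toLp 2 _).measurable.comp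
  rw [measurable_pi_iff]
  intro i
  fin_cases i
  · exact measurable_fst.comp measurable_fst
  · exact measurable_snd.comp measurable_fst
  · exact measurable_snd

theorem measurable_tor : Measurable tor :=
  measurable_toTorus.comp (measurable_vec.comp (measurable_id.prodMk measurable_const))

theorem zsh_apply (x : T3) (a : ℝ) : zsh x a 0 = x 0 ∧ zsh x a 1 = x 1 ∧
    zsh x a 2 = x 2 + (a : UnitAddCircle) := by
  unfold zsh toTorus
  refine ⟨?_, ?_, ?_⟩ <;> simp

/-- every point is a vertical shift of `tor (xi x)` -/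
theorem eq_zsh_tor (x : T3) : x = zsh (tor (xi x)) (rep x 2) := by
  obtain ⟨h0, h1, h2⟩ := zsh_apply (tor (xi x)) (rep x 2)
  funext i
  fin_cases i
  · show x 0 = zsh (tor (xi x)) (rep x 2) 0
    rw [h0, tor_zero]; exact (coe_rep x 0).symm
  · show x 1 = zsh (tor (xi x)) (rep x 2) 1
    rw [h1, tor_one]; exact (coe_rep x 1).symm
  · show x 2 = zsh (tor (xi x)) (rep x 2) 2
    rw [h2, tor_two, coe_rep, AddCircle.coe_zero, zero_add]

theorem zsh_zsh (x : T3) (a b : ℝ) : zsh (zsh x a) b = zsh x (a + b) := by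
  unfold zsh
  rw [add_smul, toTorus_add, add_assoc]

/-- a flight in horizontal coordinates -/
theorem mv_tor (X : ℝ × ℝ) (v : V) (s : ℝ) :
    mv (tor X) v s = zsh (tor (X + s • hz v)) (s * v 2) := by
  obtain ⟨h0, h1, h2⟩ := zsh_apply (tor (X + s • hz v)) (s * v 2)
  funext i
  fin_cases i
  · show mv (tor X) v s 0 = zsh (tor (X + s • hz v)) (s * v 2) 0
    rw [h0, mv_apply, tor_zero, tor_zero, ← AddCircle.coe_add]; rfl
  · show mv (tor X) v s 1 = zsh (tor (X + s • hz v)) (s * v 2) 1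
    rw [h1, mv_apply, tor_one, tor_one, ← AddCircle.coe_add]; rfl
  · show mv (tor X) v s 2 = zsh (tor (X + s • hz v)) (s * v 2) 2
    rw [h2, mv_apply, tor_two, tor_two, AddCircle.coe_zero, zero_add]

theorem mv_zsh' (x : T3) (a : ℝ) (v : V) (s : ℝ) : mv (zsh x a) v s = zsh (mv x v s) a := by
  unfold mv zsh
  rw [add_assoc, add_assoc, add_comm (toTorus (a • _))]

/-- the square `(-1/2, 1/2]²` -/
def Sq : Set (ℝ × ℝ) := Ioc (-(1 / 2)) (1 / 2) ×ˢ Ioc (-(1 / 2)) (1 / 2)

/-- the integral over the torus of an invariant function -/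
theorem lint_tor_eq {F : T3 → ℝ≥0∞} (hF : Measurable F) (hi : ∀ x a, F (zsh x a) = F x) :
    ∫⁻ x, F x = ∫⁻ X in Sq, F (tor X) := by
  let μ : Measure ℝ := volume.restrict (Ioc (-(1 / 2)) (-(1 / 2) + 1))
  have h0 : ∀ i : Fin 3, MeasurePreserving ((↑) : ℝ → UnitAddCircle) μ volume :=
    fun _ => UnitAddCircle.measurePreserving_mk (-(1 / 2))
  have h1 := measurePreserving_pi (fun _ : Fin 3 => μ) (fun _ : Fin 3 => (volume : Measure
    UnitAddCircle)) h0
  have h2 : ∫⁻ x : T3, F x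
      = ∫⁻ y : Fin 3 → ℝ, F (fun i => ((y i : ℝ) : UnitAddCircle)) ∂(Measure.pi fun _ => μ) :=
    (h1.lintegral_comp hF).symm
  have hFm : Measurable fun y : Fin 3 → ℝ => F (fun i => ((y i : ℝ) : UnitAddCircle)) :=
    hF.comp h1.measurable
  rw [h2, lint_pi3 (fun _ => μ) hFm]
  have h3 : ∀ q : ℝ × ℝ, ∫⁻ z, F (fun i => ((![q.1, q.2, z] i : ℝ) : UnitAddCircle)) ∂μ
      = F (tor q) := by
    intro q
    have h4 : ∀ z : ℝ, F (fun i => ((![q.1, q.2, z] i : ℝ) : UnitAddCircle)) = F (tor q) := by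
      intro z
      rw [← hi (tor q) z]
      congr 1
      obtain ⟨g0, g1, g2⟩ := zsh_apply (tor q) z
      funext i
      fin_cases i
      · exact g0.symm
      · exact g1.symm
      · show ((z : ℝ) : UnitAddCircle) = zsh (tor q) z 2
        rw [g2, tor_two, AddCircle.coe_zero, zero_add]
    simp_rw [h4]
    rw [lintegral_const]
    have : μ univ = 1 := by
      simp only [μ, Measure.restrict_apply_univ, Real.volume_Ioc]
      norm_num
    rw [this, mul_one]
  simp_rw [h3]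
  rw [Measure.prod_restrict]
  have : (-(1 / 2) + 1 : ℝ) = 1 / 2 := by norm_num
  rw [this]
  rfl

theorem meas_tor : Measurable tor := measurable_tor

/-- integral over the torus of an invariant function -/
theorem lint_tor {g : T3 → ℝ≥0∞} (hg : Measurable g) (h : ∀ x a, g (zsh x a) = g x) :
    ∫⁻ X in {X : ℝ × ℝ | |X.1| < 1 / 2 ∧ |X.2| < 1 / 2}, g (tor X) ≤ ∫⁻ x, g x := by
  rw [lint_tor_eq hg h]
  refine lintegral_mono_set fun X hX => ?_
  obtain ⟨h1, h2⟩ := hX
  rw [abs_lt] at h1 h2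
  exact ⟨⟨h1.1, h1.2.le⟩, ⟨h2.1, h2.2.le⟩⟩

/-- velocity integrals in horizontal coordinates -/
theorem lint_vec {g : V → ℝ≥0∞} (hg : Measurable g) :
    ∫⁻ q : ℝ × ℝ, ∫⁻ y : ℝ, g (vec q y) = ∫⁻ v, g v := (lint_vec' hg).symm

end Vale.Agent.P140.NU.S
end
end

section

open MeasureTheory Set Filter
open scoped ENNReal Topology NNReal

noncomputable section

namespace Vale.Agent.P140.DL

/-- weak sequential compactness of bounded sequences -/
theorem w2_bdd {α : Type*} [MeasurableSpace α] [MeasurableSpace.CountablyGenerated α]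
    (μ : Measure α) [IsFiniteMeasure μ] (f : ℕ → α → ℝ) (mf : ∀ n, Measurable (f n))
    (bf : ∀ n a, |f n a| ≤ 1) :
    ∃ φ : ℕ → ℕ, StrictMono φ ∧ ∃ F : α → ℝ, Measurable F ∧ Integrable F μ ∧
      WConv μ (fun n => f (φ n)) F := by
  have hp : Fact ((1:ℝ≥0∞) ≤ 2) := ⟨by norm_num⟩
  have hp2 : Fact ((2:ℝ≥0∞) ≠ ⊤) := ⟨by (clear * -; norm_num)⟩
  have hm : ∀ h : α → ℝ, Measurable h → (∀ a, |h a| ≤ 1) → MemLp h 2 μ := fun h mh bh =>
    MemLp.of_bound mh.aestronglyMeasurable 1 (Eventually.of_forall fun a => by simpa only [Real.norm_eq_abs] using bh a)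
  obtain ⟨C, hC⟩ : ∃ C : ℝ, ∀ n, ‖(hm (f n) (mf n) (bf n)).toLp (f n)‖ ≤ C := by
    refine ⟨((μ univ) ^ (2:ℝ≥0∞).toReal⁻¹ * ENNReal.ofReal 1).toReal, fun n => ?_⟩
    rw [Lp.norm_toLp]
    refine ENNReal.toReal_mono ?_ (eLpNorm_le_of_ae_bound (Eventually.of_forall fun a => by
      simpa only [Real.norm_eq_abs] using bf n a))
    exact ENNReal.mul_ne_top (ENNReal.rpow_ne_top_of_nonneg (by (clear * -; positivity)) (measure_ne_top μ _))
      ENNReal.ofReal_ne_top
  obtain ⟨L, -, φ, hφ, hL⟩ := WeakDual.isSeqCompact_closedBall ℝ (Lp ℝ 2 μ) 0 C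
    (x := fun n => StrongDual.toWeakDual (InnerProductSpace.toDual ℝ (Lp ℝ 2 μ)
      ((hm (f n) (mf n) (bf n)).toLp (f n)))) (fun n => by
        simp only [mem_preimage, StrongDual.toStrongDual_toWeakDual, Metric.mem_closedBall,
          dist_zero_right, LinearIsometryEquiv.norm_map]
        exact hC n)
  set F : Lp ℝ 2 μ := (InnerProductSpace.toDual ℝ (Lp ℝ 2 μ)).symm (WeakDual.toStrongDual L)
    with hF
  refine ⟨φ, hφ, F, (Lp.stronglyMeasurable F).measurable,
    (Lp.memLp F).integrable (by norm_num), fun θ mθ bθ => ?_⟩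
  have h1 := ((WeakDual.eval_continuous ((hm θ mθ bθ).toLp θ)).tendsto L).comp hL
  have h2 : L ((hm θ mθ bθ).toLp θ) = ∫ a, F a * θ a ∂μ := by
    have h3 : L ((hm θ mθ bθ).toLp θ) = inner ℝ F ((hm θ mθ bθ).toLp θ) := by
      rw [hF, InnerProductSpace.toDual_symm_apply]
      rfl
    rw [h3, L2.inner_def]
    refine integral_congr_ae ?_
    filter_upwards [(hm θ mθ bθ).coeFn_toLp] with a ha
    rw [ha]
    simp only [RCLike.inner_apply, Real.ringHom_apply, mul_comm]
  rw [h2] at h1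
  refine h1.congr fun n => ?_
  simp only [Function.comp]
  rw [StrongDual.toWeakDual_apply, InnerProductSpace.toDual_apply_apply, L2.inner_def]
  refine integral_congr_ae ?_
  filter_upwards [(hm θ mθ bθ).coeFn_toLp, (hm (f (φ n)) (mf _) (bf _)).coeFn_toLp] with a ha hb
  rw [ha, hb]
  simp only [RCLike.inner_apply, Real.ringHom_apply, mul_comm]

theorem w2_slice {α : Type*} [MeasurableSpace α] (μ : Measure α) [IsFiniteMeasure μ]
    (κ : Measure ℕ) [IsFiniteMeasure κ] (h : α × ℕ → ℝ) (hh : Integrable h (μ.prod κ)) (i : ℕ)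
    (θ : α → ℝ) (mθ : Measurable θ) (bθ : ∀ a, |θ a| ≤ 1) :
    ∫ p, h p * (θ p.1 * if p.2 = i then 1 else 0) ∂(μ.prod κ) =
      κ.real {i} * ∫ a, h (a, i) * θ a ∂μ := by
  have m1 : Measurable fun p : α × ℕ => θ p.1 * if p.2 = i then (1:ℝ) else 0 := by
    refine (mθ.comp measurable_fst).mul (Measurable.ite ?_ measurable_const measurable_const)
    exact measurable_snd (measurableSet_singleton i)
  have b1 : ∀ p : α × ℕ, ‖θ p.1 * if p.2 = i then (1:ℝ) else 0‖ ≤ 1 := by
    intro p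
    rw [norm_mul, Real.norm_eq_abs]
    split_ifs
    · simpa only [norm_one, mul_one] using bθ p.1
    · simp only [norm_zero, mul_zero, zero_le_one]
  rw [integral_prod _ (hh.mul_bdd (c := 1) m1.aestronglyMeasurable (Eventually.of_forall b1)),
    ← integral_const_mul]
  refine integral_congr_ae (Eventually.of_forall fun a => ?_)
  have h2 : (fun j : ℕ => h (a, j) * (θ a * if j = i then (1:ℝ) else 0)) =
      Set.indicator {i} fun j => h (a, j) * θ a := by
    funext j
    by_cases hj : j = i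
    · simp [hj]
    · simp [hj]
  simp only [h2]
  rw [integral_indicator (measurableSet_singleton i), integral_singleton]
  simp

theorem w2_fam {α : Type*} [MeasurableSpace α] [MeasurableSpace.CountablyGenerated α]
    (μ : Measure α) [IsFiniteMeasure μ] (f : ℕ → ℕ → α → ℝ) (mf : ∀ i n, Measurable (f i n))
    (bf : ∀ i n a, |f i n a| ≤ 1) :
    ∃ φ : ℕ → ℕ, StrictMono φ ∧ ∃ F : ℕ → α → ℝ, (∀ i, Measurable (F i)) ∧
      (∀ i, Integrable (F i) μ) ∧ ∀ i, WConv μ (fun n => f i (φ n)) (F i) := by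
  set κ : Measure ℕ := (Measure.count : Measure ℕ).toFinite with hκ
  have hk : ∀ i, κ {i} ≠ 0 := by
    intro i hi
    have h1 := absolutelyContinuous_toFinite (Measure.count : Measure ℕ) hi
    simp only [MeasurableSpace.measurableSet_top, Measure.count_singleton', one_ne_zero] at h1
  have hkr : ∀ i, κ.real {i} ≠ 0 := fun i => by
    rw [Measure.real, Ne, ENNReal.toReal_eq_zero_iff]
    rintro (h | h)
    · exact hk i h
    · exact measure_ne_top κ _ h
  have m1 : ∀ n, Measurable fun p : α × ℕ => f p.2 n p.1 := fun n =>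
    measurable_from_prod_countable_left fun i => mf i n
  obtain ⟨φ, hφ, F, mF, iF, hF⟩ := w2_bdd (μ.prod κ) (fun n p => f p.2 n p.1) m1
    (fun n p => bf _ _ _)
  refine ⟨φ, hφ, fun i a => F (a, i), fun i => mF.comp (measurable_id.prodMk measurable_const),
    fun i => ?_, fun i θ mθ bθ => ?_⟩
  · have h1 := iF.prod_left_ae
    rw [ae_iff] at h1
    by_contra h2
    exact hk i (measure_mono_null (singleton_subset_iff.2 h2) h1)
  · have mt : Measurable fun p : α × ℕ => θ p.1 * if p.2 = i then (1:ℝ) else 0 := by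
      refine (mθ.comp measurable_fst).mul (Measurable.ite ?_ measurable_const measurable_const)
      exact measurable_snd (measurableSet_singleton i)
    have bt : ∀ p : α × ℕ, |θ p.1 * if p.2 = i then (1:ℝ) else 0| ≤ 1 := by
      intro p
      rw [abs_mul]
      split_ifs
      · simpa only [abs_one, mul_one] using bθ p.1
      · simp only [abs_zero, mul_zero, zero_le_one]
    have h1 := hF _ mt bt
    rw [w2_slice μ κ F iF i θ mθ bθ] at h1
    have h2 := h1.const_mul (κ.real {i})⁻¹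
    rw [inv_mul_cancel_left₀ (hkr i)] at h2
    refine h2.congr fun n => ?_
    rw [w2_slice μ κ (fun p : α × ℕ => f p.2 (φ n) p.1) ?_ i θ mθ bθ,
      inv_mul_cancel_left₀ (hkr i)]
    exact Integrable.of_bound (m1 _).aestronglyMeasurable 1
      (Eventually.of_forall fun p => by simpa only [Real.norm_eq_abs] using bf _ _ _)

theorem w2_le {α : Type*} [MeasurableSpace α] {μ : Measure α} {u v : ℕ → α → ℝ} {U V : α → ℝ}
    (hu : ∀ n, Integrable (u n) μ) (hv : ∀ n, Integrable (v n) μ) (hU : Integrable U μ)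
    (hV : Integrable V μ) (h1 : WConv μ u U) (h2 : WConv μ v V) (hle : ∀ n a, u n a ≤ v n a) :
    U ≤ᵐ[μ] V := by
  refine ae_le_of_forall_setIntegral_le hU hV fun s hs _ => ?_
  have key : ∀ f : α → ℝ, ∫ a, f a * s.indicator (fun _ => (1:ℝ)) a ∂μ = ∫ a in s, f a ∂μ := by
    intro f
    rw [← integral_indicator hs]
    congr 1
    funext a
    by_cases ha : a ∈ s <;> simp [ha]
  have mi : Measurable (s.indicator (fun _ => (1:ℝ))) := measurable_const.indicator hs
  have bi : ∀ a, |s.indicator (fun _ => (1:ℝ)) a| ≤ 1 := fun a => by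
    by_cases ha : a ∈ s <;> simp [ha]
  have h3 := h1 _ mi bi
  have h4 := h2 _ mi bi
  simp only [key] at h3 h4
  exact le_of_tendsto_of_tendsto' h3 h4 fun n =>
    setIntegral_mono (hu n).integrableOn (hv n).integrableOn (hle n)

theorem w2_single {α : Type*} [MeasurableSpace α] (μ : Measure α) [IsFiniteMeasure μ]
    (g : ℕ → α → ℝ) (mg : ∀ n, Measurable (g n)) (g0 : ∀ n a, 0 ≤ g n a)
    (ui : UI μ fun n a => ENNReal.ofReal (g n a)) (F : ℕ → α → ℝ) (mF : ∀ m, Measurable (F m))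
    (iF : ∀ m, Integrable (F m) μ) (hF : ∀ m : ℕ, WConv μ (fun n a => min (g n a) m) (F m)) :
    ∃ G : α → ℝ, Measurable G ∧ (∀ a, 0 ≤ G a) ∧ Integrable G μ ∧ WConv μ g G := by
  obtain ⟨C, hC⟩ := ui.lintegral_le
  have ig : ∀ n, Integrable (g n) μ := fun n => by
    refine ⟨(mg n).aestronglyMeasurable, ?_⟩
    rw [hasFiniteIntegral_iff_ofReal (Eventually.of_forall (g0 n))]
    exact (hC n).trans_lt ENNReal.coe_lt_top
  have im : ∀ (m n : ℕ), Integrable (fun a => min (g n a) (m : ℝ)) μ := fun m n => by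
    refine (ig n).mono ((mg n).min measurable_const).aestronglyMeasurable
      (Eventually.of_forall fun a => ?_)
    rw [Real.norm_eq_abs, Real.norm_eq_abs, abs_of_nonneg (le_min (g0 n a) (Nat.cast_nonneg m)),
      abs_of_nonneg (g0 n a)]
    exact min_le_left _ _
  have h0 : ∀ m, ∀ᵐ a ∂μ, 0 ≤ F m a := fun m =>
    w2_le (u := fun _ _ => 0) (fun _ => integrable_zero _ _ _) (im m) (integrable_zero _ _ _) (iF m)
      (fun θ _ _ => by simp only [zero_mul, integral_zero, tendsto_const_nhds_iff]) (hF m) fun n a => le_min (g0 n a) (Nat.cast_nonneg m)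
  have hmono : ∀ m, ∀ᵐ a ∂μ, F m a ≤ F (m + 1) a := fun m =>
    w2_le (im m) (im (m + 1)) (iF m) (iF (m + 1)) (hF m) (hF (m + 1)) fun n a =>
      min_le_min_left _ (by push_cast; linarith only [])
  have hint : ∀ m, ∫⁻ a, ENNReal.ofReal (F m a) ∂μ ≤ C := by
    intro m
    rw [← ofReal_integral_eq_lintegral_ofReal (iF m) (h0 m)]
    rw [ENNReal.ofReal_le_iff_le_toReal ENNReal.coe_ne_top]
    have h1 := hF m (fun _ => 1) measurable_const (fun _ => by simp)
    simp only [mul_one] at h1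
    refine le_of_tendsto' h1 fun n => ?_
    calc ∫ a, min (g n a) (m : ℝ) ∂μ ≤ ∫ a, g n a ∂μ :=
          integral_mono (im m n) (ig n) fun a => min_le_left _ _
      _ ≤ (C : ℝ≥0∞).toReal := by
          rw [integral_eq_lintegral_of_nonneg_ae (Eventually.of_forall (g0 n))
            (mg n).aestronglyMeasurable]
          exact ENNReal.toReal_mono ENNReal.coe_ne_top (hC n)
  set Γ : α → ℝ≥0∞ := fun a => ⨆ m, ENNReal.ofReal (F m a) with hΓ
  have mΓ : Measurable Γ := Measurable.iSup fun m => (mF m).ennreal_ofReal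
  have iΓ : ∫⁻ a, Γ a ∂μ ≤ C := by
    rw [hΓ, lintegral_iSup_ae (fun m => (mF m).ennreal_ofReal) fun m => by
      filter_upwards [hmono m] with a ha
      exact ENNReal.ofReal_le_ofReal ha]
    exact iSup_le hint
  have nΓ : ∫⁻ a, Γ a ∂μ ≠ ⊤ := ne_top_of_le_ne_top ENNReal.coe_ne_top iΓ
  have hae : ∀ᵐ a ∂μ, (∀ m, 0 ≤ F m a) ∧ (∀ m, F m a ≤ (Γ a).toReal) ∧
      Tendsto (fun m => F m a) atTop (𝓝 (Γ a).toReal) := by
    filter_upwards [ae_lt_top mΓ nΓ, ae_all_iff.2 h0, ae_all_iff.2 hmono] with a h1 h2 h3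
    refine ⟨h2, fun m => ?_, ?_⟩
    · rw [← ENNReal.ofReal_le_iff_le_toReal h1.ne]
      exact le_iSup (fun m => ENNReal.ofReal (F m a)) m
    · have h4 : Tendsto (fun m => ENNReal.ofReal (F m a)) atTop (𝓝 (Γ a)) :=
        tendsto_atTop_iSup (monotone_nat_of_le_succ fun m => ENNReal.ofReal_le_ofReal (h3 m))
      have h5 := (ENNReal.tendsto_toReal h1.ne).comp h4
      refine h5.congr fun m => ?_
      simp [ENNReal.toReal_ofReal (h2 m)]
  have iG : Integrable (fun a => (Γ a).toReal) μ :=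
    integrable_toReal_of_lintegral_ne_top mΓ.aemeasurable nΓ
  refine ⟨fun a => (Γ a).toReal, mΓ.ennreal_toReal, fun a => ENNReal.toReal_nonneg, iG,
    fun θ mθ bθ => ?_⟩
  have hlim : Tendsto (fun m => ∫ a, F m a * θ a ∂μ) atTop (𝓝 (∫ a, (Γ a).toReal * θ a ∂μ)) := by
    refine tendsto_integral_of_dominated_convergence (fun a => (Γ a).toReal)
      (fun m => ((mF m).mul mθ).aestronglyMeasurable) iG (fun m => ?_) ?_
    · filter_upwards [hae] with a ha
      rw [norm_mul, Real.norm_eq_abs, Real.norm_eq_abs, abs_of_nonneg (ha.1 m)]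
      calc F m a * |θ a| ≤ F m a * 1 := mul_le_mul_of_nonneg_left (bθ a) (ha.1 m)
        _ ≤ _ := by rw [mul_one]; exact ha.2.1 m
    · filter_upwards [hae] with a ha
      exact ha.2.2.mul_const _
  rw [Metric.tendsto_atTop]
  intro ε hε
  obtain ⟨K, hK⟩ := ui (ENNReal.ofReal (ε / 3)) (by simpa only [ENNReal.ofReal_pos, Nat.ofNat_pos, div_pos_iff_of_pos_right, gt_iff_lt] using hε)
  rw [Metric.tendsto_atTop] at hlim
  obtain ⟨M, hM⟩ := hlim (ε / 3) (by (clear * - hε; positivity))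
  obtain ⟨k, hk⟩ := exists_nat_ge (K : ℝ)
  set m := max M k with hm
  have hmK : (K : ℝ) ≤ m := hk.trans (by exact_mod_cast le_max_right _ _)
  obtain ⟨N, hN⟩ := Metric.tendsto_atTop.1 (hF m θ mθ bθ) (ε / 3) (by (clear * - hε; positivity))
  refine ⟨N, fun n hn => ?_⟩
  have e1 := hM m (le_max_left _ _)
  have e2 := hN n hn
  have e3 : |∫ a, g n a * θ a ∂μ - ∫ a, min (g n a) (m : ℝ) * θ a ∂μ| ≤ ε / 3 := by
    have i1 : Integrable (fun a => g n a * θ a) μ :=
      (ig n).mul_bdd (c := 1) mθ.aestronglyMeasurable (Eventually.of_forall bθ)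
    have i2 : Integrable (fun a => min (g n a) (m : ℝ) * θ a) μ :=
      (im m n).mul_bdd (c := 1) mθ.aestronglyMeasurable (Eventually.of_forall bθ)
    have i3 : Integrable (fun a => g n a - min (g n a) (m : ℝ)) μ := (ig n).sub (im m n)
    have p3 : ∀ a, 0 ≤ g n a - min (g n a) (m : ℝ) := fun a => sub_nonneg.2 (min_le_left _ _)
    rw [← integral_sub i1 i2]
    calc |∫ a, (g n a * θ a - min (g n a) (m : ℝ) * θ a) ∂μ| ≤
          ∫ a, (g n a - min (g n a) (m : ℝ)) ∂μ := by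
          rw [← Real.norm_eq_abs]
          refine norm_integral_le_of_norm_le i3 (Eventually.of_forall fun a => ?_)
          rw [← sub_mul, norm_mul, Real.norm_eq_abs, Real.norm_eq_abs, abs_of_nonneg (p3 a)]
          exact mul_le_of_le_one_right (p3 a) (bθ a)
      _ ≤ ε / 3 := by
          rw [integral_eq_lintegral_of_nonneg_ae (Eventually.of_forall p3)
            ((mg n).sub ((mg n).min measurable_const)).aestronglyMeasurable]
          refine ENNReal.toReal_le_of_le_ofReal (by (clear * - hε; positivity)) (le_trans (lintegral_mono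
            fun a => ?_) (hK n))
          have h9 : g n a - min (g n a) (m : ℝ) ≤ max (g n a - m) 0 := by
            rcases le_total (g n a) (m : ℝ) with h | h
            · rw [min_eq_left h, sub_self]; exact le_max_right _ _
            · rw [min_eq_right h]; exact le_max_left _ _
          refine le_trans (ENNReal.ofReal_le_ofReal h9) ?_
          rw [ENNReal.ofReal_max, ENNReal.ofReal_zero, max_eq_left zero_le,
            ENNReal.ofReal_sub _ (Nat.cast_nonneg m)]
          refine tsub_le_tsub_left ?_ _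
          rw [← ENNReal.ofReal_coe_nnreal]
          exact ENNReal.ofReal_le_ofReal hmK
  rw [Real.dist_eq] at e1 e2 ⊢
  have e4 : ∫ a, g n a * θ a ∂μ - ∫ a, (Γ a).toReal * θ a ∂μ =
      (∫ a, g n a * θ a ∂μ - ∫ a, min (g n a) (m : ℝ) * θ a ∂μ) +
      (∫ a, min (g n a) (m : ℝ) * θ a ∂μ - ∫ a, F m a * θ a ∂μ) +
      (∫ a, F m a * θ a ∂μ - ∫ a, (Γ a).toReal * θ a ∂μ) := by ring
  rw [e4]
  refine lt_of_le_of_lt (abs_add_three _ _ _) ?_
  linarith only [e1, e2, e3]

/-- weak sequential compactness of countably many uniformly integrable sequences -/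
theorem exists_weak_limit {α : Type*} [MeasurableSpace α] [MeasurableSpace.CountablyGenerated α]
    (μ : Measure α) [IsFiniteMeasure μ] (g : ℕ → ℕ → α → ℝ) (mg : ∀ j n, Measurable (g j n))
    (g0 : ∀ j n a, 0 ≤ g j n a) (ui : ∀ j, UI μ fun n a => ENNReal.ofReal (g j n a)) :
    ∃ φ : ℕ → ℕ, StrictMono φ ∧ ∃ G : ℕ → α → ℝ, (∀ j, Measurable (G j)) ∧
      (∀ j a, 0 ≤ G j a) ∧ (∀ j, Integrable (G j) μ) ∧
      ∀ j, WConv μ (fun n => g j (φ n)) (G j) := by
  obtain ⟨φ, hφ, F, mF, iF, hF⟩ := w2_fam μ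
    (fun i n a => min (g i.unpair.1 n a) (i.unpair.2 : ℝ) / ((i.unpair.2 : ℝ) + 1))
    (fun i n => ((mg _ _).min measurable_const).div_const _) (fun i n a => by
      rw [abs_of_nonneg (div_nonneg (le_min (g0 _ _ _) (Nat.cast_nonneg _)) (by positivity)),
        div_le_one (by positivity)]
      exact (min_le_right _ _).trans (by linarith))
  have hS : ∀ j, ∃ G : α → ℝ, Measurable G ∧ (∀ a, 0 ≤ G a) ∧ Integrable G μ ∧
      WConv μ (fun n => g j (φ n)) G := by
    intro j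
    refine w2_single μ (fun n => g j (φ n)) (fun n => mg _ _) (fun n => g0 _ _)
      (fun ε hε => ?_) (fun m a => ((m : ℝ) + 1) * F (Nat.pair j m) a)
      (fun m => (mF _).const_mul _) (fun m => (iF _).const_mul _) fun m θ mθ bθ => ?_
    · obtain ⟨K, hK⟩ := ui j ε hε
      exact ⟨K, fun n => hK (φ n)⟩
    · have h1 := (hF (Nat.pair j m) θ mθ bθ).const_mul ((m : ℝ) + 1)
      simp only [Nat.unpair_pair] at h1
      rw [← integral_const_mul] at h1
      have h2 : ((m : ℝ) + 1) ≠ 0 := by positivity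
      convert h1 using 2 with n
      · rw [← integral_const_mul]
        congr 1
        funext a
        (clear * - h2; field_simp)
      · congr 1
        funext a
        ring
  choose G h1 h2 h3 h4 using hS
  exact ⟨φ, hφ, G, h1, h2, h3, h4⟩

end Vale.Agent.P140.DL
end
end
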