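import Vale.Agent.P140.MathlibUsed
import Vale.Agent.P140.Bd3.B1
import Vale.Agent.P140.Bd3.B8
import Vale.Agent.P140.Bd3.B4
import Vale.Agent.P140.Bd3.B7
import Vale.Agent.P140.Bd3.B6
import Vale.Agent.P140.Bd3.B3
import Vale.Agent.P140.Bd3.B2
import Vale.Agent.P140.Bd3.B5

set_option linter.all false

attribute [local instance 5000] Vale.Agent.P140.Sc.a01 Vale.Agent.P140.Sc.a02 Vale.Agent.P140.Sc.a03 Vale.Agent.P140.Sc.a04 Vale.Agent.P140.Sc.a05 Vale.Agent.P140.Sc.a06 Vale.Agent.P140.Sc.a07 Vale.Agent.P140.Sc.a08 Vale.Agent.P140.Sc.a09 Vale.Agent.P140.Sc.a10 Vale.Agent.P140.Sc.a11 Vale.Agent.P140.Sc.a12 Vale.Agent.P140.Sc.a13 Vale.Agent.P140.Sc.a14 Vale.Agent.P140.Sc.a15 Vale.Agent.P140.Sc.a16 Vale.Agent.P140.Sc.a17 Vale.Agent.P140.Sc.a18 Vale.Agent.P140.Sc.a19 Vale.Agent.P140.Sc.a20 Vale.Agent.P140.Sc.a21 Vale.Agent.P140.Sc.a22 Vale.Agent.P140.Sc.a23 Vale.Agent.P140.Sc.a24 Vale.Agent.P140.Sc.a25 Vale.Agent.P140.Sc.a26 Vale.Agent.P140.Sc.a27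 Vale.Agent.P140.Sc.a28 Vale.Agent.P140.Sc.a29 Vale.Agent.P140.Sc.a30 Vale.Agent.P140.Sc.a31 Vale.Agent.P140.Sc.a32 Vale.Agent.P140.Sc.a33 Vale.Agent.P140.Sc.r01 Vale.Agent.P140.Sc.r02 Vale.Agent.P140.Sc.r03 Vale.Agent.P140.Sc.r04 Vale.Agent.P140.Sc.r05 Vale.Agent.P140.Sc.r06 Vale.Agent.P140.Sc.r07 Vale.Agent.P140.Sc.r08 Vale.Agent.P140.Sc.r09 Vale.Agent.P140.Sc.r10 Vale.Agent.P140.Sc.r11 Vale.Agent.P140.Sc.r12 Vale.Agent.P140.Sc.r13 Vale.Agent.P140.Sc.r14 Vale.Agent.P140.Sc.r15 Vale.Agent.P140.Sc.r16 Vale.Agent.P140.Sc.r17 Vale.Agent.P140.Sc.r18 Vale.Agent.P140.Sc.a34 Vale.Agent.P140.Sc.a35 Vale.Agent.P140.Sc.a36 Vale.Agent.P140.Sc.a37 Vale.Agent.P140.Sc.a38 Vale.Agent.P140.Sc.a39 Vale.Agent.P140.Sc.a40 Vale.Agent.P140.Sc.a42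

section

open MeasureTheory Set Filter
open scoped ENNReal Topology NNReal

noncomputable section

namespace Vale.Agent.P140

end Vale.Agent.P140
end
end

section

/-!
P140, non-uniqueness, module M (medium): the singular datum.
-/

open MeasureTheory Set Filter
open scoped ENNReal Topology

noncomputable section

namespace Vale.Agent.P140.NU.Med

variable {P : Par}

/-! ### volume of a tube around the line -/

theorem vol_tube {ρ : ℝ} (hρ : 0 ≤ ρ) :
    volume {x : T3 | rr x ≤ ρ} ≤ ENNReal.ofReal (4 * ρ ^ 2) := by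
  have hsub : {x : T3 | rr x ≤ ρ} ⊆ Set.pi univ
      (fun i : Fin 3 => if i = 2 then (univ : Set UnitAddCircle) else Metric.closedBall 0 ρ) := by
    intro x hx i _
    have h0 : |rep x 0| ≤ ρ := (abs_rep0_le x).trans hx
    have h1 : |rep x 1| ≤ ρ := (abs_rep1_le x).trans hx
    fin_cases i
    · simp only [Fin.zero_eta, Fin.isValue, Fin.reduceEq, ↓reduceIte, Metric.mem_closedBall, dist_zero_right, norm_eq_abs_rep, h0]
    · simp only [Fin.mk_one, Fin.isValue, Fin.reduceEq, ↓reduceIte, Metric.mem_closedBall, dist_zero_right, norm_eq_abs_rep, h1]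
    · simp
  refine (measure_mono hsub).trans ?_
  rw [volume_pi_pi]
  simp only [Fin.prod_univ_three, Fin.isValue]
  have hb : volume (Metric.closedBall (0 : UnitAddCircle) ρ) ≤ ENNReal.ofReal (2 * ρ) := by
    rw [AddCircle.volume_closedBall]
    exact ENNReal.ofReal_le_ofReal (min_le_right _ _)
  have e0 : ((0 : Fin 3) = 2) = False := by simp
  have e1 : ((1 : Fin 3) = 2) = False := by simp
  simp only [e0, e1, if_true, if_false]
  rw [show volume (univ : Set UnitAddCircle) = 1 from UnitAddCircle.measure_univ, mul_one]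
  calc volume (Metric.closedBall (0 : UnitAddCircle) ρ) *
        volume (Metric.closedBall (0 : UnitAddCircle) ρ)
      ≤ ENNReal.ofReal (2 * ρ) * ENNReal.ofReal (2 * ρ) := mul_le_mul' hb hb
    _ = ENNReal.ofReal (4 * ρ ^ 2) := by
        rw [← ENNReal.ofReal_mul (by (clear * - hρ; positivity))]
        congr 1
        ring

theorem measurableSet_tube (ρ : ℝ) : MeasurableSet {x : T3 | rr x ≤ ρ} :=
  measurableSet_le measurable_rr measurable_const

/-! ### mass of one cell -/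

theorem lintegral_coldj_le (h : Good P) (j : ℕ) :
    ∫⁻ p : T3 × V, ENNReal.ofReal (coldj P j p.1 p.2) ≤ ENNReal.ofReal (5 * P.c * P.lam ^ j) := by
  have hg := gg_pos
  have hl := h.lpos
  rw [Measure.volume_eq_prod, lintegral_prod _ (measurable_coldj P j).ennreal_ofReal.aemeasurable]
  have h1 : ∀ x : T3, ∫⁻ v, ENNReal.ofReal (coldj P j x v) ≤
      {x : T3 | rr x ≤ P.lam ^ j}.indicator
        (fun _ => ENNReal.ofReal ((1 + 1 / 1000) * P.c / P.lam ^ (j + 1))) x := by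
    intro x
    by_cases hc : rr x ∈ P.cell gg j
    · have hx1 := h.le_cell hg.le hc
      have hx2 := h.cell_le hg.le hc
      have hx0 := h.cell_pos hc
      rw [indicator_of_mem (show x ∈ {x : T3 | rr x ≤ P.lam ^ j} from hx2)]
      calc ∫⁻ v, ENNReal.ofReal (coldj P j x v)
          ≤ ∫⁻ v, (Box P j x).indicator (fun _ => ENNReal.ofReal (P.amp j)) v := by
            apply lintegral_mono
            intro v
            beta_reduce
            by_cases hv : v ∈ Box P j x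
            · rw [indicator_of_mem hv, coldj_of_mem hc hv]
            · rw [indicator_of_notMem hv]
              unfold coldj
              rw [if_neg (fun hh => hv hh.2)]
              simp
        _ = ENNReal.ofReal (P.amp j) * volume (Box P j x) := by
            rw [lintegral_indicator (measurableSet_Box j hx0), setLIntegral_const]
        _ ≤ ENNReal.ofReal ((1 + 1 / 1000) * P.c / rr x) := amp_vol_le h j hx1
        _ ≤ _ := by
            apply ENNReal.ofReal_le_ofReal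
            have := h.hc
            have := pow_pos hl (j + 1)
            gcongr
    · have h0 : ∀ v, coldj P j x v = 0 := by
        intro v
        unfold coldj
        rw [if_neg (fun hh => hc hh.1)]
      simp only [h0, ENNReal.ofReal_zero, lintegral_const, measure_univ_of_isAddLeftInvariant, zero_mul, one_div, zero_le]
  refine (lintegral_mono h1).trans ?_
  rw [lintegral_indicator (measurableSet_tube _), setLIntegral_const]
  have hlj := pow_pos hl j
  have hlj1 := pow_pos hl (j + 1)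
  have hc0 := h.hc
  calc ENNReal.ofReal ((1 + 1 / 1000) * P.c / P.lam ^ (j + 1)) * volume {x : T3 | rr x ≤ P.lam ^ j}
      ≤ ENNReal.ofReal ((1 + 1 / 1000) * P.c / P.lam ^ (j + 1)) *
          ENNReal.ofReal (4 * (P.lam ^ j) ^ 2) := by
        gcongr
        exact vol_tube hlj.le
    _ = ENNReal.ofReal ((1 + 1 / 1000) * P.c / P.lam ^ (j + 1) * (4 * (P.lam ^ j) ^ 2)) := by
        rw [← ENNReal.ofReal_mul (by (clear * - hc0 hl; positivity))]
    _ ≤ _ := by
        apply ENNReal.ofReal_le_ofReal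
        have hl0 := h.l0
        rw [pow_succ, div_mul_eq_mul_div, div_le_iff₀ (by positivity)]
        have e1 : (1 + 1 / 1000) * P.c * (4 * (P.lam ^ j) ^ 2) =
          (P.c * (P.lam ^ j) ^ 2) * (4 + 4 / 1000) := by ring
        have e2 : 5 * P.c * P.lam ^ j * (P.lam ^ j * P.lam) =
          (P.c * (P.lam ^ j) ^ 2) * (5 * P.lam) := by ring
        rw [e1, e2]
        apply mul_le_mul_of_nonneg_left _ (by (clear * - hc0 hl; positivity))
        linarith only [hl0]

/-! ### the singular datum -/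

theorem coldj_eq_zero_of {j : ℕ} {x : T3} {v : V} (hc : rr x ∉ P.cell gg j) :
    coldj P j x v = 0 := by
  unfold coldj
  rw [if_neg (fun hh => hc hh.1)]

theorem coldInf_of_cell (h : Good P) {j : ℕ} (hj : P.j0 ≤ j) {x : T3} (hc : rr x ∈ P.cell gg j)
    (v : V) : coldInf P x v = coldj P j x v := by
  unfold coldInf
  rw [tsum_eq_single j]
  · rw [if_pos hj]
  · intro i hi
    split_ifs with h1
    · apply coldj_eq_zero_of
      intro hcon
      exact hi (h.cell_unique gg_pos hcon hc)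
    · rfl

theorem coldInf_eq_zero_of {x : T3} (hx : ∀ j, P.j0 ≤ j → rr x ∉ P.cell gg j) (v : V) :
    coldInf P x v = 0 := by
  unfold coldInf
  have : (fun j : ℕ => if P.j0 ≤ j then coldj P j x v else 0) = fun _ => 0 := by
    funext j
    split_ifs with h1
    · exact coldj_eq_zero_of (hx j h1)
    · rfl
  rw [this, tsum_zero]

theorem coldInf_cases (h : Good P) (x : T3) (v : V) : coldInf P x v = 0 ∨
    ∃ j, P.j0 ≤ j ∧ rr x ∈ P.cell gg j ∧ v ∈ Box P j x ∧ coldInf P x v = P.amp j := by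
  by_cases hx : ∃ j, P.j0 ≤ j ∧ rr x ∈ P.cell gg j
  · obtain ⟨j, hj, hc⟩ := hx
    rw [coldInf_of_cell h hj hc]
    by_cases hv : v ∈ Box P j x
    · exact Or.inr ⟨j, hj, hc, hv, coldj_of_mem hc hv⟩
    · left
      unfold coldj
      rw [if_neg (fun hh => hv hh.2)]
  · left
    apply coldInf_eq_zero_of
    intro j hj hc
    exact hx ⟨j, hj, hc⟩

theorem coldInf_nonneg (h : Good P) (x : T3) (v : V) : 0 ≤ coldInf P x v := by
  rcases coldInf_cases h x v with h0 | ⟨j, _, _, _, h4⟩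
  · rw [h0]
  · rw [h4]; exact (h.amp_pos j).le

theorem norm_sq_eq (v : V) : ‖v‖ ^ 2 = vp v ^ 2 + v 2 ^ 2 := by
  rw [vp_sq, EuclideanSpace.norm_sq_eq]
  simp only [Fin.sum_univ_three, Real.norm_eq_abs, sq_abs]

theorem norm_sq_le_of_Box (h : Good P) {j : ℕ} {x : T3} {v : V} (hb : v ∈ Box P j x) :
    ‖v‖ ^ 2 ≤ 5 := by
  have h1 := vp_le_one h hb
  have h2 := vp_nonneg v
  obtain ⟨_, _, _, _, h5⟩ := hb
  have hδ := h.del_le j
  have hk := h.kdel_le
  norm_num at hk
  rw [norm_sq_eq]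
  have hsg : |sg j| = 1 := by
    unfold sg
    rw [abs_pow]
    simp only [abs_neg, abs_one, one_pow]
  have h6 : |v 2| ≤ 3 / 2 := by
    calc |v 2| = |(v 2 - sg j) + sg j| := by ring_nf
      _ ≤ |v 2 - sg j| + |sg j| := abs_add_le _ _
      _ ≤ 3 / 2 := by rw [hsg]; linarith
  have h7 : v 2 ^ 2 ≤ (3 / 2) ^ 2 := by
    rw [← sq_abs]
    exact pow_le_pow_left₀ (abs_nonneg _) h6 2
  nlinarith only [h1, h7, h2]

/-- logarithm of the amplitude -/
theorem log_amp (h : Good P) (j : ℕ) : Real.log (P.amp j) =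
    Real.log (P.c / (4 * P.w * P.kdel ^ 3 * P.lam)) - (j : ℝ) * ((3 * P.Q + 1) * Real.log P.lam) := by
  have h1 := h.w_pos
  have h2 := h.k0
  have h3 := h.lpos
  have h4 : 0 < P.c := by have := h.hc; linarith only [this]
  have e : P.amp j = P.c / (4 * P.w * P.kdel ^ 3 * P.lam) / P.lam ^ (j * (3 * P.Q + 1)) := by
    unfold Par.amp Par.imp Par.del
    rw [div_div]
    congr 1
    rw [← pow_mul, show j * (3 * P.Q + 1) = j * P.Q + j * P.Q + j * P.Q + j by ring, pow_add,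
      pow_add, pow_add, pow_succ]
    ring
  rw [e, Real.log_div (by positivity) (by positivity), Real.log_pow]
  push_cast
  ring

theorem abs_log_amp_le (h : Good P) : ∃ A B : ℝ, 0 ≤ A ∧ 0 ≤ B ∧ ∀ j : ℕ,
    |Real.log (P.amp j)| ≤ A + B * j := by
  refine ⟨|Real.log (P.c / (4 * P.w * P.kdel ^ 3 * P.lam))|, |(3 * P.Q + 1) * Real.log P.lam|,
    abs_nonneg _, abs_nonneg _, fun j => ?_⟩
  rw [log_amp h]
  refine (abs_sub _ _).trans ?_
  rw [abs_mul, Nat.abs_cast, mul_comm (j : ℝ)]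

/-- pointwise bound of the integrand of the condition on the datum -/
theorem coldInf_integrand (h : Good P) {A B : ℝ} (hA : 0 ≤ A) (hB : 0 ≤ B)
    (hAB : ∀ j : ℕ, |Real.log (P.amp j)| ≤ A + B * j) (x : T3) (v : V) :
    ENNReal.ofReal (coldInf P x v * (1 + ‖v‖ ^ 2 + |Real.log (coldInf P x v)|)) ≤
      ∑' j : ℕ, ENNReal.ofReal (6 + A + B * j) * ENNReal.ofReal (coldj P j x v) := by
  rcases coldInf_cases h x v with h0 | ⟨j, hj, hc, hv, h4⟩
  · rw [h0]; simp only [Real.log_zero, abs_zero, add_zero, zero_mul, ENNReal.ofReal_zero, zero_le]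
  · refine le_trans ?_ (ENNReal.le_tsum j)
    rw [h4, coldj_of_mem hc hv, ← ENNReal.ofReal_mul (by (clear * - hA hB; positivity))]
    apply ENNReal.ofReal_le_ofReal
    have h5 := norm_sq_le_of_Box h hv
    have h6 := hAB j
    have h7 := h.amp_pos j
    (clear * - h5 h7 h6; linarith only [mul_nonneg (sub_nonneg.2 h6) (le_of_lt (sub_pos.2 h7)), mul_nonneg (sub_nonneg.2 h5) (le_of_lt (sub_pos.2 h7))])

theorem coldInf_finite (h : Good P) : ∫⁻ p : T3 × V, ENNReal.ofReal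
    (coldInf P p.1 p.2 * (1 + ‖p.2‖ ^ 2 + |Real.log (coldInf P p.1 p.2)|)) < ⊤ := by
  obtain ⟨A, B, hA, hB, hAB⟩ := abs_log_amp_le h
  have key : ∀ p : T3 × V, ENNReal.ofReal
      (coldInf P p.1 p.2 * (1 + ‖p.2‖ ^ 2 + |Real.log (coldInf P p.1 p.2)|)) ≤
      ∑' j : ℕ, ENNReal.ofReal (6 + A + B * j) * ENNReal.ofReal (coldj P j p.1 p.2) :=
    fun p => coldInf_integrand h hA hB hAB p.1 p.2
  refine (lintegral_mono key).trans_lt ?_
  rw [lintegral_tsum]
  · have h1 : ∀ j : ℕ, ∫⁻ p : T3 × V,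
        ENNReal.ofReal (6 + A + B * j) * ENNReal.ofReal (coldj P j p.1 p.2) ≤
        ENNReal.ofReal ((6 + A + B * j) * (5 * P.c * P.lam ^ j)) := by
      intro j
      rw [lintegral_const_mul _ (measurable_coldj P j).ennreal_ofReal,
        ENNReal.ofReal_mul (by (clear * - hA hB; positivity))]
      gcongr
      exact lintegral_coldj_le h j
    refine (ENNReal.tsum_le_tsum h1).trans_lt ?_
    have hl0 := h.lpos
    have hl1 := h.l1
    have hc := h.hc
    have hn : ‖P.lam‖ < 1 := by rw [Real.norm_eq_abs, abs_of_pos hl0]; exact hl1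
    have s0 : Summable fun j : ℕ => P.lam ^ j := summable_geometric_of_lt_one hl0.le hl1
    have s1 : Summable fun j : ℕ => (j : ℝ) ^ 1 * P.lam ^ j :=
      summable_pow_mul_geometric_of_norm_lt_one 1 hn
    have s2 : Summable fun j : ℕ => (6 + A + B * j) * (5 * P.c * P.lam ^ j) := by
      have := (s0.mul_left ((6 + A) * (5 * P.c))).add (s1.mul_left (B * (5 * P.c)))
      refine this.congr fun j => ?_
      rw [pow_one]; ring
    exact s2.tsum_ofReal_lt_top
  · intro j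
    exact ((measurable_coldj P j).ennreal_ofReal.const_mul _).aemeasurable

theorem coldInf_datum' (h : Good P) : IsDatum (coldInf P) :=
  ⟨measurable_coldInf P, coldInf_nonneg h, coldInf_finite h⟩

/-- (M4) the singular datum -/
theorem coldInf_datum : EvP fun P => IsDatum (coldInf P) :=
  EvP.mono good_ev fun _ h => coldInf_datum' h

end Vale.Agent.P140.NU.Med
end
end

section

/-!
P140, non-uniqueness, module M (medium): convergence of the data.
-/

open MeasureTheory Set Filter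
open scoped ENNReal Topology

noncomputable section

namespace Vale.Agent.P140.NU.Med

variable {P : Par}

theorem ss_pos (h : Good P) (n : ℕ) : 0 < P.ss n := by
  have := h.w_pos
  have := h.lpos
  unfold Par.ss; positivity

theorem ss_tendsto (h : Good P) : Tendsto P.ss atTop (𝓝 0) := by
  have h1 : Tendsto (fun n : ℕ => P.lam ^ (n + 1)) atTop (𝓝 0) :=
    (tendsto_pow_atTop_nhds_zero_of_lt_one h.lpos.le h.l1).comp (tendsto_add_atTop_nat 1)
  have h2 := h1.div_const P.w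
  rw [zero_div] at h2
  exact h2

theorem lam_le_ss (h : Good P) (n : ℕ) : P.lam ^ (n + 1) ≤ P.ss n := by
  have h1 := h.w_pos
  have h2 := h.w_le
  norm_num at h2
  unfold Par.ss
  rw [le_div_iff₀ h1]
  exact mul_le_of_le_one_right (pow_nonneg h.lpos.le _) (by linarith only [h2])

/-- the tube of radius `2 s*` -/
def Tb (P : Par) (n : ℕ) : Set (T3 × V) := {p | rr p.1 ≤ 2 * P.ss n}

theorem measurableSet_Tb (n : ℕ) : MeasurableSet (Tb P n) :=
  measurableSet_le (measurable_rr.comp measurable_fst) measurable_const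

/-- a set containing the support of the seed -/
def Sd (P : Par) (n : ℕ) : Set (T3 × V) := {x : T3 | rr x ≤ 2 * P.ss n} ×ˢ Metric.closedBall 0 3

theorem measurableSet_Sd (n : ℕ) : MeasurableSet (Sd P n) :=
  (measurableSet_tube _).prod measurableSet_closedBall

theorem vol_Sd (h : Good P) (n : ℕ) : volume (Sd P n) ≤
    ENNReal.ofReal (16 * P.ss n ^ 2) * volume (Metric.closedBall (0 : V) 3) := by
  unfold Sd
  rw [Measure.volume_eq_prod, Measure.prod_prod]
  gcongr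
  refine (vol_tube (by have := ss_pos h n; linarith)).trans (le_of_eq ?_)
  congr 1
  ring

theorem seed_cases (n : ℕ) (x : T3) (v : V) : seed P n x v = 0 ∨
    (P.ss n ≤ rr x ∧ rr x ≤ 2 * P.ss n ∧ 1 ≤ dotE x v ∧ dotE x v ≤ 2 ∧ ‖v‖ ≤ 3 ∧
      seed P n x v = (P.ss n)⁻¹) := by
  unfold seed
  split_ifs with hh
  · exact Or.inr ⟨hh.1, hh.2.1, hh.2.2.1, hh.2.2.2.1, hh.2.2.2.2, rfl⟩
  · exact Or.inl rfl

theorem coldn_cases (h : Good P) (n : ℕ) (x : T3) (v : V) : coldn P n x v = 0 ∨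
    ∃ j ∈ Finset.Icc P.j0 n, rr x ∈ P.cell gg j ∧ v ∈ Box P j x ∧ coldn P n x v = P.amp j ∧
      coldInf P x v = P.amp j := by
  by_cases hne : coldn P n x v = 0
  · exact Or.inl hne
  · obtain ⟨j, hj, hc, hb⟩ := coldn_ne_zero hne
    refine Or.inr ⟨j, hj, hc, hb, coldn_of_mem h hj hc hb, ?_⟩
    rw [coldInf_of_cell h (Finset.mem_Icc.1 hj).1 hc, coldj_of_mem hc hb]

/-- outside the tube nothing changes -/
theorem dat_eq_off (h : Good P) {n : ℕ} (κ : ℝ) {x : T3} (hx : 2 * P.ss n < rr x) (v : V) :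
    dat P n κ x v = coldInf P x v := by
  have hs0 := ss_pos h n
  have h1 : seed P n x v = 0 := by
    rcases seed_cases (P := P) n x v with h0 | h1
    · exact h0
    · exact absurd h1.2.1 (not_le.2 hx)
  unfold dat
  rw [h1, mul_zero, add_zero]
  rcases coldn_cases h n x v with h0 | ⟨j, _, _, _, h5, h6⟩
  · rw [h0]
    rcases coldInf_cases h x v with h2 | ⟨j, hj, hc, hb, _⟩
    · rw [h2]
    · exfalso
      by_cases hjn : j ≤ n
      · have := coldn_of_mem h (Finset.mem_Icc.2 ⟨hj, hjn⟩) hc hb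
        rw [h0] at this
        exact absurd this (h.amp_pos j).ne
      · push Not at hjn
        have e1 := h.cell_le gg_pos.le hc
        have e2 : P.lam ^ j ≤ P.lam ^ (n + 1) := pow_le_pow_of_le_one h.lpos.le h.l1.le hjn
        have e3 := lam_le_ss h n
        linarith only [hx, hs0, e1, e2, e3]
  · rw [h5, h6]

/-- seed and cold gas have disjoint supports -/
theorem seed_cold (h : Good P) {j : ℕ} {x : T3} {v : V} (hx : 0 < rr x) (hb : v ∈ Box P j x)
    (hs : 1 ≤ dotE x v) : False := by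
  obtain ⟨_, h2, _⟩ := hb
  have h3 := h.del_le j
  have h4 := h.kdel_le
  have h5 := h.w_le
  norm_num at h4 h5
  have h6 : dotE x v ≤ vp v := by
    rw [dotE_eq, div_le_iff₀ hx]
    apply le_of_sq_le_sq _ (mul_nonneg (vp_nonneg v) hx.le)
    have := dd_sq x v
    nlinarith only [this]
  linarith only [h6, h5, h4, h3, h2, hs]

theorem dat_cases (h : Good P) (n : ℕ) (κ : ℝ) (x : T3) (v : V) :
    dat P n κ x v = 0 ∨ dat P n κ x v = coldInf P x v ∨
      ((x, v) ∈ Sd P n ∧ dat P n κ x v = κ * (P.ss n)⁻¹) := by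
  rcases coldn_cases h n x v with h0 | ⟨j, _, hc, hb, h5, h6⟩
  · rcases seed_cases (P := P) n x v with h1 | ⟨_, h2, _, _, h3, h4⟩
    · left; unfold dat; rw [h0, h1]; simp
    · right; right
      refine ⟨⟨h2, ?_⟩, ?_⟩
      · simpa only [Metric.mem_closedBall, dist_zero_right] using h3
      · unfold dat; rw [h0, h4, zero_add]
  · right; left
    have h1 : seed P n x v = 0 := by
      rcases seed_cases (P := P) n x v with h1 | h1
      · exact h1
      · exact (seed_cold h (h.cell_pos hc) hb h1.2.2.1).elim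
    unfold dat
    rw [h5, h6, h1]; simp

/-! ### integrals over the tube -/

theorem ae_rr_pos : ∀ᵐ p : T3 × V, 0 < rr p.1 := by
  have h0 : volume {x : T3 | rr x ≤ 0} = 0 := by
    have := vol_tube (le_refl (0 : ℝ))
    simpa only [ne_eq, OfNat.ofNat_ne_zero, not_false_eq_true, zero_pow, mul_zero, ENNReal.ofReal_zero,     nonpos_iff_eq_zero] using this
  have h1 : ∀ᵐ x : T3, 0 < rr x := by
    rw [ae_iff]
    simpa only [not_lt] using h0
  have h2 : Measure.QuasiMeasurePreserving (Prod.fst : T3 × V → T3) volume volume :=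
    Measure.quasiMeasurePreserving_fst
  exact h2.ae h1

theorem tb_tendsto (h : Good P) {g : T3 × V → ℝ≥0∞} (hg : Measurable g)
    (hfin : ∫⁻ p, g p ≠ ⊤) : Tendsto (fun n => ∫⁻ p, (Tb P n).indicator g p) atTop (𝓝 0) := by
  have key := tendsto_lintegral_of_dominated_convergence (μ := (volume : Measure (T3 × V)))
    (F := fun n p => (Tb P n).indicator g p) (f := fun _ => 0) g
    (fun n => hg.indicator (measurableSet_Tb n))
    (fun n => Eventually.of_forall fun p => indicator_le_self _ _ _) hfin ?_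
  · simpa only [lintegral_const, zero_mul] using key
  · filter_upwards [ae_rr_pos] with p hp
    have h1 : ∀ᶠ n in atTop, P.ss n < rr p.1 / 2 :=
      (ss_tendsto h).eventually_lt_const (by linarith)
    apply tendsto_const_nhds.congr'
    filter_upwards [h1] with n hn
    rw [indicator_of_notMem]
    intro hmem
    have : rr p.1 ≤ 2 * P.ss n := hmem
    linarith only [hn, this]

theorem sd_tendsto (h : Good P) {c : ℕ → ℝ} (hc0 : ∀ n, 0 ≤ c n)
    (hc : Tendsto (fun n => c n * (16 * P.ss n ^ 2)) atTop (𝓝 0)) :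
    Tendsto (fun n => ∫⁻ p, (Sd P n).indicator (fun _ => ENNReal.ofReal (c n)) p) atTop (𝓝 0) := by
  have hfin : volume (Metric.closedBall (0 : V) 3) ≠ ⊤ := measure_closedBall_lt_top.ne
  have h1 : Tendsto (fun n => ENNReal.ofReal (c n * (16 * P.ss n ^ 2)) *
      volume (Metric.closedBall (0 : V) 3)) atTop (𝓝 0) := by
    have := ENNReal.Tendsto.mul_const (b := volume (Metric.closedBall (0 : V) 3))
      (ENNReal.tendsto_ofReal hc) (Or.inr hfin)
    simpa only [EuclideanSpace.volume_closedBall_fin_three, ENNReal.ofReal_ofNat, ENNReal.ofReal_zero,     zero_mul] using this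
  refine tendsto_of_tendsto_of_tendsto_of_le_of_le tendsto_const_nhds h1 (fun _ => zero_le) ?_
  intro n
  beta_reduce
  rw [lintegral_indicator (measurableSet_Sd n), setLIntegral_const]
  calc ENNReal.ofReal (c n) * volume (Sd P n)
      ≤ ENNReal.ofReal (c n) * (ENNReal.ofReal (16 * P.ss n ^ 2) *
          volume (Metric.closedBall (0 : V) 3)) := by
        gcongr
        exact vol_Sd h n
    _ = _ := by
        rw [← mul_assoc, ← ENNReal.ofReal_mul (hc0 n)]

theorem measurable_coldInf' : Measurable fun p : T3 × V => coldInf P p.1 p.2 :=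
  measurable_coldInf P

theorem coldInf_int (h : Good P) : ∫⁻ p : T3 × V, ENNReal.ofReal (6 * coldInf P p.1 p.2) ≠ ⊤ := by
  have h1 : ∀ p : T3 × V, ENNReal.ofReal (6 * coldInf P p.1 p.2) ≤ ENNReal.ofReal 6 *
      ENNReal.ofReal (coldInf P p.1 p.2 * (1 + ‖p.2‖ ^ 2 + |Real.log (coldInf P p.1 p.2)|)) := by
    intro p
    rw [← ENNReal.ofReal_mul (by norm_num)]
    apply ENNReal.ofReal_le_ofReal
    have h2 := coldInf_nonneg h p.1 p.2
    have h3 := abs_nonneg (Real.log (coldInf P p.1 p.2))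
    have h4 := sq_nonneg ‖p.2‖
    apply mul_le_mul_of_nonneg_left _ (by norm_num)
    exact le_mul_of_one_le_right h2 (by linarith)
  refine ((lintegral_mono h1).trans_lt ?_).ne
  have hm : Measurable fun p : T3 × V => ENNReal.ofReal
      (coldInf P p.1 p.2 * (1 + ‖p.2‖ ^ 2 + |Real.log (coldInf P p.1 p.2)|)) := by
    have := measurable_coldInf' (P := P)
    have h2 : Measurable fun p : T3 × V => |Real.log (coldInf P p.1 p.2)| :=
      (Real.measurable_log.comp this).abs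
    exact (this.mul (((measurable_snd.norm.pow_const 2).const_add 1).add h2)).ennreal_ofReal
  rw [lintegral_const_mul _ hm]
  exact ENNReal.mul_lt_top ENNReal.ofReal_lt_top (coldInf_finite h)

/-- pointwise comparison of the data -/
theorem dat_sub_le (h : Good P) (n : ℕ) {κ : ℝ} (hκ : κ ∈ Icc (0 : ℝ) 1) (p : T3 × V) :
    ENNReal.ofReal ((1 + ‖p.2‖ ^ 2) * |dat P n κ p.1 p.2 - coldInf P p.1 p.2|) ≤
      (Tb P n).indicator (fun p => ENNReal.ofReal (6 * coldInf P p.1 p.2)) p +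
      (Sd P n).indicator (fun _ => ENNReal.ofReal (10 * (P.ss n)⁻¹)) p := by
  have hs := ss_pos h n
  by_cases hT : rr p.1 ≤ 2 * P.ss n
  · rw [indicator_of_mem (show p ∈ Tb P n from hT)]
    have hI0 := coldInf_nonneg h p.1 p.2
    have hI : (1 + ‖p.2‖ ^ 2) * coldInf P p.1 p.2 ≤ 6 * coldInf P p.1 p.2 := by
      rcases coldInf_cases h p.1 p.2 with h0 | ⟨j, _, _, hb, _⟩
      · rw [h0]; simp
      · have := norm_sq_le_of_Box h hb
        apply mul_le_mul_of_nonneg_right _ hI0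
        linarith only [this]
    have hv0 : 0 ≤ 1 + ‖p.2‖ ^ 2 := by (clear * -; positivity)
    rcases dat_cases h n κ p.1 p.2 with h0 | h0 | ⟨h1, h2⟩
    · refine le_trans (ENNReal.ofReal_le_ofReal ?_) le_self_add
      rw [h0, zero_sub, abs_neg, abs_of_nonneg hI0]
      exact hI
    · rw [h0]; simp only [sub_self, abs_zero, mul_zero, ENNReal.ofReal_zero, Nat.ofNat_nonneg, ENNReal.ofReal_mul, ENNReal.ofReal_ofNat, zero_le]
    · rw [indicator_of_mem (show p ∈ Sd P n from h1), ← ENNReal.ofReal_add (by (clear * - hI0; positivity))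
        (by positivity)]
      apply ENNReal.ofReal_le_ofReal
      have h3 : |dat P n κ p.1 p.2 - coldInf P p.1 p.2| ≤ (P.ss n)⁻¹ + coldInf P p.1 p.2 := by
        refine (abs_sub _ _).trans ?_
        rw [h2, abs_of_nonneg hI0, abs_of_nonneg (mul_nonneg hκ.1 (inv_nonneg.2 hs.le))]
        have := mul_le_mul_of_nonneg_right hκ.2 (inv_nonneg.2 hs.le)
        linarith only [this]
      have h4 : ‖p.2‖ ≤ 3 := by simpa only [Metric.mem_closedBall, dist_zero_right] using h1.2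
      have h5 : ‖p.2‖ ^ 2 ≤ 3 ^ 2 := pow_le_pow_left₀ (norm_nonneg _) h4 2
      calc (1 + ‖p.2‖ ^ 2) * |dat P n κ p.1 p.2 - coldInf P p.1 p.2|
          ≤ (1 + ‖p.2‖ ^ 2) * ((P.ss n)⁻¹ + coldInf P p.1 p.2) :=
            mul_le_mul_of_nonneg_left h3 hv0
        _ = (1 + ‖p.2‖ ^ 2) * (P.ss n)⁻¹ + (1 + ‖p.2‖ ^ 2) * coldInf P p.1 p.2 := by ring
        _ ≤ 10 * (P.ss n)⁻¹ + 6 * coldInf P p.1 p.2 := by
            apply add_le_add _ hI
            apply mul_le_mul_of_nonneg_right _ (inv_nonneg.2 hs.le)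
            linarith only [h5]
        _ = _ := by ring
  · push Not at hT
    rw [dat_eq_off h κ hT]
    simp only [sub_self, abs_zero, mul_zero, ENNReal.ofReal_zero, Nat.ofNat_nonneg, ENNReal.ofReal_mul, ENNReal.ofReal_ofNat, zero_le]

theorem dat_tendsto' (h : Good P) (κ : ℕ → ℝ) (hκ : ∀ n, κ n ∈ Icc (0 : ℝ) 1) :
    Tendsto (fun n => ∫⁻ p : T3 × V, ENNReal.ofReal
      ((1 + ‖p.2‖ ^ 2) * |dat P n (κ n) p.1 p.2 - coldInf P p.1 p.2|)) atTop (𝓝 0) := by
  have hmI : Measurable fun p : T3 × V => ENNReal.ofReal (6 * coldInf P p.1 p.2) :=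
    ((measurable_coldInf' (P := P)).const_mul 6).ennreal_ofReal
  have t1 := tb_tendsto h hmI (coldInf_int h)
  have t2 := sd_tendsto h (c := fun n => 10 * (P.ss n)⁻¹)
    (fun n => by have := ss_pos h n; (clear * - this; positivity)) (by
      have : (fun n => 10 * (P.ss n)⁻¹ * (16 * P.ss n ^ 2)) = fun n => 160 * P.ss n := by
        funext n
        have := (ss_pos h n).ne'
        field_simp
        ring
      rw [this]
      have := (ss_tendsto h).const_mul 160
      simpa only [mul_zero] using this)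
  have t3 := t1.add t2
  rw [add_zero] at t3
  refine tendsto_of_tendsto_of_tendsto_of_le_of_le tendsto_const_nhds t3 (fun _ => zero_le) ?_
  intro n
  beta_reduce
  rw [← lintegral_add_left (hmI.indicator (measurableSet_Tb n))]
  exact lintegral_mono fun p => dat_sub_le h n (hκ n) p

theorem dat_tendsto : EvP fun P => ∀ κ : ℕ → ℝ, (∀ n, κ n ∈ Icc (0 : ℝ) 1) →
    Tendsto (fun n => ∫⁻ p : T3 × V, ENNReal.ofReal
      ((1 + ‖p.2‖ ^ 2) * |dat P n (κ n) p.1 p.2 - coldInf P p.1 p.2|)) atTop (𝓝 0) :=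
  EvP.mono good_ev fun _ h => dat_tendsto' h

/-! ### entropy -/

theorem log_two_pi : Real.log (2 * Real.pi) ≤ 2 := by
  rw [Real.log_le_iff_le_exp (by positivity)]
  have h1 := Real.pi_lt_d2
  have h2 := Real.exp_one_gt_d9
  have h3 : Real.exp 2 = Real.exp 1 ^ 2 := by rw [← Real.exp_nat_mul]; norm_num
  rw [h3]
  nlinarith

theorem entD_bound {f : ℝ} (hf : 0 ≤ f) (v : V) :
    entD f (Maxw v) ≤ f * (|Real.log f| + ‖v‖ ^ 2 / 2 + 3) + Maxw v := by
  unfold entD
  rcases hf.eq_or_lt with h0 | h0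
  · rw [← h0]; simp only [zero_div, Real.log_zero, mul_zero, sub_self, zero_add, abs_zero, zero_mul, Std.le_refl]
  · rw [Real.log_div h0.ne' (Maxw_pos v).ne', log_Maxw]
    have h1 := le_abs_self (Real.log f)
    have h2 := log_two_pi
    have h3 : f * (Real.log f - (-(3 / 2) * Real.log (2 * Real.pi) - ‖v‖ ^ 2 / 2)) ≤
        f * (|Real.log f| + ‖v‖ ^ 2 / 2 + 3) := by
      apply mul_le_mul_of_nonneg_left _ h0.le
      linarith
    linarith

theorem entD_zero (v : V) : entD 0 (Maxw v) = Maxw v := by unfold entD; simp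

/-- entropy density of the seed -/
theorem entD_seed {κ s : ℝ} (hκ : κ ∈ Icc (0 : ℝ) 1) (hs : 0 < s) {v : V} (hv : ‖v‖ ≤ 3) :
    entD (κ * s⁻¹) (Maxw v) ≤ s⁻¹ * (9 + |Real.log s|) + Maxw v := by
  have hs' : 0 < s⁻¹ := inv_pos.2 hs
  refine (entD_bound (mul_nonneg hκ.1 hs'.le) v).trans ?_
  have h5 : ‖v‖ ^ 2 ≤ 3 ^ 2 := pow_le_pow_left₀ (norm_nonneg _) hv 2
  have h6 : κ * |Real.log (κ * s⁻¹)| ≤ 1 + |Real.log s| := by
    rcases hκ.1.eq_or_lt with h0 | h0
    · rw [← h0]; have := abs_nonneg (Real.log s); simp only [zero_mul, Real.log_zero, abs_zero, mul_zero, ge_iff_le]; (clear * - this; linarith)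
    · rw [Real.log_mul h0.ne' hs'.ne', Real.log_inv]
      have h1 : |Real.log κ + -Real.log s| ≤ |Real.log κ| + |Real.log s| := by
        refine (abs_add_le _ _).trans ?_
        rw [abs_neg]
      have h2 : κ * |Real.log κ| ≤ 1 := by
        rw [abs_of_nonpos (Real.log_nonpos hκ.1 hκ.2)]
        have h3 := Real.log_le_sub_one_of_pos (inv_pos.2 h0)
        rw [Real.log_inv] at h3
        have h4 : κ * κ⁻¹ = 1 := mul_inv_cancel₀ h0.ne'
        nlinarith only [h0, h4, h3]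
      have h3 := mul_le_mul_of_nonneg_right hκ.2 (abs_nonneg (Real.log s))
      calc κ * |Real.log κ + -Real.log s| ≤ κ * (|Real.log κ| + |Real.log s|) :=
            mul_le_mul_of_nonneg_left h1 h0.le
        _ ≤ 1 + |Real.log s| := by linarith only [h2, h3]
  have h7 : κ * s⁻¹ * (|Real.log (κ * s⁻¹)| + ‖v‖ ^ 2 / 2 + 3) =
      s⁻¹ * (κ * |Real.log (κ * s⁻¹)| + κ * (‖v‖ ^ 2 / 2 + 3)) := by ring
  rw [h7]
  have h8 : κ * (‖v‖ ^ 2 / 2 + 3) ≤ 8 := by
    have : κ * (‖v‖ ^ 2 / 2 + 3) ≤ 1 * (‖v‖ ^ 2 / 2 + 3) :=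
      mul_le_mul_of_nonneg_right hκ.2 (by (clear * -; positivity))
    linarith only [h5, this]
  have h9 : s⁻¹ * (κ * |Real.log (κ * s⁻¹)| + κ * (‖v‖ ^ 2 / 2 + 3)) ≤
      s⁻¹ * (9 + |Real.log s|) := by
    apply mul_le_mul_of_nonneg_left _ hs'.le
    linarith only [h8, h6]
  (clear * - h9; linarith)

theorem entD_dat_le (h : Good P) (n : ℕ) {κ : ℝ} (hκ : κ ∈ Icc (0 : ℝ) 1) (p : T3 × V) :
    ENNReal.ofReal (entD (dat P n κ p.1 p.2) (Maxw p.2)) ≤
      ENNReal.ofReal (entD (coldInf P p.1 p.2) (Maxw p.2)) +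
      ((Tb P n).indicator (fun p => ENNReal.ofReal (Maxw p.2)) p +
      (Sd P n).indicator (fun _ => ENNReal.ofReal ((P.ss n)⁻¹ * (9 + |Real.log (P.ss n)|))) p) := by
  have hs := ss_pos h n
  by_cases hT : rr p.1 ≤ 2 * P.ss n
  · rw [indicator_of_mem (show p ∈ Tb P n from hT)]
    rcases dat_cases h n κ p.1 p.2 with h0 | h0 | ⟨h1, h2⟩
    · rw [h0, entD_zero]
      exact le_add_left le_self_add
    · rw [h0]; exact le_self_add
    · rw [indicator_of_mem (show p ∈ Sd P n from h1), h2, ← ENNReal.ofReal_add (Maxw_pos _).le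
        (by (clear * - hs; positivity))]
      refine le_add_left (ENNReal.ofReal_le_ofReal ?_)
      have h4 : ‖p.2‖ ≤ 3 := by simpa only [Metric.mem_closedBall, dist_zero_right] using h1.2
      have := entD_seed hκ hs h4
      linarith only [this]
  · push Not at hT
    rw [dat_eq_off h κ hT]
    exact le_self_add

theorem entD_cold_le (h : Good P) (n : ℕ) (κ : ℝ) (p : T3 × V) :
    ENNReal.ofReal (entD (coldInf P p.1 p.2) (Maxw p.2)) ≤
      ENNReal.ofReal (entD (dat P n κ p.1 p.2) (Maxw p.2)) +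
      (Tb P n).indicator (fun p => ENNReal.ofReal (entD (coldInf P p.1 p.2) (Maxw p.2))) p := by
  by_cases hT : rr p.1 ≤ 2 * P.ss n
  · rw [indicator_of_mem (show p ∈ Tb P n from hT)]
    exact le_add_self
  · push Not at hT
    rw [dat_eq_off h κ hT]
    exact le_self_add

theorem measurable_ent : Measurable fun p : T3 × V =>
    ENNReal.ofReal (entD (coldInf P p.1 p.2) (Maxw p.2)) :=
  (measurable_entD (measurable_coldInf' (P := P)) (measurable_Maxw.comp measurable_snd)).ennreal_ofReal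

theorem ent_fin (h : Good P) : ∫⁻ p : T3 × V,
    ENNReal.ofReal (entD (coldInf P p.1 p.2) (Maxw p.2)) ≠ ⊤ := by
  have h1 : ∀ p : T3 × V, ENNReal.ofReal (entD (coldInf P p.1 p.2) (Maxw p.2)) ≤
      ENNReal.ofReal (Maxw p.2) + ENNReal.ofReal 3 *
      ENNReal.ofReal (coldInf P p.1 p.2 * (1 + ‖p.2‖ ^ 2 + |Real.log (coldInf P p.1 p.2)|)) := by
    intro p
    have h2 := coldInf_nonneg h p.1 p.2
    have h3 := abs_nonneg (Real.log (coldInf P p.1 p.2))
    have h4 := sq_nonneg ‖p.2‖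
    rw [← ENNReal.ofReal_mul (by norm_num), ← ENNReal.ofReal_add (Maxw_pos _).le (by (clear * - h2; positivity))]
    apply ENNReal.ofReal_le_ofReal
    have h5 := entD_bound h2 p.2
    have h6 : coldInf P p.1 p.2 * (|Real.log (coldInf P p.1 p.2)| + ‖p.2‖ ^ 2 / 2 + 3) ≤
        coldInf P p.1 p.2 * (3 * (1 + ‖p.2‖ ^ 2 + |Real.log (coldInf P p.1 p.2)|)) := by
      apply mul_le_mul_of_nonneg_left _ h2
      linarith only [h4, h3]
    linarith only [h6, h5]
  refine ((lintegral_mono h1).trans_lt ?_).ne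
  have hm : Measurable fun p : T3 × V => ENNReal.ofReal
      (coldInf P p.1 p.2 * (1 + ‖p.2‖ ^ 2 + |Real.log (coldInf P p.1 p.2)|)) := by
    have := measurable_coldInf' (P := P)
    have h2 : Measurable fun p : T3 × V => |Real.log (coldInf P p.1 p.2)| :=
      (Real.measurable_log.comp this).abs
    exact (this.mul (((measurable_snd.norm.pow_const 2).const_add 1).add h2)).ennreal_ofReal
  have hmM : Measurable fun p : T3 × V => ENNReal.ofReal (Maxw p.2) :=
    (measurable_Maxw.comp measurable_snd).ennreal_ofReal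
  rw [lintegral_add_left hmM, lintegral_const_mul _ hm]
  exact ENNReal.add_lt_top.2 ⟨lintegral_Maxw_ne_top.lt_top,
    ENNReal.mul_lt_top ENNReal.ofReal_lt_top (coldInf_finite h)⟩

theorem slog_tendsto (h : Good P) :
    Tendsto (fun n => (P.ss n)⁻¹ * (9 + |Real.log (P.ss n)|) * (16 * P.ss n ^ 2)) atTop (𝓝 0) := by
  have h1 : Tendsto (fun n => P.ss n * Real.log (P.ss n)) atTop (𝓝 0) := by
    have := (Real.continuous_mul_log.tendsto 0).comp (ss_tendsto h)
    rw [zero_mul] at this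
    exact this
  have h2 := h1.abs
  have h3 : (fun n => (P.ss n)⁻¹ * (9 + |Real.log (P.ss n)|) * (16 * P.ss n ^ 2)) =
      fun n => 144 * P.ss n + 16 * |P.ss n * Real.log (P.ss n)| := by
    funext n
    have hs := ss_pos h n
    rw [abs_mul, abs_of_pos hs]
    field_simp
    ring
  rw [h3]
  have h4 := ((ss_tendsto h).const_mul 144).add (h2.const_mul 16)
  simpa only [abs_mul, mul_zero, abs_zero, add_zero] using h4

theorem dat_entropy' (h : Good P) (κ : ℕ → ℝ) (hκ : ∀ n, κ n ∈ Icc (0 : ℝ) 1) :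
    Tendsto (fun n => relEntropy (dat P n (κ n))) atTop (𝓝 (relEntropy (coldInf P))) := by
  have hmM : Measurable fun p : T3 × V => ENNReal.ofReal (Maxw p.2) :=
    (measurable_Maxw.comp measurable_snd).ennreal_ofReal
  have t1 := tb_tendsto h hmM lintegral_Maxw_ne_top
  have t2 := sd_tendsto h (c := fun n => (P.ss n)⁻¹ * (9 + |Real.log (P.ss n)|))
    (fun n => by have := ss_pos h n; (clear * - this; positivity)) (slog_tendsto h)
  have t3 := tb_tendsto h (measurable_ent (P := P)) (ent_fin h)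
  have e1 := relEntropy_eq (measurable_coldInf' (P := P))
  have up := (tendsto_const_nhds (x := relEntropy (coldInf P)) (f := atTop (α := ℕ))).add
    (t1.add t2)
  rw [add_zero, add_zero] at up
  have hR : relEntropy (coldInf P) ≠ ⊤ := by rw [e1]; exact ent_fin h
  have lo := ENNReal.Tendsto.sub (tendsto_const_nhds (x := relEntropy (coldInf P))
    (f := atTop (α := ℕ))) t3 (Or.inl hR)
  rw [tsub_zero] at lo
  refine tendsto_of_tendsto_of_tendsto_of_le_of_le lo up ?_ ?_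
  · intro n
    beta_reduce
    rw [tsub_le_iff_right, relEntropy_eq (measurable_dat P n (κ n)), e1,
      ← lintegral_add_right _ ((measurable_ent (P := P)).indicator (measurableSet_Tb n))]
    exact lintegral_mono fun p => entD_cold_le h n (κ n) p
  · intro n
    beta_reduce
    rw [relEntropy_eq (measurable_dat P n (κ n)), e1,
      ← lintegral_add_left (hmM.indicator (measurableSet_Tb n)),
      ← lintegral_add_left (measurable_ent (P := P))]
    exact lintegral_mono fun p => entD_dat_le h n (hκ n) p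

theorem dat_entropy : EvP fun P => ∀ κ : ℕ → ℝ, (∀ n, κ n ∈ Icc (0 : ℝ) 1) →
    Tendsto (fun n => relEntropy (dat P n (κ n))) atTop (𝓝 (relEntropy (coldInf P))) :=
  EvP.mono good_ev fun _ h => dat_entropy' h

end Vale.Agent.P140.NU.Med
end
end

section

/-!
P140, non-uniqueness, module M (medium): bounds of the data and mass of the seed.
-/

open MeasureTheory Set Filter
open scoped ENNReal Topology

noncomputable section

namespace Vale.Agent.P140.NU.Med

variable {P : Par}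

theorem dat_bdd' (h : Good P) (n : ℕ) : ∃ C : ℝ, ∀ κ ∈ Icc (0 : ℝ) 1, ∀ x v,
    0 ≤ dat P n κ x v ∧ dat P n κ x v ≤ C ∧ (3 < ‖v‖ → dat P n κ x v = 0) := by
  have hs := inv_pos.2 (ss_pos h n)
  have hA : 0 ≤ ∑ j ∈ Finset.Icc P.j0 n, P.amp j := Finset.sum_nonneg fun j _ => (h.amp_pos j).le
  refine ⟨(∑ j ∈ Finset.Icc P.j0 n, P.amp j) + (P.ss n)⁻¹, fun κ hκ x v => ?_⟩
  have h1 : 0 ≤ coldn P n x v ∧ coldn P n x v ≤ ∑ j ∈ Finset.Icc P.j0 n, P.amp j ∧
      (3 < ‖v‖ → coldn P n x v = 0) := by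
    rcases coldn_cases h n x v with h0 | ⟨j, hj, _, hb, h5, _⟩
    · rw [h0]; exact ⟨le_rfl, hA, fun _ => rfl⟩
    · rw [h5]
      refine ⟨(h.amp_pos j).le, ?_, fun h3 => ?_⟩
      · exact Finset.single_le_sum (f := fun j => P.amp j) (fun i _ => (h.amp_pos i).le) hj
      · have := norm_sq_le_of_Box h hb
        nlinarith only [h3, this]
  have h2 : 0 ≤ seed P n x v ∧ seed P n x v ≤ (P.ss n)⁻¹ ∧ (3 < ‖v‖ → seed P n x v = 0) := by
    rcases seed_cases (P := P) n x v with h0 | ⟨_, _, _, _, h3, h4⟩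
    · rw [h0]; exact ⟨le_rfl, hs.le, fun _ => rfl⟩
    · rw [h4]
      exact ⟨hs.le, le_rfl, fun h5 => by linarith only [h3, h5]⟩
  have h3 := mul_nonneg hκ.1 h2.1
  have h4 := mul_le_mul_of_nonneg_right hκ.2 h2.1
  unfold dat
  refine ⟨by linarith only [h1, h3], by linarith only [h1, h2, h4], fun h5 => ?_⟩
  rw [h1.2.2 h5, h2.2.2 h5]; simp

theorem dat_bdd : EvP fun P => ∀ n, ∃ C : ℝ, ∀ κ ∈ Icc (0 : ℝ) 1, ∀ x v,
    0 ≤ dat P n κ x v ∧ dat P n κ x v ≤ C ∧ (3 < ‖v‖ → dat P n κ x v = 0) :=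
  EvP.mono good_ev fun _ h => dat_bdd' h

theorem dat_meas (P : Par) (n : ℕ) (κ : ℝ) : Measurable fun p : T3 × V => dat P n κ p.1 p.2 :=
  measurable_dat P n κ

/-! ### mass of the seed -/

/-- radial unit vector -/
def er (x : T3) : V := !₂[rep x 0 / rr x, rep x 1 / rr x, 0]

theorem norm_er {x : T3} (hx : 0 < rr x) : ‖er x‖ = 1 := by
  have h1 : ‖er x‖ ^ 2 = 1 := by
    rw [EuclideanSpace.norm_sq_eq]
    simp only [Fin.sum_univ_three, Real.norm_eq_abs, sq_abs]
    have e0 : er x 0 = rep x 0 / rr x := rfl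
    have e1 : er x 1 = rep x 1 / rr x := rfl
    have e2 : er x 2 = 0 := rfl
    rw [e0, e1, e2]
    have h2 := rr_sq x
    have h3 : rr x ^ 2 ≠ 0 := by positivity
    field_simp
    linarith only [h2]
  have h2 := norm_nonneg (er x)
  nlinarith only [h1, h2]

theorem dotE_eq_inner (x : T3) (v : V) : dotE x v = inner ℝ (er x) v := by
  unfold dotE er
  rw [PiLp.inner_apply]
  simp only [Fin.sum_univ_three, RCLike.inner_apply, conj_trivial]
  simp only [Fin.isValue, Matrix.cons_val_zero, Matrix.cons_val_one, Matrix.cons_val, mul_zero, add_zero]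
  ring

theorem abs_dotE_sub {x : T3} (hx : 0 < rr x) {v : V}
    (hv : v ∈ Metric.closedBall ((3 / 2 : ℝ) • er x) (1 / 2)) :
    1 ≤ dotE x v ∧ dotE x v ≤ 2 ∧ ‖v‖ ≤ 3 := by
  have hn := norm_er hx
  rw [mem_closedBall_iff_norm] at hv
  have h1 : dotE x v = inner ℝ (er x) (v - (3 / 2 : ℝ) • er x) + 3 / 2 := by
    rw [dotE_eq_inner, inner_sub_right, inner_smul_right, real_inner_self_eq_norm_sq, hn]
    ring
  have h2 : |inner ℝ (er x) (v - (3 / 2 : ℝ) • er x)| ≤ 1 / 2 := by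
    refine (abs_real_inner_le_norm _ _).trans ?_
    rw [hn, one_mul]; exact hv
  have h3 := abs_le.1 h2
  refine ⟨by linarith only [h1, h3], by linarith only [h1, h3], ?_⟩
  calc ‖v‖ = ‖(v - (3 / 2 : ℝ) • er x) + (3 / 2 : ℝ) • er x‖ := by rw [sub_add_cancel]
    _ ≤ ‖v - (3 / 2 : ℝ) • er x‖ + ‖(3 / 2 : ℝ) • er x‖ := norm_add_le _ _
    _ ≤ 1 / 2 + 3 / 2 := by
        apply add_le_add hv
        rw [norm_smul, hn]; norm_num
    _ ≤ 3 := by norm_num

/-- a box in the annulus `s ≤ rr x ≤ 2 s` -/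
def Ann (s : ℝ) : Set T3 := Set.pi univ fun i : Fin 3 =>
  if i = 0 then Metric.closedBall ((3 / 2 * s : ℝ) : UnitAddCircle) (s / 4)
  else if i = 1 then Metric.closedBall (0 : UnitAddCircle) (s / 2) else univ

theorem measurableSet_Ann (s : ℝ) : MeasurableSet (Ann s) := by
  unfold Ann
  refine MeasurableSet.univ_pi fun i => ?_
  split_ifs
  · exact measurableSet_closedBall
  · exact measurableSet_closedBall
  · exact MeasurableSet.univ

theorem rr_of_Ann {s : ℝ} (hs : 0 < s) (hs1 : s ≤ 1 / 8) {x : T3} (hx : x ∈ Ann s) :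
    s ≤ rr x ∧ rr x ≤ 2 * s := by
  have h0 : x 0 ∈ Metric.closedBall ((3 / 2 * s : ℝ) : UnitAddCircle) (s / 4) := by
    simpa only [Fin.isValue, Metric.mem_closedBall, ↓reduceIte] using hx 0 (mem_univ 0)
  have h1 : x 1 ∈ Metric.closedBall (0 : UnitAddCircle) (s / 2) := by
    simpa only [Fin.isValue, Metric.mem_closedBall, dist_zero_right, one_ne_zero, ↓reduceIte] using     hx 1 (mem_univ 1)
  rw [mem_closedBall_iff_norm] at h0 h1
  rw [sub_zero] at h1
  have h2 : ‖((3 / 2 * s : ℝ) : UnitAddCircle)‖ = 3 / 2 * s := by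
    rw [norm_coe_of_le, abs_of_pos (by positivity)]
    rw [abs_of_pos (by positivity)]; linarith only [hs1]
  have h3 : ‖x 0‖ ≤ 7 / 4 * s := by
    calc ‖x 0‖ = ‖(x 0 - ((3 / 2 * s : ℝ) : UnitAddCircle)) + ((3 / 2 * s : ℝ) : UnitAddCircle)‖ := by
          rw [sub_add_cancel]
      _ ≤ _ := norm_add_le _ _
      _ ≤ 7 / 4 * s := by rw [h2]; linarith only [h0]
  have h4 : 5 / 4 * s ≤ ‖x 0‖ := by
    have : ‖((3 / 2 * s : ℝ) : UnitAddCircle)‖ ≤
        ‖((3 / 2 * s : ℝ) : UnitAddCircle) - x 0‖ + ‖x 0‖ := by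
      calc ‖((3 / 2 * s : ℝ) : UnitAddCircle)‖ =
          ‖(((3 / 2 * s : ℝ) : UnitAddCircle) - x 0) + x 0‖ := by rw [sub_add_cancel]
        _ ≤ _ := norm_add_le _ _
    rw [h2, norm_sub_rev] at this
    linarith only [this, h0]
  unfold rr
  constructor
  · apply Real.le_sqrt_of_sq_le
    nlinarith only [h4, h3]
  · apply Real.sqrt_le_iff.2
    refine ⟨by positivity, ?_⟩
    have e0 : ‖x 0‖ ^ 2 ≤ (7 / 4 * s) ^ 2 := pow_le_pow_left₀ (norm_nonneg _) h3 2
    have e1 : ‖x 1‖ ^ 2 ≤ (s / 2) ^ 2 := pow_le_pow_left₀ (norm_nonneg _) h1 2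
    nlinarith only [e0, e1]

theorem vol_Ann {s : ℝ} (hs : 0 < s) (hs1 : s ≤ 1 / 8) :
    volume (Ann s) = ENNReal.ofReal (s ^ 2 / 2) := by
  unfold Ann
  rw [volume_pi_pi]
  simp only [Fin.isValue, Fin.prod_univ_three]
  have e1 : ((1 : Fin 3) = 0) = False := by simp
  have e2 : ((2 : Fin 3) = 0) = False := by simp
  have e3 : ((2 : Fin 3) = 1) = False := by simp
  simp only [e1, e2, e3, if_true, if_false]
  rw [show volume (univ : Set UnitAddCircle) = 1 from UnitAddCircle.measure_univ, mul_one,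
    AddCircle.volume_closedBall, AddCircle.volume_closedBall, min_eq_right (by linarith only [hs1, hs]),
    min_eq_right (by linarith only [hs1]), ← ENNReal.ofReal_mul (by positivity)]
  congr 1
  ring

theorem seed_mass' (h : Good P) (n : ℕ) (hs1 : P.ss n ≤ 1 / 8) :
    ENNReal.ofReal ((volume (Metric.closedBall (0 : V) (1 / 2))).toReal / 2 * P.ss n) ≤
      ∫⁻ p : T3 × V, ENNReal.ofReal (seed P n p.1 p.2) := by
  have hs := ss_pos h n
  have hfin : volume (Metric.closedBall (0 : V) (1 / 2)) ≠ ⊤ := measure_closedBall_lt_top.ne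
  rw [Measure.volume_eq_prod, lintegral_prod _ (measurable_seed P n).ennreal_ofReal.aemeasurable]
  have key : ∀ x : T3, (Ann (P.ss n)).indicator (fun _ => ENNReal.ofReal (P.ss n)⁻¹ *
      volume (Metric.closedBall (0 : V) (1 / 2))) x ≤
      ∫⁻ v, ENNReal.ofReal (seed P n x v) := by
    intro x
    by_cases hx : x ∈ Ann (P.ss n)
    · rw [indicator_of_mem hx]
      obtain ⟨h1, h2⟩ := rr_of_Ann hs hs1 hx
      have hx0 : 0 < rr x := lt_of_lt_of_le hs h1
      have e1 : volume (Metric.closedBall (0 : V) (1 / 2)) =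
          volume (Metric.closedBall ((3 / 2 : ℝ) • er x) (1 / 2)) :=
        (Measure.addHaar_closedBall_center volume _ _).symm
      rw [e1, ← setLIntegral_const, ← lintegral_indicator measurableSet_closedBall]
      apply lintegral_mono
      intro v
      beta_reduce
      by_cases hv : v ∈ Metric.closedBall ((3 / 2 : ℝ) • er x) (1 / 2)
      · rw [indicator_of_mem hv]
        obtain ⟨h3, h4, h5⟩ := abs_dotE_sub hx0 hv
        unfold seed
        rw [if_pos ⟨h1, h2, h3, h4, h5⟩]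
      · rw [indicator_of_notMem hv]; exact zero_le
    · rw [indicator_of_notMem hx]; exact zero_le
  refine le_trans ?_ (lintegral_mono key)
  rw [lintegral_indicator (measurableSet_Ann _), setLIntegral_const, vol_Ann hs hs1]
  apply le_of_eq
  rw [show (volume (Metric.closedBall (0 : V) (1 / 2))).toReal / 2 * P.ss n =
    (P.ss n)⁻¹ * (volume (Metric.closedBall (0 : V) (1 / 2))).toReal * (P.ss n ^ 2 / 2) by
      (clear * - hs; field_simp)]
  rw [ENNReal.ofReal_mul (by (clear * - hs; positivity)), ENNReal.ofReal_mul (by positivity),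
    ENNReal.ofReal_toReal hfin]

/-- mass of the seed -/
theorem seed_mass : ∃ c0 : ℝ, 0 < c0 ∧ EvP fun P => ∀ n, P.ss n ≤ 1 / 8 →
    ENNReal.ofReal (c0 * P.ss n) ≤ ∫⁻ p : T3 × V, ENNReal.ofReal (seed P n p.1 p.2) := by
  refine ⟨(volume (Metric.closedBall (0 : V) (1 / 2))).toReal / 2, ?_,
    EvP.mono good_ev fun _ h n hn => seed_mass' h n hn⟩
  have hfin : volume (Metric.closedBall (0 : V) (1 / 2)) ≠ ⊤ := measure_closedBall_lt_top.ne
  have hpos : volume (Metric.closedBall (0 : V) (1 / 2)) ≠ 0 :=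
    (Metric.measure_closedBall_pos _ _ (by norm_num)).ne'
  have := ENNReal.toReal_pos hpos hfin
  positivity

end Vale.Agent.P140.NU.Med
end
end

section

/-!
P140, non-uniqueness, module M (medium): the statements of `NU/Iface/M.lean`, proved.
-/

open MeasureTheory Set Filter
open scoped ENNReal Topology

noncomputable section

namespace Vale.Agent.P140.NU

/-- (M1) support of the free flow of the cold gas -/
theorem cf_support : EvP fun P => ∀ᶠ t0 in 𝓝[>] (0 : ℝ), ∀ n, ∀ t ∈ Icc 0 (2 * t0), ∀ x v,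
    cf P n t x v ≠ 0 → ∃ j ∈ Finset.Icc P.j0 n, rr x - P.w * t ∈ P.cell (gg / 2) j ∧
      v ∈ Box P j x ∧ √(SS P (sg j) x v) ≤ 4 * P.del j ∧
      cf P n t x v ≤ ENNReal.ofReal (P.amp j) := Med.cf_support

/-- (M2) density of the free cold gas, upper bound -/
theorem cf_mass_le : EvP fun P => ∀ᶠ t0 in 𝓝[>] (0 : ℝ), ∀ n, ∀ t ∈ Icc 0 (2 * t0), ∀ x,
    ∫⁻ v, cf P n t x v ≤ ENNReal.ofReal ((1 + 1 / 1000) * P.c / rr x) := Med.cf_mass_le

/-- (M3) density of the free cold gas, lower bound in the reduced cells -/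
theorem cf_mass_ge : EvP fun P => ∀ᶠ t0 in 𝓝[>] (0 : ℝ), ∀ n, ∀ t ∈ Icc 0 (2 * t0), ∀ x,
    (∃ j ∈ Finset.Icc P.j0 n, rr x - P.w * t ∈ P.cell (2 * gg) j) →
    ENNReal.ofReal (P.c / rr x) ≤ ∫⁻ v, cf P n t x v := Med.cf_mass_ge

/-- (M4) the singular datum -/
theorem coldInf_datum : EvP fun P => IsDatum (coldInf P) := Med.coldInf_datum

theorem dat_tendsto : EvP fun P => ∀ κ : ℕ → ℝ, (∀ n, κ n ∈ Icc (0 : ℝ) 1) →
    Tendsto (fun n => ∫⁻ p : T3 × V, ENNReal.ofReal
      ((1 + ‖p.2‖ ^ 2) * |dat P n (κ n) p.1 p.2 - coldInf P p.1 p.2|)) atTop (𝓝 0) :=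
  Med.dat_tendsto

theorem dat_entropy : EvP fun P => ∀ κ : ℕ → ℝ, (∀ n, κ n ∈ Icc (0 : ℝ) 1) →
    Tendsto (fun n => relEntropy (dat P n (κ n))) atTop (𝓝 (relEntropy (coldInf P))) :=
  Med.dat_entropy

theorem dat_bdd : EvP fun P => ∀ n, ∃ C : ℝ, ∀ κ ∈ Icc (0 : ℝ) 1, ∀ x v,
    0 ≤ dat P n κ x v ∧ dat P n κ x v ≤ C ∧ (3 < ‖v‖ → dat P n κ x v = 0) := Med.dat_bdd

theorem dat_meas : ∀ P n κ, Measurable fun p : T3 × V => dat P n κ p.1 p.2 := Med.dat_meas

/-- mass of the seed -/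
theorem seed_mass : ∃ c0 : ℝ, 0 < c0 ∧ EvP fun P => ∀ n, P.ss n ≤ 1 / 8 →
    ENNReal.ofReal (c0 * P.ss n) ≤ ∫⁻ p : T3 × V, ENNReal.ofReal (seed P n p.1 p.2) :=
  Med.seed_mass

/-- mass of a velocity box -/
theorem box_mass : EvP fun P => ∀ j, P.j0 ≤ j → ∀ x, P.lam ^ (j + 1) ≤ rr x →
    ENNReal.ofReal (P.amp j) * volume (Box P j x) ≤ ENNReal.ofReal (2 * P.c / rr x) := by
  refine Med.EvP.mono Med.good_ev fun P h j _ x hx => (Med.amp_vol_le h j hx).trans ?_
  apply ENNReal.ofReal_le_ofReal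
  have h1 := h.hc
  have h2 := rr_nonneg x
  apply div_le_div_of_nonneg_right _ h2
  linarith only [h1]

end Vale.Agent.P140.NU
end
end

section

/-! gain of the cold gas with a profile -/

open MeasureTheory Set Filter
open scoped ENNReal Topology

noncomputable section

namespace Vale.Agent.P140.NU

/-- (M1) at fixed parameters -/
def CfS (P : Par) (t0 : ℝ) : Prop :=
  ∀ n, ∀ t ∈ Icc 0 (2 * t0), ∀ x v,
    cf P n t x v ≠ 0 → ∃ j ∈ Finset.Icc P.j0 n, rr x - P.w * t ∈ P.cell (gg / 2) j ∧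
      v ∈ Box P j x ∧ √(SS P (sg j) x v) ≤ 4 * P.del j ∧
      cf P n t x v ≤ ENNReal.ofReal (P.amp j)

/-- (M2) at fixed parameters -/
def CfM (P : Par) (t0 : ℝ) : Prop :=
  ∀ n, ∀ t ∈ Icc 0 (2 * t0), ∀ x,
    ∫⁻ v, cf P n t x v ≤ ENNReal.ofReal ((1 + 1 / 1000) * P.c / rr x)

theorem gg_pos : 0 < gg := by unfold gg; (clear * -; norm_num)

variable {P : Par}

/-- the cold gas at `(t, x)`: absent, or concentrated near one velocity -/
structure ColdAt (P : Par) (n : ℕ) (t : ℝ) (x : T3) (j : ℕ) : Prop where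
  hj : j ∈ Finset.Icc P.j0 n
  hcell : rr x - P.w * t ∈ P.cell (gg / 2) j
  box : ∀ v, cf P n t x v ≠ 0 → v ∈ Box P j x
  near : ∀ v, cf P n t x v ≠ 0 → ‖v - uu P (sg j) x‖ ≤ 4 * P.del j
  le : ∀ v, cf P n t x v ≤ ENNReal.ofReal (P.amp j)

theorem gap_le_one (hP : P.Good) : P.lam ^ (-(gg / 4)) - 1 ≤ 1 := by
  have h1 : P.lam ^ (-(gg / 4)) ≤ (1 / 2 : ℝ) ^ (-(gg / 4)) :=
    Real.rpow_le_rpow_of_nonpos (by norm_num) hP.hl0.le (by unfold gg; norm_num)
  have h2 : (1 / 2 : ℝ) ^ (-(gg / 4)) = (2 : ℝ) ^ (gg / 4) := by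
    rw [one_div, Real.inv_rpow (by norm_num), ← Real.rpow_neg (by norm_num), neg_neg]
  have h3 : (2 : ℝ) ^ (gg / 4) ≤ (2 : ℝ) ^ (1 : ℝ) :=
    Real.rpow_le_rpow_of_exponent_le (by norm_num) (by unfold gg; norm_num)
  rw [Real.rpow_one] at h3
  linarith only [h3, h2, h1]

theorem del_le_wa (hP : P.Good) (j : ℕ) : P.del j ≤ P.w * P.lam ^ (j + 1) / 10 ^ 4 := by
  have h1 := hP.del_le j
  have hg := gap_le_one hP
  have hg0 := hP.gap_pos
  have hw := hP.w_pos
  have hl := hP.lam_pos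
  have hw1 : P.w ≤ 1 := hP.w_le.trans (by norm_num)
  have hj := hP.lamj_pos j
  have h2 : (P.lam ^ j) ^ 8 ≤ P.lam ^ j := by
    calc (P.lam ^ j) ^ 8 ≤ (P.lam ^ j) ^ 1 :=
          pow_le_pow_of_le_one hj.le (hP.lamj_le_one j) (by norm_num)
      _ = P.lam ^ j := pow_one _
  have hwl : 0 < P.w * P.lam := mul_pos hw hl
  have hwl1 : P.w * P.lam ≤ 1 := by nlinarith only [hw1, hw, hP.hl1]
  have h3 : P.kdel ≤ P.w * P.lam / 10 ^ 4 := by
    refine hP.hk1.le.trans ?_
    apply div_le_div_of_nonneg_right _ (by norm_num)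
    calc (P.w * P.lam) ^ 2 * (P.lam ^ (-(gg / 4)) - 1) ≤ (P.w * P.lam) ^ 2 * 1 := by (clear * - hg hw hl; gcongr)
      _ = (P.w * P.lam) * (P.w * P.lam) := by ring
      _ ≤ (P.w * P.lam) * 1 := by (clear * - hwl1 hw hl; gcongr)
      _ = _ := mul_one _
  calc P.del j ≤ P.kdel * (P.lam ^ j) ^ 8 := h1
    _ ≤ (P.w * P.lam / 10 ^ 4) * P.lam ^ j := by
        apply mul_le_mul h3 h2 (by positivity) (by positivity)
    _ = _ := by ring

theorem del_le_small (hP : P.Good) (j : ℕ) : P.del j ≤ 1 / 10 ^ 4 := by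
  refine (del_le_wa hP j).trans ?_
  apply div_le_div_of_nonneg_right _ (by norm_num)
  have h1 := hP.lamj_le_one (j + 1)
  have h2 := hP.lamj_pos (j + 1)
  have hw1 : P.w ≤ 1 := hP.w_le.trans (by norm_num)
  have hw := hP.w_pos
  nlinarith

theorem abs_sg (j : ℕ) : |sg j| = 1 := by
  unfold sg
  rw [abs_pow, abs_neg, abs_one, one_pow]

theorem sg_cases (j : ℕ) : sg j = 1 ∨ sg j = -1 := by
  unfold sg
  rcases neg_one_pow_eq_or ℝ j with h | h
  · left; exact h
  · right; exact h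

theorem rr_pos_of_cell (hP : P.Good) {γ t : ℝ} (hγ : 0 ≤ γ) {x : T3} {j : ℕ} (ht : 0 ≤ t)
    (h : rr x - P.w * t ∈ P.cell γ j) : P.lam ^ (j + 1) + P.w * t ≤ rr x ∧ 0 < rr x := by
  have h1 := hP.cell_ge hγ h
  have h2 := hP.lamj_pos (j + 1)
  have h3 := mul_nonneg hP.w_pos.le ht
  constructor <;> linarith

theorem rr_le_of_cell (hP : P.Good) {γ t : ℝ} (hγ : 0 ≤ γ) {x : T3} {j : ℕ} (ht : 0 ≤ t)
    (hj : P.j0 ≤ j) (h : rr x - P.w * t ∈ P.cell γ j) : rr x ≤ 1 / 64 + t / 10 := by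
  have h1 := hP.cell_le hγ h
  have h2 : P.lam ^ j ≤ P.lam ^ P.j0 := pow_le_pow_of_le_one hP.lam_pos.le hP.hl1.le hj
  have h3 := hP.hj
  have h4 : P.w * t ≤ 1 / 10 * t :=
    mul_le_mul_of_nonneg_right (hP.w_le.trans (by (clear * -; norm_num))) ht
  linarith only [h1, h2, h3, h4]

theorem cold_cases (hP : P.Good) {t0 : ℝ} (hS : CfS P t0) (n : ℕ) {t : ℝ}
    (ht : t ∈ Icc 0 (2 * t0)) (x : T3) :
    (∀ v, cf P n t x v = 0) ∨ ∃ j, ColdAt P n t x j := by
  by_cases h : ∀ v, cf P n t x v = 0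
  · left; exact h
  right
  push Not at h
  obtain ⟨v0, hv0⟩ := h
  obtain ⟨j, hj, hc, -, -, -⟩ := hS n t ht x v0 hv0
  have hg2 : (0 : ℝ) < gg / 2 := by have := gg_pos; linarith
  have hx := (rr_pos_of_cell hP hg2.le ht.1 hc).2
  have key : ∀ v, cf P n t x v ≠ 0 → v ∈ Box P j x ∧ √(SS P (sg j) x v) ≤ 4 * P.del j ∧
      cf P n t x v ≤ ENNReal.ofReal (P.amp j) := by
    intro v hv
    obtain ⟨k, _, hc', h1, h2, h3⟩ := hS n t ht x v hv
    have e := hP.cell_inj hg2 hc hc'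
    subst e
    exact ⟨h1, h2, h3⟩
  refine ⟨j, hj, hc, fun v hv => (key v hv).1, fun v hv => ?_, fun v => ?_⟩
  · rw [← sqrt_SS_eq_norm P _ hx]
    exact (key v hv).2.1
  · by_cases hv : cf P n t x v = 0
    · rw [hv]; exact zero_le
    · exact (key v hv).2.2

theorem norm_uu_le2 (hP : P.Good) (j : ℕ) {x : T3} (hx : 0 < rr x) :
    ‖uu P (sg j) x‖ ≤ 3 / 2 := by
  have h := norm_uu_le P (sg j) hx hP.w_pos.le
  rw [abs_sg] at h
  have hw1 : P.w ≤ 1 / 2 := hP.w_le.trans (by norm_num)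
  linarith

/-- lower bound of the weight -/
theorem WW_ge {t : ℝ} {x : T3} (hx : 0 < rr x) (hr : rr x ≤ 1 / 16 + 2 * t) (j : ℕ) (v : V) :
    ENNReal.ofReal (‖v - uu P (sg j) x‖ ^ 2) ^ (-(3 / 4) : ℝ) ≤ WW P t x v := by
  rw [WW_eq P hx hr]
  have key : ∀ u : V, ENNReal.ofReal (‖v - u‖ ^ 2) ^ (-(3 / 4) : ℝ) ≤ 1 + psi u v := by
    intro u
    unfold psi
    exact le_add_tsub
  rcases sg_cases j with h | h
  · rw [h]
    refine (key _).trans ?_
    unfold W0
    gcongr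
    exact le_self_add
  · rw [h]
    refine (key _).trans ?_
    unfold W0
    gcongr
    exact le_add_self

theorem ofReal_sq_rpow {ρ : ℝ} (hρ : 0 < ρ) :
    ENNReal.ofReal (ρ ^ 2) ^ (-(3 / 4) : ℝ) = ENNReal.ofReal (ρ ^ (-(3 / 2) : ℝ)) := by
  rw [ENNReal.ofReal_rpow_of_pos (by positivity)]
  congr 1
  rw [← Real.rpow_natCast ρ 2, ← Real.rpow_mul hρ.le]
  norm_num

/-- the inverse of the distance is controlled by the weight -/
theorem inv_dist_le (hP : P.Good) {t : ℝ} {x : T3} (hx : 0 < rr x) (hr : rr x ≤ 1 / 16 + 2 * t)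
    (j : ℕ) {v : V} (hv : 0 < ‖v - uu P (sg j) x‖) :
    ENNReal.ofReal (1 / ‖v - uu P (sg j) x‖) ≤
      ENNReal.ofReal (4 / (1 + ‖v‖)) * WW P t x v := by
  set ρ := ‖v - uu P (sg j) x‖ with hρ
  have h1 := norm_uu_le2 hP j hx
  have h2 : ‖v‖ ≤ ρ + 3 / 2 := by
    calc ‖v‖ = ‖(v - uu P (sg j) x) + uu P (sg j) x‖ := by rw [sub_add_cancel]
      _ ≤ _ := (norm_add_le _ _).trans (by linarith only [h1])
  have hv0 := norm_nonneg v
  by_cases h : 1 ≤ ρ
  · calc ENNReal.ofReal (1 / ρ) ≤ ENNReal.ofReal (4 / (1 + ‖v‖)) * 1 := by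
          rw [mul_one]
          apply ENNReal.ofReal_le_ofReal
          rw [div_le_div_iff₀ hv (by (clear * -; positivity))]
          linarith only [h2, h]
      _ ≤ _ := by
          gcongr
          exact one_le_WW0 t x v
  · push Not at h
    have h3 := WW_ge (P := P) hx hr j v
    rw [← hρ, ofReal_sq_rpow hv] at h3
    have h4 : 1 / ρ ≤ ρ ^ (-(3 / 2) : ℝ) := by
      rw [one_div, ← Real.rpow_neg_one]
      exact Real.rpow_le_rpow_of_exponent_ge hv h.le (by norm_num)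
    calc ENNReal.ofReal (1 / ρ) ≤ 1 * ENNReal.ofReal (ρ ^ (-(3 / 2) : ℝ)) := by
          rw [one_mul]
          exact ENNReal.ofReal_le_ofReal h4
      _ ≤ ENNReal.ofReal (4 / (1 + ‖v‖)) * WW P t x v := by
          gcongr
          rw [ENNReal.one_le_ofReal, le_div_iff₀ (by (clear * -; positivity))]
          linarith only [h2, h]

/-- potential of the cold gas, far from its velocity -/
theorem Pot_far {f : V → ℝ≥0∞} {m : ℝ} (hm : ∫⁻ y, f y ≤ ENNReal.ofReal m)
    {u v : V} {δ : ℝ} (hs : ∀ y, f y ≠ 0 → ‖y - u‖ ≤ δ)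
    (h : 2 * δ ≤ ‖v - u‖) (h0 : 0 < ‖v - u‖) :
    Pot f v ≤ ENNReal.ofReal (2 * m * (1 / ‖v - u‖)) := by
  have h1 : ∀ y, ENNReal.ofReal ‖y - v‖⁻¹ * f y ≤ ENNReal.ofReal (2 * (1 / ‖v - u‖)) * f y := by
    intro y
    by_cases hy : f y = 0
    · rw [hy]; simp only [mul_zero, one_div, Nat.ofNat_nonneg, ENNReal.ofReal_mul, ENNReal.ofReal_ofNat, Std.le_refl]
    · gcongr
      have h2 := hs y hy
      have h3 : ‖v - u‖ ≤ ‖y - v‖ + ‖y - u‖ := by
        calc ‖v - u‖ = ‖(y - u) - (y - v)‖ := by congr 1; abel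
          _ ≤ ‖y - u‖ + ‖y - v‖ := norm_sub_le _ _
          _ = _ := add_comm _ _
      have h4 : ‖v - u‖ / 2 ≤ ‖y - v‖ := by linarith only [h3, h2, h]
      calc ‖y - v‖⁻¹ ≤ (‖v - u‖ / 2)⁻¹ := inv_anti₀ (by positivity) h4
        _ = 2 * (1 / ‖v - u‖) := by field_simp
  unfold Pot
  calc _ ≤ ∫⁻ y, ENNReal.ofReal (2 * (1 / ‖v - u‖)) * f y := lintegral_mono h1
    _ = ENNReal.ofReal (2 * (1 / ‖v - u‖)) * ∫⁻ y, f y :=
        lintegral_const_mul' _ _ ENNReal.ofReal_ne_top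
    _ ≤ ENNReal.ofReal (2 * (1 / ‖v - u‖)) * ENNReal.ofReal m := by gcongr
    _ = _ := by
        rw [← ENNReal.ofReal_mul (by positivity)]
        congr 1
        ring

/-- potential of the cold gas, everywhere -/
theorem Pot_near (hP : P.Good) {t0 : ℝ} (hM : CfM P t0) {n : ℕ} {t : ℝ}
    (ht : t ∈ Icc 0 (2 * t0)) (ht0 : t0 ≤ 1) {x : T3} {j : ℕ} (hc : ColdAt P n t x j) (v : V) :
    Pot (cf P n t x) v ≤ ENNReal.ofReal (3 * (P.c / rr x) * (√(P.del j) ^ 3)⁻¹) := by
  have hg2 : (0 : ℝ) ≤ gg / 2 := by have := gg_pos; linarith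
  obtain ⟨hr1, hx⟩ := rr_pos_of_cell hP hg2 ht.1 hc.hcell
  have hr2 := rr_le_of_cell hP hg2 ht.1 (Finset.mem_Icc.mp hc.hj).1 hc.hcell
  have hδ := hP.del_pos j
  have hδ1 := del_le_small hP j
  have hδw := del_le_wa hP j
  have hc0 := hP.c_pos
  have hw := hP.w_pos
  have ha := hP.lamj_pos (j + 1)
  set δ := P.del j with hδd
  set s := √δ with hs
  have hs0 : 0 < s := Real.sqrt_pos.mpr hδ
  have hs2 : s ^ 2 = δ := Real.sq_sqrt hδ.le
  have hs1 : s ≤ 1 := by
    rw [hs]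
    exact Real.sqrt_le_one.mpr (hδ1.trans (by norm_num))
  have hb := Pot_bathtub (f := cf P n t x) hc.le (hM n t ht x) v (R := s ^ 3) (by (clear * - hδ; positivity))
  refine hb.trans ?_
  rw [← ENNReal.ofReal_mul (hP.amp_pos j).le, ← ENNReal.ofReal_mul (by positivity),
    ← ENNReal.ofReal_add (by have := hP.amp_pos j; (clear * - this hδ; positivity)) (by positivity)]
  apply ENNReal.ofReal_le_ofReal
  have e1 : P.amp j * (2 * Real.pi * (s ^ 3) ^ 2) =
      Real.pi / 2 * (P.c / (P.w * P.lam ^ (j + 1))) := by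
    unfold Par.amp Par.imp
    rw [← hδd, ← hs2]
    field_simp
    ring
  have h5 : rr x * s ^ 3 ≤ P.w * P.lam ^ (j + 1) := by
    have hr3 : rr x ≤ 1 := by linarith only [ht.2, hr2, ht0]
    have h6 : s ^ 3 ≤ δ := by
      calc s ^ 3 = s * s ^ 2 := by ring
        _ ≤ 1 * s ^ 2 := by (clear * - hs1 hδ; gcongr)
        _ = δ := by rw [one_mul, hs2]
    have h7 : δ ≤ P.w * P.lam ^ (j + 1) := by
      refine hδw.trans ?_
      have : 0 < P.w * P.lam ^ (j + 1) := by (clear * - hw ha; positivity)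
      linarith only [hδw, hδ]
    have h8 : 0 ≤ s ^ 3 := by (clear * - hδ; positivity)
    nlinarith only [hδw, hs2, hr3, hx, h6]
  have e2 : P.c / (P.w * P.lam ^ (j + 1)) ≤ P.c / rr x * (s ^ 3)⁻¹ := by
    rw [div_mul_eq_mul_div, ← div_eq_mul_inv, div_div, mul_comm (s ^ 3)]
    exact div_le_div_of_nonneg_left hc0.le (by (clear * - hx hδ; positivity)) h5
  have e3 := Real.pi_lt_d2
  have e4 := Real.pi_pos
  have e5 : 0 ≤ P.c / rr x * (s ^ 3)⁻¹ := by (clear * - hc0 hx hδ; positivity)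
  rw [e1]
  calc Real.pi / 2 * (P.c / (P.w * P.lam ^ (j + 1))) + (s ^ 3)⁻¹ * ((1 + 1 / 1000) * P.c / rr x) ≤
      Real.pi / 2 * (P.c / rr x * (s ^ 3)⁻¹) + (s ^ 3)⁻¹ * ((1 + 1 / 1000) * P.c / rr x) := by
        (clear * - e2; gcongr)
    _ = (Real.pi / 2 + (1 + 1 / 1000)) * (P.c / rr x * (s ^ 3)⁻¹) := by ring
    _ ≤ 3 * (P.c / rr x * (s ^ 3)⁻¹) := by
        apply mul_le_mul_of_nonneg_right _ e5
        linarith only [e3]
    _ = _ := by ring

/-- potential of the cold gas -/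
theorem Pot_cold (hP : P.Good) {t0 : ℝ} (hS : CfS P t0) (hM : CfM P t0) (ht0 : t0 ≤ 1)
    (n : ℕ) {t : ℝ} (ht : t ∈ Icc 0 (2 * t0)) (x : T3) (v : V) :
    Pot (cf P n t x) v ≤ ENNReal.ofReal (300 * (P.c / rr x) / (1 + ‖v‖)) * WW P t x v := by
  rcases cold_cases hP hS n ht x with h0 | ⟨j, hc⟩
  · unfold Pot
    simp only [h0, mul_zero, lintegral_zero, zero_le]
  have hg2 : (0 : ℝ) ≤ gg / 2 := by have := gg_pos; linarith
  obtain ⟨hr1, hx⟩ := rr_pos_of_cell hP hg2 ht.1 hc.hcell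
  have hr2 := rr_le_of_cell hP hg2 ht.1 (Finset.mem_Icc.mp hc.hj).1 hc.hcell
  have hr : rr x ≤ 1 / 16 + 2 * t := by linarith only [ht.1, hr2]
  have hδ := hP.del_pos j
  have hδ1 := del_le_small hP j
  have hc0 := hP.c_pos
  have hv0 := norm_nonneg v
  have hcr : 0 < P.c / rr x := div_pos hc0 hx
  by_cases hv : 8 * P.del j ≤ ‖v - uu P (sg j) x‖
  · have hρ : 0 < ‖v - uu P (sg j) x‖ := by linarith only [hδ, hv]
    have h1 := Pot_far (hM n t ht x) hc.near (by linarith only [hv]) hρ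
    refine h1.trans ?_
    have h2 := inv_dist_le hP hx hr j hρ
    calc ENNReal.ofReal (2 * ((1 + 1 / 1000) * P.c / rr x) * (1 / ‖v - uu P (sg j) x‖)) ≤
        ENNReal.ofReal (3 * (P.c / rr x)) * ENNReal.ofReal (1 / ‖v - uu P (sg j) x‖) := by
          rw [← ENNReal.ofReal_mul (by (clear * - hc0 hx; positivity))]
          apply ENNReal.ofReal_le_ofReal
          apply mul_le_mul_of_nonneg_right _ (by (clear * - hρ; positivity))
          have : (1 + 1 / 1000) * P.c / rr x = (1 + 1 / 1000) * (P.c / rr x) := by ring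
          rw [this]
          linarith only [hcr]
      _ ≤ ENNReal.ofReal (3 * (P.c / rr x)) * (ENNReal.ofReal (4 / (1 + ‖v‖)) * WW P t x v) := by
          (clear * - h2; gcongr)
      _ = ENNReal.ofReal (3 * (P.c / rr x) * (4 / (1 + ‖v‖))) * WW P t x v := by
          rw [← mul_assoc, ← ENNReal.ofReal_mul (by (clear * - hc0 hx; positivity))]
      _ ≤ _ := by
          gcongr
          have : 3 * (P.c / rr x) * (4 / (1 + ‖v‖)) = 12 * (P.c / rr x) / (1 + ‖v‖) := by ring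
          rw [this]
          gcongr
          norm_num
  · push Not at hv
    refine (Pot_near hP hM ht ht0 hc v).trans ?_
    set δ := P.del j with hδd
    set s := √δ with hs
    have hs0 : 0 < s := Real.sqrt_pos.mpr hδ
    have hs2 : s ^ 2 = δ := Real.sq_sqrt hδ.le
    have h3 := WW_ge (P := P) hx hr j v
    have h4 : ENNReal.ofReal ((8 * δ) ^ (-(3 / 2) : ℝ)) ≤ WW P t x v := by
      refine le_trans ?_ h3
      rw [← ofReal_sq_rpow (by (clear * - hδ; positivity))]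
      refine rpow_anti ?_ (by (clear * -; norm_num))
      apply ENNReal.ofReal_le_ofReal
      (clear * - hv; gcongr)
    have h5 : (s ^ 3)⁻¹ ≤ 23 * (8 * δ) ^ (-(3 / 2) : ℝ) := by
      have e1 : (8 * δ) ^ (-(3 / 2) : ℝ) = (8 : ℝ) ^ (-(3 / 2) : ℝ) * (s ^ 3)⁻¹ := by
        rw [Real.mul_rpow (by norm_num) hδ.le]
        congr 1
        rw [← hs2, ← Real.rpow_natCast s 2, ← Real.rpow_mul hs0.le, ← Real.rpow_natCast s 3,
          ← Real.rpow_neg hs0.le]
        (clear * -; norm_num)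
      rw [e1]
      have e2 : 1 ≤ 23 * (8 : ℝ) ^ (-(3 / 2) : ℝ) := by
        have e3 : (8 : ℝ) ^ (-(3 / 2) : ℝ) = ((8 : ℝ) ^ (3 / 2 : ℝ))⁻¹ :=
          Real.rpow_neg (by norm_num) _
        have e4 : (8 : ℝ) ^ (3 / 2 : ℝ) ≤ 23 := by
          have e5 : (8 : ℝ) ^ (3 / 2 : ℝ) = √(8 ^ 3) := by
            rw [Real.sqrt_eq_rpow, ← Real.rpow_natCast 8 3, ← Real.rpow_mul (by norm_num)]
            norm_num
          rw [e5]
          apply Real.sqrt_le_iff.mpr
          norm_num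
        rw [e3, ← div_eq_mul_inv, le_div_iff₀ (by positivity)]
        linarith only [e4]
      have e6 : 0 < (s ^ 3)⁻¹ := by (clear * - hδ; positivity)
      nlinarith only [e2, e6]
    have h6 := norm_uu_le2 hP j hx
    have h7 : ‖v‖ ≤ 2 := by
      calc ‖v‖ = ‖(v - uu P (sg j) x) + uu P (sg j) x‖ := by rw [sub_add_cancel]
        _ ≤ _ := (norm_add_le _ _).trans (by linarith only [hδ1, hv, h6])
    calc ENNReal.ofReal (3 * (P.c / rr x) * (s ^ 3)⁻¹) ≤
        ENNReal.ofReal (300 * (P.c / rr x) / (1 + ‖v‖) * (8 * δ) ^ (-(3 / 2) : ℝ)) := by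
          apply ENNReal.ofReal_le_ofReal
          have e7 : 0 < (8 * δ) ^ (-(3 / 2) : ℝ) := by (clear * - hδ; positivity)
          calc 3 * (P.c / rr x) * (s ^ 3)⁻¹ ≤ 3 * (P.c / rr x) * (23 * (8 * δ) ^ (-(3 / 2) : ℝ)) := by
                (clear * - h5 hc0 hx; gcongr)
            _ = 69 * (P.c / rr x) * (8 * δ) ^ (-(3 / 2) : ℝ) := by ring
            _ ≤ 300 * (P.c / rr x) / (1 + ‖v‖) * (8 * δ) ^ (-(3 / 2) : ℝ) := by
                gcongr
                rw [le_div_iff₀ (by (clear * -; positivity))]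
                nlinarith only [hcr, h7]
      _ = ENNReal.ofReal (300 * (P.c / rr x) / (1 + ‖v‖)) *
          ENNReal.ofReal ((8 * δ) ^ (-(3 / 2) : ℝ)) := ENNReal.ofReal_mul (by (clear * - hc0 hx; positivity))
      _ ≤ _ := by (clear * - h4; gcongr)

theorem measurable_cf1 (P : Par) (n : ℕ) (t : ℝ) (x : T3) : Measurable (cf P n t x) := by
  have h := measurable_cf P n
  have h2 : Measurable fun v : V => (t, x, v) := by fun_prop
  have h3 := h.comp h2
  exact h3

theorem cf_supp2 (hP : P.Good) {t0 : ℝ} (hS : CfS P t0) {n : ℕ} {t : ℝ}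
    (ht : t ∈ Icc 0 (2 * t0)) {x : T3} {y : V} (hy : cf P n t x y ≠ 0) : ‖y‖ ≤ 2 := by
  rcases cold_cases hP hS n ht x with h0 | ⟨j, hc⟩
  · exact absurd (h0 y) hy
  have hg2 : (0 : ℝ) ≤ gg / 2 := by have := gg_pos; linarith
  obtain ⟨hr1, hx⟩ := rr_pos_of_cell hP hg2 ht.1 hc.hcell
  have h1 := hc.near y hy
  have h2 := norm_uu_le2 hP j hx
  have h3 := del_le_small hP j
  calc ‖y‖ = ‖(y - uu P (sg j) x) + uu P (sg j) x‖ := by rw [sub_add_cancel]
    _ ≤ _ := (norm_add_le _ _).trans (by linarith only [h3, h2, h1])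

theorem two_mul_ofReal (a : ℝ) : 2 * ENNReal.ofReal a = ENNReal.ofReal (2 * a) := by
  rw [ENNReal.ofReal_mul (by norm_num)]
  simp

/-- constant in (GA) -/
def CAr : ℝ := 600 * (CE.toReal + 1)

theorem CAr_pos : 0 < CAr := by
  unfold CAr
  have := ENNReal.toReal_nonneg (a := CE)
  positivity

/-- (GA) gain of the cold gas with a profile, at fixed parameters -/
theorem Gam_cf_prof (hP : P.Good) {t0 : ℝ} (hS : CfS P t0) (hM : CfM P t0) (ht0 : t0 ≤ 1)
    (n : ℕ) {t : ℝ} (ht : t ∈ Icc 0 (2 * t0)) (x : T3) (v : V) {om : ℝ → ℝ≥0∞} (hom : Adm om)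
    {g : ℝ} (hg : g ∈ Icc (1 / 8 : ℝ) (1 / 4)) :
    Gam (cf P n t x) (prof P om g t x) v ≤
      ENNReal.ofReal (CAr * (P.c / rr x) / (1 + ‖v‖)) * prof P om g t x v := by
  have h1 := Gam_ext P (measurable_cf1 P n t x) (fun y hy => cf_supp2 hP hS ht hy) hom hg t x v
  have h2 := Pot_cold hP hS hM ht0 n ht x v
  refine h1.trans ?_
  have hcr : 0 ≤ P.c / rr x := div_nonneg hP.c_pos.le (rr_nonneg x)
  have hCE := const_le CE_ne_top
  have hv0 := norm_nonneg v
  have hCEr := ENNReal.toReal_nonneg (a := CE)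
  calc CE * (om ‖v‖ * ENNReal.ofReal (Real.exp (-(g * ‖v‖ ^ 2)))) * (2 * Pot (cf P n t x) v) ≤
      ENNReal.ofReal (CE.toReal + 1) * (om ‖v‖ * ENNReal.ofReal (Real.exp (-(g * ‖v‖ ^ 2)))) *
        (2 * (ENNReal.ofReal (300 * (P.c / rr x) / (1 + ‖v‖)) * WW P t x v)) := by (clear * - hCE h2; gcongr)
    _ = (ENNReal.ofReal (CE.toReal + 1) * 2 * ENNReal.ofReal (300 * (P.c / rr x) / (1 + ‖v‖))) *
        prof P om g t x v := by unfold prof; ring
    _ = _ := by
        congr 1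
        rw [mul_assoc, two_mul_ofReal, ← ENNReal.ofReal_mul (by (clear * -; positivity))]
        congr 1
        unfold CAr
        ring

/-- `KK` on the profile, at fixed parameters -/
theorem KK_Pi_at (hP : P.Good) {t0 : ℝ} (hS : CfS P t0) (hM : CfM P t0) (ht0 : t0 ≤ 1)
    (n : ℕ) {γ : ℝ} (hγ : γ ∈ Icc (1 / 8 : ℝ) (1 / 6)) {t : ℝ} (ht : t ∈ Icc 0 (2 * t0)) (x : T3)
    (v : V) :
    KK P n t (Pi P n γ t) x v ≤
      ENNReal.ofReal ((2 * CAr) * (P.c / rr x) / (1 + ‖v‖)) * Pi P n γ t x v ∧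
    (KK P n t (Pi P n γ t) x v ≠ 0 → P.w * P.TT n t ≤ rr x) := by
  have hom := adm_omPi (rr x) (hP.TT_pos n ht.1)
  have hg : γ ∈ Icc (1 / 8 : ℝ) (1 / 4) := ⟨hγ.1, hγ.2.trans (by norm_num)⟩
  constructor
  · unfold KK
    rw [Pi_eq_prof]
    have h := Gam_cf_prof hP hS hM ht0 n ht x v hom hg
    calc _ ≤ 2 * (ENNReal.ofReal (CAr * (P.c / rr x) / (1 + ‖v‖)) *
          prof P (omPi (rr x) (P.TT n t)) γ t x v) := by (clear * - h; gcongr)
      _ = _ := by
          rw [← mul_assoc]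
          congr 1
          rw [two_mul_ofReal]
          congr 1
          ring
  · intro hne
    rcases cold_cases hP hS n ht x with h0 | ⟨j, hc⟩
    · exfalso
      apply hne
      unfold KK Gam
      simp only [h0, zero_mul, mul_zero, lintegral_zero]
    · have hg2 : (0 : ℝ) ≤ gg / 2 := by have := gg_pos; linarith only [this]
      obtain ⟨hr1, hx⟩ := rr_pos_of_cell hP hg2 ht.1 hc.hcell
      have h1 : P.lam ^ (n + 1) ≤ P.lam ^ (j + 1) :=
        pow_le_pow_of_le_one hP.lam_pos.le hP.hl1.le (by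
          have := (Finset.mem_Icc.mp hc.hj).2
          omega)
      unfold Par.TT Par.ss
      rw [mul_add, mul_div_cancel₀ _ hP.w_pos.ne']
      linarith only [hr1, h1]

end Vale.Agent.P140.NU
end
end

section

/-! the gain operator of the cold gas is small near the cold velocities (for module S) -/

open MeasureTheory Set Filter
open scoped ENNReal Topology

noncomputable section

namespace Vale.Agent.P140.NU

variable {P : Par}

theorem Pot_near_eps (hP : P.Good) {t0 : ℝ} (hM : CfM P t0) {n : ℕ} {t : ℝ}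
    (ht : t ∈ Icc 0 (2 * t0)) (ht0 : t0 ≤ 1) {x : T3} {j : ℕ} (hc : ColdAt P n t x j) (v : V)
    {ε : ℝ} (hε : 0 < ε) (hj : 2 * P.lam ^ j ≤ ε ^ 3) :
    Pot (cf P n t x) v ≤ ENNReal.ofReal (3 * ε * (P.c / rr x) * (√(P.del j) ^ 3)⁻¹) := by
  have hg2 : (0 : ℝ) ≤ gg / 2 := by have := gg_pos; linarith
  obtain ⟨hr1, hx⟩ := rr_pos_of_cell hP hg2 ht.1 hc.hcell
  have hr2 := rr_le_of_cell hP hg2 ht.1 (Finset.mem_Icc.mp hc.hj).1 hc.hcell
  have hδ := hP.del_pos j
  have hδ1 := del_le_small hP j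
  have hδw := del_le_wa hP j
  have hc0 := hP.c_pos
  have hw := hP.w_pos
  have ha := hP.lamj_pos (j + 1)
  have hlj := hP.lamj_pos j
  have hlj1 := hP.lamj_le_one j
  have hδ8 := hP.del_le j
  have hl := hP.lam_pos
  set δ := P.del j with hδd
  set s := √δ with hs
  have hs0 : 0 < s := Real.sqrt_pos.mpr hδ
  have hs2 : s ^ 2 = δ := Real.sq_sqrt hδ.le
  have hs1 : s ≤ 1 := by
    rw [hs]
    exact Real.sqrt_le_one.mpr (hδ1.trans (by norm_num))
  have hb := Pot_bathtub (f := cf P n t x) hc.le (hM n t ht x) v (R := s ^ 3 / ε) (by (clear * - hδ hε; positivity))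
  refine hb.trans ?_
  rw [← ENNReal.ofReal_mul (hP.amp_pos j).le, ← ENNReal.ofReal_mul (by (clear * - hδ hε; positivity)),
    ← ENNReal.ofReal_add (by have := hP.amp_pos j; (clear * - this hδ hε; positivity)) (by (clear * - hδ hε hc0 hx; positivity))]
  apply ENNReal.ofReal_le_ofReal
  have e1 : P.amp j * (2 * Real.pi * (s ^ 3 / ε) ^ 2) =
      Real.pi / 2 * (P.c / (P.w * P.lam ^ (j + 1) * ε ^ 2)) := by
    unfold Par.amp Par.imp
    rw [← hδd, ← hs2]
    field_simp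
    ring
  have hkd : P.kdel ≤ P.w * P.lam := by
    have hg := gap_le_one hP
    have hg0 := hP.gap_pos
    have hw1 : P.w ≤ 1 := hP.w_le.trans (by norm_num)
    have hwl : 0 < P.w * P.lam := mul_pos hw hl
    have hwl1 : P.w * P.lam ≤ 1 := by nlinarith only [hw1, hw, hP.hl1]
    refine hP.hk1.le.trans ?_
    rw [div_le_iff₀ (by norm_num)]
    calc (P.w * P.lam) ^ 2 * (P.lam ^ (-(gg / 4)) - 1) ≤ (P.w * P.lam) ^ 2 * 1 := by (clear * - hg hw hl; gcongr)
      _ = (P.w * P.lam) * (P.w * P.lam) := by ring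
      _ ≤ (P.w * P.lam) * 1 := by (clear * - hwl1 hw hl; gcongr)
      _ ≤ P.w * P.lam * 10 ^ 4 := by
          apply mul_le_mul_of_nonneg_left _ hwl.le
          norm_num
  have h5 : rr x * s ^ 3 ≤ P.w * P.lam ^ (j + 1) * ε ^ 2 * ε := by
    have hr3 : rr x ≤ 1 := by linarith only [ht.2, hr2, ht0]
    have h6 : s ^ 3 ≤ δ := by
      calc s ^ 3 = s * s ^ 2 := by ring
        _ ≤ 1 * s ^ 2 := by (clear * - hs1 hδ; gcongr)
        _ = δ := by rw [one_mul, hs2]
    have h7 : δ ≤ P.w * P.lam ^ (j + 1) * P.lam ^ j := by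
      refine hδ8.trans ?_
      calc P.kdel * (P.lam ^ j) ^ 8 ≤ (P.w * P.lam) * (P.lam ^ j) ^ 2 := by
            apply mul_le_mul hkd _ (by (clear * - hl; positivity)) (by (clear * - hw hl; positivity))
            exact pow_le_pow_of_le_one hlj.le hlj1 (by norm_num)
        _ = P.w * P.lam ^ (j + 1) * P.lam ^ j := by ring
    have h8 : 0 ≤ s ^ 3 := by (clear * - hδ; positivity)
    have h9 : P.lam ^ j ≤ ε ^ 3 := by linarith only [hj, hlj]
    calc rr x * s ^ 3 ≤ 1 * s ^ 3 := by (clear * - hr3 hδ; gcongr)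
      _ ≤ P.w * P.lam ^ (j + 1) * P.lam ^ j := by rw [one_mul]; exact h6.trans h7
      _ ≤ P.w * P.lam ^ (j + 1) * ε ^ 3 := by (clear * - h9 hw hl; gcongr)
      _ = _ := by ring
  have e2 : P.c / (P.w * P.lam ^ (j + 1) * ε ^ 2) ≤ ε * (P.c / rr x * (s ^ 3)⁻¹) := by
    rw [div_mul_eq_mul_div, ← div_eq_mul_inv, div_div, ← mul_div_assoc,
      div_le_div_iff₀ (by (clear * - hw hl hε; positivity)) (by (clear * - hδ hx; positivity))]
    linarith only [mul_nonneg (le_of_lt (sub_pos.2 hc0)) (sub_nonneg.2 h5)]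
  have e3 := Real.pi_lt_d2
  have e4 := Real.pi_pos
  have e5 : 0 ≤ ε * (P.c / rr x * (s ^ 3)⁻¹) := by (clear * - hε hc0 hx hδ; positivity)
  rw [e1]
  have e6 : (s ^ 3 / ε)⁻¹ = ε * (s ^ 3)⁻¹ := by
    rw [inv_div, div_eq_mul_inv]
  rw [e6]
  calc Real.pi / 2 * (P.c / (P.w * P.lam ^ (j + 1) * ε ^ 2)) +
        ε * (s ^ 3)⁻¹ * ((1 + 1 / 1000) * P.c / rr x) ≤
      Real.pi / 2 * (ε * (P.c / rr x * (s ^ 3)⁻¹)) +
        ε * (s ^ 3)⁻¹ * ((1 + 1 / 1000) * P.c / rr x) := by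
        (clear * - e2; gcongr)
    _ = (Real.pi / 2 + (1 + 1 / 1000)) * (ε * (P.c / rr x * (s ^ 3)⁻¹)) := by ring
    _ ≤ 3 * (ε * (P.c / rr x * (s ^ 3)⁻¹)) := by
        apply mul_le_mul_of_nonneg_right _ e5
        linarith only [e3]
    _ = _ := by ring

theorem sg_succ (j : ℕ) : sg (j + 1) = -sg j := by
  unfold sg
  rw [pow_succ]
  ring

/-- potential of the cold gas at velocities close to the cold ones -/
theorem Pot_small (hP : P.Good) {t0 : ℝ} (hS : CfS P t0) (hM : CfM P t0) (ht0 : t0 ≤ 1)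
    {ρ M : ℝ} (hρ : 0 < ρ) (hρ1 : ρ < 1) (hM0 : 0 < M) (ht1 : 8 * M * t0 ≤ √ρ ^ 3)
    (n : ℕ) (hn : P.ss n ≤ t0) {t : ℝ} (ht : t ∈ Icc 0 t0) (x : T3) (v : V)
    (hr : rr x ≤ M * P.TT n t) (hv : SS P 1 x v ≤ ρ ^ 2 ∨ SS P (-1) x v ≤ ρ ^ 2) :
    Pot (cf P n t x) v ≤ ENNReal.ofReal (69 * (P.c / rr x) * √ρ) * WW P t x v := by
  have ht' : t ∈ Icc 0 (2 * t0) := ⟨ht.1, by linarith only [ht.1, ht.2]⟩
  rcases cold_cases hP hS n ht' x with h0 | ⟨j, hc⟩
  · unfold Pot
    simp only [h0, mul_zero, lintegral_zero, zero_le]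
  have hg2 : (0 : ℝ) ≤ gg / 2 := by have := gg_pos; linarith only [this]
  obtain ⟨hr1, hx⟩ := rr_pos_of_cell hP hg2 ht.1 hc.hcell
  have hr2 := rr_le_of_cell hP hg2 ht.1 (Finset.mem_Icc.mp hc.hj).1 hc.hcell
  have hr3 : rr x ≤ 1 / 16 + 2 * t := by linarith only [hr2, ht.1]
  have hδ := hP.del_pos j
  have hδ1 := del_le_small hP j
  have hc0 := hP.c_pos
  have hcr : 0 < P.c / rr x := div_pos hc0 hx
  have hsρ : 0 < √ρ := Real.sqrt_pos.mpr hρ
  have hWj := WW_ge (P := P) hx hr3 j v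
  -- the velocity is close to the cold velocity of the own or of the other sign
  have hv' : ‖v - uu P (sg j) x‖ ≤ ρ ∨ ‖v - uu P (sg (j + 1)) x‖ ≤ ρ := by
    have key : ∀ s, SS P s x v ≤ ρ ^ 2 → ‖v - uu P s x‖ ≤ ρ := by
      intro s h
      rw [SS_eq_norm P s hx] at h
      exact le_of_sq_le_sq h hρ.le
    rw [sg_succ]
    rcases sg_cases j with hs | hs <;> rw [hs]
    · rcases hv with h | h
      · left; exact key _ h
      · right; exact key _ h
    · rw [neg_neg]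
      rcases hv with h | h
      · right; exact key _ h
      · left; exact key _ h
  by_cases hnear : ‖v - uu P (sg j) x‖ < 8 * P.del j
  · have hlj : 2 * P.lam ^ j ≤ √ρ ^ 3 := by
      have h1 : P.TT n t ≤ 2 * t0 := by
        unfold Par.TT
        linarith only [hn, ht.2]
      have h2 : P.lam ^ (j + 1) ≤ 2 * M * t0 := by
        have h3 : M * P.TT n t ≤ M * (2 * t0) := by (clear * - h1 hM0; gcongr)
        have h4 := mul_nonneg hP.w_pos.le ht.1
        linarith only [hr, hr1, h3, h4]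
      have h5 : P.lam ^ (j + 1) = P.lam ^ j * P.lam := pow_succ _ _
      have h6 := hP.hl0
      have h7 := hP.lamj_pos j
      nlinarith only [ht1, h2, h5, h6, h7]
    refine (Pot_near_eps hP hM ht' ht0 hc v hsρ hlj).trans ?_
    set δ := P.del j with hδd
    set s := √δ with hs
    have hs0 : 0 < s := Real.sqrt_pos.mpr hδ
    have hs2 : s ^ 2 = δ := Real.sq_sqrt hδ.le
    have h4 : ENNReal.ofReal ((8 * δ) ^ (-(3 / 2) : ℝ)) ≤ WW P t x v := by
      refine le_trans ?_ hWj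
      rw [← ofReal_sq_rpow (by (clear * - hδ; positivity))]
      refine rpow_anti ?_ (by norm_num)
      apply ENNReal.ofReal_le_ofReal
      (clear * - hnear; gcongr)
    have h5 : (s ^ 3)⁻¹ ≤ 23 * (8 * δ) ^ (-(3 / 2) : ℝ) := by
      have e1 : (8 * δ) ^ (-(3 / 2) : ℝ) = (8 : ℝ) ^ (-(3 / 2) : ℝ) * (s ^ 3)⁻¹ := by
        rw [Real.mul_rpow (by norm_num) hδ.le]
        congr 1
        rw [← hs2, ← Real.rpow_natCast s 2, ← Real.rpow_mul hs0.le, ← Real.rpow_natCast s 3,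
          ← Real.rpow_neg hs0.le]
        norm_num
      rw [e1]
      have e2 : 1 ≤ 23 * (8 : ℝ) ^ (-(3 / 2) : ℝ) := by
        have e3 : (8 : ℝ) ^ (-(3 / 2) : ℝ) = ((8 : ℝ) ^ (3 / 2 : ℝ))⁻¹ :=
          Real.rpow_neg (by norm_num) _
        have e4 : (8 : ℝ) ^ (3 / 2 : ℝ) ≤ 23 := by
          have e5 : (8 : ℝ) ^ (3 / 2 : ℝ) = √(8 ^ 3) := by
            rw [Real.sqrt_eq_rpow, ← Real.rpow_natCast 8 3, ← Real.rpow_mul (by norm_num)]
            norm_num
          rw [e5]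
          apply Real.sqrt_le_iff.mpr
          norm_num
        rw [e3, ← div_eq_mul_inv, le_div_iff₀ (by positivity)]
        linarith only [e4]
      have e6 : 0 < (s ^ 3)⁻¹ := by (clear * - hδ; positivity)
      nlinarith only [e2, e6]
    calc ENNReal.ofReal (3 * √ρ * (P.c / rr x) * (s ^ 3)⁻¹) ≤
        ENNReal.ofReal (69 * (P.c / rr x) * √ρ * (8 * δ) ^ (-(3 / 2) : ℝ)) := by
          apply ENNReal.ofReal_le_ofReal
          calc 3 * √ρ * (P.c / rr x) * (s ^ 3)⁻¹ ≤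
              3 * √ρ * (P.c / rr x) * (23 * (8 * δ) ^ (-(3 / 2) : ℝ)) := by (clear * - h5 hρ hc0 hx; gcongr)
            _ = _ := by ring
      _ = ENNReal.ofReal (69 * (P.c / rr x) * √ρ) *
          ENNReal.ofReal ((8 * δ) ^ (-(3 / 2) : ℝ)) := ENNReal.ofReal_mul (by positivity)
      _ ≤ _ := by (clear * - h4; gcongr)
  · push Not at hnear
    have hρ' : 0 < ‖v - uu P (sg j) x‖ := by linarith only [hδ, hnear]
    have h1 := Pot_far (hM n t ht' x) hc.near (by linarith only [hnear]) hρ'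
    refine h1.trans ?_
    set r' := ‖v - uu P (sg j) x‖ with hr'
    have hA : ENNReal.ofReal (2 * ((1 + 1 / 1000) * P.c / rr x) * (1 / r')) ≤
        ENNReal.ofReal (69 * (P.c / rr x)) * ENNReal.ofReal (1 / r') := by
      rw [← ENNReal.ofReal_mul (by (clear * - hc0 hx; positivity))]
      apply ENNReal.ofReal_le_ofReal
      apply mul_le_mul_of_nonneg_right _ (by (clear * - hρ'; positivity))
      have : (1 + 1 / 1000) * P.c / rr x = (1 + 1 / 1000) * (P.c / rr x) := by ring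
      rw [this]
      linarith only [hcr]
    have hB : ENNReal.ofReal (1 / r') ≤ ENNReal.ofReal √ρ * WW P t x v := by
      rcases hv' with h | h
      · rw [ofReal_sq_rpow hρ'] at hWj
        calc ENNReal.ofReal (1 / r') = ENNReal.ofReal (√r' * r' ^ (-(3 / 2) : ℝ)) := by
              congr 1
              rw [Real.sqrt_eq_rpow, ← Real.rpow_add hρ', one_div, ← Real.rpow_neg_one]
              norm_num
          _ = ENNReal.ofReal √r' * ENNReal.ofReal (r' ^ (-(3 / 2) : ℝ)) :=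
              ENNReal.ofReal_mul (Real.sqrt_nonneg _)
          _ ≤ _ := by
              (clear * - h hWj; gcongr)
      · have hz : |v 2 - sg (j + 1)| ≤ ρ := by
          have := abs_vz_sub_le_sqrt_SS P (sg (j + 1)) x v
          rw [sqrt_SS_eq_norm P _ hx] at this
          linarith only [h, this]
        have hz2 : |v 2 - sg j| ≤ r' := by
          have := abs_vz_sub_le_sqrt_SS P (sg j) x v
          rwa [sqrt_SS_eq_norm P _ hx] at this
        have hr1' : 1 ≤ r' := by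
          refine le_trans ?_ hz2
          rw [sg_succ] at hz
          rcases sg_cases j with hs | hs <;> rw [hs] at hz ⊢
          · rw [le_abs]
            right
            have := (abs_le.mp hz).2
            linarith only [hρ1, this]
          · rw [le_abs]
            left
            have := (abs_le.mp hz).1
            linarith only [hρ1, this]
        have hWj' := WW_ge (P := P) hx hr3 (j + 1) v
        have h9 : ENNReal.ofReal (ρ ^ (-(3 / 2) : ℝ)) ≤ WW P t x v := by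
          refine le_trans ?_ hWj'
          rw [← ofReal_sq_rpow hρ]
          refine rpow_anti ?_ (by norm_num)
          apply ENNReal.ofReal_le_ofReal
          (clear * - h; gcongr)
        calc ENNReal.ofReal (1 / r') ≤ ENNReal.ofReal (√ρ * ρ ^ (-(3 / 2) : ℝ)) := by
              apply ENNReal.ofReal_le_ofReal
              have e1 : √ρ * ρ ^ (-(3 / 2) : ℝ) = ρ⁻¹ := by
                rw [Real.sqrt_eq_rpow, ← Real.rpow_add hρ, ← Real.rpow_neg_one]
                norm_num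
              rw [e1, one_div]
              exact inv_anti₀ hρ (by linarith only [hρ1, hr1'])
          _ = ENNReal.ofReal √ρ * ENNReal.ofReal (ρ ^ (-(3 / 2) : ℝ)) :=
              ENNReal.ofReal_mul (Real.sqrt_nonneg _)
          _ ≤ _ := by (clear * - h9; gcongr)
    calc _ ≤ ENNReal.ofReal (69 * (P.c / rr x)) * ENNReal.ofReal (1 / r') := hA
      _ ≤ ENNReal.ofReal (69 * (P.c / rr x)) * (ENNReal.ofReal √ρ * WW P t x v) := by (clear * - hB; gcongr)
      _ = _ := by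
          rw [← mul_assoc, ← ENNReal.ofReal_mul (by (clear * - hc0 hx; positivity))]

/-- constant of `KK_small` -/
def CKs : ℝ := 276 * (CE.toReal + 1) + 2 * CAr

theorem CKs_pos : 0 < CKs := by
  unfold CKs
  have h1 := ENNReal.toReal_nonneg (a := CE)
  have h2 := CAr_pos
  positivity

/-- `KK` on the profile near the cold velocities, at fixed parameters -/
theorem KK_small_at (hP : P.Good) {t0 : ℝ} (hS : CfS P t0) (hM : CfM P t0) (ht0 : t0 ≤ 1)
    {ρ M : ℝ} (hρ : 0 < ρ) (hM0 : 0 < M) (ht1 : 8 * M * t0 ≤ √ρ ^ 3)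
    (n : ℕ) (hn : P.ss n ≤ t0) {γ : ℝ} (hγ : γ ∈ Icc (1 / 8 : ℝ) (1 / 6))
    {t : ℝ} (ht : t ∈ Icc 0 t0) (x : T3) (v : V)
    (hr : rr x ≤ M * P.TT n t) (hv : SS P 1 x v ≤ ρ ^ 2 ∨ SS P (-1) x v ≤ ρ ^ 2) :
    KK P n t (Pi P n γ t) x v ≤
      ENNReal.ofReal (CKs * (P.c / rr x) * √ρ) * Pi P n γ t x v := by
  have ht' : t ∈ Icc 0 (2 * t0) := ⟨ht.1, by linarith only [ht.1, ht.2]⟩
  have hcr : 0 ≤ P.c / rr x := div_nonneg hP.c_pos.le (rr_nonneg x)
  have hv0 := norm_nonneg v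
  have hCEr := ENNReal.toReal_nonneg (a := CE)
  have hCA := CAr_pos
  by_cases hρ1 : ρ < 1
  · have hom := adm_omPi (rr x) (hP.TT_pos n ht.1)
    have hg : γ ∈ Icc (1 / 8 : ℝ) (1 / 4) := ⟨hγ.1, hγ.2.trans (by norm_num)⟩
    unfold KK
    rw [Pi_eq_prof]
    have h1 := Gam_ext P (measurable_cf1 P n t x) (fun y hy => cf_supp2 hP hS ht' hy) hom hg t x v
    have h2 := Pot_small hP hS hM ht0 hρ hρ1 hM0 ht1 n hn ht x v hr hv
    have hCE := const_le CE_ne_top
    set om := omPi (rr x) (P.TT n t) with hom'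
    calc 2 * Gam (cf P n t x) (prof P om γ t x) v ≤
        2 * (CE * (om ‖v‖ * ENNReal.ofReal (Real.exp (-(γ * ‖v‖ ^ 2)))) *
          (2 * Pot (cf P n t x) v)) := by (clear * - h1; gcongr)
      _ ≤ 2 * (ENNReal.ofReal (CE.toReal + 1) *
          (om ‖v‖ * ENNReal.ofReal (Real.exp (-(γ * ‖v‖ ^ 2)))) *
          (2 * (ENNReal.ofReal (69 * (P.c / rr x) * √ρ) * WW P t x v))) := by (clear * - hCE h2; gcongr)
      _ = (2 * (2 * (ENNReal.ofReal (CE.toReal + 1) * ENNReal.ofReal (69 * (P.c / rr x) * √ρ)))) *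
          prof P om γ t x v := by unfold prof; ring
      _ ≤ _ := by
          gcongr
          rw [← ENNReal.ofReal_mul (by (clear * -; positivity)), two_mul_ofReal, two_mul_ofReal]
          apply ENNReal.ofReal_le_ofReal
          unfold CKs
          have h3 : 0 ≤ (P.c / rr x) * √ρ := by (clear * - hcr hρ; positivity)
          linarith only [mul_nonneg (le_of_lt (sub_pos.2 hCA)) (sub_nonneg.2 h3)]
  · push Not at hρ1
    have h := (KK_Pi_at hP hS hM ht0 n hγ ht' x v).1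
    refine h.trans ?_
    gcongr
    have h3 : 1 ≤ √ρ := Real.one_le_sqrt.mpr hρ1
    calc 2 * CAr * (P.c / rr x) / (1 + ‖v‖) ≤ 2 * CAr * (P.c / rr x) / 1 := by
          gcongr
          linarith only [hv0]
      _ = 2 * CAr * (P.c / rr x) * 1 := by ring
      _ ≤ CKs * (P.c / rr x) * √ρ := by
          unfold CKs
          gcongr
          linarith only [hCEr]

end Vale.Agent.P140.NU
end
end

section

/-!
P140-NU, module G: potential of the first generation products.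
-/

open MeasureTheory Set Filter Metric
open scoped ENNReal Topology

noncomputable section

namespace Vale.Agent.P140.NU.Gb

variable {P : Par}

/-- the inverse distance to the beam is controlled by the singular weight -/
theorem inv_le_WW (hP : P.Good) {t : ℝ} {x : T3} (hx : 0 < rr x) (hr : rr x ≤ 1 / 16 + 2 * t)
    (j : ℕ) (v : V) :
    ENNReal.ofReal ‖v - uu P (sg j) x‖⁻¹ ≤ ENNReal.ofReal (4 / (1 + ‖v‖)) * WW P t x v := by
  set u := uu P (sg j) x with hu
  have hu2 : ‖u‖ ≤ 2 := norm_uu_le' hP hx j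
  have hv : ‖v‖ ≤ ‖v - u‖ + ‖u‖ := by
    have := norm_add_le (v - u) u
    rwa [sub_add_cancel] at this
  have hv0 := norm_nonneg v
  rcases le_total 1 ‖v - u‖ with h | h
  · calc ENNReal.ofReal ‖v - u‖⁻¹ ≤ ENNReal.ofReal (4 / (1 + ‖v‖)) * 1 := by
          rw [mul_one]
          apply ENNReal.ofReal_le_ofReal
          rw [inv_eq_one_div, div_le_div_iff₀ (by linarith only [h]) (by linarith only [hv0])]
          linarith only [hu2, hv, h]
      _ ≤ _ := by
          gcongr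
          exact one_le_WW _ _ _
  · have h1 : 1 ≤ 4 / (1 + ‖v‖) := by
      rw [le_div_iff₀ (by linarith only [hv0])]
      linarith only [hu2, hv, h]
    have h2 := WW_ge (P := P) hr j v
    rw [SS_eq_norm P _ hx, ← hu] at h2
    calc ENNReal.ofReal ‖v - u‖⁻¹ ≤ 1 * ENNReal.ofReal (‖v - u‖ ^ 2) ^ (-(3 / 4) : ℝ) := by
          rw [one_mul]
          rcases (norm_nonneg (v - u)).eq_or_lt with h0 | h0
          · rw [← h0]
            simp only [inv_zero, ENNReal.ofReal_zero, ne_eq, OfNat.ofNat_ne_zero, not_false_eq_true, zero_pow, Left.neg_neg_iff, Nat.ofNat_pos, div_pos_iff_of_pos_left, ENNReal.zero_rpow_of_neg, le_top]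
          · rw [ENNReal.ofReal_rpow_of_pos (by (clear * - h0; positivity))]
            apply ENNReal.ofReal_le_ofReal
            rw [← Real.rpow_natCast ‖v - u‖ 2, ← Real.rpow_mul h0.le, ← Real.rpow_neg_one]
            apply Real.rpow_le_rpow_of_exponent_ge h0 h
            norm_num
      _ ≤ _ := by
          gcongr
          rw [ENNReal.one_le_ofReal]
          exact h1

/-- smallness of the thermal constant used for the first generation products -/
def KdOK (P : Par) : Prop := P.kdel * (10 ^ 7 * (1 + kap) * CbP P) ≤ 1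

theorem evP_kdOK : EvP KdOK := by
  have h := EvP.kdel (fun c lam _ => (10 ^ 7 * (1 + kap) *
    (1024 * Real.pi * kap * c ^ 2 / ((1 / (10 ^ 20 * c ^ 2)) ^ 2 * lam ^ 2)))⁻¹)
    (by
      intro c lam hc h1 _ _
      have := kap_pos
      have : 0 < c := by linarith
      positivity)
  refine (evP_good.and h).mono fun P h => ?_
  obtain ⟨hP, h⟩ := h
  have h0 := CbP_pos hP
  have h1 := kap_pos
  have h2 : P.kdel < (10 ^ 7 * (1 + kap) * CbP P)⁻¹ := h
  unfold KdOK
  calc P.kdel * (10 ^ 7 * (1 + kap) * CbP P)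
      ≤ (10 ^ 7 * (1 + kap) * CbP P)⁻¹ * (10 ^ 7 * (1 + kap) * CbP P) := by
        apply mul_le_mul_of_nonneg_right h2.le (by positivity)
    _ = 1 := inv_mul_cancel₀ (by positivity)

theorem del_div_le (hP : P.Good) (j : ℕ) : P.del j * ((P.lam ^ j) ^ 2)⁻¹ ≤ P.kdel := by
  have h1 := hP.del_le j
  have h2 := hP.lamj_pos j
  have h3 := hP.lamj_le_one j
  have h4 := hP.hk0
  rw [← div_eq_mul_inv, div_le_iff₀ (by (clear * - h2; positivity))]
  refine h1.trans ?_
  apply mul_le_mul_of_nonneg_left _ h4.le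
  exact pow_le_pow_of_le_one h2.le h3 (by norm_num)

/-- near the beam -/
theorem near_aux (hP : P.Good) (hk : KdOK P) {t : ℝ} (_ht0 : 0 ≤ t) (ht1 : t ≤ 1) (j : ℕ) {ρ : ℝ}
    (hρ0 : 0 < ρ) (hρ : ρ ≤ 12 * P.del j) :
    CbP P * t * (P.del j ^ 2 * (P.lam ^ j) ^ 2)⁻¹ * (12 * (6 * P.del j) ^ 2) ≤
      1 / 5 * (ρ ^ 2) ^ (-(3 / 4) : ℝ) := by
  have h1 := hP.del_pos j
  have h2 := CbP_pos hP
  have h3 := kap_pos
  have h4 := hP.lamj_pos j
  have h5 := six_del_le_one hP j
  have h6 := del_div_le hP j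
  have e1 : CbP P * t * (P.del j ^ 2 * (P.lam ^ j) ^ 2)⁻¹ * (12 * (6 * P.del j) ^ 2) =
      432 * CbP P * t * ((P.lam ^ j) ^ 2)⁻¹ := by
    field_simp
    ring
  rw [e1]
  have e2 : (ρ ^ 2) ^ (-(3 / 4) : ℝ) = (ρ ^ (3 / 2 : ℝ))⁻¹ := by
    rw [← Real.rpow_natCast ρ 2, ← Real.rpow_mul hρ0.le, ← Real.rpow_neg hρ0.le]
    norm_num
  rw [e2]
  have h7 : ρ ^ (3 / 2 : ℝ) ≤ 24 * P.del j := by
    have a1 : ρ ^ (3 / 2 : ℝ) = ρ * ρ ^ (1 / 2 : ℝ) := by
      nth_rewrite 2 [← Real.rpow_one ρ]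
      rw [← Real.rpow_add hρ0]
      norm_num
    have a2 : ρ ^ (1 / 2 : ℝ) ≤ 2 := by
      have : ρ ≤ 4 := by linarith only [hρ, h5]
      calc ρ ^ (1 / 2 : ℝ) ≤ (4 : ℝ) ^ (1 / 2 : ℝ) :=
            Real.rpow_le_rpow hρ0.le this (by norm_num)
        _ = 2 := by
            rw [← Real.sqrt_eq_rpow, show (4 : ℝ) = 2 ^ 2 by norm_num, Real.sqrt_sq (by norm_num)]
    rw [a1]
    calc ρ * ρ ^ (1 / 2 : ℝ) ≤ (12 * P.del j) * 2 :=
          mul_le_mul hρ a2 (by positivity) (by positivity)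
      _ = _ := by ring
  have h8 : 0 < ρ ^ (3 / 2 : ℝ) := by positivity
  have e3 : 1 / 5 * (ρ ^ (3 / 2 : ℝ))⁻¹ = 1 / 5 / ρ ^ (3 / 2 : ℝ) := (div_eq_mul_inv _ _).symm
  rw [e3, le_div_iff₀ h8]
  calc 432 * CbP P * t * ((P.lam ^ j) ^ 2)⁻¹ * ρ ^ (3 / 2 : ℝ)
      ≤ 432 * CbP P * 1 * ((P.lam ^ j) ^ 2)⁻¹ * (24 * P.del j) := by
        (clear * - ht1 h2 h4 h7 hρ0; gcongr)
    _ = 10368 * CbP P * (P.del j * ((P.lam ^ j) ^ 2)⁻¹) := by ring
    _ ≤ 10368 * CbP P * P.kdel := by (clear * - h6 h2; gcongr)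
    _ ≤ 1 / 5 := by
        unfold KdOK at hk
        have : P.kdel * (10 ^ 7 * 1 * CbP P) ≤ P.kdel * (10 ^ 7 * (1 + kap) * CbP P) := by
          have := hP.hk0
          gcongr
          linarith only [h3]
        linarith only [this, hk]

/-- potential of `bf` -/
theorem bf_pot (hP : P.Good) (hk : KdOK P) {t0 : ℝ} (ht0 : t0 ≤ 1 / 100) (hS : SuppAt P t0)
    {n : ℕ} {t : ℝ} (ht : t ∈ Icc 0 (2 * t0)) (x : T3) (v : V) :
    Pot (bf P n t x) v ≤ ENNReal.ofReal (1 / (1 + ‖v‖)) * WW P t x v := by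
  by_cases hx : ∃ j ∈ Finset.Icc P.j0 n, rr x - P.w * t ∈ P.cell (gg / 4) j
  · obtain ⟨j, hj, h⟩ := hx
    have hg : (0 : ℝ) ≤ gg / 4 := by unfold gg; norm_num
    have ht1 : t ≤ 1 / 50 := by linarith only [ht0, ht.2]
    have hr0 := rr_pos_of_cell hP ht.1 h
    have hr1 : rr x ≤ 1 / 16 + 2 * t := by
      have := rr_le_of_cell hP hg ht.1 ht1 hj h
      linarith only [this, ht.1]
    have hd := hP.del_pos j
    have hd1 := six_del_le_one hP j
    have hC := CbP_pos hP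
    have hkap := kap_pos
    have hl := hP.lamj_pos j
    have htt := ht.1
    set u := uu P (sg j) x with hu
    have hu2 : ‖u‖ ≤ 2 := norm_uu_le' hP hr0 j
    have hv : ‖v‖ ≤ ‖v - u‖ + ‖u‖ := by
      have := norm_add_le (v - u) u
      rwa [sub_add_cancel] at this
    have hv0 := norm_nonneg v
    by_cases hfar : 12 * P.del j ≤ ‖v - u‖
    · have h1 := Pot_far (f := bf P n t x) (u := u) (v := v) (ρ := 6 * P.del j)
        (fun y hy => bf_ball hP ht0 hS ht h hy) (by linarith only [hfar]) (by linarith only [hd, hfar])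
      have h2 := bf_mass (n := n) hP ht0 hS ht h
      have h3 := inv_le_WW hP hr0 hr1 j v
      rw [← hu] at h3
      have h6 := del_div_le hP j
      calc Pot (bf P n t x) v ≤ ENNReal.ofReal (2 * ‖v - u‖⁻¹) * ENNReal.ofReal
            (216 * kap * CbP P * t * (P.del j * ((P.lam ^ j) ^ 2)⁻¹)) := h1.trans (by (clear * - h2; gcongr))
        _ ≤ ENNReal.ofReal (1 / 4) * ENNReal.ofReal ‖v - u‖⁻¹ := by
            rw [← ENNReal.ofReal_mul (by (clear * -; positivity)), ← ENNReal.ofReal_mul (by norm_num)]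
            apply ENNReal.ofReal_le_ofReal
            have h7 : 216 * kap * CbP P * t * (P.del j * ((P.lam ^ j) ^ 2)⁻¹) ≤ 1 / 8 := by
              calc 216 * kap * CbP P * t * (P.del j * ((P.lam ^ j) ^ 2)⁻¹)
                  ≤ 216 * kap * CbP P * 1 * P.kdel := by
                    gcongr
                    linarith only [ht1]
                _ ≤ 1 / 8 := by
                    unfold KdOK at hk
                    have : P.kdel * (10 ^ 7 * kap * CbP P) ≤
                        P.kdel * (10 ^ 7 * (1 + kap) * CbP P) := by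
                      have := hP.hk0
                      gcongr
                      linarith only []
                    linarith only [this, hk]
            calc 2 * ‖v - u‖⁻¹ * (216 * kap * CbP P * t * (P.del j * ((P.lam ^ j) ^ 2)⁻¹))
                ≤ 2 * ‖v - u‖⁻¹ * (1 / 8) := by (clear * - h7; gcongr)
              _ = 1 / 4 * ‖v - u‖⁻¹ := by ring
        _ ≤ ENNReal.ofReal (1 / 4) * (ENNReal.ofReal (4 / (1 + ‖v‖)) * WW P t x v) := by (clear * - h3; gcongr)
        _ = _ := by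
            rw [← mul_assoc, ← ENNReal.ofReal_mul (by norm_num)]
            congr 2
            (clear * -; field_simp)
    · push Not at hfar
      have h1 := Pot_ball (f := bf P n t x) (u := u) (ρ := 6 * P.del j) (by (clear * - hd; positivity))
        (bf_le2 hP ht0 hS ht h) (fun y hy => bf_ball hP ht0 hS ht h hy) v
      have h2 := WW_ge (P := P) hr1 j v
      rw [SS_eq_norm P _ hr0, ← hu] at h2
      refine h1.trans ?_
      rw [← ENNReal.ofReal_mul (by (clear * - hC htt hd hl; positivity))]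
      rcases (norm_nonneg (v - u)).eq_or_lt with h0 | h0
      · have : WW P t x v = ⊤ := by
          rw [← h0] at h2
          simp only [ne_eq, OfNat.ofNat_ne_zero, not_false_eq_true, zero_pow, ENNReal.ofReal_zero] at h2
          rw [ENNReal.zero_rpow_of_neg (by norm_num)] at h2
          exact top_le_iff.mp h2
        rw [this, ENNReal.mul_top]
        · exact le_top
        · rw [ne_eq, ENNReal.ofReal_eq_zero, not_le]
          (clear * -; positivity)
      · calc ENNReal.ofReal (CbP P * t * (P.del j ^ 2 * (P.lam ^ j) ^ 2)⁻¹ *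
              (12 * (6 * P.del j) ^ 2))
            ≤ ENNReal.ofReal (1 / (1 + ‖v‖) * (‖v - u‖ ^ 2) ^ (-(3 / 4) : ℝ)) := by
              apply ENNReal.ofReal_le_ofReal
              refine (near_aux hP hk ht.1 (by linarith only [ht1]) j h0 hfar.le).trans ?_
              apply mul_le_mul_of_nonneg_right _ (by (clear * - h0; positivity))
              apply one_div_le_one_div_of_le (by (clear * -; positivity))
              linarith only [hd1, hu2, hv, hfar]
          _ = ENNReal.ofReal (1 / (1 + ‖v‖)) * ENNReal.ofReal (‖v - u‖ ^ 2) ^ (-(3 / 4) : ℝ) := by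
              rw [ENNReal.ofReal_mul (by (clear * -; positivity)), ENNReal.ofReal_rpow_of_pos (by (clear * - h0; positivity))]
          _ ≤ _ := by (clear * - h2; gcongr)
  · push Not at hx
    have h0 : ∀ y, bf P n t x y = 0 := bf_zero hP ht0 hS ht hx
    unfold Pot
    simp only [h0, mul_zero, lintegral_zero]
    exact bot_le

end Vale.Agent.P140.NU.Gb
end
end

section

/-!
P140-NU, module G: gains with the first generation products and with the noise.
-/

open MeasureTheory Set Filter Metric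
open scoped ENNReal Topology

noncomputable section

namespace Vale.Agent.P140.NU.Gb

variable {P : Par}

theorem meas_bf' (n : ℕ) (t : ℝ) (x : T3) : Measurable (bf P n t x) := by
  have h := measurable_bf P n
  have h2 : Measurable fun v : V => ((t, x, v) : ℝ × T3 × V) := by fun_prop
  have h3 := h.comp h2
  exact h3

theorem meas_Bb' (t : ℝ) (x : T3) : Measurable (Bb P t x) := by
  have h := measurable_Bb P
  have h2 : Measurable fun v : V => ((t, x, v) : ℝ × T3 × V) := by fun_prop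
  have h3 := h.comp h2
  exact h3

/-- the first generation products are slow -/
theorem bf_norm (hP : P.Good) {t0 : ℝ} (ht0 : t0 ≤ 1 / 100) (hS : SuppAt P t0) {n : ℕ} {t : ℝ}
    (ht : t ∈ Icc 0 (2 * t0)) {x : T3} {v : V} (h : bf P n t x v ≠ 0) : ‖v‖ ≤ 2 := by
  obtain ⟨j, _, h1, _⟩ := bf_supp' hP ht0 hS ht h
  have h2 := bf_ball hP ht0 hS ht h1 h
  have h3 := norm_uu_le P (sg j) (rr_pos_of_cell hP ht.1 h1) hP.w_pos.le
  rw [abs_sg] at h3
  have h4 := del_le_small hP j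
  have h5 := hP.w_le
  have h6 : ‖v‖ ≤ ‖v - uu P (sg j) x‖ + ‖uu P (sg j) x‖ := by
    have := norm_add_le (v - uu P (sg j) x) (uu P (sg j) x)
    rwa [sub_add_cancel] at this
  linarith only [h2, h3, h4, h5, h6]

/-- (GB), sharp form -/
theorem Gam_bf_prof (hP : P.Good) (hk : KdOK P) {t0 : ℝ} (ht0 : t0 ≤ 1 / 100) (hS : SuppAt P t0)
    {n : ℕ} {t : ℝ} (ht : t ∈ Icc 0 (2 * t0)) {om : ℝ → ℝ≥0∞} (hom : Adm om) {g : ℝ}
    (hg : g ∈ Icc (1 / 8 : ℝ) (1 / 4)) (x : T3) (v : V) :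
    Gam (bf P n t x) (prof P om g t x) v ≤
      2 * CE * ENNReal.ofReal (1 / (1 + ‖v‖)) * prof P om g t x v := by
  have h1 := Gam_ext P (meas_bf' n t x) (fun y hy => bf_norm hP ht0 hS ht hy) hom hg t x v
  have h2 := bf_pot hP hk ht0 hS ht x v (n := n)
  refine h1.trans ?_
  calc CE * (om ‖v‖ * ENNReal.ofReal (Real.exp (-(g * ‖v‖ ^ 2)))) * (2 * Pot (bf P n t x) v)
      ≤ CE * (om ‖v‖ * ENNReal.ofReal (Real.exp (-(g * ‖v‖ ^ 2)))) *
        (2 * (ENNReal.ofReal (1 / (1 + ‖v‖)) * WW P t x v)) := by (clear * - h2; gcongr)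
    _ = _ := by
        unfold prof
        ring

/-- constant in (GB) -/
def CB0 : ℝ := (2 * CE).toReal + 1

theorem CB0_pos : 0 < CB0 := by
  unfold CB0
  have := ENNReal.toReal_nonneg (a := 2 * CE)
  linarith only [this]

theorem le_CB0 : 2 * CE ≤ ENNReal.ofReal CB0 :=
  const_le (ENNReal.mul_ne_top (by simp) CE_ne_top)

/-- (GB) -/
theorem Gam_bf_prof' (hP : P.Good) (hk : KdOK P) {t0 : ℝ} (ht0 : t0 ≤ 1 / 100) (hS : SuppAt P t0)
    {n : ℕ} {t : ℝ} (ht : t ∈ Icc 0 (2 * t0)) {om : ℝ → ℝ≥0∞} (hom : Adm om) {g : ℝ}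
    (hg : g ∈ Icc (1 / 8 : ℝ) (1 / 4)) (x : T3) (v : V) :
    Gam (bf P n t x) (prof P om g t x) v ≤ ENNReal.ofReal CB0 * prof P om g t x v := by
  refine (Gam_bf_prof hP hk ht0 hS ht hom hg x v).trans ?_
  gcongr
  calc 2 * CE * ENNReal.ofReal (1 / (1 + ‖v‖)) ≤ ENNReal.ofReal CB0 * 1 := by
        refine mul_le_mul' le_CB0 ?_
        rw [ENNReal.ofReal_le_one, div_le_one (by (clear * -; positivity))]
        linarith only [norm_nonneg v]
    _ = _ := mul_one _

/-- the noise is below the unweighted profile -/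
theorem Bb_le_prof {t : ℝ} (ht : 0 ≤ t) (x : T3) (v : V) :
    Bb P t x v ≤ prof P (fun _ => 1) (1 / 6) t x v := by
  unfold Bb prof
  rw [one_mul]
  refine mul_le_mul_left (ENNReal.ofReal_le_ofReal ?_) _
  have h1 : 0 ≤ min ((P.K + ‖v‖) * t + rr x) 1 := by
    apply le_min _ zero_le_one
    have := rr_nonneg x
    positivity
  have h2 : min ((P.K + ‖v‖) * t + rr x) 1 ^ P.K ≤ 1 := pow_le_one₀ h1 (min_le_right _ _)
  calc min ((P.K + ‖v‖) * t + rr x) 1 ^ P.K * Real.exp (-(‖v‖ ^ 2 / 6))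
      ≤ 1 * Real.exp (-(‖v‖ ^ 2 / 6)) := mul_le_mul_of_nonneg_right h2 (Real.exp_pos _).le
    _ = _ := by
        rw [one_mul]
        congr 1
        ring

/-- gain of the noise with the profile -/
theorem Gam_Bb_Pi (hP : P.Good) (n : ℕ) {γ : ℝ} (hγ : γ ∈ Icc (1 / 8 : ℝ) (1 / 6)) {t : ℝ}
    (ht : 0 ≤ t) (x : T3) (v : V) :
    Gam (Bb P t x) (Pi P n γ t x) v ≤ ENNReal.ofReal (CGr * (1 + ‖v‖)) * Pi P n γ t x v := by
  have hom := adm_omPi (rr x) (hP.TT_pos n ht)
  have hg : γ ∈ Icc (1 / 8 : ℝ) (1 / 4) := ⟨hγ.1, hγ.2.trans (by norm_num)⟩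
  rw [Pi_eq_prof]
  have h1 : Gam (Bb P t x) (prof P (omPi (rr x) (P.TT n t)) γ t x) v ≤
      Gam (prof P (fun _ => 1) γ t x) (prof P (omPi (rr x) (P.TT n t)) γ t x) v := by
    unfold Gam
    refine lintegral_mono fun w => lintegral_mono fun ω => ?_
    refine mul_le_mul_right (mul_le_mul_left ?_ _) _
    exact (Bb_le_prof ht x _).trans (prof_anti_g _ hγ.2 t x _)
  refine h1.trans ((Gam_prof_prof' Adm.one hom hg t x v).trans ?_)
  gcongr
  exact le_prof _ _ _ _ _

/-- gain with the noise, at fixed parameters -/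
theorem Gam_noise_at (hP : P.Good) (hk : KdOK P) {t0 : ℝ} (ht0 : t0 ≤ 1 / 100)
    (hS : SuppAt P t0) {CB : ℝ} (hCB : 0 < CB) (n : ℕ) {γ : ℝ} (hγ : γ ∈ Icc (1 / 8 : ℝ) (1 / 6))
    {t : ℝ} (ht : t ∈ Icc 0 (2 * t0)) (x : T3) (v : V) :
    Gam (fun u => bf P n t x u + ENNReal.ofReal CB * Bb P t x u) (Pi P n γ t x) v ≤
      ENNReal.ofReal ((CB0 + CB * CGr) * (1 + ‖v‖)) * Pi P n γ t x v := by
  have hom := adm_omPi (rr x) (hP.TT_pos n ht.1)
  have hg : γ ∈ Icc (1 / 8 : ℝ) (1 / 4) := ⟨hγ.1, hγ.2.trans (by norm_num)⟩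
  have m1 := meas_bf' (P := P) n t x
  have m2 := meas_Bb' (P := P) t x
  have m3 := meas_Pi' (P := P) n γ t x
  have e1 : Gam (fun u => bf P n t x u + ENNReal.ofReal CB * Bb P t x u) (Pi P n γ t x) v =
      Gam (bf P n t x) (Pi P n γ t x) v +
        Gam (fun u => ENNReal.ofReal CB * Bb P t x u) (Pi P n γ t x) v := by
    have h := Bg_add_left (f' := fun u => ENNReal.ofReal CB * Bb P t x u) m1 m3 v
    exact h
  have e2 : Gam (fun u => ENNReal.ofReal CB * Bb P t x u) (Pi P n γ t x) v =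
      ENNReal.ofReal CB * Gam (Bb P t x) (Pi P n γ t x) v := by
    have h := Bg_const_mul m2 m3 (ENNReal.ofReal CB) 1 v
    simp only [one_mul, mul_one] at h
    exact h
  have h1 : Gam (bf P n t x) (Pi P n γ t x) v ≤ ENNReal.ofReal CB0 * Pi P n γ t x v := by
    rw [Pi_eq_prof]
    exact Gam_bf_prof' hP hk ht0 hS ht hom hg x v
  have h2 := Gam_Bb_Pi hP n hγ ht.1 x v
  have hC0 := CB0_pos
  have hC1 := CGr_pos
  rw [e1, e2]
  calc Gam (bf P n t x) (Pi P n γ t x) v + ENNReal.ofReal CB * Gam (Bb P t x) (Pi P n γ t x) v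
      ≤ ENNReal.ofReal CB0 * Pi P n γ t x v +
        ENNReal.ofReal CB * (ENNReal.ofReal (CGr * (1 + ‖v‖)) * Pi P n γ t x v) := by (clear * - h1 h2; gcongr)
    _ = (ENNReal.ofReal CB0 + ENNReal.ofReal (CB * (CGr * (1 + ‖v‖)))) * Pi P n γ t x v := by
        rw [ENNReal.ofReal_mul hCB.le (q := CGr * (1 + ‖v‖))]
        ring
    _ ≤ _ := by
        refine mul_le_mul_left ?_ _
        rw [← ENNReal.ofReal_add hC0.le (by (clear * - hCB hC1; positivity))]
        apply ENNReal.ofReal_le_ofReal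
        linarith only [mul_nonneg (le_of_lt (sub_pos.2 hC0)) (sub_nonneg.2 (norm_nonneg v))]

/-- `Gam_noise` of the interface, from `cf_support` -/
theorem Gam_noise_of (h : EvP fun P => ∀ᶠ t0 in 𝓝[>] (0 : ℝ), SuppAt P t0) :
    EvP fun P => ∀ CB : ℝ, 0 < CB → ∃ CN : ℝ, 0 < CN ∧
    ∀ᶠ t0 in 𝓝[>] (0 : ℝ), ∀ n, P.j0 ≤ n → ∀ γ ∈ Icc (1 / 8 : ℝ) (1 / 6), ∀ t ∈ Icc 0 t0, ∀ x v,
    Gam (fun u => bf P n t x u + ENNReal.ofReal CB * Bb P t x u) (Pi P n γ t x) v ≤
      ENNReal.ofReal (CN * (1 + ‖v‖)) * Pi P n γ t x v := by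
  refine (evP_good.and evP_kdOK).mono2 h fun P hP h2 CB hCB => ?_
  have hC0 := CB0_pos
  have hC1 := CGr_pos
  refine ⟨CB0 + CB * CGr, by (clear * - hC0 hCB hC1; positivity), ?_⟩
  have e1 : ∀ᶠ t0 in 𝓝[>] (0 : ℝ), t0 < 1 / 100 :=
    eventually_nhdsWithin_of_eventually_nhds (eventually_lt_nhds (by norm_num))
  filter_upwards [e1, h2, self_mem_nhdsWithin] with t0 h0 hS h3 n _ γ hγ t ht x v
  have h3' : 0 < t0 := h3
  exact Gam_noise_at hP.1 hP.2 h0.le hS hCB n hγ ⟨ht.1, by linarith only [h3', ht.2]⟩ x v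

end Vale.Agent.P140.NU.Gb
end
end

section

/-!
P140, non-uniqueness, module G: the final theorems (statements of `Iface/G.lean`).
-/

open MeasureTheory Set Filter
open scoped ENNReal Topology

noncomputable section

namespace Vale.Agent.P140.NU

/-- small times -/
theorem small_t0_le {a : ℝ} (ha : 0 < a) : ∀ᶠ t0 in 𝓝[>] (0 : ℝ), t0 ≤ a := by
  filter_upwards [Ioo_mem_nhdsGT ha] with t0 h
  exact h.2.le

theorem evP_CfS : EvP fun P => ∀ᶠ t0 in 𝓝[>] (0 : ℝ), CfS P t0 := cf_support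

theorem evP_CfM : EvP fun P => ∀ᶠ t0 in 𝓝[>] (0 : ℝ), CfM P t0 := cf_mass_le

/-- near the line and outside the cold zones the first-generation products vanish -/
theorem bf_support : EvP fun P => ∀ᶠ t0 in 𝓝[>] (0 : ℝ), ∀ n, ∀ t ∈ Icc 0 (2 * t0), ∀ x v,
    bf P n t x v ≠ 0 → ∃ j ∈ Finset.Icc P.j0 n, rr x - P.w * t ∈ P.cell (gg / 4) j ∧
      √(SS P (sg j) x v) ≤ 20 * P.del j := Gb.bf_support_of evP_CfS

/-- `K` on the profile, pointwise -/
theorem KK_Pi : ∃ CK : ℝ, 0 < CK ∧ EvP fun P => ∀ᶠ t0 in 𝓝[>] (0 : ℝ), ∀ n, P.j0 ≤ n →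
    ∀ γ ∈ Icc (1 / 8 : ℝ) (1 / 6), ∀ t ∈ Icc 0 (2 * t0), ∀ x v,
    KK P n t (Pi P n γ t) x v ≤ ENNReal.ofReal (CK * (P.c / rr x) / (1 + ‖v‖)) * Pi P n γ t x v ∧
    (KK P n t (Pi P n γ t) x v ≠ 0 → P.w * P.TT n t ≤ rr x) := by
  refine ⟨2 * CAr, by have := CAr_pos; positivity, ?_⟩
  refine ((evP_good.and evP_CfS).and evP_CfM).mono fun P h => ?_
  obtain ⟨⟨hP, hS⟩, hM⟩ := h
  filter_upwards [hS, hM, small_t0_le one_pos] with t0 hS hM ht0 n _ γ hγ t ht x v
  exact KK_Pi_at hP hS hM ht0 n hγ ht x v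

/-- `K`-Duhamel operator on the profile -/
theorem UK_Pi : ∃ CA : ℝ, 0 < CA ∧ EvP fun P => ∀ᶠ t0 in 𝓝[>] (0 : ℝ), ∀ n, P.j0 ≤ n →
    ∀ γ ∈ Icc (1 / 8 : ℝ) (1 / 6), ∀ t1 t, 0 ≤ t1 → t1 ≤ t → t ≤ t0 →
    P.TT n t ≤ 2 * P.TT n t1 → ∀ H : ℝ≥0∞, ∀ x v,
    UK P n t1 (fun τ x v => H * Pi P n γ τ x v) t x v ≤
      ENNReal.ofReal (CA * P.c ^ 3) * H * Pi P n γ t x v := Gb.UK_Pi_of KK_Pi

/-- quadratic gain on the profile -/
theorem Gam_Pi : ∃ CG : ℝ, 0 < CG ∧ EvP fun P => ∀ᶠ t0 in 𝓝[>] (0 : ℝ), ∀ n, P.j0 ≤ n →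
    ∀ γ ∈ Icc (1 / 8 : ℝ) (1 / 6), ∀ t ∈ Icc 0 t0, ∀ x v,
    Gam (Pi P n γ t x) (Pi P n γ t x) v ≤
      ENNReal.ofReal (CG * (1 + ‖v‖)) * Pi P n γ t x v := by
  refine ⟨CGr, CGr_pos, evP_good.mono fun P hP => ?_⟩
  filter_upwards with t0 n _ γ hγ t ht x v
  exact Gam_Pi_at hP n hγ ht.1 x v

/-- gain with the noise -/
theorem Gam_noise : EvP fun P => ∀ CB : ℝ, 0 < CB → ∃ CN : ℝ, 0 < CN ∧
    ∀ᶠ t0 in 𝓝[>] (0 : ℝ), ∀ n, P.j0 ≤ n → ∀ γ ∈ Icc (1 / 8 : ℝ) (1 / 6), ∀ t ∈ Icc 0 t0, ∀ x v,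
    Gam (fun u => bf P n t x u + ENNReal.ofReal CB * Bb P t x u) (Pi P n γ t x) v ≤
      ENNReal.ofReal (CN * (1 + ‖v‖)) * Pi P n γ t x v := Gb.Gam_noise_of evP_CfS

/-- `K` on the profile near the cold velocities (for module S) -/
theorem KK_small : ∃ CK : ℝ, 0 < CK ∧ EvP fun P => ∀ ρ : ℝ, 0 < ρ → ∀ M : ℝ, 0 < M →
    ∀ᶠ t0 in 𝓝[>] (0 : ℝ), ∀ n, P.j0 ≤ n → P.ss n ≤ t0 → ∀ γ ∈ Icc (1 / 8 : ℝ) (1 / 6),
    ∀ t ∈ Icc 0 t0, ∀ x v, rr x ≤ M * P.TT n t → (SS P 1 x v ≤ ρ ^ 2 ∨ SS P (-1) x v ≤ ρ ^ 2) →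
    KK P n t (Pi P n γ t) x v ≤
      ENNReal.ofReal (CK * (P.c / rr x) * √ρ) * Pi P n γ t x v := by
  refine ⟨CKs, CKs_pos, ((evP_good.and evP_CfS).and evP_CfM).mono fun P h => ?_⟩
  obtain ⟨⟨hP, hS⟩, hM⟩ := h
  intro ρ hρ M hM0
  have hsρ : 0 < √ρ := Real.sqrt_pos.mpr hρ
  have ha : 0 < √ρ ^ 3 / (8 * M) := by (clear * - hρ hM0; positivity)
  filter_upwards [hS, hM, small_t0_le one_pos, small_t0_le ha] with t0 hS hM ht0 ht1 n _ hn γ hγ t ht x v
    hr hv
  refine KK_small_at hP hS hM ht0 hρ hM0 ?_ n hn hγ ht x v hr hv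
  rw [le_div_iff₀ (by positivity)] at ht1
  (clear * - ht1; linarith)

end Vale.Agent.P140.NU
end
end

section

/-!
P140, non-uniqueness, module N: the internal barrier and its growth along flights.
-/

open MeasureTheory Set Filter
open scoped ENNReal Topology

noncomputable section

namespace Vale.Agent.P140.NU.Nb

variable (P : Par)

/-- `min ((K + a) t + r, 1)` -/
def mB (t r a : ℝ) : ℝ := min ((P.K + a) * t + r) 1

/-- the internal barrier -/
def Bt (l t : ℝ) (x : T3) (v : V) : ℝ≥0∞ :=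
  ENNReal.ofReal (Real.exp (l * t) * (Real.exp (-((1 / 5 - t) * ‖v‖ ^ 2)) *
    mB P t (rr x) ‖v‖ ^ P.K)) * WW P t x v

/-- the rate at which the barrier grows along flights -/
def Rt (l A t : ℝ) (x : T3) (v : V) : ℝ≥0∞ :=
  ENNReal.ofReal (Real.exp (l * t) * (Real.exp (-((1 / 5 - t) * ‖v‖ ^ 2)) *
    ((P.K : ℝ) ^ 2 / 2 * mB P t (rr x) ‖v‖ ^ (P.K - 1) +
      A * (1 + ‖v‖) * mB P t (rr x) ‖v‖ ^ P.K))) * WW P t x v

variable {P}

theorem mB_nonneg {t r a : ℝ} (ht : 0 ≤ t) (hr : 0 ≤ r) (ha : 0 ≤ a) : 0 ≤ mB P t r a := by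
  unfold mB
  positivity

theorem mB_le_one (t r a : ℝ) : mB P t r a ≤ 1 := min_le_right _ _

theorem flight_barrier (hP : P.Good) (hK : 2 ≤ P.K) {l A t : ℝ} (hA : 0 ≤ A)
    (hl1 : 2 * (P.K : ℝ) ^ 2 ≤ l) (hl2 : 4 * A + 4 * A ^ 2 ≤ l) (h0 : 0 ≤ t) (h1 : t ≤ 1 / 50)
    (x : T3) (v : V) :
    ∫⁻ τ in Ioc 0 t, Rt P l A τ (mv x v τ) v ≤ Bt P l t (mv x v t) v := by
  set a := ‖v‖ with ha
  have ha0 : 0 ≤ a := norm_nonneg v
  set μ := l + a ^ 2 with hμ
  set R : ℝ → ℝ := fun τ => (P.K + a) * τ + rr (mv x v τ) with hR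
  have hμ1 : 2 * (P.K : ℝ) ^ 2 ≤ μ := by
    have := sq_nonneg a
    linarith only [hl1, this]
  have hμ2 : 4 * (A * (1 + a)) ≤ μ := by
    linarith only [sq_nonneg (2 * A - a), hl2]
  have hR0 : ∀ τ ∈ Icc 0 t, 0 ≤ R τ := by
    intro τ hτ
    have := rr_nonneg (mv x v τ)
    have := hτ.1
    simp only [hR]
    (clear hP l A hA hl1 hl2 h0 h1 ha ha0 μ hμ R hR hμ1 hμ2; positivity)
  have hRm : ∀ τ ∈ Icc 0 t, R τ + P.K * (t - τ) ≤ R t := by
    intro τ hτ
    have h2 := rr_mv_le (mv x v t) v (τ - t)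
    rw [mv_mv, show t + (τ - t) = τ by ring, abs_of_nonpos (by linarith only [hτ.2])] at h2
    have h3 : -(τ - t) * vp v ≤ -(τ - t) * a :=
      mul_le_mul_of_nonneg_left (vp_le_norm v) (by linarith only [hτ.2])
    simp only [hR]
    linarith only [h3, h2]
  have key := flight_ineq hK h0 (mul_nonneg hA (by linarith only [ha0] : (0 : ℝ) ≤ 1 + a)) hμ1 hμ2 hR0 hRm
  have hmB : ∀ τ, mB P τ (rr (mv x v τ)) a = min (R τ) 1 := fun τ => rfl
  -- pointwise
  have hpt : ∀ τ ∈ Ioc 0 t, Rt P l A τ (mv x v τ) v ≤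
      ENNReal.ofReal (Real.exp (-(a ^ 2 / 5))) * ENNReal.ofReal (Real.exp (μ * τ) *
        ((P.K : ℝ) ^ 2 / 2 * (min (R τ) 1) ^ (P.K - 1) + A * (1 + a) * (min (R τ) 1) ^ P.K)) *
        WW P t (mv x v t) v := by
    intro τ hτ
    unfold Rt
    rw [← ENNReal.ofReal_mul (Real.exp_pos _).le]
    have h2 := WW_mono hP hτ.1.le hτ.2 h1 (mv x v τ) v
    rw [mv_mv, show τ + (t - τ) = t by ring] at h2
    apply mul_le_mul' _ h2
    apply ENNReal.ofReal_le_ofReal
    rw [← ha, hmB, ← mul_assoc, ← mul_assoc, ← Real.exp_add, ← Real.exp_add]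
    apply le_of_eq
    congr 2
    rw [hμ]
    ring
  have hc : Continuous fun τ => Real.exp (μ * τ) *
        ((P.K : ℝ) ^ 2 / 2 * (min (R τ) 1) ^ (P.K - 1) + A * (1 + a) * (min (R τ) 1) ^ P.K) := by
    have h2 : Continuous R := by
      simp only [hR]
      have h3 : Continuous fun τ => rr (mv x v τ) := by
        apply continuous_rr.comp
        unfold mv
        exact continuous_const.add (continuous_toTorus.comp (by (clear * -; fun_prop)))
      fun_prop
    fun_prop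
  calc ∫⁻ τ in Ioc 0 t, Rt P l A τ (mv x v τ) v
      ≤ ∫⁻ τ in Ioc 0 t, ENNReal.ofReal (Real.exp (-(a ^ 2 / 5))) *
          ENNReal.ofReal (Real.exp (μ * τ) *
        ((P.K : ℝ) ^ 2 / 2 * (min (R τ) 1) ^ (P.K - 1) + A * (1 + a) * (min (R τ) 1) ^ P.K)) *
        WW P t (mv x v t) v := setLIntegral_mono' measurableSet_Ioc hpt
    _ = ENNReal.ofReal (Real.exp (-(a ^ 2 / 5))) * (∫⁻ τ in Ioc 0 t,
          ENNReal.ofReal (Real.exp (μ * τ) *
        ((P.K : ℝ) ^ 2 / 2 * (min (R τ) 1) ^ (P.K - 1) + A * (1 + a) * (min (R τ) 1) ^ P.K))) *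
        WW P t (mv x v t) v := by
      rw [lintegral_mul_const _ (by
        apply Measurable.const_mul
        exact hc.measurable.ennreal_ofReal), lintegral_const_mul _ hc.measurable.ennreal_ofReal]
    _ ≤ ENNReal.ofReal (Real.exp (-(a ^ 2 / 5))) *
        ENNReal.ofReal (Real.exp (μ * t) * (min (R t) 1) ^ P.K) *
        WW P t (mv x v t) v := by (clear * - key; gcongr)
    _ = Bt P l t (mv x v t) v := by
      unfold Bt
      rw [← ENNReal.ofReal_mul (Real.exp_pos _).le, ← ha, hmB, ← mul_assoc, ← mul_assoc,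
        ← Real.exp_add, ← Real.exp_add]
      congr 4
      rw [hμ]
      ring

end Vale.Agent.P140.NU.Nb
end
end

section

/-!
P140-NU, module G: collision frequencies and exponential moments of the profiles and of the noise.
-/

open MeasureTheory Set Filter Metric
open scoped ENNReal Topology

noncomputable section

namespace Vale.Agent.P140.NU.Gb

variable {P : Par}

/-- weight of the exponential moment -/
def mw (u : V) : ℝ≥0∞ := ENNReal.ofReal ((1 + ‖u‖) * Real.exp (‖u‖ ^ 2 / 16))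

theorem measurable_mw : Measurable mw := by
  unfold mw
  apply ENNReal.measurable_ofReal.comp
  apply Continuous.measurable
  fun_prop

theorem meas_mul_mw {f : V → ℝ≥0∞} (hf : Measurable f) : Measurable fun u => f u * mw u :=
  hf.mul measurable_mw

/-- exponential moment -/
def Mo (f : V → ℝ≥0∞) : ℝ≥0∞ := ∫⁻ u, f u * mw u

theorem Mo_mono {f g : V → ℝ≥0∞} (h : ∀ u, f u ≤ g u) : Mo f ≤ Mo g := by
  unfold Mo
  exact lintegral_mono fun u => mul_le_mul' (h u) le_rfl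

theorem Mo_add {f g : V → ℝ≥0∞} (hf : Measurable f) : Mo (fun u => f u + g u) = Mo f + Mo g := by
  unfold Mo
  rw [← lintegral_add_left (meas_mul_mw hf)]
  exact lintegral_congr fun u => add_mul _ _ _

theorem Mo_const_mul {f : V → ℝ≥0∞} (hf : Measurable f) (c : ℝ≥0∞) :
    Mo (fun u => c * f u) = c * Mo f := by
  unfold Mo
  rw [← lintegral_const_mul c (meas_mul_mw hf)]
  exact lintegral_congr fun u => mul_assoc _ _ _

/-- the collision frequency is controlled by the moment -/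
theorem LL_le_Mo {f : V → ℝ≥0∞} (hf : Measurable f) (v : V) :
    LL f v ≤ ENNReal.ofReal (4 * Real.pi * (1 + ‖v‖)) * Mo f := by
  unfold LL Mo
  have hpi := Real.pi_pos
  have hv := norm_nonneg v
  have h1 : ∀ w : V, ∫⁻ ω : S2, ENNReal.ofReal |relA v w ω| * f w ∂surf ≤
      ENNReal.ofReal (4 * Real.pi * (1 + ‖v‖)) * (f w * mw w) := by
    intro w
    have hw := norm_nonneg w
    calc ∫⁻ ω : S2, ENNReal.ofReal |relA v w ω| * f w ∂surf
        ≤ ∫⁻ _ω : S2, ENNReal.ofReal (1 + ‖v‖) * (f w * mw w) ∂surf := by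
          refine lintegral_mono fun o => ?_
          beta_reduce
          have e1 : |relA v w o| ≤ (1 + ‖v‖) * ((1 + ‖w‖) * Real.exp (‖w‖ ^ 2 / 16)) := by
            have a1 := abs_relA_le v w o
            have a2 : 1 ≤ Real.exp (‖w‖ ^ 2 / 16) := Real.one_le_exp (by (clear * -; positivity))
            have a3 : (1 + ‖w‖) * 1 ≤ (1 + ‖w‖) * Real.exp (‖w‖ ^ 2 / 16) :=
              mul_le_mul_of_nonneg_left a2 (by (clear * -; positivity))
            have a4 : (1 + ‖v‖) * ((1 + ‖w‖) * 1) ≤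
                (1 + ‖v‖) * ((1 + ‖w‖) * Real.exp (‖w‖ ^ 2 / 16)) :=
              mul_le_mul_of_nonneg_left a3 (by positivity)
            nlinarith only [a1, a4, hv, hw]
          calc ENNReal.ofReal |relA v w o| * f w ≤
              ENNReal.ofReal ((1 + ‖v‖) * ((1 + ‖w‖) * Real.exp (‖w‖ ^ 2 / 16))) * f w := by
                gcongr
            _ = ENNReal.ofReal (1 + ‖v‖) * (f w * mw w) := by
                rw [ENNReal.ofReal_mul (by (clear * -; positivity))]
                unfold mw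
                ring
      _ = _ := by
          rw [lintegral_const, surf_univ, ENNReal.ofReal_mul (p := 4 * Real.pi) (by positivity)]
          ring
  refine (lintegral_mono h1).trans ?_
  rw [lintegral_const_mul _ (meas_mul_mw hf)]

/-- constant of the moment bounds -/
def CMe : ℝ≥0∞ := CM + ENNReal.ofReal (Real.exp 4) * (2 * CV)

theorem CMe_ne_top : CMe ≠ ⊤ := by
  unfold CMe
  exact ENNReal.add_ne_top.mpr ⟨CM_ne_top, ENNReal.mul_ne_top ENNReal.ofReal_ne_top
    (ENNReal.mul_ne_top (by simp) CV_ne_top)⟩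

theorem mom_pt (g : ℝ) (hg : 1 / 8 ≤ g) (u1 u2 u : V) :
    ENNReal.ofReal (Real.exp (-(g * ‖u‖ ^ 2))) * W0 u1 u2 u * mw u ≤
      ENNReal.ofReal (1 + ‖u‖) * E16 u + ENNReal.ofReal (Real.exp 4) * (psi u1 u + psi u2 u) := by
  have hu := norm_nonneg u
  have h1 : ENNReal.ofReal (Real.exp (-(g * ‖u‖ ^ 2))) * mw u ≤
      ENNReal.ofReal (1 + ‖u‖) * E16 u := by
    unfold mw E16
    rw [← ENNReal.ofReal_mul (by positivity), ← ENNReal.ofReal_mul (by (clear * -; positivity))]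
    apply ENNReal.ofReal_le_ofReal
    calc Real.exp (-(g * ‖u‖ ^ 2)) * ((1 + ‖u‖) * Real.exp (‖u‖ ^ 2 / 16))
        = (1 + ‖u‖) * Real.exp (-(g * ‖u‖ ^ 2) + ‖u‖ ^ 2 / 16) := by
          rw [Real.exp_add]
          ring
      _ ≤ (1 + ‖u‖) * Real.exp (-(1 / 16 * ‖u‖ ^ 2)) := by
          apply mul_le_mul_of_nonneg_left _ (by (clear * -; positivity))
          apply Real.exp_le_exp.mpr
          linarith only [mul_nonneg (sq_nonneg (1 * ‖u‖ : ℝ)) (sub_nonneg.2 hg)]
  have h2 : ENNReal.ofReal (1 + ‖u‖) * E16 u ≤ ENNReal.ofReal (Real.exp 4) := by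
    unfold E16
    rw [← ENNReal.ofReal_mul (by (clear * -; positivity))]
    apply ENNReal.ofReal_le_ofReal
    have h4 : 1 + ‖u‖ ≤ Real.exp ‖u‖ := by
      have := Real.add_one_le_exp ‖u‖
      linarith only [this]
    calc (1 + ‖u‖) * Real.exp (-(1 / 16 * ‖u‖ ^ 2)) ≤
        Real.exp ‖u‖ * Real.exp (-(1 / 16 * ‖u‖ ^ 2)) := by gcongr
      _ = Real.exp (‖u‖ + -(1 / 16 * ‖u‖ ^ 2)) := by rw [Real.exp_add]
      _ ≤ Real.exp 4 := by
          apply Real.exp_le_exp.mpr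
          linarith only [sq_nonneg (‖u‖ - 8)]
  unfold W0
  calc ENNReal.ofReal (Real.exp (-(g * ‖u‖ ^ 2))) * (1 + (psi u1 u + psi u2 u)) * mw u
      = ENNReal.ofReal (Real.exp (-(g * ‖u‖ ^ 2))) * mw u +
        (ENNReal.ofReal (Real.exp (-(g * ‖u‖ ^ 2))) * mw u) * (psi u1 u + psi u2 u) := by ring
    _ ≤ ENNReal.ofReal (1 + ‖u‖) * E16 u +
        ENNReal.ofReal (Real.exp 4) * (psi u1 u + psi u2 u) :=
        add_le_add h1 (mul_le_mul' (h1.trans h2) le_rfl)

/-- moment of a profile -/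
theorem Mo_prof_le {om : ℝ → ℝ≥0∞} (hom : ∀ a, om a ≤ 1) {g : ℝ} (hg : 1 / 8 ≤ g) (t : ℝ)
    (x : T3) : Mo (prof P om g t x) ≤ CMe := by
  have m1 : Measurable fun u : V => ENNReal.ofReal (1 + ‖u‖) * E16 u :=
    (measurable_norm.const_add 1).ennreal_ofReal.mul measurable_E16
  have m2 := measurable_Psi2 (uu P 1 x) (uu P (-1) x)
  calc Mo (prof P om g t x) ≤ ∫⁻ u, (ENNReal.ofReal (1 + ‖u‖) * E16 u +
        ENNReal.ofReal (Real.exp 4) * Psi2 (uu P 1 x) (uu P (-1) x) u) := by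
        unfold Mo
        refine lintegral_mono fun u => ?_
        beta_reduce
        refine le_trans ?_ (mom_pt g hg (uu P 1 x) (uu P (-1) x) u)
        unfold prof
        calc om ‖u‖ * ENNReal.ofReal (Real.exp (-(g * ‖u‖ ^ 2))) * WW P t x u * mw u
            ≤ 1 * ENNReal.ofReal (Real.exp (-(g * ‖u‖ ^ 2))) *
              W0 (uu P 1 x) (uu P (-1) x) u * mw u := by
              gcongr
              · exact hom _
              · exact WW_le P t x u
          _ = _ := by rw [one_mul]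
    _ = CM + ENNReal.ofReal (Real.exp 4) * ∫⁻ u, Psi2 (uu P 1 x) (uu P (-1) x) u := by
        rw [lintegral_add_left m1, lintegral_const_mul _ m2]
        rfl
    _ ≤ CMe := by
        unfold CMe
        gcongr
        unfold Psi2
        rw [lintegral_add_left (measurable_psi _), two_mul]
        exact add_le_add (lintegral_psi_le _) (lintegral_psi_le _)

/-- real constant of the moment bounds -/
def CMr : ℝ := CMe.toReal + 10

theorem CMr_ge : 10 ≤ CMr := by
  unfold CMr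
  have := ENNReal.toReal_nonneg (a := CMe)
  linarith

theorem CMe_le : CMe ≤ ENNReal.ofReal CMr := by
  unfold CMr
  rw [ENNReal.ofReal_add ENNReal.toReal_nonneg (by norm_num), ENNReal.ofReal_toReal CMe_ne_top]
  exact le_self_add

/-- moment of a profile -/
theorem Mo_prof {om : ℝ → ℝ≥0∞} (hom : ∀ a, om a ≤ 1) {g : ℝ} (hg : 1 / 8 ≤ g) (t : ℝ)
    (x : T3) : Mo (prof P om g t x) ≤ ENNReal.ofReal CMr := (Mo_prof_le hom hg t x).trans CMe_le

/-- moment of the profile `Pi` -/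
theorem Mo_Pi (hP : P.Good) (n : ℕ) {γ : ℝ} (hγ : 1 / 8 ≤ γ) {t : ℝ} (ht : 0 ≤ t) (x : T3) :
    Mo (Pi P n γ t x) ≤ ENNReal.ofReal CMr := by
  rw [Pi_eq_prof]
  exact Mo_prof (adm_omPi (rr x) (hP.TT_pos n ht)).2.2.2 hγ t x

theorem Mo_Bb {t : ℝ} (ht : 0 ≤ t) (x : T3) : Mo (Bb P t x) ≤ ENNReal.ofReal CMr :=
  (Mo_mono (Bb_le_prof ht x)).trans (Mo_prof (fun _ => le_rfl) (by norm_num) t x)

theorem exp_nine_le : Real.exp (9 / 16) ≤ 2 := by
  have h1 : Real.exp (9 / 16) ≤ Real.exp (Real.log 2) := by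
    apply Real.exp_le_exp.mpr
    have := Real.log_two_gt_d9
    linarith
  rwa [Real.exp_log (by norm_num)] at h1

/-- moment of the first generation products -/
theorem Mo_bf (hP : P.Good) (hk : KdOK P) {t0 : ℝ} (ht0 : t0 ≤ 1 / 100) (hS : SuppAt P t0)
    {n : ℕ} {t : ℝ} (ht : t ∈ Icc 0 (2 * t0)) (x : T3) : Mo (bf P n t x) ≤ ENNReal.ofReal 8 := by
  by_cases hx : ∃ j ∈ Finset.Icc P.j0 n, rr x - P.w * t ∈ P.cell (gg / 4) j
  · obtain ⟨j, hj, h⟩ := hx
    have ht1 : t ≤ 1 / 50 := by linarith only [ht.2, ht0]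
    have hr0 := rr_pos_of_cell hP ht.1 h
    have hd1 := six_del_le_one hP j
    have hC := CbP_pos hP
    have hkap := kap_pos
    have hl := hP.lamj_pos j
    have htt := ht.1
    have h6 := del_div_le hP j
    have h7 : 216 * kap * CbP P * t * (P.del j * ((P.lam ^ j) ^ 2)⁻¹) ≤ 1 := by
      have hd := hP.del_pos j
      calc 216 * kap * CbP P * t * (P.del j * ((P.lam ^ j) ^ 2)⁻¹)
          ≤ 216 * kap * CbP P * 1 * P.kdel := by
            gcongr
            linarith only [ht1]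
        _ ≤ 1 := by
            unfold KdOK at hk
            have : P.kdel * (10 ^ 7 * kap * CbP P) ≤
                P.kdel * (10 ^ 7 * (1 + kap) * CbP P) := by
              have := hP.hk0
              gcongr
              linarith only []
            linarith only [this, hk]
    have h2 := bf_mass (n := n) hP ht0 hS ht h
    have hm : ∫⁻ v, bf P n t x v ≤ 1 := h2.trans (by
      rw [ENNReal.ofReal_le_one]
      exact h7)
    calc Mo (bf P n t x) ≤ ∫⁻ u, ENNReal.ofReal 8 * bf P n t x u := by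
          unfold Mo
          refine lintegral_mono fun u => ?_
          beta_reduce
          by_cases h0 : bf P n t x u = 0
          · rw [h0, zero_mul, mul_zero]
          · rw [mul_comm]
            gcongr
            unfold mw
            apply ENNReal.ofReal_le_ofReal
            have h8 := bf_ball hP ht0 hS ht h h0
            have h9 := norm_uu_le' hP hr0 j
            have h10 : ‖u‖ ≤ 3 := by
              have := norm_add_le (u - uu P (sg j) x) (uu P (sg j) x)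
              rw [sub_add_cancel] at this
              linarith only [hd1, h8, h9, this]
            have h11 : ‖u‖ ^ 2 ≤ 9 := by linarith only [mul_nonneg (sub_nonneg.2 h10) (sub_nonneg.2 (norm_nonneg u)), mul_nonneg (sub_nonneg.2 h10) (sub_nonneg.2 h10)]
            have h12 : Real.exp (‖u‖ ^ 2 / 16) ≤ 2 :=
              (Real.exp_le_exp.mpr (by linarith only [h11])).trans exp_nine_le
            calc (1 + ‖u‖) * Real.exp (‖u‖ ^ 2 / 16) ≤ 4 * 2 :=
                  mul_le_mul (by linarith only [h10]) h12 (Real.exp_pos _).le (by norm_num)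
              _ = 8 := by norm_num
      _ = ENNReal.ofReal 8 * ∫⁻ u, bf P n t x u :=
          lintegral_const_mul' _ _ ENNReal.ofReal_ne_top
      _ ≤ ENNReal.ofReal 8 * 1 := by (clear * - hm; gcongr)
      _ = _ := mul_one _
  · push Not at hx
    have h0 : ∀ y, bf P n t x y = 0 := bf_zero hP ht0 hS ht hx
    unfold Mo
    simp only [h0, zero_mul, lintegral_zero]
    exact bot_le

/-- moment of the noise -/
theorem Mo_noise (hP : P.Good) (hk : KdOK P) {t0 : ℝ} (ht0 : t0 ≤ 1 / 100) (hS : SuppAt P t0)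
    {n : ℕ} {t : ℝ} (ht : t ∈ Icc 0 (2 * t0)) (x : T3) {CB : ℝ} (hCB : 0 ≤ CB) :
    Mo (fun u => bf P n t x u + ENNReal.ofReal CB * Bb P t x u) ≤
      ENNReal.ofReal (CMr * (1 + CB)) := by
  have hC := CMr_ge
  rw [Mo_add (meas_bf' n t x), Mo_const_mul (meas_Bb' t x)]
  calc Mo (bf P n t x) + ENNReal.ofReal CB * Mo (Bb P t x)
      ≤ ENNReal.ofReal 8 + ENNReal.ofReal CB * ENNReal.ofReal CMr :=
        add_le_add (Mo_bf hP hk ht0 hS ht x) (mul_le_mul' le_rfl (Mo_Bb ht.1 x))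
    _ = ENNReal.ofReal (8 + CB * CMr) := by
        rw [← ENNReal.ofReal_mul hCB, ← ENNReal.ofReal_add (by norm_num) (by (clear * - hCB hC; positivity))]
    _ ≤ ENNReal.ofReal (CMr * (1 + CB)) := by
        apply ENNReal.ofReal_le_ofReal
        linarith only [hC]

/-! ### collision frequencies -/

/-- constant of the bounds of the collision frequencies -/
def CLr : ℝ := 4 * Real.pi * CMr

theorem CLr_pos : 0 < CLr := by
  unfold CLr
  have := CMr_ge
  positivity

theorem LL_of_Mo {f : V → ℝ≥0∞} (hf : Measurable f) {C : ℝ} (h : Mo f ≤ ENNReal.ofReal C) (v : V) :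
    LL f v ≤ ENNReal.ofReal (4 * Real.pi * C * (1 + ‖v‖)) := by
  have hv := norm_nonneg v
  refine (LL_le_Mo hf v).trans ?_
  calc ENNReal.ofReal (4 * Real.pi * (1 + ‖v‖)) * Mo f
      ≤ ENNReal.ofReal (4 * Real.pi * (1 + ‖v‖)) * ENNReal.ofReal C := by gcongr
    _ = _ := by
        rw [← ENNReal.ofReal_mul (by (clear * -; positivity))]
        congr 1
        ring

/-- collision frequency of the profile `Pi` -/
theorem LL_Pi (hP : P.Good) (n : ℕ) {γ : ℝ} (hγ : 1 / 8 ≤ γ) {t : ℝ} (ht : 0 ≤ t) (x : T3)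
    (v : V) : LL (Pi P n γ t x) v ≤ ENNReal.ofReal (CLr * (1 + ‖v‖)) :=
  LL_of_Mo (meas_Pi' n γ t x) (Mo_Pi hP n hγ ht x) v

/-- collision frequency of the noise -/
theorem LL_noise (hP : P.Good) (hk : KdOK P) {t0 : ℝ} (ht0 : t0 ≤ 1 / 100) (hS : SuppAt P t0)
    {n : ℕ} {t : ℝ} (ht : t ∈ Icc 0 (2 * t0)) (x : T3) {CB : ℝ} (hCB : 0 ≤ CB) (v : V) :
    LL (fun u => bf P n t x u + ENNReal.ofReal CB * Bb P t x u) v ≤
      ENNReal.ofReal (CLr * (1 + CB) * (1 + ‖v‖)) := by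
  refine (LL_of_Mo ((meas_bf' n t x).add ((meas_Bb' t x).const_mul _))
    (Mo_noise hP hk ht0 hS ht x hCB) v).trans (le_of_eq ?_)
  unfold CLr
  congr 1
  ring

end Vale.Agent.P140.NU.Gb
end
end

section

/-!
P140-NU, module J: the constants of `CtxE` exist.
-/

open MeasureTheory Set Filter
open scoped ENNReal Topology

noncomputable section

namespace Vale.Agent.P140.NU.J

/-- a Gaussian integral -/
def CWg : ℝ≥0∞ := ∫⁻ w : V, ENNReal.ofReal (Real.exp (-(1 / 32) * ‖w‖ ^ 2))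

theorem CWg_ne_top : CWg ≠ ⊤ := by
  have h1 : Integrable fun w : V => Real.exp (-(1 / 32) * ‖w‖ ^ 2) := by
    have := GaussianFourier.integrable_cexp_neg_mul_sq_norm_add (V := V) (b := ((1 / 32 : ℝ) : ℂ))
      (by simp) 0 0
    have h2 := this.norm
    refine h2.congr (Eventually.of_forall fun w => ?_)
    simp only [Complex.norm_exp]
    congr 1
    simp only [one_div, Complex.ofReal_inv, Complex.ofReal_ofNat, neg_mul, inner_zero_left, Complex.ofReal_zero, mul_zero, add_zero, Complex.neg_re, Complex.mul_re, Complex.inv_re, Complex.re_ofNat, Complex.normSq_ofNat, div_self_mul_self', Complex.inv_im, Complex.im_ofNat, neg_zero, zero_div, zero_mul, sub_zero, neg_inj, mul_eq_mul_left_iff, inv_eq_zero, OfNat.ofNat_ne_zero, or_false]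
    norm_cast
  have h5 := h1.2
  unfold HasFiniteIntegral at h5
  refine ne_of_lt (lt_of_le_of_lt ?_ h5)
  unfold CWg
  refine lintegral_mono fun w => ?_
  rw [← ofReal_norm]
  exact ENNReal.ofReal_le_ofReal (le_abs_self _)

/-- the constant of `intW` -/
def CWe : ℝ≥0∞ := ENNReal.ofReal (Real.exp 72) * CWg + ENNReal.ofReal (Real.exp 36) * (2 * CV)

theorem CWe_ne_top : CWe ≠ ⊤ := by
  unfold CWe
  exact ENNReal.add_ne_top.mpr ⟨ENNReal.mul_ne_top ENNReal.ofReal_ne_top CWg_ne_top,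
    ENNReal.mul_ne_top ENNReal.ofReal_ne_top (ENNReal.mul_ne_top (by simp) CV_ne_top)⟩

theorem intW_le (P : Par) (t : ℝ) (x : T3) : ∫⁻ u, WW P t x u *
    ENNReal.ofReal ((1 + ‖u‖) * Real.exp (2 * ‖u‖ - ‖u‖ ^ 2 / 16)) ≤ CWe := by
  have mG : Measurable fun w : V => ENNReal.ofReal (Real.exp (-(1 / 32) * ‖w‖ ^ 2)) := by
    apply ENNReal.measurable_ofReal.comp
    apply Continuous.measurable
    fun_prop
  have mP : Measurable (Psi2 (uu P 1 x) (uu P (-1) x)) := measurable_Psi2 _ _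
  have hpt : ∀ u : V, WW P t x u *
      ENNReal.ofReal ((1 + ‖u‖) * Real.exp (2 * ‖u‖ - ‖u‖ ^ 2 / 16)) ≤
      ENNReal.ofReal (Real.exp 72) * ENNReal.ofReal (Real.exp (-(1 / 32) * ‖u‖ ^ 2)) +
        ENNReal.ofReal (Real.exp 36) * Psi2 (uu P 1 x) (uu P (-1) x) u := by
    intro u
    have hu := norm_nonneg u
    have h4 : 1 + ‖u‖ ≤ Real.exp ‖u‖ := by
      have := Real.add_one_le_exp ‖u‖
      linarith
    have h5 : (1 + ‖u‖) * Real.exp (2 * ‖u‖ - ‖u‖ ^ 2 / 16) ≤
        Real.exp (3 * ‖u‖ - ‖u‖ ^ 2 / 16) := by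
      calc (1 + ‖u‖) * Real.exp (2 * ‖u‖ - ‖u‖ ^ 2 / 16)
          ≤ Real.exp ‖u‖ * Real.exp (2 * ‖u‖ - ‖u‖ ^ 2 / 16) := by gcongr
        _ = Real.exp (3 * ‖u‖ - ‖u‖ ^ 2 / 16) := by
            rw [← Real.exp_add]
            congr 1
            ring
    have h6 : Real.exp (3 * ‖u‖ - ‖u‖ ^ 2 / 16) ≤ Real.exp 36 := by
      apply Real.exp_le_exp.mpr
      linarith only [sq_nonneg (‖u‖ - 24)]
    have h7 : Real.exp (3 * ‖u‖ - ‖u‖ ^ 2 / 16) ≤
        Real.exp 72 * Real.exp (-(1 / 32) * ‖u‖ ^ 2) := by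
      rw [← Real.exp_add]
      apply Real.exp_le_exp.mpr
      linarith only [sq_nonneg (‖u‖ - 48)]
    calc WW P t x u * ENNReal.ofReal ((1 + ‖u‖) * Real.exp (2 * ‖u‖ - ‖u‖ ^ 2 / 16))
        ≤ (1 + Psi2 (uu P 1 x) (uu P (-1) x) u) *
          ENNReal.ofReal (Real.exp (3 * ‖u‖ - ‖u‖ ^ 2 / 16)) :=
          mul_le_mul' (WW_le P t x u) (ENNReal.ofReal_le_ofReal h5)
      _ = ENNReal.ofReal (Real.exp (3 * ‖u‖ - ‖u‖ ^ 2 / 16)) +
          ENNReal.ofReal (Real.exp (3 * ‖u‖ - ‖u‖ ^ 2 / 16)) *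
            Psi2 (uu P 1 x) (uu P (-1) x) u := by ring
      _ ≤ _ := by
          rw [← ENNReal.ofReal_mul (Real.exp_pos _).le]
          (clear * - h7 h6; gcongr)
  refine (lintegral_mono hpt).trans ?_
  rw [lintegral_add_left (mG.const_mul _), lintegral_const_mul _ mG, lintegral_const_mul _ mP]
  unfold CWe
  gcongr
  · exact le_rfl
  · unfold Psi2
    rw [lintegral_add_left (measurable_psi _), two_mul]
    exact add_le_add (lintegral_psi_le _) (lintegral_psi_le _)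

/-- existence of the constant of `CtxE` -/
theorem exists_CN : EvP fun P => ∀ CB : ℝ, 0 < CB → ∃ CN : ℝ, 1 ≤ CN ∧
    ∀ᶠ t0 in 𝓝[>] (0 : ℝ), ∀ n, P.j0 ≤ n → CtxE P t0 n CB CN := by
  refine ((evP_good.and Gb.evP_kdOK).and cf_support).mono fun P hP => ?_
  obtain ⟨⟨hP, hk⟩, hS⟩ := hP
  intro CB hCB
  have hM := Gb.CMr_ge
  have hL := Gb.CLr_pos
  have hW := ENNReal.toReal_nonneg (a := CWe)
  set CN : ℝ := Gb.CMr * (1 + CB) + Gb.CLr * (1 + CB) + CWe.toReal with hCN
  have a1 : 0 ≤ Gb.CMr * (1 + CB) := by (clear * - hM hCB; positivity)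
  have a2 : 0 ≤ Gb.CLr * (1 + CB) := by positivity
  have b1 : Gb.CMr ≤ CN := by linarith only [mul_nonneg (le_of_lt (sub_pos.2 hCB)) (sub_nonneg.2 hM), a2, hW, hCB]
  have b2 : Gb.CLr ≤ CN := by linarith [mul_pos (sub_pos.2 hCB) (sub_pos.2 hL), mul_nonneg (le_of_lt (sub_pos.2 hCB)) (sub_nonneg.2 hM), hW, hM, hCB]
  have b3 : Gb.CMr * (1 + CB) ≤ CN := by linarith only [hW, a2]
  have b4 : Gb.CLr * (1 + CB) ≤ CN := by linarith only [hW, a1]
  have b5 : CWe.toReal ≤ CN := by linarith only [a1, a2]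
  refine ⟨CN, by linarith only [hM, b1], ?_⟩
  have ht : ∀ᶠ t0 in 𝓝[>] (0 : ℝ), t0 ≤ 1 / 100 :=
    eventually_nhdsWithin_of_eventually_nhds (eventually_le_nhds (by norm_num))
  filter_upwards [hS, ht, self_mem_nhdsWithin] with t0 hS0 ht0 hpos n _
  have hI : ∀ t ∈ Icc 0 t0, t ∈ Icc 0 (2 * t0) := fun t h => ⟨h.1, by
    have : (0 : ℝ) < t0 := hpos
    linarith only [this, h.2]⟩
  refine ⟨by linarith only [hM, b1], ?_, ?_, ?_, ?_, ?_, ?_, ?_⟩
  · intro t h x v
    refine (Gb.LL_noise hP hk ht0 hS0 (hI t h) x hCB.le v).trans ?_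
    apply ENNReal.ofReal_le_ofReal
    have := norm_nonneg v
    gcongr
  · intro t h x
    exact (Gb.Mo_noise hP hk ht0 hS0 (hI t h) x hCB.le).trans (ENNReal.ofReal_le_ofReal b3)
  · intro t h x v
    refine (Gb.LL_Pi hP n le_rfl h.1 x v).trans ?_
    apply ENNReal.ofReal_le_ofReal
    have := norm_nonneg v
    (clear * - b2; gcongr)
  · intro t h x
    exact (Gb.Mo_Pi hP n le_rfl h.1 x).trans (ENNReal.ofReal_le_ofReal b1)
  · intro t h x
    refine (intW_le P t x).trans ?_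
    rw [← ENNReal.ofReal_toReal CWe_ne_top]
    exact ENNReal.ofReal_le_ofReal b5
  · exact (measurable_bf P n).add ((measurable_Bb P).const_mul _)
  · exact measurable_Pi P n (1 / 8)

end Vale.Agent.P140.NU.J
end
end

section

/-!
P140, non-uniqueness: the statement of module J (proved in `NU/J/Main.lean`).
-/
end

section

/-!
P140, non-uniqueness: the statement of module S (proved in `NU/S/Main.lean`).
-/
end
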