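import Vale.Agent.P140.MathlibUsed
import Vale.Agent.P140.Bd3.B2
import Vale.Agent.P140.Bd3.B8
import Vale.Agent.P140.Bd3.B10
import Vale.Agent.P140.Bd3.B4
import Vale.Agent.P140.Bd3.B6
import Vale.Agent.P140.Bd3.B5

set_option linter.all false

attribute [local instance 5000] Vale.Agent.P140.Sc.a01 Vale.Agent.P140.Sc.a02 Vale.Agent.P140.Sc.a03 Vale.Agent.P140.Sc.a04 Vale.Agent.P140.Sc.a05 Vale.Agent.P140.Sc.a06 Vale.Agent.P140.Sc.a07 Vale.Agent.P140.Sc.a08 Vale.Agent.P140.Sc.a09 Vale.Agent.P140.Sc.a10 Vale.Agent.P140.Sc.a11 Vale.Agent.P140.Sc.a12 Vale.Agent.P140.Sc.a13 Vale.Agent.P140.Sc.a14 Vale.Agent.P140.Sc.a15 Vale.Agent.P140.Sc.a16 Vale.Agent.P140.Sc.a17 Vale.Agent.P140.Sc.a18 Vale.Agent.P140.Sc.a19 Vale.Agent.P140.Sc.a20 Vale.Agent.P140.Sc.a21 Vale.Agent.P140.Sc.a22 Vale.Agent.P140.Sc.a23 Vale.Agent.P140.Sc.a24 Vale.Agent.P140.Sc.a25 Vale.Agent.P140.Sc.a26 Vale.Agent.P140.Sc.a27 Vale.Agent.P140.Sc.a28 Vale.Agent.P140.Sc.a29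 Vale.Agent.P140.Sc.a30 Vale.Agent.P140.Sc.a31 Vale.Agent.P140.Sc.a32 Vale.Agent.P140.Sc.a33 Vale.Agent.P140.Sc.r01 Vale.Agent.P140.Sc.r02 Vale.Agent.P140.Sc.r03 Vale.Agent.P140.Sc.r04 Vale.Agent.P140.Sc.r05 Vale.Agent.P140.Sc.r06 Vale.Agent.P140.Sc.r07 Vale.Agent.P140.Sc.r08 Vale.Agent.P140.Sc.r09 Vale.Agent.P140.Sc.r10 Vale.Agent.P140.Sc.r11 Vale.Agent.P140.Sc.r12 Vale.Agent.P140.Sc.r13 Vale.Agent.P140.Sc.r14 Vale.Agent.P140.Sc.r15 Vale.Agent.P140.Sc.r16 Vale.Agent.P140.Sc.r17 Vale.Agent.P140.Sc.r18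

section

open MeasureTheory Set

namespace Vale.Agent.P140

end Vale.Agent.P140
end

section

/-!
P140-NU, module E: lower bound of the collision integral in a window.
-/

open MeasureTheory Set Filter
open scoped ENNReal Topology

noncomputable section

namespace Vale.Agent.P140.NU.EW

variable {P : Par} {n : ℕ} {r0 L m e : ℝ} {ρ a : ℝ → ℝ} {X : ℝ → ℝ → ℝ}

theorem w2_lam_pos (hP : PE P) : 0 < P.lam := lt_of_lt_of_le (by (clear * -; norm_num)) hP.hl0

theorem w2_c_pos (hP : PE P) : 0 < P.c := lt_of_lt_of_le (by norm_num) hP.hc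

theorem w2_del_nonneg (hP : PE P) (j : ℕ) : 0 ≤ P.del j := by
  unfold Par.del
  have h1 := w2_lam_pos hP
  have h2 := hP.hk0
  positivity

theorem w2_m1_pos (hP : PE P) : 0 < P.m1 := by
  have h1 := w2_c_pos hP
  have h2 : 0 < √P.c := Real.sqrt_pos.mpr h1
  unfold Par.m1 Par.Lam Par.w Par.Vg
  (clear * - h1; positivity)

theorem w2_m_pos (h : Win P n r0 L m e ρ a X) (hP : PE P) : 0 < m :=
  lt_of_lt_of_le (div_pos (w2_m1_pos hP) (by norm_num)) h.m0

theorem w2_sg (j : ℕ) : sg j = 1 ∨ sg j = -1 := by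
  unfold sg
  exact neg_one_pow_eq_or ℝ j

theorem w2_rho_pos (h : Win P n r0 L m e ρ a X) {s : ℝ} (hs : s ∈ Icc 0 L) : 0 < ρ s := by
  have h1 := (h.hρ s hs).1
  have h2 := h.r0pos
  (clear * - h1 h2; linarith)

theorem w2_qc_nonneg (h : Win P n r0 L m e ρ a X) (hP : PE P) (j : ℕ) {s : ℝ} (hs : s ∈ Icc 0 L) :
    0 ≤ qc P ρ a X j s := by
  unfold qc
  split_ifs
  · have h1 := (h.hX1 (sg j) (w2_sg j) s hs).1
    have h2 := w2_m_pos h hP
    have h3 := w2_del_nonneg hP j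
    have h4 := w2_rho_pos h hs
    have h5 := w2_c_pos hP
    have h6 : 0 ≤ X (sg j) s + 4 * P.del j := by linarith
    (clear * - h5 h4 h6; positivity)
  · exact le_rfl

theorem w2_measurableSet (h : Win P n r0 L m e ρ a X) (j : ℕ) :
    MeasurableSet {s | a s ∈ P.cell (gg / 2) j} := by
  unfold Par.cell
  exact h.ma measurableSet_Icc

theorem w2_qc_meas (h : Win P n r0 L m e ρ a X) (j : ℕ) : Measurable (qc P ρ a X j) := by
  unfold qc
  refine Measurable.ite (w2_measurableSet h j) ?_ measurable_const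
  exact (measurable_const.mul (measurable_const.div h.mρ)).mul ((h.mX (sg j)).add_const _)

theorem w2_qc_le (h : Win P n r0 L m e ρ a X) (hP : PE P) (j : ℕ) {s : ℝ} (hs : s ∈ Icc 0 L) :
    qc P ρ a X j s ≤ (1 + 1 / 100) * (2 * Real.pi) * (P.c / (99 / 100 * r0)) *
      (P.Vg + 3 + 4 * P.del j) := by
  have h5 := w2_c_pos hP
  have h6 := w2_del_nonneg hP j
  have h7 := h.r0pos
  have h8 := h.hX1 (sg j) (w2_sg j) s hs
  have h9 := w2_m_pos h hP
  have h10 : 0 ≤ X (sg j) s + 4 * P.del j := by linarith only [h6, h8, h9]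
  unfold qc
  split_ifs
  · have h1 : P.c / ρ s ≤ P.c / (99 / 100 * r0) := by
      apply div_le_div_of_nonneg_left h5.le (by positivity) (h.hρ s hs).1
    have h2 := Real.pi_pos
    gcongr
    exact h8.2
  · have : 0 ≤ P.Vg + 3 + 4 * P.del j := by linarith
    (clear * - h5 h7 this; positivity)

theorem w2_qc_int (h : Win P n r0 L m e ρ a X) (hP : PE P) (j : ℕ) :
    IntegrableOn (qc P ρ a X j) (Icc 0 L) := by
  refine Measure.integrableOn_of_bounded (M := (1 + 1 / 100) * (2 * Real.pi) *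
    (P.c / (99 / 100 * r0)) * (P.Vg + 3 + 4 * P.del j)) measure_Icc_lt_top.ne
    (w2_qc_meas h j).aestronglyMeasurable ?_
  filter_upwards [ae_restrict_mem measurableSet_Icc] with s hs
  rw [Real.norm_of_nonneg (w2_qc_nonneg h hP j hs)]
  exact w2_qc_le h hP j hs

theorem w2_rpow_add (hP : PE P) (j : ℕ) (x : ℝ) :
    P.lam ^ ((j : ℝ) + x) = P.lam ^ j * P.lam ^ x := by
  rw [Real.rpow_add (w2_lam_pos hP), Real.rpow_natCast]

/-- length of the label interval of a cell -/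
theorem w2_cell_len (hP : PE P) (j : ℕ) : 998 / 1000 * (P.lam ^ j * (1 - P.lam)) ≤
    P.lam ^ ((j : ℝ) + gg / 2) - P.lam ^ ((j : ℝ) + 1 - gg / 2) := by
  rw [add_sub_assoc, w2_rpow_add hP, w2_rpow_add hP, ← mul_sub]
  have h1 := hP.c1
  have h2 : 0 < P.lam ^ j := pow_pos (w2_lam_pos hP) j
  calc 998 / 1000 * (P.lam ^ j * (1 - P.lam)) = P.lam ^ j * (998 / 1000 * (1 - P.lam)) := by ring
    _ ≤ _ := by (clear * - h1 h2; gcongr)

/-- contribution of one cell -/
theorem w2_one (h : Win P n r0 L m e ρ a X) (hP : PE P) {j : ℕ} {M : ℝ} (hM0 : 0 ≤ M)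
    (hM : ∀ s ∈ Icc 0 L, M ≤ X (sg j) s)
    (hA : min (a 0) (a L) ≤ P.lam ^ ((j : ℝ) + 1 - gg / 2))
    (hB : P.lam ^ ((j : ℝ) + gg / 2) ≤ max (a 0) (a L)) :
    2 * Real.pi * (P.c / r0) * M * (998 / 1000 * (P.lam ^ j * (1 - P.lam)) / (11 / 10 * m)) ≤
      ∫ s in Icc 0 L, qc P ρ a X j s := by
  have hm := w2_m_pos h hP
  have hc := w2_c_pos hP
  have hr := h.r0pos
  have hlen := w2_cell_len hP j
  have hlam := w2_lam_pos hP
  have hαβ : P.lam ^ ((j : ℝ) + 1 - gg / 2) ≤ P.lam ^ ((j : ℝ) + gg / 2) := by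
    have h1 : 0 ≤ 998 / 1000 * (P.lam ^ j * (1 - P.lam)) := by
      have := hP.hl1
      have h2 : 0 ≤ 1 - P.lam := by linarith only [this]
      (clear * - hlam this; positivity)
    linarith only [hlen, h1]
  have h1 : (a 0 ≤ P.lam ^ ((j : ℝ) + 1 - gg / 2) ∧ P.lam ^ ((j : ℝ) + gg / 2) ≤ a L) ∨
      (a L ≤ P.lam ^ ((j : ℝ) + 1 - gg / 2) ∧ P.lam ^ ((j : ℝ) + gg / 2) ≤ a 0) := by
    rcases le_total (a 0) (a L) with h2 | h2
    · left
      rw [min_eq_left h2] at hA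
      rw [max_eq_right h2] at hB
      exact ⟨hA, hB⟩
    · right
      rw [min_eq_right h2] at hA
      rw [max_eq_left h2] at hB
      exact ⟨hA, hB⟩
  have htime := time_ge (m := 9 / 10 * m) (M := 11 / 10 * m) h.he (by positivity) (by positivity)
    h.L0 h.ha h1 hαβ
  have hset : {s | s ∈ Icc 0 L ∧ a s ∈ Icc (P.lam ^ ((j : ℝ) + 1 - gg / 2))
      (P.lam ^ ((j : ℝ) + gg / 2))} = Icc 0 L ∩ {s | a s ∈ P.cell (gg / 2) j} := rfl
  rw [hset] at htime
  have hfin : volume (Icc 0 L ∩ {s | a s ∈ P.cell (gg / 2) j}) ≠ ⊤ :=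
    (lt_of_le_of_lt (measure_mono inter_subset_left) measure_Icc_lt_top).ne
  have hK : ∫ s in Icc 0 L, ({s | a s ∈ P.cell (gg / 2) j}).indicator
      (fun _ => 2 * Real.pi * (P.c / r0) * M) s
      = (volume (Icc 0 L ∩ {s | a s ∈ P.cell (gg / 2) j})).toReal *
        (2 * Real.pi * (P.c / r0) * M) := by
    rw [setIntegral_indicator (w2_measurableSet h j), setIntegral_const]
    rfl
  have hmono : ∫ s in Icc 0 L, ({s | a s ∈ P.cell (gg / 2) j}).indicator
      (fun _ => 2 * Real.pi * (P.c / r0) * M) s ≤ ∫ s in Icc 0 L, qc P ρ a X j s := by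
    refine setIntegral_mono_on ?_ (w2_qc_int h hP j) measurableSet_Icc fun s hs => ?_
    · have : IntegrableOn (fun _ : ℝ => 2 * Real.pi * (P.c / r0) * M) (Icc 0 L) :=
        integrableOn_const measure_Icc_lt_top.ne
      exact this.indicator (w2_measurableSet h j)
    · by_cases hc1 : a s ∈ P.cell (gg / 2) j
      · rw [indicator_of_mem (by exact hc1)]
        unfold qc
        rw [if_pos hc1]
        have k1 := (h.hρ s hs).2
        have k2 := w2_rho_pos h hs
        have k3 := hM s hs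
        have k4 := w2_del_nonneg hP j
        have k5 : P.c / r0 ≤ (1 + 1 / 100) * (P.c / ρ s) := by
          rw [← mul_div_assoc, div_le_div_iff₀ hr k2]
          nlinarith only [hc, k1]
        have k6 := Real.pi_pos
        have k7 : 0 ≤ P.c / r0 := by (clear * - hc hr; positivity)
        calc 2 * Real.pi * (P.c / r0) * M
            ≤ 2 * Real.pi * ((1 + 1 / 100) * (P.c / ρ s)) * (X (sg j) s + 4 * P.del j) := by
              gcongr
              linarith only [k3, k4]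
          _ = _ := by ring
      · rw [indicator_of_notMem (by exact hc1)]
        exact w2_qc_nonneg h hP j hs
  rw [hK] at hmono
  refine le_trans ?_ hmono
  have k8 : 998 / 1000 * (P.lam ^ j * (1 - P.lam)) / (11 / 10 * m) ≤
      (volume (Icc 0 L ∩ {s | a s ∈ P.cell (gg / 2) j})).toReal := by
    refine le_trans ?_ htime
    gcongr
  have k6 := Real.pi_pos
  have k9 : 0 ≤ 2 * Real.pi * (P.c / r0) * M := by (clear * - hc hr hM0; positivity)
  rw [mul_comm (volume (Icc 0 L ∩ {s | a s ∈ P.cell (gg / 2) j})).toReal]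
  exact mul_le_mul_of_nonneg_left k8 k9

theorem Win.W2 (h : Win P n r0 L m e ρ a X) (hP : PE P) {σ M : ℝ} (hσ : σ = 1 ∨ σ = -1)
    (hM0 : 0 ≤ M) (hM : ∀ s ∈ Icc 0 L, M ≤ X σ s) :
    2 * Real.pi * (4 / 10) * (P.c * L / r0) * M - 1 / 1000 ≤
      ∫ s in (0 : ℝ)..L, qf P n ρ a X s := by
  have hm := w2_m_pos h hP
  have hc := w2_c_pos hP
  have hr := h.r0pos
  have hlam := w2_lam_pos hP
  have hpi := Real.pi_pos
  have hL := h.L0
  have m0 : (0 : ℝ) ∈ Icc 0 L := ⟨le_rfl, hL⟩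
  have mL : L ∈ Icc 0 L := ⟨hL, le_rfl⟩
  set A := min (a 0) (a L) with hA
  set B := max (a 0) (a L) with hB
  have hA1 : P.lam ^ (n + 1) ≤ A := le_min (h.alo 0 m0) (h.alo L mL)
  have hAB : A ≤ B := (min_le_left _ _).trans (le_max_left _ _)
  have hB1 : B < P.lam ^ (P.j0 + 1) := max_lt (h.aup 0 m0) (h.aup L mL)
  obtain ⟨S, hS1, hS2⟩ := sum_cells hP hσ hA1 hAB hB1
  have hB2 : B ≤ 101 / 100 * r0 :=
    max_le ((h.aρ 0 m0).trans (h.hρ 0 m0).2) ((h.aρ L mL).trans (h.hρ L mL).2)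
  have hBA : 9 / 10 * m * L ≤ B - A := by
    have h1 := (h.ha 0 m0 L mL hL).1
    rw [sub_zero] at h1
    have h2 : B - A = |a L - a 0| := by
      rw [hA, hB]
      rcases le_total (a 0) (a L) with h3 | h3
      · rw [min_eq_left h3, max_eq_right h3, abs_of_nonneg (sub_nonneg.mpr h3)]
      · rw [min_eq_right h3, max_eq_left h3, abs_of_nonpos (sub_nonpos.mpr h3)]
        ring
    rw [h2]
    rcases h.he with h4 | h4
    · rw [h4, one_mul] at h1
      exact h1.trans (le_abs_self _)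
    · rw [h4] at h1
      have := neg_le_abs (a L - a 0)
      (clear * - h1 this; linarith only [this, h1])
  -- the integral of the rate
  have hint : ∫ s in (0 : ℝ)..L, qf P n ρ a X s
      = ∑ j ∈ Finset.Icc P.j0 n, ∫ s in Icc 0 L, qc P ρ a X j s := by
    rw [intervalIntegral.integral_of_le hL, ← integral_Icc_eq_integral_Ioc]
    unfold qf
    exact integral_finsetSum _ fun j _ => w2_qc_int h hP j
  have hsub : ∑ j ∈ S, ∫ s in Icc 0 L, qc P ρ a X j s
      ≤ ∑ j ∈ Finset.Icc P.j0 n, ∫ s in Icc 0 L, qc P ρ a X j s := by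
    apply Finset.sum_le_sum_of_subset_of_nonneg
    · exact fun j hj => (hS1 j hj).1
    · intro j _ _
      exact setIntegral_nonneg measurableSet_Icc fun s hs => w2_qc_nonneg h hP j hs
  have hone : ∑ j ∈ S, 2 * Real.pi * (P.c / r0) * M *
      (998 / 1000 * (P.lam ^ j * (1 - P.lam)) / (11 / 10 * m))
      ≤ ∑ j ∈ S, ∫ s in Icc 0 L, qc P ρ a X j s := by
    apply Finset.sum_le_sum
    intro j hj
    obtain ⟨-, h2, h3, h4⟩ := hS1 j hj
    exact w2_one h hP hM0 (by rw [h2]; exact hM) h3 h4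
  have hsum : ∑ j ∈ S, 2 * Real.pi * (P.c / r0) * M *
      (998 / 1000 * (P.lam ^ j * (1 - P.lam)) / (11 / 10 * m))
      = 2 * Real.pi * (P.c / r0) * M * (998 / 1000 / (11 / 10 * m)) *
        ∑ j ∈ S, P.lam ^ j * (1 - P.lam) := by
    rw [Finset.mul_sum]
    exact Finset.sum_congr rfl fun j _ => by ring
  rw [hint]
  refine le_trans ?_ (hone.trans hsub)
  rw [hsum]
  have hl1 : 0 < 1 - P.lam := by
    have := hP.hl1
    linarith only [this]
  have hS3 : 1 / 2 * (9 / 10 * m * L - 6 * (1 - P.lam) * (101 / 100 * r0))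
      ≤ ∑ j ∈ S, P.lam ^ j * (1 - P.lam) := by
    refine le_trans ?_ hS2
    have : 6 * (1 - P.lam) * B ≤ 6 * (1 - P.lam) * (101 / 100 * r0) := by (clear * - hB2 hl1; gcongr)
    linarith only [hBA, this]
  have hcoef : 0 ≤ 2 * Real.pi * (P.c / r0) * M * (998 / 1000 / (11 / 10 * m)) := by (clear * - hc hr hM0 hm; positivity)
  refine le_trans ?_ (mul_le_mul_of_nonneg_left hS3 hcoef)
  -- the error term
  have hm1 := w2_m1_pos hP
  have hMV : M ≤ P.Vg + 3 := (hM 0 m0).trans (h.hX1 σ hσ 0 m0).2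
  have herr : (1 - P.lam) * P.c * M / m ≤ 2 / 10 ^ 6 := by
    rw [div_le_iff₀ hm]
    have h1 := hP.th1
    have h2 := h.m0
    have h3 : (1 - P.lam) * P.c * M ≤ (1 - P.lam) * P.c * (P.Vg + 3) := by (clear * - hMV hl1 hc; gcongr)
    linarith only [h3, h2, h1]
  have e1 : 2 * Real.pi * (P.c / r0) * M * (998 / 1000 / (11 / 10 * m)) *
      (1 / 2 * (9 / 10 * m * L - 6 * (1 - P.lam) * (101 / 100 * r0)))
      = 2 * Real.pi * (8982 / 22000) * (P.c * L / r0) * M
        - 2 * Real.pi * (998 * 606 / 220000) * ((1 - P.lam) * P.c * M / m) := by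
    field_simp
    ring
  rw [e1]
  have k1 : 2 * Real.pi * (4 / 10) * (P.c * L / r0) * M
      ≤ 2 * Real.pi * (8982 / 22000) * (P.c * L / r0) * M := by
    gcongr 2 * Real.pi * ?_ * (P.c * L / r0) * M
    norm_num
  have k2 : 2 * Real.pi * (998 * 606 / 220000) * ((1 - P.lam) * P.c * M / m) ≤ 1 / 1000 := by
    have h1 := Real.pi_lt_d2
    calc 2 * Real.pi * (998 * 606 / 220000) * ((1 - P.lam) * P.c * M / m)
        ≤ 2 * 3.15 * (998 * 606 / 220000) * (2 / 10 ^ 6) := by (clear * - h1 herr hl1 hc hM0 hm; gcongr)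
      _ ≤ 1 / 1000 := by norm_num
  linarith only [k1, k2]

end Vale.Agent.P140.NU.EW
end
end

section

/-!
P140-NU, module E: successful collisions versus all collisions in a window.
-/

open MeasureTheory Set Filter
open scoped ENNReal Topology

noncomputable section

namespace Vale.Agent.P140.NU.EW

variable {P : Par} {n : ℕ} {r0 L m e : ℝ} {ρ a : ℝ → ℝ} {X : ℝ → ℝ → ℝ}

theorem w3_cell_mem (hP : PE P) {γ : ℝ} (hγ : 0 < γ) {j : ℕ} {x : ℝ} (hx : x ∈ P.cell γ j) :
    P.lam ^ (j + 1) < x ∧ x < P.lam ^ j := by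
  have h0 := w2_lam_pos hP
  have h1 := hP.hl1
  constructor
  · refine lt_of_lt_of_le ?_ hx.1
    rw [← Real.rpow_natCast]
    apply Real.rpow_lt_rpow_of_exponent_gt h0 h1
    push_cast
    linarith
  · refine lt_of_le_of_lt hx.2 ?_
    rw [← Real.rpow_natCast P.lam j]
    apply Real.rpow_lt_rpow_of_exponent_gt h0 h1
    linarith only [hγ]

theorem w3_unique (hP : PE P) {γ : ℝ} (hγ : 0 < γ) {i j : ℕ} {x : ℝ} (hi : x ∈ P.cell γ i)
    (hj : x ∈ P.cell γ j) : i = j := by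
  have h0 := w2_lam_pos hP
  have h1 := hP.hl1
  obtain ⟨a1, a2⟩ := w3_cell_mem hP hγ hi
  obtain ⟨b1, b2⟩ := w3_cell_mem hP hγ hj
  have key : ∀ i j : ℕ, P.lam ^ (i + 1) < x → x < P.lam ^ j → j ≤ i := by
    intro i j h2 h3
    by_contra h4
    have h5 : i + 1 ≤ j := by omega
    have h6 := pow_le_pow_of_le_one h0.le h1.le h5
    linarith only [h2, h3, h6]
  exact le_antisymm (key j i b1 a2) (key i j a1 b2)

open Classical in
theorem w3_sum_le_one (hP : PE P) (x : ℝ) :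
    ∑ j ∈ Finset.Icc P.j0 n, (if x ∈ P.cell (gg / 2) j then (1 : ℝ) else 0) ≤ 1 := by
  rw [Finset.sum_boole]
  have : ((Finset.Icc P.j0 n).filter fun j => x ∈ P.cell (gg / 2) j).card ≤ 1 := by
    rw [Finset.card_le_one]
    intro i hi j hj
    exact w3_unique hP (by unfold gg; norm_num) (Finset.mem_filter.1 hi).2
      (Finset.mem_filter.1 hj).2
  exact_mod_cast this

theorem w3_sub (hP : PE P) (j : ℕ) : P.cell (2 * gg) j ⊆ P.cell (gg / 2) j := by
  have h0 := w2_lam_pos hP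
  have h1 := hP.hl1
  intro x hx
  constructor
  · refine le_trans ?_ hx.1
    apply Real.rpow_le_rpow_of_exponent_ge h0 h1.le
    unfold gg
    linarith
  · refine hx.2.trans ?_
    apply Real.rpow_le_rpow_of_exponent_ge h0 h1.le
    unfold gg
    linarith only []

theorem w3_del_le (hP : PE P) (j : ℕ) : P.del j ≤ P.kdel := by
  unfold Par.del
  have h0 := w2_lam_pos hP
  have h1 := hP.hl1
  have h2 := hP.hk0
  have h3 : (P.lam ^ j) ^ P.Q ≤ 1 := pow_le_one₀ (by positivity) (pow_le_one₀ h0.le h1.le)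
  nlinarith only [h2, h3]

theorem w3_X_low (h : Win P n r0 L m e ρ a X) (hP : PE P) (j : ℕ) {s : ℝ} (hs : s ∈ Icc 0 L) :
    4 / 1000 * P.m1 ≤ X (sg j) s := by
  have h1 := (h.hX1 (sg j) (w2_sg j) s hs).1
  have h2 := h.m0
  have h3 := w2_m1_pos hP
  linarith only [h3, h2, h1]

/-- success rate on good points -/
theorem w3_good (h : Win P n r0 L m e ρ a X) (hP : PE P) (j : ℕ) {s : ℝ} (hs : s ∈ Icc 0 L) :
    98 / 100 * ((1 + 1 / 100) * (2 * Real.pi) * (P.c / ρ s) * (X (sg j) s + 4 * P.del j)) ≤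
      (1 - 1 / 100) * (2 * Real.pi) * (P.c / ρ s) * (X (sg j) s - 4 * P.del j) := by
  have h1 := w3_X_low h hP j hs
  have h2 := w3_del_le hP j
  have h3 := w2_m1_pos hP
  have h4 := hP.hk1
  have h5 := w2_c_pos hP
  have h6 := w2_rho_pos h hs
  have h7 := Real.pi_pos
  have h8 : 98 / 100 * ((1 + 1 / 100) * (X (sg j) s + 4 * P.del j)) ≤
      (1 - 1 / 100) * (X (sg j) s - 4 * P.del j) := by
    norm_num at h4 ⊢
    linarith
  have h9 : 0 ≤ 2 * Real.pi * (P.c / ρ s) := by (clear * - h5 h6; positivity)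
  have h10 := mul_le_mul_of_nonneg_left h8 h9
  calc _ = 2 * Real.pi * (P.c / ρ s) * (98 / 100 * ((1 + 1 / 100) *
        (X (sg j) s + 4 * P.del j))) := by ring
    _ ≤ _ := h10
    _ = _ := by ring

theorem w3_bad (h : Win P n r0 L m e ρ a X) (hP : PE P) (j : ℕ) {s : ℝ} (hs : s ∈ Icc 0 L)
    (hX : X (sg j) s < P.m2) :
    98 / 100 * ((1 + 1 / 100) * (2 * Real.pi) * (P.c / ρ s) * (X (sg j) s + 4 * P.del j)) ≤
      7 * (P.c / r0) * (P.m2 + 4 * P.kdel) := by
  have h1 := w3_X_low h hP j hs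
  have h2 := w3_del_le hP j
  have h3 := w2_m1_pos hP
  have h5 := w2_c_pos hP
  have h6 := w2_rho_pos h hs
  have h7 := Real.pi_pos
  have h8 := Real.pi_lt_d2
  have hr := h.r0pos
  have h9 : P.c / ρ s ≤ 100 / 99 * (P.c / r0) := by
    rw [div_le_iff₀ h6]
    have := (h.hρ s hs).1
    have e1 : 100 / 99 * (P.c / r0) * ρ s = (P.c / r0) * (100 / 99 * ρ s) := by ring
    rw [e1]
    calc P.c = (P.c / r0) * r0 := by (clear * - hr h5; field_simp)
      _ ≤ _ := by
        apply mul_le_mul_of_nonneg_left _ (by (clear * - h5 hr; positivity))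
        linarith only [this]
  have h10 : X (sg j) s + 4 * P.del j ≤ P.m2 + 4 * P.kdel := by linarith only [hX, h2]
  have h11 := w2_del_nonneg hP j
  have h12 : 0 ≤ X (sg j) s + 4 * P.del j := by linarith only [h1, h3, h11]
  have h13 : 0 ≤ P.m2 + 4 * P.kdel := by linarith only [hX, h1, h2, h3, h11]
  have h14 : 0 ≤ P.c / r0 := by (clear * - h5 hr; positivity)
  calc 98 / 100 * ((1 + 1 / 100) * (2 * Real.pi) * (P.c / ρ s) * (X (sg j) s + 4 * P.del j))
      ≤ 98 / 100 * ((1 + 1 / 100) * (2 * 3.15) * (100 / 99 * (P.c / r0)) *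
        (P.m2 + 4 * P.kdel)) := by gcongr
    _ = (98 / 100 * (1 + 1 / 100) * (2 * 3.15) * (100 / 99)) * ((P.c / r0) *
        (P.m2 + 4 * P.kdel)) := by ring
    _ ≤ 7 * ((P.c / r0) * (P.m2 + 4 * P.kdel)) := by
        apply mul_le_mul_of_nonneg_right _ (by (clear * - h5 hr h13; positivity))
        norm_num
    _ = _ := by ring

open Classical in
/-- pointwise comparison -/
theorem w3_point (h : Win P n r0 L m e ρ a X) (hP : PE P) {gd : ℕ → ℝ → Prop}
    (hgd : ∀ j, ∀ s ∈ Icc 0 L, ¬ gd j s → X (sg j) s < P.m2) (j : ℕ) {s : ℝ}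
    (hs : s ∈ Icc 0 L) :
    97 / 100 * qc P ρ a X j s ≤ pc P ρ a X gd j s +
      98 / 100 * (if a s ∈ P.cell (2 * gg) j then 0 else qc P ρ a X j s)
      - 1 / 100 * qc P ρ a X j s + 7 * (P.c / r0) * (P.m2 + 4 * P.kdel) *
        (if a s ∈ P.cell (gg / 2) j then 1 else 0) := by
  have h7 : 0 ≤ 7 * (P.c / r0) * (P.m2 + 4 * P.kdel) := by
    have h1 := w2_c_pos hP
    have h2 := h.r0pos
    have h3 := hP.hk0
    have h4 : 0 ≤ P.m2 := by
      unfold Par.m2 Par.Lam Par.w Par.Vg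
      (clear * - h1; positivity)
    (clear * - h1 h2 h4 h3; positivity)
  by_cases hT : a s ∈ P.cell (gg / 2) j
  · rw [if_pos hT]
    by_cases hR : a s ∈ P.cell (2 * gg) j
    · rw [if_pos hR]
      by_cases hg : gd j s
      · unfold qc pc
        rw [if_pos hT, if_pos ⟨hR, hg⟩]
        have := w3_good h hP j hs
        linarith only [this, h7]
      · unfold qc pc
        rw [if_pos hT, if_neg fun h8 => hg h8.2]
        have := w3_bad h hP j hs (hgd j s hs hg)
        linarith only [this]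
    · rw [if_neg hR]
      unfold pc
      rw [if_neg fun h8 => hR h8.1]
      linarith
  · have hR : a s ∉ P.cell (2 * gg) j := fun h8 => hT (w3_sub hP j h8)
    unfold qc pc
    rw [if_neg hT, if_neg hT, if_neg hR, if_neg fun h8 => hR h8.1]
    linarith only []

/-! ### comparison inside a cell -/

/-- lengths of the label intervals -/
theorem w3_len_le (hP : PE P) (j : ℕ) :
    P.lam ^ ((j : ℝ) + gg / 2) - P.lam ^ ((j : ℝ) + 1 - gg / 2) ≤ P.lam ^ j * (1 - P.lam) := by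
  have h0 := w2_lam_pos hP
  have h1 := hP.hl1
  have h2 : P.lam ^ ((j : ℝ) + gg / 2) ≤ P.lam ^ j := by
    rw [← Real.rpow_natCast P.lam j]
    apply Real.rpow_le_rpow_of_exponent_ge h0 h1.le
    unfold gg
    linarith only []
  have h3 : P.lam ^ (j + 1) ≤ P.lam ^ ((j : ℝ) + 1 - gg / 2) := by
    rw [← Real.rpow_natCast]
    apply Real.rpow_le_rpow_of_exponent_ge h0 h1.le
    push_cast
    unfold gg
    linarith
  rw [pow_succ] at h3
  linarith only [h2, h3]

theorem w3_pow_le (h : Win P n r0 L m e ρ a X) (hP : PE P) {j : ℕ} {s : ℝ} (hs : s ∈ Icc 0 L)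
    (hT : a s ∈ P.cell (gg / 2) j) : P.lam ^ j ≤ 103 / 100 * r0 := by
  have h1 := (w3_cell_mem hP (by unfold gg; norm_num) hT).1
  have h2 := h.aρ s hs
  have h3 := (h.hρ s hs).2
  have h4 := hP.hl0
  have hr := h.r0pos
  have h0 := w2_lam_pos hP
  rw [pow_succ] at h1
  have h5 : 0 < P.lam ^ j := pow_pos h0 j
  nlinarith

/-- two times in the same cell -/
theorem w3_dist (h : Win P n r0 L m e ρ a X) (hP : PE P) {j : ℕ} {s s' : ℝ} (hs : s ∈ Icc 0 L)
    (hs' : s' ∈ Icc 0 L) (hT : a s ∈ P.cell (gg / 2) j) (hT' : a s' ∈ P.cell (gg / 2) j) :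
    m * |s - s'| ≤ 12 / 10 * (1 - P.lam) * r0 := by
  have hm := w2_m_pos h hP
  have h1 := hP.hl1
  have h2 := w3_len_le hP j
  have h3 := w3_pow_le h hP hs hT
  have hr := h.r0pos
  have h4 : |a s - a s'| ≤ P.lam ^ j * (1 - P.lam) := by
    refine le_trans ?_ h2
    rw [abs_le]
    constructor <;> linarith only [hT.1, hT'.2, hT.2, hT'.1]
  have h5 : 9 / 10 * m * |s - s'| ≤ |a s - a s'| := by
    have key : ∀ s ∈ Icc 0 L, ∀ s' ∈ Icc 0 L, s ≤ s' → 9 / 10 * m * |s - s'| ≤ |a s - a s'| := by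
      intro s hs s' hs' hle
      have h6 := (h.ha s hs s' hs' hle).1
      rw [abs_sub_comm s s', abs_of_nonneg (sub_nonneg.2 hle)]
      rcases h.he with h7 | h7
      · rw [h7, one_mul] at h6
        rw [abs_sub_comm]
        exact h6.trans (le_abs_self _)
      · rw [h7] at h6
        refine le_trans ?_ (le_abs_self _)
        linarith only [h6]
    rcases le_total s s' with hle | hle
    · exact key s hs s' hs' hle
    · rw [abs_sub_comm s s', abs_sub_comm (a s)]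
      exact key s' hs' s hs hle
  have h6 : P.lam ^ j * (1 - P.lam) ≤ 103 / 100 * r0 * (1 - P.lam) :=
    mul_le_mul_of_nonneg_right h3 (by linarith only [h1])
  have h7 : 0 ≤ (1 - P.lam) * r0 := mul_nonneg (by linarith only [h1]) hr.le
  linarith only [h4, h5, h6, h7]

/-- variation of the relative speed inside a cell -/
theorem w3_X_var (h : Win P n r0 L m e ρ a X) (hP : PE P) {j : ℕ} {s s' : ℝ} (hs : s ∈ Icc 0 L)
    (hs' : s' ∈ Icc 0 L) (hT : a s ∈ P.cell (gg / 2) j) (hT' : a s' ∈ P.cell (gg / 2) j) :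
    X (sg j) s ≤ 1001 / 1000 * X (sg j) s' := by
  have h1 := h.hX2 (sg j) (w2_sg j) s hs s' hs'
  have h2 := w3_dist h hP hs hs' hT hT'
  have h3 := w3_X_low h hP j hs'
  have h4 := w2_m1_pos hP
  have hr := h.r0pos
  have hc := w2_c_pos hP
  have hw : 0 < P.w := by unfold Par.w; (clear * - hc; positivity)
  have h5 : P.w * P.c * m / (25 * r0) * |s - s'| ≤ P.w * P.c * (1 - P.lam) := by
    calc P.w * P.c * m / (25 * r0) * |s - s'| = P.w * P.c / (25 * r0) * (m * |s - s'|) := by ring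
      _ ≤ P.w * P.c / (25 * r0) * (12 / 10 * (1 - P.lam) * r0) := by (clear * - h2 hw hc hr; gcongr)
      _ = (12 / 250) * (P.w * P.c * (1 - P.lam)) := by field_simp; ring
      _ ≤ 1 * (P.w * P.c * (1 - P.lam)) := by
        apply mul_le_mul_of_nonneg_right (by norm_num)
        have := hP.hl1
        exact mul_nonneg (by (clear * - hw hc; positivity)) (by linarith only [this])
      _ = _ := one_mul _
  have h6 := hP.th2
  have h7 : P.w * P.c * (1 - P.lam) ≤ P.m1 ^ 2 / 10 ^ 8 := by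
    rw [le_div_iff₀ (by norm_num)]
    linarith only [h6]
  have h8 : (4 / 1000 * P.m1) ^ 2 ≤ X (sg j) s' ^ 2 := pow_le_pow_left₀ (by (clear * - h4; positivity)) h3 2
  have h9 : X (sg j) s ^ 2 ≤ (1001 / 1000 * X (sg j) s') ^ 2 := by
    have : P.m1 ^ 2 / 10 ^ 8 ≤ 1 / 1000 * (4 / 1000 * P.m1) ^ 2 := by
      have : 0 ≤ P.m1 ^ 2 := sq_nonneg _
      norm_num
      ring_nf
      linarith only [this]
    linarith only [this, h8, h7, h5, h1]
  have h10 : 0 ≤ X (sg j) s' := le_trans (by positivity) h3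
  exact (abs_le_of_sq_le_sq h9 (by (clear * - h10; positivity))) |> fun h => (le_abs_self _).trans h

/-- variation of the rate inside a cell -/
theorem w3_q_var (h : Win P n r0 L m e ρ a X) (hP : PE P) {j : ℕ} {s s' : ℝ} (hs : s ∈ Icc 0 L)
    (hs' : s' ∈ Icc 0 L) (hT : a s ∈ P.cell (gg / 2) j) (hT' : a s' ∈ P.cell (gg / 2) j) :
    qc P ρ a X j s ≤ 104 / 100 * qc P ρ a X j s' := by
  have h1 := w3_X_var h hP hs hs' hT hT'
  have h2 := w2_rho_pos h hs
  have h3 := w2_rho_pos h hs'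
  have h4 := (h.hρ s hs).1
  have h5 := (h.hρ s' hs').2
  have hc := w2_c_pos hP
  have hpi := Real.pi_pos
  have hd := w2_del_nonneg hP j
  have h6 := w3_X_low h hP j hs'
  have h7 := w2_m1_pos hP
  have hX : 0 ≤ X (sg j) s' := by linarith only [h6, h7]
  have h6' := w3_X_low h hP j hs
  have hX' : 0 ≤ X (sg j) s := by linarith only [h7, h6']
  unfold qc
  rw [if_pos hT, if_pos hT']
  have h8 : P.c / ρ s ≤ 103 / 100 * (P.c / ρ s') := by
    rw [div_le_iff₀ h2]
    have e1 : 103 / 100 * (P.c / ρ s') * ρ s = (P.c / ρ s') * (103 / 100 * ρ s) := by ring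
    rw [e1]
    calc P.c = (P.c / ρ s') * ρ s' := by (clear * - h3 hc; field_simp)
      _ ≤ _ := by
        apply mul_le_mul_of_nonneg_left _ (by (clear * - hc h3; positivity))
        linarith only [h2, h4, h5]
  calc (1 + 1 / 100) * (2 * Real.pi) * (P.c / ρ s) * (X (sg j) s + 4 * P.del j)
      ≤ (1 + 1 / 100) * (2 * Real.pi) * (103 / 100 * (P.c / ρ s')) *
        (1001 / 1000 * (X (sg j) s' + 4 * P.del j)) := by
          gcongr
          linarith only [h1, hd]
    _ = (103 / 100 * (1001 / 1000)) * ((1 + 1 / 100) * (2 * Real.pi) * (P.c / ρ s') *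
        (X (sg j) s' + 4 * P.del j)) := by ring
    _ ≤ _ := by
      apply mul_le_mul_of_nonneg_right (by norm_num)
      (clear * - hc h3 hX hd; positivity)

/-- integral of a function bounded by a constant on a set of labels -/
theorem w3_int_le {f : ℝ → ℝ} {C : ℝ} {E : Set ℝ}
    (hE : MeasurableSet E) (hf : ∀ s ∈ Icc 0 L, s ∈ E → f s ≤ C)
    (hf0 : ∀ s ∈ Icc 0 L, s ∉ E → f s ≤ 0) (hf' : IntegrableOn f (Icc 0 L)) :
    ∫ s in Icc 0 L, f s ≤ C * (volume (Icc 0 L ∩ E)).toReal := by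
  classical
  have e1 : ∫ s in Icc 0 L, E.indicator (fun _ => C) s = C * (volume (Icc 0 L ∩ E)).toReal := by
    rw [setIntegral_indicator hE, setIntegral_const, mul_comm]
    rfl
  rw [← e1]
  refine setIntegral_mono_on hf' ?_ measurableSet_Icc fun s hs => ?_
  · have : IntegrableOn (fun _ : ℝ => C) (Icc 0 L) := integrableOn_const measure_Icc_lt_top.ne
    exact this.indicator hE
  · by_cases h1 : s ∈ E
    · rw [indicator_of_mem h1]
      exact hf s hs h1
    · rw [indicator_of_notMem h1]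
      exact hf0 s hs h1

open Classical in
theorem w3_edge_int (h : Win P n r0 L m e ρ a X) (hP : PE P) (j : ℕ) :
    IntegrableOn (fun s => if a s ∈ P.cell (2 * gg) j then 0 else qc P ρ a X j s)
      (Icc 0 L) := by
  have hm : MeasurableSet {s | a s ∈ P.cell (2 * gg) j} := by
    unfold Par.cell
    exact h.ma measurableSet_Icc
  refine Measure.integrableOn_of_bounded (M := (1 + 1 / 100) * (2 * Real.pi) *
    (P.c / (99 / 100 * r0)) * (P.Vg + 3 + 4 * P.del j)) measure_Icc_lt_top.ne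
    (Measurable.ite hm measurable_const (w2_qc_meas h j)).aestronglyMeasurable ?_
  filter_upwards [ae_restrict_mem measurableSet_Icc] with s hs
  have h1 := w2_qc_nonneg h hP j hs
  have h2 := w2_qc_le h hP j hs
  split_ifs
  · rw [norm_zero]
    exact h1.trans h2
  · rw [Real.norm_of_nonneg h1]
    exact h2

/-- the edges of a complete cell -/
theorem w3_edges (h : Win P n r0 L m e ρ a X) (hP : PE P) (j : ℕ) :
    (volume (Icc 0 L ∩ {s | a s ∈ P.cell (gg / 2) j ∧ a s ∉ P.cell (2 * gg) j})).toReal ≤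
      32 / 9000 * (P.lam ^ j * (1 - P.lam)) / m := by
  have hm := w2_m_pos h hP
  have h0 := w2_lam_pos hP
  have h1 := hP.hl1
  have hg1 : P.lam ^ ((j : ℝ) + 2 * gg) ≤ P.lam ^ ((j : ℝ) + gg / 2) := by
    apply Real.rpow_le_rpow_of_exponent_ge h0 h1.le
    unfold gg
    linarith
  have hg2 : P.lam ^ ((j : ℝ) + 1 - gg / 2) ≤ P.lam ^ ((j : ℝ) + 1 - 2 * gg) := by
    apply Real.rpow_le_rpow_of_exponent_ge h0 h1.le
    unfold gg
    linarith only []
  have t1 := time_le (m := 9 / 10 * m) h.he (by positivity)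
    (fun s hs s' hs' hle => (h.ha s hs s' hs' hle).1) hg1
  have t2 := time_le (m := 9 / 10 * m) h.he (by positivity)
    (fun s hs s' hs' hle => (h.ha s hs s' hs' hle).1) hg2
  have l1 : P.lam ^ ((j : ℝ) + gg / 2) - P.lam ^ ((j : ℝ) + 2 * gg) ≤
      16 / 10000 * (P.lam ^ j * (1 - P.lam)) := by
    rw [w2_rpow_add hP, w2_rpow_add hP, ← mul_sub]
    have := mul_le_mul_of_nonneg_left hP.c2 (pow_pos h0 j).le
    linarith only [this]
  have l2 : P.lam ^ ((j : ℝ) + 1 - 2 * gg) - P.lam ^ ((j : ℝ) + 1 - gg / 2) ≤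
      16 / 10000 * (P.lam ^ j * (1 - P.lam)) := by
    rw [add_sub_assoc, add_sub_assoc, w2_rpow_add hP, w2_rpow_add hP, ← mul_sub]
    have := mul_le_mul_of_nonneg_left hP.c3 (pow_pos h0 j).le
    linarith only [this]
  have hsub : Icc 0 L ∩ {s | a s ∈ P.cell (gg / 2) j ∧ a s ∉ P.cell (2 * gg) j} ⊆
      {s | s ∈ Icc 0 L ∧ a s ∈ Icc (P.lam ^ ((j : ℝ) + 2 * gg)) (P.lam ^ ((j : ℝ) + gg / 2))} ∪
      {s | s ∈ Icc 0 L ∧ a s ∈ Icc (P.lam ^ ((j : ℝ) + 1 - gg / 2))
        (P.lam ^ ((j : ℝ) + 1 - 2 * gg))} := by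
    rintro s ⟨hs, h2, h3⟩
    by_cases h4 : a s ≤ P.lam ^ ((j : ℝ) + 1 - 2 * gg)
    · right
      exact ⟨hs, h2.1, h4⟩
    · left
      refine ⟨hs, ?_, h2.2⟩
      by_contra h5
      exact h3 ⟨(not_le.1 h4).le, (not_le.1 h5).le⟩
  have hfin1 : volume {s | s ∈ Icc 0 L ∧ a s ∈ Icc (P.lam ^ ((j : ℝ) + 2 * gg))
      (P.lam ^ ((j : ℝ) + gg / 2))} ≠ ⊤ :=
    (lt_of_le_of_lt (measure_mono fun s hs => hs.1) measure_Icc_lt_top).ne
  have hfin2 : volume {s | s ∈ Icc 0 L ∧ a s ∈ Icc (P.lam ^ ((j : ℝ) + 1 - gg / 2))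
        (P.lam ^ ((j : ℝ) + 1 - 2 * gg))} ≠ ⊤ :=
    (lt_of_le_of_lt (measure_mono fun s hs => hs.1) measure_Icc_lt_top).ne
  have h6 := ENNReal.toReal_mono (ENNReal.add_ne_top.2 ⟨hfin1, hfin2⟩)
    ((measure_mono hsub).trans (measure_union_le _ _))
  rw [ENNReal.toReal_add hfin1 hfin2] at h6
  refine h6.trans ((add_le_add t1 t2).trans ?_)
  rw [← add_div, div_le_div_iff₀ (by positivity) hm]
  linarith only [mul_nonneg (le_of_lt (sub_pos.2 hm)) (sub_nonneg.2 l2), mul_nonneg (le_of_lt (sub_pos.2 hm)) (sub_nonneg.2 l1)]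

/-- complete cells -/
theorem w3_complete (h : Win P n r0 L m e ρ a X) (hP : PE P) (j : ℕ)
    (h1 : (a 0 ≤ P.lam ^ ((j : ℝ) + 1 - gg / 2) ∧ P.lam ^ ((j : ℝ) + gg / 2) ≤ a L) ∨
      (a L ≤ P.lam ^ ((j : ℝ) + 1 - gg / 2) ∧ P.lam ^ ((j : ℝ) + gg / 2) ≤ a 0))
    {s0 : ℝ} (hs0 : s0 ∈ Icc 0 L) (hs0T : a s0 ∈ P.cell (gg / 2) j) :
    98 / 100 * ∫ s in Icc 0 L, (open Classical in
      if a s ∈ P.cell (2 * gg) j then 0 else qc P ρ a X j s) ≤
      1 / 100 * ∫ s in Icc 0 L, qc P ρ a X j s := by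
  classical
  have hm := w2_m_pos h hP
  have hlam := w2_lam_pos hP
  have hl1 := hP.hl1
  have hK : 0 < P.lam ^ j * (1 - P.lam) := mul_pos (pow_pos hlam j) (by linarith)
  have hlen := w2_cell_len hP j
  have hαβ : P.lam ^ ((j : ℝ) + 1 - gg / 2) ≤ P.lam ^ ((j : ℝ) + gg / 2) := by linarith only [hK, hlen]
  have htime := time_ge (m := 9 / 10 * m) (M := 11 / 10 * m) h.he (by positivity) (by positivity)
    h.L0 h.ha h1 hαβ
  have hset : {s | s ∈ Icc 0 L ∧ a s ∈ Icc (P.lam ^ ((j : ℝ) + 1 - gg / 2))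
      (P.lam ^ ((j : ℝ) + gg / 2))} = Icc 0 L ∩ {s | a s ∈ P.cell (gg / 2) j} := rfl
  rw [hset] at htime
  have hq0 := w2_qc_nonneg h hP j hs0
  have hmE : MeasurableSet {s | a s ∈ P.cell (gg / 2) j ∧ a s ∉ P.cell (2 * gg) j} := by
    have k1 := w2_measurableSet h j
    have k2 : MeasurableSet {s | a s ∈ P.cell (2 * gg) j} := by
      unfold Par.cell
      exact h.ma measurableSet_Icc
    exact k1.inter k2.compl
  have hup := w3_int_le (L := L)
    (f := fun s => if a s ∈ P.cell (2 * gg) j then 0 else qc P ρ a X j s)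
    (C := 104 / 100 * qc P ρ a X j s0) hmE (by
      intro s hs hsE
      simp only [if_neg hsE.2]
      exact w3_q_var h hP hs hs0 hsE.1 hs0T) (by
      intro s hs hsE
      by_cases k2 : a s ∈ P.cell (2 * gg) j
      · simp only [if_pos k2]
        exact le_rfl
      · have k1 : a s ∉ P.cell (gg / 2) j := fun k => hsE ⟨k, k2⟩
        have k3 : qc P ρ a X j s = 0 := by
          unfold qc
          rw [if_neg k1]
        simp only [k3, ite_self]
        exact le_rfl) (w3_edge_int h hP j)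
  have hlow : 100 / 104 * qc P ρ a X j s0 *
      (volume (Icc 0 L ∩ {s | a s ∈ P.cell (gg / 2) j})).toReal ≤
      ∫ s in Icc 0 L, qc P ρ a X j s := by
    have e1 : ∫ s in Icc 0 L, ({s | a s ∈ P.cell (gg / 2) j}).indicator
        (fun _ => 100 / 104 * qc P ρ a X j s0) s
        = 100 / 104 * qc P ρ a X j s0 *
          (volume (Icc 0 L ∩ {s | a s ∈ P.cell (gg / 2) j})).toReal := by
      rw [setIntegral_indicator (w2_measurableSet h j), setIntegral_const, smul_eq_mul]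
      exact mul_comm _ _
    rw [← e1]
    refine setIntegral_mono_on ?_ (w2_qc_int h hP j) measurableSet_Icc fun s hs => ?_
    · have : IntegrableOn (fun _ : ℝ => 100 / 104 * qc P ρ a X j s0) (Icc 0 L) :=
        integrableOn_const measure_Icc_lt_top.ne
      exact this.indicator (w2_measurableSet h j)
    · by_cases k1 : a s ∈ P.cell (gg / 2) j
      · rw [indicator_of_mem (by exact k1)]
        have := w3_q_var h hP hs0 hs hs0T k1
        linarith only [this]
      · rw [indicator_of_notMem (by exact k1)]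
        exact w2_qc_nonneg h hP j hs
  have hed := w3_edges h hP j
  have hlo2 : 998 / 1100 * (P.lam ^ j * (1 - P.lam)) / m ≤
      (volume (Icc 0 L ∩ {s | a s ∈ P.cell (gg / 2) j})).toReal := by
    refine le_trans ?_ htime
    rw [div_le_div_iff₀ hm (by positivity)]
    nlinarith only [hm, hlen]
  have h5 : 104 / 100 * qc P ρ a X j s0 * (volume (Icc 0 L ∩ {s | a s ∈ P.cell (gg / 2) j ∧
      a s ∉ P.cell (2 * gg) j})).toReal ≤
      104 / 100 * qc P ρ a X j s0 * (32 / 9000 * (P.lam ^ j * (1 - P.lam)) / m) :=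
    mul_le_mul_of_nonneg_left hed (by (clear * - hq0; positivity))
  have h6 : 100 / 104 * qc P ρ a X j s0 * (998 / 1100 * (P.lam ^ j * (1 - P.lam)) / m) ≤
      100 / 104 * qc P ρ a X j s0 *
      (volume (Icc 0 L ∩ {s | a s ∈ P.cell (gg / 2) j})).toReal :=
    mul_le_mul_of_nonneg_left hlo2 (by (clear * - hq0; positivity))
  have h7 : 0 ≤ qc P ρ a X j s0 * ((P.lam ^ j * (1 - P.lam)) / m) := by (clear * - hq0 hlam hl1 hm; positivity)
  have e2 : 104 / 100 * qc P ρ a X j s0 * (32 / 9000 * (P.lam ^ j * (1 - P.lam)) / m) =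
      104 / 100 * (32 / 9000) * (qc P ρ a X j s0 * ((P.lam ^ j * (1 - P.lam)) / m)) := by ring
  have e3 : 100 / 104 * qc P ρ a X j s0 * (998 / 1100 * (P.lam ^ j * (1 - P.lam)) / m) =
      100 / 104 * (998 / 1100) * (qc P ρ a X j s0 * ((P.lam ^ j * (1 - P.lam)) / m)) := by ring
  rw [e2] at h5
  rw [e3] at h6
  linarith only [hup, hlow, h5, h6, h7]

/-- boundary cells -/
theorem w3_boundary (h : Win P n r0 L m e ρ a X) (hP : PE P) (j : ℕ)
    {s0 : ℝ} (hs0 : s0 ∈ Icc 0 L) (hs0T : a s0 ∈ P.cell (gg / 2) j) :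
    ∫ s in Icc 0 L, qc P ρ a X j s ≤ 1 / 10000 := by
  classical
  have hm := w2_m_pos h hP
  have hlam := w2_lam_pos hP
  have hl1 := hP.hl1
  have hr := h.r0pos
  have hc := w2_c_pos hP
  have hpi := Real.pi_pos
  have hd0 := w2_del_nonneg hP j
  have hVg : 0 ≤ P.Vg := by unfold Par.Vg; positivity
  have hd1 : 4 * P.del j ≤ 1 := by
    have h1 := w3_del_le hP j
    have h2 := hP.hk1
    have h3 := hP.th1
    have h4 : P.m1 ≤ 1 := by
      unfold Par.m1 Par.Lam Par.w Par.Vg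
      have h5 : 10 ^ 16 ≤ P.c := hP.hc
      have h6 : (1 : ℝ) ≤ √P.c := by
        rw [Real.one_le_sqrt]
        linarith only [h5]
      rw [div_mul_div_comm, div_div, div_le_one (by (clear * - hc; positivity))]
      have h7 : (1 : ℝ) ≤ P.c ^ 2 := by nlinarith only [h5]
      have h8 : 1 ≤ √P.c * P.c ^ 2 := by nlinarith only [h7, h6]
      nlinarith only [hc, h8]
    linarith
  have hup := w3_int_le (L := L) (f := qc P ρ a X j)
    (C := (1 + 1 / 100) * (2 * Real.pi) * (P.c / (99 / 100 * r0)) * (P.Vg + 3 + 4 * P.del j))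
    (w2_measurableSet h j) (fun s hs _ => w2_qc_le h hP j hs) (by
      intro s hs k1
      unfold qc
      rw [if_neg (show ¬ a s ∈ P.cell (gg / 2) j from k1)]) (w2_qc_int h hP j)
  have hlen := w2_cell_len hP j
  have hK : 0 < P.lam ^ j * (1 - P.lam) := mul_pos (pow_pos hlam j) (by linarith only [hl1])
  have hαβ : P.lam ^ ((j : ℝ) + 1 - gg / 2) ≤ P.lam ^ ((j : ℝ) + gg / 2) := by linarith only [hlen, hK]
  have t1 := time_le (m := 9 / 10 * m) h.he (by positivity)
    (fun s hs s' hs' hle => (h.ha s hs s' hs' hle).1) hαβ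
  have hset : {s | s ∈ Icc 0 L ∧ a s ∈ Icc (P.lam ^ ((j : ℝ) + 1 - gg / 2))
      (P.lam ^ ((j : ℝ) + gg / 2))} = Icc 0 L ∩ {s | a s ∈ P.cell (gg / 2) j} := rfl
  rw [hset] at t1
  have t2 : (volume (Icc 0 L ∩ {s | a s ∈ P.cell (gg / 2) j})).toReal ≤
      12 / 10 * r0 * ((1 - P.lam) / m) := by
    refine t1.trans ?_
    have k1 := w3_len_le hP j
    have k2 := w3_pow_le h hP hs0 hs0T
    have k3 : P.lam ^ j * (1 - P.lam) ≤ 103 / 100 * r0 * (1 - P.lam) :=
      mul_le_mul_of_nonneg_right k2 (by linarith only [hl1])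
    have k4 : 0 ≤ r0 * (1 - P.lam) := mul_nonneg hr.le (by linarith only [hl1])
    rw [← mul_div_assoc, div_le_div_iff₀ (by positivity) hm]
    nlinarith only [hm, hK, k1, k3]
  have hth : (1 - P.lam) * P.c * (P.Vg + 4) / m ≤ 3 / 10 ^ 6 := by
    rw [div_le_iff₀ hm]
    have h1 := hP.th1
    have h2 := h.m0
    have h3 : (1 - P.lam) * P.c * (P.Vg + 4) ≤ 4 / 3 * ((1 - P.lam) * P.c * (P.Vg + 3)) := by
      have : 0 ≤ (1 - P.lam) * P.c := mul_nonneg (by linarith only [hl1]) hc.le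
      nlinarith only [hVg, this]
    linarith only [h3, h2, h1, hm]
  refine hup.trans ?_
  have hpi2 := Real.pi_lt_d2
  have h1l : 0 ≤ (1 - P.lam) / m := div_nonneg (by linarith only [hl1]) hm.le
  have hVd : P.Vg + 3 + 4 * P.del j ≤ P.Vg + 4 := by linarith only [hd1]
  calc (1 + 1 / 100) * (2 * Real.pi) * (P.c / (99 / 100 * r0)) * (P.Vg + 3 + 4 * P.del j) *
        (volume (Icc 0 L ∩ {s | a s ∈ P.cell (gg / 2) j})).toReal
      ≤ (1 + 1 / 100) * (2 * 3.15) * (P.c / (99 / 100 * r0)) * (P.Vg + 4) *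
        (12 / 10 * r0 * ((1 - P.lam) / m)) := by (clear * - hpi2 hc hr hVd hVg hd0 t2; gcongr)
    _ = ((1 + 1 / 100) * (2 * 3.15) * (100 / 99) * (12 / 10)) *
        ((1 - P.lam) * P.c * (P.Vg + 4) / m) := by
          (clear * - hr hm hVg hc; field_simp)
    _ ≤ ((1 + 1 / 100) * (2 * 3.15) * (100 / 99) * (12 / 10)) * (3 / 10 ^ 6) := by (clear * - hth; gcongr)
    _ ≤ 1 / 10000 := by norm_num

open Classical in
/-- edge estimate for every cell -/
theorem w3_cell (h : Win P n r0 L m e ρ a X) (hP : PE P) (j : ℕ) :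
    (98 / 100 * ∫ s in Icc 0 L, (if a s ∈ P.cell (2 * gg) j then 0 else qc P ρ a X j s)) -
      1 / 100 * ∫ s in Icc 0 L, qc P ρ a X j s ≤
      1 / 10000 * ((if a 0 ∈ P.cell (gg / 2) j then 1 else 0) +
        (if a L ∈ P.cell (gg / 2) j then 1 else 0)) := by
  have m0 : (0 : ℝ) ∈ Icc 0 L := ⟨le_rfl, h.L0⟩
  have mL : L ∈ Icc 0 L := ⟨h.L0, le_rfl⟩
  have hq0 : 0 ≤ ∫ s in Icc 0 L, qc P ρ a X j s :=
    setIntegral_nonneg measurableSet_Icc fun s hs => w2_qc_nonneg h hP j hs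
  have hle : ∫ s in Icc 0 L, (if a s ∈ P.cell (2 * gg) j then 0 else qc P ρ a X j s) ≤
      ∫ s in Icc 0 L, qc P ρ a X j s := by
    refine setIntegral_mono_on (w3_edge_int h hP j) (w2_qc_int h hP j) measurableSet_Icc ?_
    intro s hs
    split_ifs
    · exact w2_qc_nonneg h hP j hs
    · exact le_rfl
  have hi0 : (0 : ℝ) ≤ if a 0 ∈ P.cell (gg / 2) j then 1 else 0 := by split_ifs <;> norm_num
  have hiL : (0 : ℝ) ≤ if a L ∈ P.cell (gg / 2) j then 1 else 0 := by split_ifs <;> norm_num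
  by_cases hne : ∃ s0 ∈ Icc 0 L, a s0 ∈ P.cell (gg / 2) j
  · obtain ⟨s0, hs0, hs0T⟩ := hne
    by_cases c0 : a 0 ∈ P.cell (gg / 2) j
    · have h1 := w3_boundary h hP j hs0 hs0T
      rw [if_pos c0]
      linarith only [h1, hiL, hle]
    by_cases cL : a L ∈ P.cell (gg / 2) j
    · have h1 := w3_boundary h hP j hs0 hs0T
      rw [if_pos cL]
      linarith only [h1, hi0, hle]
    have hm := w2_m_pos h hP
    have g1 := (h.ha 0 m0 s0 hs0 hs0.1).1
    have g2 := (h.ha s0 hs0 L mL hs0.2).1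
    have g1' : 0 ≤ 9 / 10 * m * (s0 - 0) := mul_nonneg (by positivity) (by linarith only [hs0.1])
    have g2' : 0 ≤ 9 / 10 * m * (L - s0) := mul_nonneg (by positivity) (by linarith only [hs0.2])
    have hcomp : (a 0 ≤ P.lam ^ ((j : ℝ) + 1 - gg / 2) ∧ P.lam ^ ((j : ℝ) + gg / 2) ≤ a L) ∨
      (a L ≤ P.lam ^ ((j : ℝ) + 1 - gg / 2) ∧ P.lam ^ ((j : ℝ) + gg / 2) ≤ a 0) := by
      rcases h.he with he | he
      · left
        rw [he, one_mul] at g1 g2
        constructor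
        · by_contra h3
          exact c0 ⟨(not_le.1 h3).le, by linarith only [g1, g1', hs0T.2]⟩
        · by_contra h3
          exact cL ⟨by linarith only [g2, g2', hs0T.1], (not_le.1 h3).le⟩
      · right
        rw [he] at g1 g2
        constructor
        · by_contra h3
          exact cL ⟨(not_le.1 h3).le, by linarith only [g2, g2', hs0T.2]⟩
        · by_contra h3
          exact c0 ⟨by linarith only [g1, g1', hs0T.1], (not_le.1 h3).le⟩
    have h1 := w3_complete h hP j hcomp hs0 hs0T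
    linarith only [hi0, hiL, h1]
  · push Not at hne
    have h1 : ∫ s in Icc 0 L, qc P ρ a X j s = 0 := by
      apply setIntegral_eq_zero_of_forall_eq_zero
      intro s hs
      unfold qc
      rw [if_neg (hne s hs)]
    rw [h1] at hle ⊢
    linarith only [hle, hi0, hiL]

theorem w3_pc_int (h : Win P n r0 L m e ρ a X) (hP : PE P) {gd : ℕ → ℝ → Prop}
    (mgd : ∀ j, MeasurableSet {s | gd j s}) (j : ℕ) :
    IntegrableOn (pc P ρ a X gd j) (Icc 0 L) := by
  classical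
  have hm : MeasurableSet {s | a s ∈ P.cell (2 * gg) j ∧ gd j s} := by
    have k2 : MeasurableSet {s | a s ∈ P.cell (2 * gg) j} := by
      unfold Par.cell
      exact h.ma measurableSet_Icc
    exact k2.inter (mgd j)
  have hmeas : Measurable (pc P ρ a X gd j) := by
    unfold pc
    refine Measurable.ite hm ?_ measurable_const
    exact (measurable_const.mul (measurable_const.div h.mρ)).mul ((h.mX (sg j)).sub_const _)
  have hc := w2_c_pos hP
  have hr := h.r0pos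
  have hd := w2_del_nonneg hP j
  have hpi := Real.pi_pos
  refine Measure.integrableOn_of_bounded (M := (1 + 1 / 100) * (2 * Real.pi) *
    (P.c / (99 / 100 * r0)) * (P.Vg + 3 + 4 * P.del j)) measure_Icc_lt_top.ne
    hmeas.aestronglyMeasurable ?_
  filter_upwards [ae_restrict_mem measurableSet_Icc] with s hs
  have h8 := h.hX1 (sg j) (w2_sg j) s hs
  have hX := w3_X_low h hP j hs
  have hm1 := w2_m1_pos hP
  have hdel := w3_del_le hP j
  have hk := hP.hk1
  have hk0 := hP.hk0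
  have h9 : 0 ≤ X (sg j) s - 4 * P.del j := by
    norm_num at hk
    linarith only [hX, hdel, hk0, hk]
  have h10 := w2_rho_pos h hs
  have h11 : P.c / ρ s ≤ P.c / (99 / 100 * r0) := by
    apply div_le_div_of_nonneg_left hc.le (by positivity) (h.hρ s hs).1
  have h12 : X (sg j) s - 4 * P.del j ≤ P.Vg + 3 + 4 * P.del j := by linarith only [hd, h8]
  unfold pc
  split_ifs
  · rw [Real.norm_of_nonneg]
    · have h13 : (1 - 1 / 100 : ℝ) ≤ 1 + 1 / 100 := by norm_num
      (clear * - h13 h11 hc h10 h12 h9 hr; gcongr)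
    · have : (0 : ℝ) ≤ 1 - 1 / 100 := by norm_num
      (clear * - hc h10 h9; positivity)
  · rw [norm_zero]
    have : 0 ≤ P.Vg + 3 + 4 * P.del j := by linarith only [hd, h8, hX, hk, hk0]
    (clear * - hc hr this; positivity)

open Classical in
theorem w3_ic_int (h : Win P n r0 L m e ρ a X) (j : ℕ) :
    IntegrableOn (fun s => if a s ∈ P.cell (gg / 2) j then (1 : ℝ) else 0) (Icc 0 L) := by
  refine Measure.integrableOn_of_bounded (M := 1) measure_Icc_lt_top.ne
    (Measurable.ite (w2_measurableSet h j) measurable_const measurable_const).aestronglyMeasurable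
    ?_
  filter_upwards with s
  split_ifs <;> simp

open Classical in
/-- comparison for one cell -/
theorem w3_one (h : Win P n r0 L m e ρ a X) (hP : PE P) {gd : ℕ → ℝ → Prop}
    (mgd : ∀ j, MeasurableSet {s | gd j s})
    (hgd : ∀ j, ∀ s ∈ Icc 0 L, ¬ gd j s → X (sg j) s < P.m2) (j : ℕ) :
    (97 / 100 * ∫ s in Icc 0 L, qc P ρ a X j s) ≤ (∫ s in Icc 0 L, pc P ρ a X gd j s) +
      1 / 10000 * ((if a 0 ∈ P.cell (gg / 2) j then 1 else 0) +
        (if a L ∈ P.cell (gg / 2) j then 1 else 0)) +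
      7 * (P.c / r0) * (P.m2 + 4 * P.kdel) *
        ∫ s in Icc 0 L, (if a s ∈ P.cell (gg / 2) j then 1 else 0) := by
  have hcell := w3_cell h hP j
  have i1 := w2_qc_int h hP j
  have i2 := w3_pc_int h hP mgd j
  have i3 := w3_edge_int h hP j
  have i4 := w3_ic_int h j
  have hpt : ∫ s in Icc 0 L, 97 / 100 * qc P ρ a X j s ≤ ∫ s in Icc 0 L,
      (pc P ρ a X gd j s + 98 / 100 * (if a s ∈ P.cell (2 * gg) j then 0 else qc P ρ a X j s)
      - 1 / 100 * qc P ρ a X j s + 7 * (P.c / r0) * (P.m2 + 4 * P.kdel) *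
        (if a s ∈ P.cell (gg / 2) j then 1 else 0)) :=
    setIntegral_mono_on (i1.const_mul _)
      (((i2.add (i3.const_mul _)).sub (i1.const_mul _)).add (i4.const_mul _)) measurableSet_Icc
      fun s hs => w3_point h hP hgd j hs
  have j1 : IntegrableOn (fun s => 1 / 100 * qc P ρ a X j s) (Icc 0 L) := i1.const_mul _
  have j3 : IntegrableOn (fun s => 98 / 100 *
    (if a s ∈ P.cell (2 * gg) j then 0 else qc P ρ a X j s)) (Icc 0 L) := i3.const_mul _
  have j4 : IntegrableOn (fun s => 7 * (P.c / r0) * (P.m2 + 4 * P.kdel) *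
    (if a s ∈ P.cell (gg / 2) j then (1 : ℝ) else 0)) (Icc 0 L) := i4.const_mul _
  have k1 : IntegrableOn (fun s => pc P ρ a X gd j s + 98 / 100 *
    (if a s ∈ P.cell (2 * gg) j then 0 else qc P ρ a X j s)) (Icc 0 L) := i2.add j3
  have k2 : IntegrableOn (fun s => pc P ρ a X gd j s + 98 / 100 *
    (if a s ∈ P.cell (2 * gg) j then 0 else qc P ρ a X j s) - 1 / 100 * qc P ρ a X j s)
    (Icc 0 L) := k1.sub j1
  rw [integral_add k2 j4, integral_sub k1 j1, integral_add i2 j3, integral_const_mul,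
    integral_const_mul, integral_const_mul, integral_const_mul] at hpt
  linarith

theorem Win.W3_aux (h : Win P n r0 L m e ρ a X) (hP : PE P) {gd : ℕ → ℝ → Prop}
    (mgd : ∀ j, MeasurableSet {s | gd j s})
    (hgd : ∀ j, ∀ s ∈ Icc 0 L, ¬ gd j s → X (sg j) s < P.m2) :
    (97 / 100 * ∫ s in (0 : ℝ)..L, qf P n ρ a X s) - 1 / 1000 ≤
      ∫ s in (0 : ℝ)..L, pf P n ρ a X gd s := by
  classical
  have hL := h.L0
  have hc := w2_c_pos hP
  have hr := h.r0pos
  have hint : ∫ s in (0 : ℝ)..L, qf P n ρ a X s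
      = ∑ j ∈ Finset.Icc P.j0 n, ∫ s in Icc 0 L, qc P ρ a X j s := by
    rw [intervalIntegral.integral_of_le hL, ← integral_Icc_eq_integral_Ioc]
    unfold qf
    exact integral_finsetSum _ fun j _ => w2_qc_int h hP j
  have hint' : ∫ s in (0 : ℝ)..L, pf P n ρ a X gd s
      = ∑ j ∈ Finset.Icc P.j0 n, ∫ s in Icc 0 L, pc P ρ a X gd j s := by
    rw [intervalIntegral.integral_of_le hL, ← integral_Icc_eq_integral_Ioc]
    unfold pf
    exact integral_finsetSum _ fun j _ => w3_pc_int h hP mgd j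
  have hsum := Finset.sum_le_sum fun j (_ : j ∈ Finset.Icc P.j0 n) => w3_one h hP mgd hgd j
  rw [← Finset.mul_sum, Finset.sum_add_distrib, Finset.sum_add_distrib, ← Finset.mul_sum,
    Finset.sum_add_distrib, ← Finset.mul_sum] at hsum
  have s0 := w3_sum_le_one (n := n) hP (a 0)
  have sL := w3_sum_le_one (n := n) hP (a L)
  have sI : ∑ j ∈ Finset.Icc P.j0 n, ∫ s in Icc 0 L,
      (if a s ∈ P.cell (gg / 2) j then (1 : ℝ) else 0) ≤ L := by
    rw [← integral_finsetSum _ fun j _ => w3_ic_int h j]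
    have h1 : ∫ s in Icc 0 L, ∑ j ∈ Finset.Icc P.j0 n,
        (if a s ∈ P.cell (gg / 2) j then (1 : ℝ) else 0) ≤ ∫ s in Icc 0 L, (1 : ℝ) := by
      refine setIntegral_mono_on (integrable_finsetSum _ fun j _ => w3_ic_int h j)
        (integrableOn_const measure_Icc_lt_top.ne) measurableSet_Icc fun s _ => ?_
      exact w3_sum_le_one (n := n) hP (a s)
    refine h1.trans (le_of_eq ?_)
    rw [setIntegral_const]
    simp only [Real.volume_real_Icc, sub_zero, hL, sup_of_le_left, smul_eq_mul, mul_one]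
  have hm2 : 0 ≤ P.m2 := by
    unfold Par.m2 Par.Lam Par.w Par.Vg
    positivity
  have hk0 := hP.hk0
  have hsm : P.m2 + 4 * P.kdel ≤ 1 / 10 ^ 6 := by
    have hk := hP.hk1
    have hcc := hP.hc
    have hs1 : 1 ≤ √P.c := by
      rw [Real.one_le_sqrt]
      linarith only [hcc]
    have hsq : √P.c ^ 2 = P.c := Real.sq_sqrt hc.le
    have e1 : P.m2 = 1 / (4 * 10 ^ 18 * (√P.c * P.c)) := by
      unfold Par.m2 Par.Lam Par.w Par.Vg
      have : 0 < √P.c := by linarith only [hs1]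
      field_simp
      nlinarith only []
    have e2 : P.m1 = P.m2 / (10 ^ 11 * P.c) := by
      unfold Par.m1 Par.m2
      (clear * - hc; field_simp)
    have h1 : P.m2 ≤ 1 / 10 ^ 7 := by
      rw [e1]
      apply one_div_le_one_div_of_le (by norm_num)
      linarith only [mul_nonneg (sub_nonneg.2 hcc) (sub_nonneg.2 hs1), hs1, hcc]
    have h2 : P.m1 ≤ P.m2 := by
      rw [e2]
      apply div_le_self hm2
      nlinarith only [hcc]
    norm_num at hk h1 ⊢
    linarith only [h2, hk, h1]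
  have hfin : 7 * (P.c / r0) * (P.m2 + 4 * P.kdel) * ∑ j ∈ Finset.Icc P.j0 n, ∫ s in Icc 0 L,
      (if a s ∈ P.cell (gg / 2) j then (1 : ℝ) else 0) ≤ 35 / 10 ^ 6 := by
    have hL1 := h.L1
    calc _ ≤ 7 * (P.c / r0) * (1 / 10 ^ 6) * (5 * r0 / P.c) := by
          gcongr
          exact sI.trans hL1
      _ = 35 / 10 ^ 6 := by field_simp; norm_num
  rw [hint, hint']
  generalize (∑ j ∈ Finset.Icc P.j0 n, if a 0 ∈ P.cell (gg / 2) j then (1 : ℝ) else 0) = A0 at *
  generalize (∑ j ∈ Finset.Icc P.j0 n, if a L ∈ P.cell (gg / 2) j then (1 : ℝ) else 0) = AL at *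
  have h35 : (35 : ℝ) / 10 ^ 6 ≤ 1 / 10000 := by norm_num
  linarith only [hsum, sL, s0, hfin, hsm, hk0, hm2]

theorem Win.W3 (h : Win P n r0 L m e ρ a X) (hP : PE P) {gd : ℕ → ℝ → Prop}
    (mgd : ∀ j, MeasurableSet {s | gd j s})
    (hgd : ∀ j, ∀ s ∈ Icc 0 L, ¬ gd j s → X (sg j) s < P.m2) {τ : ℝ} (hτ : τ ∈ Icc 0 L) :
    (97 / 100 * ∫ s in (0 : ℝ)..τ, qf P n ρ a X s) - 1 / 1000 ≤
      ∫ s in (0 : ℝ)..τ, pf P n ρ a X gd s :=
  (h.mono hτ.1 hτ.2).W3_aux hP mgd fun j s hs => hgd j s ⟨hs.1, hs.2.trans hτ.2⟩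

end Vale.Agent.P140.NU.EW
end
end

section

/-!
P140-NU, module E: weight of newborn particles, single windows.
-/

open MeasureTheory Set Filter
open scoped ENNReal Topology

noncomputable section

namespace Vale.Agent.P140.NU.EW

open E

theorem PE.good {P : Par} (h : PE P) : GoodE P := by
  refine ⟨h.hc, by have := h.hl0; linarith, h.hl1, h.hk0, ?_, h.hj⟩
  have h1 := h.hk1
  have h2 := h.hk0
  rw [le_div_iff₀ (by norm_num)]
  linarith

/-- conclusions of one window along a flight, in the time variable -/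
theorem stage {P : Par} (hP : PE P) {n : ℕ} {t t1 : ℝ} (ht1 : 0 ≤ t1) {x : T3} {v : V}
    (hv : ‖v‖ ≤ P.Vg) (hr : 0 < rr (mv x v (t1 - t))) {L : ℝ} (hL0 : 0 ≤ L)
    (hL1 : L ≤ 5 * rr (mv x v (t1 - t)) / P.c)
    (hsm : 2 * rr (mv x v (t1 - t)) < P.lam ^ (P.j0 + 1))
    (hm0 : P.m1 / 200 ≤ |dotE (mv x v (t1 - t)) v - P.w|)
    (hm1 : 52 * vp v ^ 2 / P.c ≤ |dotE (mv x v (t1 - t)) v - P.w|)
    (hin : ∀ s ∈ Icc 0 L, P.w * P.TT n (t1 + s) ≤ rr (mv (mv x v (t1 - t)) v s))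
    (hout : ∀ s ∈ Icc 0 L, rr (mv (mv x v (t1 - t)) v s) ≤ P.Vg * P.TT n (t1 + s)) :
    Cmp (fun τ => pp P n τ (mv x v (τ - t)) v) (fun τ => qq P n τ (mv x v (τ - t)) v)
      (1 / 1000) t1 (t1 + L) ∧
    ∀ σ M : ℝ, (σ = 1 ∨ σ = -1) → 0 ≤ M →
      (∀ s ∈ Icc 0 L, M ≤ √(SS P σ (mv (mv x v (t1 - t)) v s) v)) →
      2 * Real.pi * (4 / 10) * (P.c * L / rr (mv x v (t1 - t))) * M - 1 / 1000 ≤
        ∫ τ in t1..t1 + L, qq P n τ (mv x v (τ - t)) v := by
  have hm1' : 52 / 10 * vp v ^ 2 / P.c ≤ |dotE (mv x v (t1 - t)) v - P.w| / 10 := by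
    have : 52 / 10 * vp v ^ 2 / P.c = (52 * vp v ^ 2 / P.c) / 10 := by ring
    rw [this]
    linarith only [hm1]
  have hW := flight_win hP ht1 hv hr hL0 hL1 hsm hm0 hm1' hin
  constructor
  · intro τ hτ
    have h3 := hW.W3 hP (gdd_meas P n t1 (mv x v (t1 - t)) v) (by
      intro j s hs hg
      by_contra h4
      apply hg
      exact ⟨hout s hs, hv, Or.inl (not_lt.1 h4)⟩) (τ := τ - t1)
      ⟨by linarith only [hτ.1], by linarith only [hτ.2]⟩
    have e1 := shift_int (fun τ x v => qq P n τ x v) x v t t1 (τ - t1)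
    have e2 := shift_int (fun τ x v => pp P n τ x v) x v t t1 (τ - t1)
    rw [add_sub_cancel] at e1 e2
    rw [e1, e2]
    simp only [qq_eq_qf, pp_eq_pf]
    exact h3
  · intro σ M hσ hM0 hM
    have h2 := hW.W2 hP hσ hM0 hM
    have e1 := shift_int (fun τ x v => qq P n τ x v) x v t t1 L
    rw [e1]
    simp only [qq_eq_qf]
    exact h2

theorem clock_le {P : Par} (hP : GoodE P) (n : ℕ) {a b : ℝ} (ha : 0 ≤ a) (hab : a ≤ b) :
    ∫ τ in a..b, P.Lam / P.TT n τ ≤ (b - a) * (P.Lam / P.TT n a) := by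
  have h1 : ∫ τ in a..b, P.Lam / P.TT n τ ≤ ∫ τ in a..b, P.Lam / P.TT n a := by
    apply intervalIntegral.integral_mono_on hab (ii_clock hP n ha (ha.trans hab))
      intervalIntegrable_const
    intro s hs
    have h2 := hP.TT_pos n ha
    have h3 := hP.Lam_pos
    apply div_le_div_of_nonneg_left h3.le h2
    unfold Par.TT
    linarith [hs.1]
  refine h1.trans (le_of_eq ?_)
  rw [intervalIntegral.integral_const, smul_eq_mul]

theorem clock_nonneg {P : Par} (hP : GoodE P) (n : ℕ) {s : ℝ} (hs : 0 ≤ s) :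
    0 ≤ P.Lam / P.TT n s := div_nonneg hP.Lam_pos.le (hP.TT_pos n hs).le

/-- clock during a window -/
theorem clock_window {P : Par} (hP : GoodE P) (n : ℕ) {a L r : ℝ} (ha : 0 ≤ a) (hL0 : 0 ≤ L)
    (hL : L ≤ 5 * r / P.c) (hr : r ≤ P.Vg * P.TT n a) :
    ∫ τ in a..a + L, P.Lam / P.TT n τ ≤ 5 / 100 := by
  have h1 := clock_le hP n ha (le_add_of_nonneg_right hL0 : a ≤ a + L)
  have h2 := hP.TT_pos n ha
  have h3 := hP.Lam_mul_Vg
  have h4 := hP.c_pos
  have h5 := hP.Lam_pos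
  refine h1.trans ?_
  have h6 : L ≤ 5 * (P.Vg * P.TT n a) / P.c := hL.trans (by (clear * - hr h4; gcongr))
  rw [add_sub_cancel_left]
  calc L * (P.Lam / P.TT n a) ≤ 5 * (P.Vg * P.TT n a) / P.c * (P.Lam / P.TT n a) := by (clear * - h6 h5 h2; gcongr)
    _ = 5 * (P.Lam * P.Vg) / P.c := by field_simp
    _ = 5 / 100 := by rw [h3]; field_simp

/-- length of a window -/
theorem window_len {P : Par} (hP : GoodE P) {L r T : ℝ} (hT : 0 ≤ T)
    (hL : L ≤ 5 * r / P.c) (hr : r ≤ P.Vg * T) : L ≤ T / 1000 := by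
  have h4 := hP.c_pos
  have h5 := hP.sqrt_c_ge
  have h6 := hP.sq_sqrt_c
  refine hL.trans ?_
  rw [div_le_iff₀ h4]
  have h7 : 2000 * √P.c ≤ P.c / 1000 := by
    rw [le_div_iff₀ (by norm_num)]
    nlinarith only [h5, h6]
  have h8 : P.Vg = 400 * √P.c := rfl
  calc 5 * r ≤ 5 * (P.Vg * T) := by linarith only [hr]
    _ = (2000 * √P.c) * T := by rw [h8]; ring
    _ ≤ (P.c / 1000) * T := by gcongr
    _ = T / 1000 * P.c := by ring

theorem TT_add (P : Par) (n : ℕ) (a s : ℝ) : P.TT n (a + s) = P.TT n a + s := by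
  unfold Par.TT
  ring

/-- outer condition along a flight -/
theorem out_of {P : Par} (n : ℕ) {t1 : ℝ} {x1 : T3} {v : V} (hv : ‖v‖ ≤ P.Vg)
    (h : rr x1 ≤ P.Vg * P.TT n t1) {s : ℝ} (hs : 0 ≤ s) :
    rr (mv x1 v s) ≤ P.Vg * P.TT n (t1 + s) := by
  have h1 := rr_mv_le x1 v s
  have h2 := vp_le_norm v
  rw [abs_of_nonneg hs] at h1
  rw [TT_add]
  linarith only [mul_nonneg (sub_nonneg.2 hs) (sub_nonneg.2 h2), mul_nonneg (sub_nonneg.2 hv) (sub_nonneg.2 hs), h1, h]

/-- the sign with large relative speed -/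
theorem exists_sign (P : Par) (v : V) : ∃ σ : ℝ, (σ = 1 ∨ σ = -1) ∧
    ∀ x, 1 ≤ √(SS P σ x v) := by
  rcases le_total 0 (v 2) with h | h
  · refine ⟨-1, Or.inr rfl, fun x => ?_⟩
    have := abs_vz_sub_le_sqrt_SS P (-1) x v
    refine le_trans ?_ this
    rw [le_abs]
    left
    linarith
  · refine ⟨1, Or.inl rfl, fun x => ?_⟩
    have := abs_vz_sub_le_sqrt_SS P 1 x v
    refine le_trans ?_ this
    rw [le_abs]
    right
    linarith

/-- full window: the number of collisions is large -/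
theorem full_window {P : Par} (hP : PE P) {n : ℕ} {t t1 : ℝ} (ht1 : 0 ≤ t1) {x : T3} {v : V}
    (hv : ‖v‖ ≤ P.Vg) (hr : 0 < rr (mv x v (t1 - t)))
    (hsm : 2 * rr (mv x v (t1 - t)) < P.lam ^ (P.j0 + 1))
    (hm0 : P.m1 / 200 ≤ |dotE (mv x v (t1 - t)) v - P.w|)
    (hm1 : 52 * vp v ^ 2 / P.c ≤ |dotE (mv x v (t1 - t)) v - P.w|)
    (hin : ∀ s ∈ Icc 0 (5 * rr (mv x v (t1 - t)) / P.c),
      P.w * P.TT n (t1 + s) ≤ rr (mv (mv x v (t1 - t)) v s))
    (hout : rr (mv x v (t1 - t)) ≤ P.Vg * P.TT n t1) :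
    ∃ L : ℝ, 0 ≤ L ∧ L ≤ P.TT n t1 / 1000 ∧
    Cmp (fun τ => pp P n τ (mv x v (τ - t)) v) (fun τ => qq P n τ (mv x v (τ - t)) v)
      (1 / 1000) t1 (t1 + L) ∧
    ∫ τ in t1..t1 + L, P.Lam / P.TT n τ ≤ 5 / 100 ∧
    7 ≤ ∫ τ in t1..t1 + L, qq P n τ (mv x v (τ - t)) v := by
  have hE := hP.good
  have hc := hE.c_pos
  set r := rr (mv x v (t1 - t)) with hrdef
  have hL0 : 0 ≤ 5 * r / P.c := by positivity
  obtain ⟨h1, h2⟩ := stage hP ht1 hv hr hL0 le_rfl hsm hm0 hm1 hin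
    (fun s hs => out_of n hv hout hs.1)
  obtain ⟨σ, hσ, hσ1⟩ := exists_sign P v
  refine ⟨5 * r / P.c, hL0, window_len hE (hE.TT_pos n ht1).le le_rfl hout, h1,
    clock_window hE n ht1 hL0 le_rfl hout, ?_⟩
  refine le_trans ?_ (h2 σ 1 hσ zero_le_one fun s _ => hσ1 _)
  have e : P.c * (5 * r / P.c) / r = 5 := by (clear * - hc hr; field_simp)
  rw [e]
  have := Real.pi_gt_three
  linarith only [this]

/-- inner condition for an outgoing flight -/
theorem in_of_pos {P : Par} (n : ℕ) {t1 : ℝ} {x1 : T3} {v : V}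
    (h : P.w * P.TT n t1 ≤ rr x1) (hd : 0 < dotE x1 v - P.w) {s : ℝ} (hs : 0 ≤ s)
    (hloc : rr x1 + |s| * vp v < 1 / 2) :
    P.w * P.TT n (t1 + s) ≤ rr (mv x1 v s) := by
  have h1 := rr_mv_ge hloc
  rw [TT_add]
  linarith only [mul_nonneg (le_of_lt (sub_pos.2 hd)) (sub_nonneg.2 hs), h1, h]

end Vale.Agent.P140.NU.EW
end
end

section

/-!
P140-NU, module E: crossing the core.
-/

open MeasureTheory Set Filter
open scoped ENNReal Topology

noncomputable section

namespace Vale.Agent.P140.NU.EW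

open E

/-! ### zeros of continuous functions -/

theorem last_zero {f : ℝ → ℝ} {a b : ℝ} (hf : ContinuousOn f (Icc a b)) (hab : a ≤ b)
    (ha : 0 ≤ f a) (hb : f b < 0) : ∃ s ∈ Ico a b, f s = 0 ∧ ∀ u ∈ Ioc s b, f u < 0 := by
  have hcl : IsCompact (Icc a b ∩ f ⁻¹' Ici 0) := by
    apply IsCompact.of_isClosed_subset isCompact_Icc _ inter_subset_left
    exact hf.preimage_isClosed_of_isClosed isClosed_Icc isClosed_Ici
  have hne : (Icc a b ∩ f ⁻¹' Ici 0).Nonempty := ⟨a, ⟨le_rfl, hab⟩, ha⟩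
  have hs := hcl.sSup_mem hne
  set s := sSup (Icc a b ∩ f ⁻¹' Ici 0) with hsdef
  have hsb : s ≠ b := by
    intro h
    have := hs.2
    rw [h] at this
    exact absurd (show (0 : ℝ) ≤ f b from this) (not_le.2 hb)
  have hsb' : s < b := lt_of_le_of_ne hs.1.2 hsb
  have hneg : ∀ u ∈ Ioc s b, f u < 0 := by
    intro u hu
    by_contra h
    have h1 : u ∈ Icc a b ∩ f ⁻¹' Ici 0 := ⟨⟨hs.1.1.trans hu.1.le, hu.2⟩, not_lt.1 h⟩
    have h2 := le_csSup hcl.bddAbove h1
    exact absurd h2 (not_le.2 hu.1)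
  refine ⟨s, ⟨hs.1.1, hsb'⟩, ?_, hneg⟩
  have h0 : (0 : ℝ) ≤ f s := hs.2
  rcases h0.eq_or_lt with h | h
  · exact h.symm
  · exfalso
    have hc : ContinuousOn f (Icc s b) := hf.mono (Icc_subset_Icc hs.1.1 le_rfl)
    obtain ⟨u, hu, hu0⟩ := intermediate_value_Ioo' hsb'.le hc
      (show (0 : ℝ) ∈ Ioo (f b) (f s) from ⟨hb, h⟩)
    have := hneg u ⟨hu.1, hu.2.le⟩
    linarith

theorem first_zero {f : ℝ → ℝ} {a b : ℝ} (hf : ContinuousOn f (Icc a b)) (hab : a ≤ b)
    (ha : f a < 0) (hb : 0 ≤ f b) : ∃ s ∈ Ioc a b, f s = 0 ∧ ∀ u ∈ Ico a s, f u < 0 := by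
  have hg : ContinuousOn (fun u => f (-u)) (Icc (-b) (-a)) := by
    apply hf.comp continuousOn_neg
    intro u hu
    exact ⟨by linarith [hu.2], by linarith only [hu.1]⟩
  obtain ⟨s, hs, hs0, hs1⟩ := last_zero hg (by linarith) (by simpa only [neg_neg] using hb) (by simpa using ha)
  refine ⟨-s, ⟨by linarith only [hs.2], by linarith [hs.1]⟩, hs0, ?_⟩
  intro u hu
  have := hs1 (-u) ⟨by linarith [hu.2], by linarith [hu.1]⟩
  simpa using this

/-! ### geometry -/

theorem loc_of {x : T3} {v : V} {S s : ℝ} (hS : rr x + 2 * S * vp v < 1 / 2) (hs : 0 ≤ s)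
    (hs' : s ≤ S) : rr x + |s| * vp v < 1 / 2 := by
  have := vp_nonneg v
  rw [abs_of_nonneg hs]
  nlinarith

theorem loc_of2 {x : T3} {v : V} {S s u : ℝ} (hS : rr x + 2 * S * vp v < 1 / 2) (hs : 0 ≤ s)
    (hs' : s ≤ S) (hu : |u| ≤ S) : rr (mv x v s) + |u| * vp v < 1 / 2 := by
  have h0 := vp_nonneg v
  have h1 := rr_mv_le x v s
  rw [abs_of_nonneg hs] at h1
  (by_contra nlg; linarith only [nlg, mul_nonneg (sub_nonneg.2 hu) (sub_nonneg.2 h0), mul_nonneg (sub_nonneg.2 hs') (sub_nonneg.2 h0), mul_nonneg (mul_self_nonneg (1 : ℝ)) (sub_nonneg.2 h1), mul_nonneg (mul_self_nonneg (1 : ℝ)) (sub_nonneg.2 (not_lt.1 nlg)), hS])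

/-- convexity: tangents -/
theorem tangent {x : T3} {v : V} {S s u : ℝ} (hS : rr x + 2 * S * vp v < 1 / 2) (hs : 0 ≤ s)
    (hs' : s ≤ S) (hu : 0 ≤ u) (hu' : u ≤ S) :
    rr (mv x v s) + (u - s) * dotE (mv x v s) v ≤ rr (mv x v u) := by
  have h1 := rr_mv_ge (loc_of2 hS hs hs' (u := u - s) (abs_le.2 ⟨by linarith only [hs', hu], by linarith only [hs, hu']⟩))
  rwa [mv_mv, add_sub_cancel] at h1

theorem dotE_add_le {x : T3} {v : V} {S s rm : ℝ} (hS : rr x + 2 * S * vp v < 1 / 2) (hs : 0 ≤ s)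
    (hs' : s ≤ S) (hrm : 0 < rm) (hr : ∀ u ∈ Icc 0 s, rm ≤ rr (mv x v u)) :
    dotE (mv x v s) v ≤ dotE x v + s * (vp v ^ 2 / rm) := by
  have hd : ∀ u ∈ Icc 0 s, HasDerivAt (fun σ => dotE (mv x v σ) v)
      ((vp v ^ 2 - dotE (mv x v u) v ^ 2) / rr (mv x v u)) u := by
    intro u hu
    exact hasDerivAt_dotE (loc_of hS hu.1 (hu.2.trans hs')) (lt_of_lt_of_le hrm (hr u hu))
  have h1 := Convex.image_sub_le_mul_sub_of_deriv_le (convex_Icc 0 s)
    (f := fun σ => dotE (mv x v σ) v) (fun u hu => (hd u hu).continuousAt.continuousWithinAt)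
    (fun u hu => (hd u (interior_subset hu)).differentiableAt.differentiableWithinAt)
    (C := vp v ^ 2 / rm) (by
      intro u hu
      have hu' := interior_subset hu
      rw [(hd u hu').deriv]
      have h2 := hr u hu'
      have h3 : 0 ≤ vp v ^ 2 := sq_nonneg _
      calc (vp v ^ 2 - dotE (mv x v u) v ^ 2) / rr (mv x v u)
          ≤ vp v ^ 2 / rr (mv x v u) := by
            apply div_le_div_of_nonneg_right _ (by linarith only [hrm, h2])
            (by_contra nlg; linarith only [nlg, mul_pos (sub_pos.2 (not_le.1 nlg)) (sub_pos.2 (not_le.1 nlg)), mul_nonneg (sq_nonneg (dotE (mv x v u) v : ℝ)) (le_of_lt (sub_pos.2 (not_le.1 nlg)))])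
        _ ≤ vp v ^ 2 / rm := div_le_div_of_nonneg_left h3 hrm h2)
    0 ⟨le_rfl, hs⟩ s ⟨hs, le_rfl⟩ hs
  simp only [mv_zero, sub_zero] at h1
  linarith only [h1]

/-- triangle inequality -/
theorem mul_vp_le {x : T3} {v : V} {s : ℝ} (h : rr x + |s| * vp v < 1 / 2) :
    |s| * vp v ≤ rr (mv x v s) + rr x := by
  rw [rr_mv h, rr_eq x, ← sqrt_mul_vec]
  have h1 := planar_add_le (rep x 0 + s * v 0) (rep x 1 + s * v 1) (-rep x 0) (-rep x 1)
  have e1 : rep x 0 + s * v 0 + -rep x 0 = s * v 0 := by ring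
  have e2 : rep x 1 + s * v 1 + -rep x 1 = s * v 1 := by ring
  rw [e1, e2, neg_sq, neg_sq] at h1
  exact h1

theorem cont_flight (x : T3) (v : V) : Continuous fun s : ℝ => rr (mv x v s) := by
  have h3 : Continuous fun τ : ℝ => ((τ, x, v) : ℝ × T3 × V) := by fun_prop
  exact continuous_rr.comp (continuous_mv.comp h3)

/-- angular momentum -/
theorem ang {x : T3} {v : V} {s1 s2 : ℝ} (hl1 : rr x + |s1| * vp v < 1 / 2)
    (hl2 : rr x + |s2| * vp v < 1 / 2) (h1 : 0 < rr (mv x v s1))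
    (h12 : rr (mv x v s1) ≤ rr (mv x v s2)) :
    dotE (mv x v s1) v ^ 2 ≤ dotE (mv x v s2) v ^ 2 := by
  have c1 := sq_add_crossE (mv x v s1) v
  have c2 := sq_add_crossE (mv x v s2) v
  rw [crossE_mv hl1] at c1
  rw [crossE_mv hl2] at c2
  have h3 := dotE_sq_le (mv x v s1) v
  generalize rr (mv x v s1) = r1 at *
  generalize rr (mv x v s2) = r2 at *
  generalize dotE (mv x v s1) v = d1 at *
  generalize dotE (mv x v s2) v = d2 at *
  have hr2p : 0 < r2 := lt_of_lt_of_le h1 h12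
  have e1 : r1 ^ 2 * (vp v ^ 2 - d1 ^ 2) = r2 ^ 2 * (vp v ^ 2 - d2 ^ 2) := by
    linear_combination c2 - c1
  have h2 : r1 ^ 2 ≤ r2 ^ 2 := pow_le_pow_left₀ h1.le h12 2
  have h5 : r2 ^ 2 * (vp v ^ 2 - d2 ^ 2) ≤ r2 ^ 2 * (vp v ^ 2 - d1 ^ 2) := by
    rw [← e1]
    exact mul_le_mul_of_nonneg_right h2 (by linarith only [h3])
  have h4 := le_of_mul_le_mul_left h5 (by positivity)
  linarith only [h4]

theorem lens {P : Par} (hE : GoodE P) {T : ℝ} {x : T3} {v : V} {s : ℝ}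
    (hr : 0 ≤ rr x) (hr1 : rr x ≤ P.Vg * T) (hv : ‖v‖ ≤ P.Vg)
    (hs1 : s ≤ 5 * rr x / P.c) (hT : 0 ≤ T) :
    s ≤ T / 1000 ∧ s * vp v ≤ rr x / 100 := by
  have hc := hE.c_pos
  have h5 := hE.sqrt_c_ge
  have h6 := hE.sq_sqrt_c
  have h8 : P.Vg = 400 * √P.c := rfl
  have h9 : 2000 * √P.c ≤ 1 / 1000 * P.c := by nlinarith only [h5, h6]
  constructor
  · refine hs1.trans ?_
    rw [div_le_iff₀ hc]
    calc 5 * rr x ≤ 5 * (P.Vg * T) := by linarith only [hr1]
      _ = (2000 * √P.c) * T := by rw [h8]; ring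
      _ ≤ (1 / 1000 * P.c) * T := by (clear * - h9 hT; gcongr)
      _ = T / 1000 * P.c := by ring
  · have hvp0 := vp_nonneg v
    have hvpV : vp v ≤ P.Vg := (vp_le_norm v).trans hv
    calc s * vp v ≤ (5 * rr x / P.c) * P.Vg := by (clear * - hs1 hvpV hvp0 hr hc; gcongr)
      _ = (5 * rr x / P.c) * (400 * √P.c) := by rw [h8]
      _ = (2000 * √P.c / P.c) * rr x := by ring
      _ ≤ (1 / 100) * rr x := by
        apply mul_le_mul_of_nonneg_right _ hr
        rw [div_le_iff₀ hc]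
        linarith
      _ = rr x / 100 := by ring

theorem vel1 {P : Par} (hE : GoodE P) {x : T3} {v : V} {S s A : ℝ}
    (hS : rr x + 2 * S * vp v < 1 / 2) (hr : 0 < rr x) (hs0 : 0 ≤ s) (hsS : s ≤ S)
    (hs1 : s ≤ 5 * rr x / P.c) (hs2 : s * vp v ≤ rr x / 100) (hA0 : 0 ≤ A)
    (hA : 60 * vp v ^ 2 / P.c ≤ A) : dotE (mv x v s) v ≤ dotE x v + A / 10 := by
  have hc := hE.c_pos
  have hvp0 := vp_nonneg v
  have h1 := dotE_add_le hS hs0 hsS (rm := 99 / 100 * rr x) (by positivity) (by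
    intro u hu
    have h2 := rr_le_mv x v u
    rw [abs_of_nonneg hu.1] at h2
    have h3 : u * vp v ≤ s * vp v := mul_le_mul_of_nonneg_right hu.2 hvp0
    linarith only [h3, h2, hs2])
  have h2 : s * (vp v ^ 2 / (99 / 100 * rr x)) ≤ A / 10 := by
    calc s * (vp v ^ 2 / (99 / 100 * rr x))
        ≤ (5 * rr x / P.c) * (vp v ^ 2 / (99 / 100 * rr x)) := by
          apply mul_le_mul_of_nonneg_right hs1
          (clear * - hr; positivity)
      _ = (500 / 5940) * (60 * vp v ^ 2 / P.c) := by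
          field_simp
          ring
      _ ≤ (500 / 5940) * A := by (clear * - hA; gcongr)
      _ ≤ A / 10 := by linarith only [hA0]
  linarith only [h2, h1]

/-- the entrance of the core -/
theorem disc1 {P : Par} {n : ℕ} {t : ℝ} {x : T3} {v : V} {S sb : ℝ}
    (hS : rr x + 2 * S * vp v < 1 / 2) (hsb0 : 0 ≤ sb) (hsbS : sb ≤ S)
    (h0 : P.w * P.TT n t ≤ rr x) (hb : rr (mv x v sb) < P.w * P.TT n (t + sb)) :
    ∃ s1 ∈ Ico 0 sb, rr (mv x v s1) = P.w * P.TT n (t + s1) ∧ dotE (mv x v s1) v < P.w ∧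
      (∀ s ∈ Icc 0 s1, P.w * P.TT n (t + s) ≤ rr (mv x v s)) ∧
      (∀ s ∈ Ioc s1 sb, rr (mv x v s) < P.w * P.TT n (t + s)) := by
  have hTadd : ∀ s, P.TT n (t + s) = P.TT n t + s := by intro s; unfold Par.TT; ring
  have hfc : Continuous fun s => rr (mv x v s) - P.w * P.TT n (t + s) := by
    apply (cont_flight x v).sub
    unfold Par.TT
    fun_prop
  obtain ⟨s1, hs1, hf1, hf1'⟩ := last_zero hfc.continuousOn hsb0
    (by simp only [mv_zero, add_zero]; linarith only [h0]) (by linarith only [hb])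
  have hs1S : s1 ≤ S := hs1.2.le.trans hsbS
  have hlt : dotE (mv x v s1) v < P.w := by
    by_contra h3
    have h1 := tangent hS hs1.1 hs1S hsb0 hsbS
    have h4 : 0 ≤ (sb - s1) * (dotE (mv x v s1) v - P.w) :=
      mul_nonneg (by linarith only [hs1.2]) (by linarith only [h3])
    rw [hTadd] at hb hf1
    linarith only [hf1, hb, h4, h1]
  refine ⟨s1, hs1, by linarith only [hf1], hlt, ?_, ?_⟩
  · intro s hs
    have h1 := tangent hS hs1.1 hs1S hs.1 (hs.2.trans hs1S)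
    have h4 : 0 ≤ (s - s1) * (dotE (mv x v s1) v - P.w) :=
      mul_nonneg_of_nonpos_of_nonpos (by linarith only [hs.2]) (by linarith only [hlt])
    rw [hTadd] at hf1 ⊢
    linarith only [hf1, h4, h1]
  · intro s hs
    have := hf1' s hs
    linarith only [this]

/-- the exit of the core -/
theorem disc2 {P : Par} (hE : GoodE P) {n : ℕ} {t : ℝ} {x : T3} {v : V} {S s1 sb : ℝ}
    (ht : 0 ≤ t) (hS : rr x + 2 * S * vp v < 1 / 2) (hs10 : 0 ≤ s1) (hs1b : s1 < sb)
    (hsbS : sb ≤ S) (hSS : s1 + P.TT n (t + s1) / 1000 ≤ S)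
    (hr1 : rr (mv x v s1) = P.w * P.TT n (t + s1))
    (hneg : ∀ s ∈ Ioc s1 sb, rr (mv x v s) < P.w * P.TT n (t + s))
    (hvw : 8800 * P.Lam * P.w ≤ vp v - P.w) :
    ∃ s2, s1 ≤ s2 ∧ s2 ≤ S ∧ (s2 - s1) * P.Lam ≤ P.TT n (t + s1) / 4000 ∧
      (∀ s ∈ Ioo s1 s2, rr (mv x v s) < P.w * P.TT n (t + s)) ∧
      rr (mv x v s2) = P.w * P.TT n (t + s2) ∧ P.w < dotE (mv x v s2) v := by
  have hw := hE.w_pos
  have hL := hE.Lam_ge
  have hLp := hE.Lam_pos
  have hT1pos := hE.TT_pos n (add_nonneg ht hs10)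
  have hTadd : ∀ s, P.TT n (t + s) = P.TT n (t + s1) + (s - s1) := by
    intro s; unfold Par.TT; ring
  have hvw0 : 0 < vp v - P.w := lt_of_lt_of_le (by (clear * - hL hw; positivity)) hvw
  have hs1S : s1 ≤ S := hs1b.le.trans hsbS
  have hsb0 : 0 ≤ sb := hs10.trans hs1b.le
  obtain ⟨hh, hhh⟩ : ∃ hh, hh = 2 * P.w * P.TT n (t + s1) / (vp v - P.w) := ⟨_, rfl⟩
  have hh0 : 0 < hh := by rw [hhh]; (clear * - hw hT1pos hvw0; positivity)
  have hhe : hh * (vp v - P.w) = 2 * P.w * P.TT n (t + s1) := by rw [hhh]; (clear * - hvw0 hT1pos hw; field_simp)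
  have hhL : hh * P.Lam ≤ P.TT n (t + s1) / 4400 := by
    rw [hhh, div_mul_eq_mul_div, div_le_div_iff₀ hvw0 (by norm_num)]
    have : P.TT n (t + s1) * (8800 * P.Lam * P.w) ≤ P.TT n (t + s1) * (vp v - P.w) :=
      mul_le_mul_of_nonneg_left hvw hT1pos.le
    linarith only [this]
  have hhT : hh ≤ P.TT n (t + s1) / 1000 := by
    have : hh * 2500 ≤ hh * P.Lam := mul_le_mul_of_nonneg_left hL hh0.le
    linarith only [hh0, hhL, this]
  have hs1h : s1 + hh ≤ S := by linarith only [hSS, hhT]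
  have hback : ∀ u, s1 + hh ≤ u → u ≤ S → P.w * P.TT n (t + u) ≤ rr (mv x v u) := by
    intro u hu1 hu2
    have hu0 : 0 ≤ u - s1 := by linarith only [hh0, hu1]
    have h1 := mul_vp_le (loc_of2 hS hs10 hs1S (u := u - s1)
      (abs_le.2 ⟨by linarith only [hs10, hs1b, hsbS, hh0, hu1], by linarith only [hs10, hu2]⟩))
    rw [mv_mv, add_sub_cancel, abs_of_nonneg hu0, hr1] at h1
    rw [hTadd u]
    have h3 : hh * (vp v - P.w) ≤ (u - s1) * (vp v - P.w) :=
      mul_le_mul_of_nonneg_right (by linarith only [hu1]) hvw0.le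
    linarith only [hhe, h3, h1]
  have hsbh : sb ≤ s1 + hh := by
    by_contra h
    have h1 := hneg (s1 + hh) ⟨by linarith only [hh0], (not_le.1 h).le⟩
    have h2 := hback (s1 + hh) le_rfl hs1h
    linarith only [h1, h2]
  have hfc : Continuous fun s => rr (mv x v s) - P.w * P.TT n (t + s) := by
    apply (cont_flight x v).sub
    unfold Par.TT
    fun_prop
  obtain ⟨s2, hs2, hf2, hf2'⟩ := first_zero hfc.continuousOn hsbh
    (by have := hneg sb ⟨hs1b, le_rfl⟩; linarith only [this])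
    (by have := hback _ le_rfl hs1h; linarith only [this])
  have hs2S : s2 ≤ S := hs2.2.trans hs1h
  have hs20 : 0 ≤ s2 := hsb0.trans hs2.1.le
  refine ⟨s2, hs1b.le.trans hs2.1.le, hs2S, ?_, ?_, by linarith only [hf2], ?_⟩
  · have h1 : (s2 - s1) * P.Lam ≤ hh * P.Lam :=
      mul_le_mul_of_nonneg_right (by linarith only [hs2.2]) hLp.le
    linarith only [hT1pos, hhL, h1]
  · intro s hs
    rcases le_total s sb with h | h
    · exact hneg s ⟨hs.1, h⟩
    · have := hf2' s ⟨h, hs.2⟩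
      linarith only [this]
  · have h1 := tangent hS hs20 hs2S hsb0 hsbS
    have h2 := hneg sb ⟨hs1b, le_rfl⟩
    rw [hTadd] at h2 hf2
    by_contra h3
    have h4 : 0 ≤ (sb - s2) * (dotE (mv x v s2) v - P.w) :=
      mul_nonneg_of_nonpos_of_nonpos (by linarith only [hs2.1]) (by linarith only [h3])
    linarith only [h4, hf2, h2, h1]

/-- crossing the core -/
theorem disc {P : Par} (hE : GoodE P) {n : ℕ} {t : ℝ} (ht : 0 ≤ t) {x : T3} {v : V} {S sb : ℝ}
    (hS : rr x + 2 * S * vp v < 1 / 2) (hST : P.TT n t / 100 ≤ S)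
    (hr : 0 < rr x) (hr1 : rr x ≤ P.Vg * P.TT n t) (hv : ‖v‖ ≤ P.Vg)
    (h0 : P.w * P.TT n t ≤ rr x) (hsb0 : 0 ≤ sb) (hsb1 : sb ≤ 5 * rr x / P.c)
    (hb : rr (mv x v sb) < P.w * P.TT n (t + sb)) (ha : P.m2 / 102 ≤ |dotE x v - P.w|)
    (hneg : dotE x v - P.w < 0) (hvp : 60 * vp v ^ 2 / P.c ≤ |dotE x v - P.w|) :
    ∃ s1 s2 : ℝ, 0 ≤ s1 ∧ s1 ≤ sb ∧ s1 ≤ s2 ∧ s2 ≤ S ∧
      (s2 - s1) * P.Lam ≤ P.TT n (t + s1) / 4000 ∧
      (∀ s ∈ Icc 0 s1, P.w * P.TT n (t + s) ≤ rr (mv x v s)) ∧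
      (∀ s ∈ Ioo s1 s2, rr (mv x v s) < P.w * P.TT n (t + s)) ∧
      rr (mv x v s2) = P.w * P.TT n (t + s2) ∧
      88 / 100 * |dotE x v - P.w| ≤ dotE (mv x v s2) v - P.w := by
  have hw := hE.w_pos
  have hL := hE.Lam_ge
  have hLp := hE.Lam_pos
  have hT := hE.TT_pos n ht
  have hTadd : ∀ s, P.TT n (t + s) = P.TT n t + s := by intro s; unfold Par.TT; ring
  obtain ⟨l1, l2⟩ := lens hE hr.le hr1 hv hsb1 hT.le
  have hsbS : sb ≤ S := by linarith only [hST, hT, l1]
  obtain ⟨s1, hs1, e1, hlt, hpos, hng⟩ := disc1 hS hsb0 hsbS h0 hb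
  have hvp0 := vp_nonneg v
  have hd1 := vel1 hE hS hr hs1.1 (hs1.2.le.trans hsbS) (hs1.2.le.trans hsb1)
    ((mul_le_mul_of_nonneg_right hs1.2.le hvp0).trans l2) (abs_nonneg _) hvp
  obtain ⟨A, hA⟩ : ∃ A, A = |dotE x v - P.w| := ⟨_, rfl⟩
  rw [← hA] at ha hvp hd1 ⊢
  have hAeq : dotE x v - P.w = -A := by rw [hA, abs_of_neg hneg]; ring
  have hA1 : 9800 * P.Lam * P.w ≤ A := by
    refine le_trans ?_ ha
    unfold Par.m2
    rw [le_div_iff₀ (by norm_num)]
    linarith only [mul_pos hLp hw]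
  have hwA : 1000000 * P.w ≤ A := by
    refine le_trans ?_ hA1
    nlinarith only [hL, hw]
  have hvpd := neg_vp_le_dotE (mv x v s1) v
  have hvw : 8800 * P.Lam * P.w ≤ vp v - P.w := by linarith only [hw, hd1, hAeq, hA1, hwA, hvpd]
  have hT1 := hTadd s1
  obtain ⟨s2, h12, h2S, hlen, hin, e2, hgt⟩ := disc2 hE ht hS hs1.1 hs1.2 hsbS
    (by rw [hT1]; linarith only [hST, hT, l1, hs1.2]) e1 hng hvw
  have hr1p : 0 < rr (mv x v s1) := by
    rw [e1]
    exact mul_pos hw (hE.TT_pos n (add_nonneg ht hs1.1))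
  have h20 : 0 ≤ s2 := hs1.1.trans h12
  have hang := ang (loc_of hS hs1.1 (hs1.2.le.trans hsbS)) (loc_of hS h20 h2S) hr1p (by
    rw [e1, e2, hTadd, hTadd]
    apply mul_le_mul_of_nonneg_left _ hw.le
    linarith only [h12])
  have hd12 : -dotE (mv x v s1) v ≤ dotE (mv x v s2) v := by
    have h1 : 0 ≤ dotE (mv x v s2) v := by linarith only [hw, hgt]
    exact (neg_le_abs _).trans (abs_le_of_sq_le_sq hang h1)
  exact ⟨s1, s2, hs1.1, hs1.2.le, h12, h2S, hlen, hpos, hin, e2, by linarith only [hw, hd1, hAeq, hwA, hd12]⟩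

end Vale.Agent.P140.NU.EW
end
end

section

/-!
P140-NU, module E: weight of newborn particles and of the seed.
-/

open MeasureTheory Set Filter
open scoped ENNReal Topology

noncomputable section

namespace Vale.Agent.P140.NU.EW

open E

theorem wt_eq_surv (P : Par) (n : ℕ) (te t : ℝ) (x : T3) (v : V) :
    wt P n te t x v = surv (fun τ => pp P n τ (mv x v (τ - t)) v)
      (fun τ => qq P n τ (mv x v (τ - t)) v + P.Lam / P.TT n τ) t te := rfl

theorem Cmp.weaken {p Q : ℝ → ℝ} {δ δ' a b : ℝ} (h : Cmp p Q δ a b) (hδ : δ ≤ δ') :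
    Cmp p Q δ' a b := by
  intro τ hτ
  have := h τ hτ
  linarith

/-- lower bound of the weight from the data on `[t, t']` -/
theorem wt_low {P : Par} (hE : GoodE P) {n : ℕ} {te t t' : ℝ} (ht : 0 ≤ t) (h1 : t ≤ t')
    (h2 : t' ≤ te) {x : T3} {v : V}
    (hC : Cmp (fun τ => pp P n τ (mv x v (τ - t)) v) (fun τ => qq P n τ (mv x v (τ - t)) v)
      (2 / 1000) t t')
    (hk : ∫ τ in t..t', P.Lam / P.TT n τ ≤ 11 / 100)
    (hQ : 7 ≤ ∫ τ in t..t', qq P n τ (mv x v (τ - t)) v) :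
    4 / 5 ≤ wt P n te t x v := by
  have hte : 0 ≤ te := ht.trans (h1.trans h2)
  rw [wt_eq_surv]
  exact surv_low h1 h2 (ii_pp hE n t ht hte x v) (ii_qq hE n t ht hte x v)
    (ii_clock hE n ht hte) (fun s _ => pp_nonneg hE n _ _ _) (fun s _ => qq_nonneg hE n _ _ _)
    (fun s hs => clock_nonneg hE n (ht.trans hs)) hC hk hQ

/-- data of a newborn particle -/
structure NB (P : Par) (t0 : ℝ) (n : ℕ) (t : ℝ) (x : T3) (v : V) : Prop where
  ht0 : 0 < t0
  hsm : 20 * P.Vg * t0 < P.lam ^ (P.j0 + 1)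
  hss : P.ss n ≤ t0
  ht : t ∈ Icc 0 t0
  hv : ‖v‖ ≤ P.Vg
  h0 : P.w * P.TT n t ≤ rr x
  h1 : rr x ≤ P.Vg * P.TT n t
  hm : P.m1 / 200 ≤ |dotE x v - P.w|
  hvp : 60 * vp v ^ 2 / P.c ≤ |dotE x v - P.w|

namespace NB

variable {P : Par} {t0 : ℝ} {n : ℕ} {t : ℝ} {x : T3} {v : V}

theorem TT_le (h : NB P t0 n t x v) : P.TT n t ≤ 2 * t0 := by
  unfold Par.TT
  linarith only [h.hss, h.ht.2]

theorem lam_le (hP : PE P) : P.lam ^ (P.j0 + 1) ≤ 1 / 64 := by
  have h1 := hP.good.lam_pos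
  have h2 := hP.hl1
  have h3 := hP.hj
  rw [pow_succ]
  have h4 : 0 ≤ P.lam ^ P.j0 := by positivity
  nlinarith

theorem loc (h : NB P t0 n t x v) (hP : PE P) : rr x + 2 * t0 * vp v < 1 / 2 := by
  have hE := hP.good
  have h1 := h.TT_le
  have h2 := h.h1
  have h3 := h.hsm
  have h4 := h.ht0
  have h5 := hE.Vg_pos
  have h6 := lam_le hP
  have h7 : vp v ≤ P.Vg := (vp_le_norm v).trans h.hv
  have h8 : P.Vg * P.TT n t ≤ P.Vg * (2 * t0) := mul_le_mul_of_nonneg_left h1 h5.le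
  have h9 : t0 * vp v ≤ t0 * P.Vg := mul_le_mul_of_nonneg_left h7 h4.le
  linarith

theorem rpos (h : NB P t0 n t x v) (hP : PE P) : 0 < rr x := by
  have hE := hP.good
  exact lt_of_lt_of_le (mul_pos hE.w_pos (hE.TT_pos n h.ht.1)) h.h0

/-- smallness of the distance along the flight -/
theorem small (h : NB P t0 n t x v) (hP : PE P) {s : ℝ} (hs0 : 0 ≤ s) (hs : s ≤ t0) :
    2 * rr (mv x v s) < P.lam ^ (P.j0 + 1) := by
  have hE := hP.good
  have h1 := out_of n h.hv h.h1 hs0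
  rw [TT_add] at h1
  have h2 := h.TT_le
  have h5 := hE.Vg_pos
  have h4 := h.ht0
  have h8 : P.Vg * (P.TT n t + s) ≤ P.Vg * (3 * t0) :=
    mul_le_mul_of_nonneg_left (by linarith only [hs, h2]) h5.le
  have h3 := h.hsm
  linarith only [mul_pos (sub_pos.2 h5) (sub_pos.2 h4), h3, h8, h1]

/-- the particle does not meet the core during a full window -/
theorem full (h : NB P t0 n t x v) (hP : PE P)
    (hin : ∀ s ∈ Icc 0 (5 * rr x / P.c), P.w * P.TT n (t + s) ≤ rr (mv x v s)) :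
    4 / 5 ≤ wt P n (2 * t0) t x v := by
  have hE := hP.good
  have e0 : mv x v (t - t) = x := by rw [sub_self, mv_zero]
  have hsm := h.small hP le_rfl h.ht0.le
  rw [mv_zero] at hsm
  have hvp : 52 * vp v ^ 2 / P.c ≤ |dotE x v - P.w| := by
    refine le_trans ?_ h.hvp
    have := hE.c_pos
    gcongr
    norm_num
  obtain ⟨L, hL0, hL1, hC, hk, hQ⟩ := full_window (n := n) (t := t) (x := x) hP h.ht.1 h.hv
    (by rw [e0]; exact h.rpos hP) (by rw [e0]; exact hsm) (by rw [e0]; exact h.hm)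
    (by rw [e0]; exact hvp) (by rw [e0]; exact hin) (by rw [e0]; exact h.h1)
  have h2 := h.TT_le
  refine wt_low hE h.ht.1 (le_add_of_nonneg_right hL0) ?_ (hC.weaken (by norm_num))
    (by linarith only [hk]) hQ
  have := h.ht.2
  have := h.ht0
  (clear hP hin hE e0 hsm hvp hL0 hC hk hQ; linarith)

/-- CASE A -/
theorem caseA (h : NB P t0 n t x v) (hP : PE P) (hpos : 0 < dotE x v - P.w) :
    4 / 5 ≤ wt P n (2 * t0) t x v := by
  apply h.full hP
  intro s hs
  have hE := hP.good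
  have h1 := window_len hE (hE.TT_pos n h.ht.1).le hs.2 h.h1
  have h2 := h.TT_le
  have h3 := h.loc hP
  have h4 := h.ht0
  exact in_of_pos n h.h0 hpos hs.1 (loc_of (S := t0) h3 hs.1 (by linarith only [h1, h2, h4]))

/-- CASE B -/
theorem caseB (h : NB P t0 n t x v) (hP : PE P) (hneg : dotE x v - P.w < 0)
    (hbig : P.m2 / 102 ≤ |dotE x v - P.w|) : 4 / 5 ≤ wt P n (2 * t0) t x v := by
  by_cases hin : ∀ s ∈ Icc 0 (5 * rr x / P.c), P.w * P.TT n (t + s) ≤ rr (mv x v s)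
  · exact h.full hP hin
  push Not at hin
  obtain ⟨sb, hsb, hb⟩ := hin
  have hE := hP.good
  have hc := hE.c_pos
  have h2 := h.TT_le
  have h3 := h.loc hP
  have h4 := h.ht0
  have hvp0 := vp_nonneg v
  have hS : rr x + 2 * (t0 / 2) * vp v < 1 / 2 := by (by_contra nlg; linarith only [nlg, mul_nonneg (le_of_lt (sub_pos.2 h4)) (sub_nonneg.2 hvp0), mul_nonneg (mul_self_nonneg (1 : ℝ)) (sub_nonneg.2 (not_lt.1 nlg)), h3])
  obtain ⟨s1, s2, hs10, hs1b, h12, h2S, hlen, hout, hcore, e2, hvel⟩ :=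
    disc hE h.ht.1 hS (by linarith only [h2, h4]) (h.rpos hP) h.h1 h.hv h.h0 hsb.1 hsb.2 hb hbig hneg h.hvp
  have hs20 : 0 ≤ s2 := hs10.trans h12
  have ht0' := h.ht.1
  have ht1' : 0 ≤ t + s1 := by linarith only [hs10, ht0']
  have ht2' : 0 ≤ t + s2 := by linarith only [hs10, h12, ht0']
  -- stage 1
  have e0 : mv x v (t - t) = x := by rw [sub_self, mv_zero]
  have hsm := h.small hP le_rfl h.ht0.le
  rw [mv_zero] at hsm
  have hvp : 52 * vp v ^ 2 / P.c ≤ |dotE x v - P.w| := by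
    refine le_trans ?_ h.hvp
    gcongr
    norm_num
  obtain ⟨hC1, -⟩ := stage (n := n) (t := t) (x := x) (L := s1) hP h.ht.1 h.hv
    (by rw [e0]; exact h.rpos hP) hs10 (by rw [e0]; exact hs1b.trans hsb.2)
    (by rw [e0]; exact hsm) (by rw [e0]; exact h.hm)
    (by rw [e0]; exact hvp) (by rw [e0]; exact hout)
    (by rw [e0]; intro s hs; exact out_of n h.hv h.h1 hs.1)
  have hk1 := clock_window hE n h.ht.1 hs10 (hs1b.trans hsb.2) h.h1
  -- core
  have hC2 : Cmp (fun τ => pp P n τ (mv x v (τ - t)) v) (fun τ => qq P n τ (mv x v (τ - t)) v)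
      0 (t + s1) (t + s2) := by
    apply Cmp.zero
    · intro s _
      exact pp_nonneg hE n _ _ _
    · intro τ hτ
      have h5 := hcore (τ - t) ⟨by linarith only [hτ.1], by linarith only [hτ.2]⟩
      rw [add_sub_cancel] at h5
      unfold qq
      apply Finset.sum_eq_zero
      intro j hj
      rw [if_neg]
      intro h6
      have h7 := hE.wT_le_rr (by unfold gg; norm_num) (Finset.mem_Icc.1 hj).2 h6
      linarith only [h5, h7]
  have hk2 : ∫ τ in (t + s1)..(t + s2), P.Lam / P.TT n τ ≤ 1 / 4000 := by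
    refine (clock_le hE n ht1' (by linarith only [h12])).trans ?_
    have h5 := hE.TT_pos n ht1'
    have e : (t + s2 - (t + s1)) * (P.Lam / P.TT n (t + s1)) =
        ((s2 - s1) * P.Lam) / P.TT n (t + s1) := by ring
    rw [e, div_le_iff₀ h5]
    linarith only [hlen]
  -- stage 2
  have e3 : t + s2 - t = s2 := by ring
  have hA0 : 0 < |dotE x v - P.w| := abs_pos.2 hneg.ne
  have hvpos : 0 < dotE (mv x v s2) v - P.w := by linarith only [hvel, hA0]
  have hrr : rr (mv x v s2) ≤ P.Vg * P.TT n (t + s2) := out_of n h.hv h.h1 hs20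
  obtain ⟨L, hL0, hL1, hC3, hk3, hQ3⟩ := full_window (n := n) (t := t) (t1 := t + s2) (x := x)
    hP ht2' h.hv
    (by rw [e3, e2]; exact mul_pos hE.w_pos (hE.TT_pos n ht2'))
    (by rw [e3]; exact h.small hP hs20 (by linarith only [h4, h2S]))
    (by
      rw [e3, abs_of_pos hvpos]
      have h5 := hE.m1_le_m2
      have h6 := hE.m1_pos
      linarith only [hbig, hvel, h5, h6])
    (by
      rw [e3, abs_of_pos hvpos]
      have h5 := h.hvp
      have h6 : 52 * vp v ^ 2 / P.c = 52 / 60 * (60 * vp v ^ 2 / P.c) := by ring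
      rw [h6]
      linarith only [hvel, hvpos, h5])
    (by
      rw [e3]
      intro s hs
      have h5 := window_len hE (hE.TT_pos n ht2').le hs.2 hrr
      rw [TT_add] at h5
      exact in_of_pos n e2.ge hvpos hs.1 (loc_of2 (S := t0) h3 hs20 (by linarith only [h4, h2S])
        (by rw [abs_of_nonneg hs.1]; linarith only [h2, h4, h2S, h5])))
    (by rw [e3]; exact hrr)
  rw [TT_add] at hL1
  -- end
  have hte : t + s2 + L ≤ 2 * t0 := by
    have := h.ht.2
    linarith only [h2, h4, h2S, hL1, this]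
  have hte0 : 0 ≤ t + s2 + L := by linarith only [hs10, h12, ht0', hL0]
  have ip := ii_pp hE n t h.ht.1 hte0 x v
  have iq := ii_qq hE n t h.ht.1 hte0 x v
  have ik := ii_clock hE n h.ht.1 hte0
  have j1 : t ≤ t + s1 := by linarith only [hs10]
  have j2 : t + s1 ≤ t + s2 := by linarith only [h12]
  have j3 : t + s2 ≤ t + s2 + L := by linarith only [hL0]
  have g12 := Cmp.glue j1 j2 (sub_left ip (j1.trans j2) j3) (sub_left iq (j1.trans j2) j3)
    hC1 hC2 le_rfl
  have g123 := Cmp.glue (j1.trans j2) j3 ip iq g12 hC3 (by norm_num)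
  refine wt_low hE h.ht.1 (by linarith only [hs10, h12, hL0]) hte (g123.weaken (by norm_num)) ?_ ?_
  · have a1 := intervalIntegral.integral_add_adjacent_intervals
      (sub_left ik (j1.trans j2) j3) (sub_right ik (j1.trans j2) j3)
    have a2 := intervalIntegral.integral_add_adjacent_intervals
      (sub_left (sub_left ik (j1.trans j2) j3) j1 j2)
      (sub_right (sub_left ik (j1.trans j2) j3) j1 j2)
    rw [← a1, ← a2]
    linarith only [hk1, hk2, hk3]
  · have a1 := intervalIntegral.integral_add_adjacent_intervals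
      (sub_left iq (j1.trans j2) j3) (sub_right iq (j1.trans j2) j3)
    rw [← a1]
    have : 0 ≤ ∫ τ in t..(t + s2), qq P n τ (mv x v (τ - t)) v := by
      apply intervalIntegral.integral_nonneg (j1.trans j2)
      intro s _
      exact qq_nonneg hE n _ _ _
    linarith only [hQ3, this]

/-- CASE C -/
theorem caseC (h : NB P t0 n t x v) (hP : PE P) (hneg : dotE x v - P.w < 0)
    (hA : |dotE x v - P.w| ≤ 105 / 100 * P.m2)
    (hb : P.a1 (P.TT n t) ≤ rr x - P.w * P.TT n t)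
    (hs : ∃ s : ℝ, (s = 1 ∨ s = -1) ∧ √(SS P s x v) ≤ 11 / 10 * P.m2) :
    4 / 5 ≤ wt P n (2 * t0) t x v := by
  obtain ⟨sg0, hsg, hSS⟩ := hs
  have hE := hP.good
  have hc := hE.c_pos
  have hw := hE.w_pos
  have hm2 := hE.m2_pos
  have hm2' := hE.m2_le
  have hT := hE.TT_pos n h.ht.1
  have h2 := h.TT_le
  have h3 := h.loc hP
  have h4 := h.ht0
  have hr := h.rpos hP
  have e0 : mv x v (t - t) = x := by rw [sub_self, mv_zero]
  have hsm := h.small hP le_rfl h.ht0.le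
  rw [mv_zero] at hsm
  have hvp : 52 * vp v ^ 2 / P.c ≤ |dotE x v - P.w| := by
    refine le_trans ?_ h.hvp
    gcongr
    norm_num
  obtain ⟨b0, hb0⟩ : ∃ b0, b0 = rr x - P.w * P.TT n t := ⟨_, rfl⟩
  rw [← hb0] at hb
  have ha1 : P.a1 (P.TT n t) = 2 * P.m2 * P.w * P.TT n t / P.c := rfl
  have ha1p : 0 < P.a1 (P.TT n t) := by rw [ha1]; (clear * - hm2 hw hT hc; positivity)
  have hb0p : 0 < b0 := lt_of_lt_of_le ha1p hb
  obtain ⟨L, hL⟩ : ∃ L, L = min (5 * rr x / P.c) (b0 / (12 / 10 * P.m2)) := ⟨_, rfl⟩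
  have hL0 : 0 ≤ L := by rw [hL]; (clear * - hr hc hb0p hm2; positivity)
  have hL1 : L ≤ 5 * rr x / P.c := by rw [hL]; exact min_le_left _ _
  have hL2 : L ≤ b0 / (12 / 10 * P.m2) := by rw [hL]; exact min_le_right _ _
  have hlenL := window_len hE hT.le hL1 h.h1
  have hin : ∀ s ∈ Icc 0 L, P.w * P.TT n (t + s) ≤ rr (mv x v s) := by
    intro s hs
    have h5 := rr_mv_ge (loc_of (S := t0) h3 hs.1 (by linarith only [h2, h4, hlenL, hs.2]))
    rw [TT_add]
    have h6 : s * (12 / 10 * P.m2) ≤ b0 := by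
      rw [← le_div_iff₀ (by positivity)]
      exact hs.2.trans hL2
    have h7 : s * |dotE x v - P.w| ≤ s * (105 / 100 * P.m2) :=
      mul_le_mul_of_nonneg_left hA hs.1
    rw [abs_of_neg hneg] at h7
    linarith only [h7, h6, h5, ha1p, hb0, hb]
  obtain ⟨hC, hQ⟩ := stage (n := n) (t := t) (x := x) (L := L) hP h.ht.1 h.hv
    (by rw [e0]; exact hr) hL0 (by rw [e0]; exact hL1)
    (by rw [e0]; exact hsm) (by rw [e0]; exact h.hm)
    (by rw [e0]; exact hvp) (by rw [e0]; exact hin)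
    (by rw [e0]; intro s hs; exact out_of n h.hv h.h1 hs.1)
  have hk := clock_window hE n h.ht.1 hL0 hL1 h.h1
  -- the sign
  have hvz : |v 2 - sg0| ≤ 1 / 100 := by
    have := abs_vz_sub_le_sqrt_SS P sg0 x v
    norm_num at hm2'
    linarith only [hSS, this, hm2']
  have hM : ∀ y, 19 / 10 ≤ √(SS P (-sg0) y v) := by
    intro y
    have h5 := abs_vz_sub_le_sqrt_SS P (-sg0) y v
    refine le_trans ?_ h5
    rw [abs_le] at hvz
    rw [le_abs]
    rcases hsg with h6 | h6 <;> rw [h6] at hvz ⊢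
    · left; linarith only [hvz]
    · right; linarith only [hvz]
  have hQ' := hQ (-sg0) (19 / 10) (by rcases hsg with h6 | h6 <;> rw [h6] <;> norm_num)
    (by norm_num) (fun s _ => hM _)
  rw [e0] at hQ'
  -- length
  have hlen : 16 / 10 ≤ P.c * L / rr x := by
    rw [le_div_iff₀ hr, hL]
    rcases le_total (5 * rr x / P.c) (b0 / (12 / 10 * P.m2)) with h6 | h6
    · rw [min_eq_left h6]
      have : P.c * (5 * rr x / P.c) = 5 * rr x := by (clear * - hc hr; field_simp)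
      rw [this]
      linarith only [hr]
    · rw [min_eq_right h6]
      have h7 : P.w * P.TT n t * (2 * P.m2) ≤ b0 * P.c := by
        have := hb
        rw [ha1, div_le_iff₀ hc] at this
        linarith only [this]
      have h8 : rr x = b0 + P.w * P.TT n t := by rw [hb0]; ring
      have h9 : 16 / 10 * rr x * (12 / 10 * P.m2) ≤ P.c * b0 := by
        rw [h8]
        have h10 : b0 * P.m2 ≤ b0 * (P.c / 100) := by
          apply mul_le_mul_of_nonneg_left _ hb0p.le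
          have := hE.hc
          norm_num at hm2' this ⊢
          linarith only [hm2', this]
        linarith only [mul_pos (sub_pos.2 hc) (sub_pos.2 ha1p), mul_nonneg (le_of_lt (sub_pos.2 hc)) (sub_nonneg.2 hb), h10, h7]
      calc 16 / 10 * rr x = 16 / 10 * rr x * (12 / 10 * P.m2) / (12 / 10 * P.m2) := by
            (clear * - hm2 hr; field_simp)
        _ ≤ P.c * b0 / (12 / 10 * P.m2) := by (clear * - h9 hm2; gcongr)
        _ = P.c * (b0 / (12 / 10 * P.m2)) := by ring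
  refine wt_low hE h.ht.1 (le_add_of_nonneg_right hL0) ?_ (hC.weaken (by norm_num))
    (by linarith only [hk]) ?_
  · have := h.ht.2
    linarith only [h2, h4, hlenL, this]
  · refine le_trans ?_ hQ'
    have hpi := Real.pi_gt_three
    have hpi' := Real.pi_gt_d2
    have : 2 * Real.pi * (4 / 10) * (16 / 10) * (19 / 10) ≤
        2 * Real.pi * (4 / 10) * (P.c * L / rr x) * (19 / 10) := by (clear * - hlen; gcongr)
    linarith only [this, hpi']

end NB

end Vale.Agent.P140.NU.EW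
end
end

section

/-!
P140-NU, module E: exposure to bad collisions.
-/

open MeasureTheory Set Filter
open scoped ENNReal Topology

noncomputable section

namespace Vale.Agent.P140.NU.E

/-- if the integral between any two points of the support is at most `K`, so is the total one -/
theorem integral_le_of_pairs {f : ℝ → ℝ} {a b K : ℝ} (hab : a ≤ b) (hK : 0 ≤ K)
    (hf : IntervalIntegrable f volume a b)
    (h : ∀ s ∈ Icc a b, ∀ s' ∈ Icc a b, s ≤ s' → f s ≠ 0 → f s' ≠ 0 → ∫ τ in s..s', f τ ≤ K)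
    (h0 : ∀ s ∈ Icc a b, 0 ≤ f s) : ∫ τ in a..b, f τ ≤ K := by
  set E : Set ℝ := {s | s ∈ Icc a b ∧ f s ≠ 0} with hE
  by_cases hne : E.Nonempty
  swap
  · rw [not_nonempty_iff_eq_empty] at hne
    have : ∫ τ in a..b, f τ = ∫ τ in a..b, (0 : ℝ) := by
      apply intervalIntegral.integral_congr
      intro τ hτ
      rw [uIcc_of_le hab] at hτ
      by_contra hc
      have : τ ∈ E := ⟨hτ, hc⟩
      rw [hne] at this
      exact this
    rw [this]; simpa only [intervalIntegral.integral_zero, ge_iff_le] using hK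
  set F : ℝ → ℝ := fun s => ∫ τ in a..s, f τ with hF
  have hFc : ContinuousOn F (Icc a b) := by
    have := (ac_primitive hf 0).continuousOn
    simp only [zero_add, uIcc_of_le hab] at this
    exact this
  have hEsub : E ⊆ Icc a b := fun s hs => hs.1
  have hFd : ∀ s ∈ Icc a b, ∀ s' ∈ Icc a b, s ≤ s' → F s' - F s = ∫ τ in s..s', f τ := by
    intro s hs s' hs' hss
    have := intervalIntegral.integral_add_adjacent_intervals (sub_left hf hs.1 hs.2)
      (sub_left (sub_right hf hs.1 hs.2) hss hs'.2)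
    rw [hF]; simp only; linarith only [this]
  have hpair : ∀ s ∈ E, ∀ s' ∈ E, F s' ≤ F s + K := by
    intro s hs s' hs'
    rcases le_total s s' with h1 | h1
    · have := hFd s hs.1 s' hs'.1 h1
      have := h s hs.1 s' hs'.1 h1 hs.2 hs'.2
      (clear hab hK h0 hE hne hFc hEsub; linarith)
    · have h2 := hFd s' hs'.1 s hs.1 h1
      have h3 : 0 ≤ ∫ τ in s'..s, f τ := by
        apply intervalIntegral.integral_nonneg h1
        intro τ hτ
        exact h0 τ ⟨hs'.1.1.trans hτ.1, hτ.2.trans hs.1.2⟩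
      linarith
  have hbb : BddBelow E := ⟨a, fun s hs => hs.1.1⟩
  have hba : BddAbove E := ⟨b, fun s hs => hs.1.2⟩
  set α := sInf E with hα
  set β := sSup E with hβ
  have hαc : α ∈ closure E := csInf_mem_closure hne hbb
  have hβc : β ∈ closure E := csSup_mem_closure hne hba
  have hαI : α ∈ Icc a b := closure_minimal hEsub isClosed_Icc hαc
  have hβI : β ∈ Icc a b := closure_minimal hEsub isClosed_Icc hβc
  have h1 : ∀ s' ∈ E, F s' - K ≤ F α := by
    intro s' hs'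
    have hcl : IsClosed (Icc a b ∩ F ⁻¹' Ici (F s' - K)) :=
      hFc.preimage_isClosed_of_isClosed isClosed_Icc isClosed_Ici
    have hsub : E ⊆ Icc a b ∩ F ⁻¹' Ici (F s' - K) := by
      intro s hs
      refine ⟨hs.1, ?_⟩
      show F s' - K ≤ F s
      linarith only [hpair s hs s' hs']
    exact (closure_minimal hsub hcl hαc).2
  have h2 : F β ≤ F α + K := by
    have hcl : IsClosed (Icc a b ∩ F ⁻¹' Iic (F α + K)) :=
      hFc.preimage_isClosed_of_isClosed isClosed_Icc isClosed_Iic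
    have hsub : E ⊆ Icc a b ∩ F ⁻¹' Iic (F α + K) := by
      intro s hs
      refine ⟨hs.1, ?_⟩
      show F s ≤ F α + K
      linarith only [h1 s hs]
    exact (closure_minimal hsub hcl hβc).2
  -- `F` vanishes at `α` and is constant after `β`
  have h3 : F α = 0 := by
    rw [hF]
    simp only
    rw [intervalIntegral.integral_of_le hαI.1, ← integral_Ico_eq_integral_Ioc,
      setIntegral_congr_fun (g := fun _ => (0 : ℝ)) measurableSet_Ico]
    · simp only [integral_zero]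
    · intro τ hτ
      by_contra hc
      have : τ ∈ E := ⟨⟨hτ.1, hτ.2.le.trans hαI.2⟩, hc⟩
      exact absurd (csInf_le hbb this) (not_le.2 hτ.2)
  have h4 : F b - F β = 0 := by
    rw [hFd β hβI b ⟨hab, le_rfl⟩ hβI.2, intervalIntegral.integral_of_le hβI.2,
      setIntegral_congr_fun (g := fun _ => (0 : ℝ)) measurableSet_Ioc]
    · simp only [integral_zero]
    · intro τ hτ
      by_contra hc
      have : τ ∈ E := ⟨⟨hβI.1.trans hτ.1.le, hτ.2⟩, hc⟩
      exact absurd (le_csSup hba this) (not_le.2 hτ.1)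
  have h5 : F b ≤ K := by linarith only [h2, h3, h4]
  exact h5

variable {P : Par} (hP : GoodE P)

include hP

/-- the cells are disjoint -/
theorem cell_unique' {γ : ℝ} (hγ : 0 < γ) {j j' : ℕ} {a : ℝ} (h : a ∈ P.cell γ j)
    (h' : a ∈ P.cell γ j') : j = j' := by
  have key : ∀ {i k : ℕ}, i < k → a ∈ P.cell γ i → a ∈ P.cell γ k → False := by
    intro i k hik h1 h2
    have h3 : P.lam ^ ((k : ℝ) + γ) < P.lam ^ ((i : ℝ) + 1 - γ) := by
      apply Real.rpow_lt_rpow_of_exponent_gt hP.lam_pos hP.hl1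
      have : (i : ℝ) + 1 ≤ k := by exact_mod_cast hik
      linarith only [hγ, this]
    linarith only [h3, h1.1, h2.2]
  rcases lt_trichotomy j j' with h1 | h1 | h1
  · exact (key h1 h h').elim
  · exact h1
  · exact (key h1 h' h).elim

/-- on the support of `qb` -/
theorem qb_support {n : ℕ} {t : ℝ} (ht : 0 ≤ t) {x : T3} {v : V} (h : qb P n t x v ≠ 0) :
    P.w * P.TT n t ≤ rr x ∧ rr x - P.w * P.TT n t < P.a1 (P.TT n t) ∧
    dotE x v - P.w < 0 ∧ ‖v‖ ≤ 3 / 2 ∧
    qb P n t x v ≤ 1400 * (P.c / (P.w * P.TT n t)) * (P.w - dotE x v) := by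
  have h' := h
  unfold qb at h'
  obtain ⟨j, hj, hj2⟩ := Finset.exists_ne_zero_of_sum_ne_zero h'
  split_ifs at hj2 with h1
  swap
  · exact absurd rfl hj2
  obtain ⟨h2, h3, h4, h5, h6⟩ := h1
  have hjn : j ≤ n := (Finset.mem_Icc.1 hj).2
  have hg : (0 : ℝ) ≤ gg / 2 := by unfold gg; norm_num
  have hx := hP.rr_pos_of_cell hg hjn ht h2
  have hwT := hP.wT_le_rr hg hjn h2
  have hT := hP.TT_pos n ht
  have hw := hP.w_pos
  have hc := hP.c_pos
  have hpi := Real.pi_pos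
  have hpi2 := Real.pi_lt_d2
  have hS0 : 0 < √(SS P (sg j) x v) := lt_of_lt_of_le hP.m1_pos h3
  have hdel := hP.del_le j
  have hdel0 := hP.del_pos j
  have hm1 := hP.m1_pos
  refine ⟨hwT, h5, by linarith only [h3, h6, hdel, hdel0], ?_, ?_⟩
  · have k1 : ‖v‖ ≤ ‖uu P (sg j) x‖ + ‖v - uu P (sg j) x‖ := by
      have : v = uu P (sg j) x + (v - uu P (sg j) x) := by abel
      calc ‖v‖ = ‖uu P (sg j) x + (v - uu P (sg j) x)‖ := by rw [← this]
        _ ≤ _ := norm_add_le _ _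
    have k2 := norm_uu_le P (sg j) hx hP.w_pos.le
    have k3 : |sg j| = 1 := by unfold sg; rw [abs_pow, abs_neg, abs_one, one_pow]
    rw [← sqrt_SS_eq_norm P (sg j) hx] at k1
    have k4 := hP.m2_le
    have k5 := hP.w_le
    norm_num at k4 k5
    linarith only [k5, k4, k3, k2, k1, h4]
  · -- only the cell `j` contributes
    have e1 : qb P n t x v =
        (1 + 1 / 100) * (2 * Real.pi) * (P.c / rr x) * (√(SS P (sg j) x v) + 4 * P.del j) := by
      unfold qb
      rw [Finset.sum_eq_single j]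
      · rw [if_pos ⟨h2, h3, h4, h5, h6⟩]
      · intro i _ hij
        rw [if_neg]
        intro hcon
        exact hij (cell_unique' hP (by unfold gg; norm_num) hcon.1 h2)
      · intro hcon; exact absurd hj hcon
    rw [e1]
    have k1 : √(SS P (sg j) x v) + 4 * P.del j ≤ 201 * (P.w - dotE x v) := by
      norm_num at hdel
      linarith only [h3, h6, hdel0, hdel]
    have k2 : P.c / rr x ≤ P.c / (P.w * P.TT n t) := by (clear * - hc hw hT hwT; gcongr)
    have k3 : (1 + 1 / 100) * (2 * Real.pi) ≤ 637 / 100 := by linarith only [hpi2]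
    have k4 : 0 ≤ P.w - dotE x v := by linarith only [h3, h6, hdel, hdel0]
    have k5 : 0 ≤ P.c / rr x := by (clear * - hc hx; positivity)
    calc (1 + 1 / 100) * (2 * Real.pi) * (P.c / rr x) * (√(SS P (sg j) x v) + 4 * P.del j)
        ≤ 637 / 100 * (P.c / (P.w * P.TT n t)) * (201 * (P.w - dotE x v)) := by (clear * - k3 k2 hc hx k1 hS0 hdel0 hw hT; gcongr)
      _ ≤ _ := by
        have : 0 ≤ P.c / (P.w * P.TT n t) * (P.w - dotE x v) := by (clear * - hc hw hT k4; positivity)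
        linarith only [this]

/-- exposure between two bad times -/
theorem expo_pair {n : ℕ} {s s' te t0 : ℝ} (h0 : 0 ≤ s) (hss : s ≤ s') (hs' : s' ≤ te)
    (hte : te ≤ 2 * t0) (ht0 : t0 ≤ 1 / 100) (hsn : P.ss n ≤ t0) {y : T3} {v : V}
    (h1 : qb P n s y v ≠ 0) (h2 : qb P n s' (mv y v (s' - s)) v ≠ 0) :
    ∫ τ in s..s', qb P n τ (mv y v (τ - s)) v ≤ 2800 * P.m2 := by
  obtain ⟨a1, a2, a3, a4, a5⟩ := qb_support hP h0 h1
  obtain ⟨b1, b2, b3, b4, b5⟩ := qb_support hP (h0.trans hss) h2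
  have hw := hP.w_pos
  have hc := hP.c_pos
  have hT := hP.TT_pos n h0
  have hm2 := hP.m2_pos
  -- the flight is local
  have hTs : P.TT n s ≤ 3 / 100 := by
    unfold Par.TT; linarith only [hss, hs', hte, ht0, hsn]
  have hry : rr y ≤ 1 / 4 := by
    have k1 : P.a1 (P.TT n s) ≤ P.TT n s := by
      unfold Par.a1
      rw [div_le_iff₀ hc]
      have k2 := hP.m2_le
      have k3 := hP.w_le
      have k4 := hP.hc
      have k5 : 2 * P.m2 * P.w ≤ 1 := by nlinarith only [k3, hw, k2]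
      nlinarith only [hT, k4, k5]
    have k2 : P.w * P.TT n s ≤ P.TT n s := by
      have := hP.w_lt_one
      nlinarith only [hT, this]
    linarith only [a2, hTs, k1, k2]
  have hloc : ∀ τ, |τ| ≤ te - s → rr y + |τ| * vp v < 1 / 2 := by
    intro τ hτ
    have k1 : vp v ≤ 3 / 2 := (vp_le_norm v).trans a4
    have k2 : |τ| * vp v ≤ 2 / 100 * (3 / 2) := by
      apply mul_le_mul (by linarith only [h0, hte, ht0, hτ]) k1 (vp_nonneg v) (by norm_num)
    linarith only [hry, k2]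
  have hloc' : ∀ τ ∈ Icc s s', rr y + |τ - s| * vp v < 1 / 2 := by
    intro τ hτ
    apply hloc
    rw [abs_of_nonneg (by linarith only [hτ.1])]
    linarith only [hs', hτ.2]
  have hmono : ∀ τ ∈ Icc s s', dotE (mv y v (τ - s)) v ≤ dotE (mv y v (s' - s)) v := by
    intro τ hτ
    exact dotE_mono (by linarith only [hτ.2]) (hloc' τ hτ) (hloc' s' ⟨hss, le_rfl⟩)
  -- the distance stays at least `w T`
  have hrr : ∀ τ ∈ Icc s s', P.w * P.TT n τ ≤ rr (mv y v (τ - s)) := by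
    intro τ hτ
    have k1 : rr (mv y v (s' - s)) + |τ - s'| * vp v < 1 / 2 := by
      have k2 : rr (mv y v (s' - s)) ≤ rr y + |s' - s| * vp v := rr_mv_le _ _ _
      have k3 : |s' - s| + |τ - s'| ≤ 4 / 100 := by
        rw [abs_of_nonneg (by linarith only [hss]), abs_of_nonpos (by linarith only [hτ.2])]
        linarith only [h0, hs', hte, ht0, hτ.1]
      have k4 : vp v ≤ 3 / 2 := (vp_le_norm v).trans a4
      have k5 := vp_nonneg v
      nlinarith only [hry, k2, k4, k3, k5]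
    have k2 := rr_mv_ge k1
    rw [mv_mv] at k2
    have k3 : s' - s + (τ - s') = τ - s := by ring
    rw [k3] at k2
    have k4 : (τ - s') * P.w ≤ (τ - s') * dotE (mv y v (s' - s)) v := by
      have k5 : τ - s' ≤ 0 := by linarith only [hτ.2]
      nlinarith only [b3, k5]
    have k6 : P.w * P.TT n τ = P.w * P.TT n s' + (τ - s') * P.w := by
      unfold Par.TT; ring
    linarith only [b1, k2, k4, k6]
  have hpos : ∀ τ ∈ Icc s s', 0 < rr (mv y v (τ - s)) := by
    intro τ hτ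
    exact lt_of_lt_of_le (mul_pos hw (hP.TT_pos n (h0.trans hτ.1))) (hrr τ hτ)
  have hder : ∀ τ ∈ uIcc s s', HasDerivAt (fun τ => P.w * τ - rr (mv y v (τ - s)))
      (P.w - dotE (mv y v (τ - s)) v) τ := by
    intro τ hτ
    rw [uIcc_of_le hss] at hτ
    have k1 := hasDerivAt_rr (hloc' τ hτ) (hpos τ hτ)
    have k3 : HasDerivAt (fun τ => rr (mv y v (τ - s))) (dotE (mv y v (τ - s)) v) τ :=
      HasDerivAt.comp_sub_const τ s k1
    have k0 : HasDerivAt (fun τ : ℝ => P.w * τ) (P.w * 1) τ := (hasDerivAt_id τ).const_mul P.w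
    exact (k0.fun_sub k3).congr_deriv (by ring)
  have hcont : ContinuousOn (fun τ => P.w - dotE (mv y v (τ - s)) v) (uIcc s s') := by
    intro τ hτ
    rw [uIcc_of_le hss] at hτ
    have k1 := hasDerivAt_dotE (hloc' τ hτ) (hpos τ hτ)
    have k2 : HasDerivAt (fun τ : ℝ => τ - s) 1 τ := (hasDerivAt_id τ).sub_const s
    have k3 := k1.comp τ k2
    exact (continuousAt_const.sub k3.continuousAt).continuousWithinAt
  have hint := intervalIntegral.integral_eq_sub_of_hasDerivAt hder hcont.intervalIntegrable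
  have hbound : ∫ τ in s..s', qb P n τ (mv y v (τ - s)) v ≤
      ∫ τ in s..s', 1400 * (P.c / (P.w * P.TT n s)) * (P.w - dotE (mv y v (τ - s)) v) := by
    apply intervalIntegral.integral_mono_on hss (ii_qb hP n s h0 (h0.trans hss) y v)
      (hcont.intervalIntegrable.const_mul _)
    intro τ hτ
    have k0 : 0 ≤ P.w - dotE (mv y v (τ - s)) v := by linarith only [b3, hmono τ hτ]
    by_cases k1 : qb P n τ (mv y v (τ - s)) v = 0
    · rw [k1]; (clear * - hc hw hT k0; positivity)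
    · refine (qb_support hP (h0.trans hτ.1) k1).2.2.2.2.trans ?_
      have k2 : P.TT n s ≤ P.TT n τ := by unfold Par.TT; linarith only [hτ.1]
      (clear * - hc hw hT k2 k0; gcongr)
  rw [intervalIntegral.integral_const_mul, hint] at hbound
  refine hbound.trans ?_
  have e1 : mv y v (s - s) = y := by rw [sub_self, mv_zero]
  rw [e1]
  have e2 : P.w * s' - rr (mv y v (s' - s)) - (P.w * s - rr y) ≤ P.a1 (P.TT n s) := by
    have k1 := hrr s' ⟨hss, le_rfl⟩
    have k2 : P.w * P.TT n s' = P.w * P.TT n s + (P.w * s' - P.w * s) := by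
      unfold Par.TT; ring
    linarith only [a2, b1, k2]
  calc 1400 * (P.c / (P.w * P.TT n s)) * (P.w * s' - rr (mv y v (s' - s)) - (P.w * s - rr y))
      ≤ 1400 * (P.c / (P.w * P.TT n s)) * P.a1 (P.TT n s) :=
        mul_le_mul_of_nonneg_left e2 (by (clear * - hc hw hT; positivity))
    _ = 2800 * P.m2 := by
        unfold Par.a1
        field_simp
        norm_num

omit hP

/-- exposure to bad collisions -/
theorem exposure : EvP fun P => ∀ᶠ t0 in 𝓝[>] (0 : ℝ), ∀ n, P.j0 ≤ n → P.ss n ≤ t0 →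
    ∀ t ∈ Icc 0 (2 * t0), ∀ x v,
    500 * ∫ τ in t..(2 * t0), qb P n τ (mv x v (τ - t)) v ≤ 1 / 4 := by
  refine evGoodE.mono fun P hP => ?_
  have hsm : ∀ᶠ t0 in 𝓝[>] (0 : ℝ), t0 ≤ 1 / 100 :=
    eventually_nhdsWithin_of_eventually_nhds (eventually_le_nhds (by norm_num))
  filter_upwards [hsm] with t0 ht0 n _ hs t ht x v
  have h2 : (0 : ℝ) ≤ 2 * t0 := ht.1.trans ht.2
  have key : ∫ τ in t..(2 * t0), qb P n τ (mv x v (τ - t)) v ≤ 2800 * P.m2 := by
    apply integral_le_of_pairs ht.2 (by have := hP.m2_pos; positivity) (ii_qb hP n t ht.1 h2 x v)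
    · intro s hs1 s' hs2 hss k1 k2
      have e : ∀ τ, mv x v (τ - t) = mv (mv x v (s - t)) v (τ - s) := by
        intro τ; rw [mv_mv]; congr 1; ring
      have k3 : qb P n s' (mv (mv x v (s - t)) v (s' - s)) v ≠ 0 := by
        rw [← e]; exact k2
      have := expo_pair hP (ht.1.trans hs1.1) hss hs2.2 le_rfl ht0 hs k1 k3
      simp only [← e] at this
      exact this
    · intro s _
      exact qb_nonneg hP n _ _ _
  have h3 := hP.m2_le
  norm_num at h3 ⊢
  linarith only [key, h3]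

end Vale.Agent.P140.NU.E
end
end

section

/-!
P140, non-uniqueness, module B: definitions.
-/

open MeasureTheory Set Filter
open scoped ENNReal Topology

noncomputable section

namespace Vale.Agent.P140.NU

open Classical in
/-- the observable: indicator function of hot velocities near the line -/
def Theta (P : Par) (t0 m0 : ℝ) (p : T3 × V) : ℝ :=
  if ‖p.2‖ ≤ P.Vg ∧ rr p.1 ≤ 6 * P.Vg * t0 ∧ m0 ≤ √(SS P 1 p.1 p.2) ∧
    m0 ≤ √(SS P (-1) p.1 p.2) then 1 else 0

open Classical in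
/-- main weight, cut off near the cold velocities -/
def Phi (P : Par) (n : ℕ) (te m0 t : ℝ) (x : T3) (v : V) : ℝ :=
  if m0 ≤ √(SS P 1 x v) ∧ m0 ≤ √(SS P (-1) x v) then wt P n te t x v else 0

/-- `∫∫ Φ f` -/
def MP (P : Par) (n : ℕ) (te m0 : ℝ) (f : ℝ → T3 → V → ℝ) (t : ℝ) : ℝ :=
  ∫ p : T3 × V, Phi P n te m0 t p.1 p.2 * f t p.1 p.2

/-- bound for the sup norm of the hot part by its mass -/
def Hh (P : Par) (n : ℕ) (te Ca : ℝ) (h : ℝ → T3 → V → ℝ) (t : ℝ) : ℝ :=
  Ca * NN P n te h t / P.TT n t ^ 2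

/-- Gaussian exponent of the profile -/
def gam (P : Par) (n : ℕ) (te Ca C2 : ℝ) (h : ℝ → T3 → V → ℝ) (t : ℝ) : ℝ :=
  1 / 6 - C2 * ∫ s in (0 : ℝ)..t, (1 + Hh P n te Ca h s)

/-- power growth of the main functional on `[0, t1]` -/
def Grows (P : Par) (n : ℕ) (te : ℝ) (h : ℝ → T3 → V → ℝ) (t1 : ℝ) : Prop :=
  ∀ τ ∈ Icc 0 t1, ∀ τ' ∈ Icc τ t1,
    NN P n te h τ * (P.TT n τ' / P.TT n τ) ^ (P.Lam - 1) ≤ NN P n te h τ'

end Vale.Agent.P140.NU
end
end
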