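import Vale.Agent.P140.MathlibUsed
import Vale.Agent.P140.Bd3.B1
import Vale.Agent.P140.Bd3.B3
import Vale.Agent.P140.Bd3.B5
import Vale.Agent.P140.Bd3.B4

set_option linter.all false

attribute [local instance 5000] Vale.Agent.P140.Sc.a01 Vale.Agent.P140.Sc.a02 Vale.Agent.P140.Sc.a03 Vale.Agent.P140.Sc.a04 Vale.Agent.P140.Sc.a05 Vale.Agent.P140.Sc.a06 Vale.Agent.P140.Sc.a07 Vale.Agent.P140.Sc.a08 Vale.Agent.P140.Sc.a09 Vale.Agent.P140.Sc.a10 Vale.Agent.P140.Sc.a11 Vale.Agent.P140.Sc.a12 Vale.Agent.P140.Sc.a13 Vale.Agent.P140.Sc.a14 Vale.Agent.P140.Sc.a15 Vale.Agent.P140.Sc.a16 Vale.Agent.P140.Sc.a17 Vale.Agent.P140.Sc.a18 Vale.Agent.P140.Sc.a19 Vale.Agent.P140.Sc.a20 Vale.Agent.P140.Sc.a21 Vale.Agent.P140.Sc.a22 Vale.Agent.P140.Sc.a23 Vale.Agent.P140.Sc.a24 Vale.Agent.P140.Sc.a25 Vale.Agent.P140.Sc.a26 Vale.Agent.P140.Sc.a27 Vale.Agent.P140.Sc.a28 Vale.Agent.P140.Sc.a29 Vale.Agent.P140.Sc.a30 Vale.Agent.P140.Sc.a31 Vale.Agent.P140.Sc.a32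 Vale.Agent.P140.Sc.a33 Vale.Agent.P140.Sc.r01 Vale.Agent.P140.Sc.r02 Vale.Agent.P140.Sc.r03 Vale.Agent.P140.Sc.r04 Vale.Agent.P140.Sc.r05 Vale.Agent.P140.Sc.r06 Vale.Agent.P140.Sc.r07 Vale.Agent.P140.Sc.r08 Vale.Agent.P140.Sc.r09 Vale.Agent.P140.Sc.r10 Vale.Agent.P140.Sc.r11 Vale.Agent.P140.Sc.r12 Vale.Agent.P140.Sc.r13 Vale.Agent.P140.Sc.r14 Vale.Agent.P140.Sc.r15 Vale.Agent.P140.Sc.r16 Vale.Agent.P140.Sc.r17 Vale.Agent.P140.Sc.r18

section

/-!
P140, module N: elementary properties of the collision operators.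
-/

open MeasureTheory Set Filter
open scoped ENNReal Topology

noncomputable section

namespace Vale.Agent.P140.NU.Nm

theorem opN_kN_le (N : ℕ) (v w : V) (ω : S2) :
    ENNReal.ofReal (DL.bN N v w ω) ≤ ENNReal.ofReal |relA v w ω| :=
  ENNReal.ofReal_le_ofReal (DL.bN_le N v w ω)

theorem GamN_le_Gam (N : ℕ) (f g : V → ℝ≥0∞) (v : V) : GamN N f g v ≤ Gam f g v := by
  unfold GamN Gam
  exact lintegral_mono fun w => lintegral_mono fun ω => mul_le_mul_left (opN_kN_le N v w ω) _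

theorem GamN_mono {N : ℕ} {f f' g g' : V → ℝ≥0∞} (hf : ∀ v, f v ≤ f' v) (hg : ∀ v, g v ≤ g' v)
    (v : V) : GamN N f g v ≤ GamN N f' g' v := by
  unfold GamN
  exact lintegral_mono fun w => lintegral_mono fun ω =>
    mul_le_mul_right (mul_le_mul' (hf _) (hg _)) _

theorem Gam_mono {f f' g g' : V → ℝ≥0∞} (hf : ∀ v, f v ≤ f' v) (hg : ∀ v, g v ≤ g' v)
    (v : V) : Gam f g v ≤ Gam f' g' v := by
  unfold Gam
  exact lintegral_mono fun w => lintegral_mono fun ω =>
    mul_le_mul_right (mul_le_mul' (hf _) (hg _)) _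

theorem GamN_eq_zero {N : ℕ} {v : V} (h : (N : ℝ) < ‖v‖) (f g : V → ℝ≥0∞) :
    GamN N f g v = 0 := by
  unfold GamN
  simp [DL.bN_eq_zero h]

theorem opN_meas_k (N : ℕ) :
    Measurable fun p : V × V × S2 => ENNReal.ofReal (DL.bN N p.1 p.2.1 p.2.2) :=
  (DL.measurable_bN N).ennreal_ofReal

section

variable {α : Type*} [MeasurableSpace α]

/-- integrand of the truncated gain as a function of a parameter, two velocities and a direction -/
theorem opN_meas_int (N : ℕ) {f g : α → V → ℝ≥0∞}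
    (hf : Measurable fun q : α × V => f q.1 q.2) (hg : Measurable fun q : α × V => g q.1 q.2) :
    Measurable fun q : ((α × V) × V) × S2 => ENNReal.ofReal (DL.bN N q.1.1.2 q.1.2 q.2) *
      (f q.1.1.1 (post q.1.1.2 q.1.2 q.2) * g q.1.1.1 (postStar q.1.1.2 q.1.2 q.2)) := by
  have e1 : Measurable fun q : ((α × V) × V) × S2 => (q.1.1.2, q.1.2, q.2) := by fun_prop
  have e2 : Measurable fun q : ((α × V) × V) × S2 => (q.1.1.1, post q.1.1.2 q.1.2 q.2) :=
    (by fun_prop : Measurable fun q : ((α × V) × V) × S2 => q.1.1.1).prodMk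
      ((measurable_post.comp e1 :))
  have e3 : Measurable fun q : ((α × V) × V) × S2 => (q.1.1.1, postStar q.1.1.2 q.1.2 q.2) :=
    (by fun_prop : Measurable fun q : ((α × V) × V) × S2 => q.1.1.1).prodMk
      ((measurable_postStar.comp e1 :))
  have h1 := (opN_meas_k N).comp e1
  have h2 := hf.comp e2
  have h3 := hg.comp e3
  exact h1.mul (h2.mul h3)

theorem measurable_GamN (N : ℕ) {f g : α → V → ℝ≥0∞}
    (hf : Measurable fun q : α × V => f q.1 q.2) (hg : Measurable fun q : α × V => g q.1 q.2) :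
    Measurable fun q : α × V => GamN N (f q.1) (g q.1) q.2 := by
  unfold GamN
  have h1 := (opN_meas_int N hf hg).lintegral_prod_right' (ν := surf)
  exact h1.lintegral_prod_right' (ν := (volume : Measure V))

end

theorem opN_meas_vw (N : ℕ) {f g : V → ℝ≥0∞} (hf : Measurable f) (hg : Measurable g) (v : V) :
    Measurable fun q : V × S2 => ENNReal.ofReal (DL.bN N v q.1 q.2) *
      (f (post v q.1 q.2) * g (postStar v q.1 q.2)) := by
  have e1 : Measurable fun q : V × S2 => (v, q.1, q.2) := by fun_prop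
  have h1 := (opN_meas_k N).comp e1
  have h2 := hf.comp (measurable_post.comp e1)
  have h3 := hg.comp (measurable_postStar.comp e1)
  exact h1.mul (h2.mul h3)

theorem opN_ll_add {A B : V × S2 → ℝ≥0∞} (hA : Measurable A) :
    ∫⁻ w : V, ∫⁻ ω : S2, (A (w, ω) + B (w, ω)) ∂surf =
      (∫⁻ w : V, ∫⁻ ω : S2, A (w, ω) ∂surf) + ∫⁻ w : V, ∫⁻ ω : S2, B (w, ω) ∂surf := by
  have h1 : ∀ w : V, ∫⁻ ω : S2, (A (w, ω) + B (w, ω)) ∂surf =
      (∫⁻ ω : S2, A (w, ω) ∂surf) + ∫⁻ ω : S2, B (w, ω) ∂surf := fun w =>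
    lintegral_add_left (hA.comp (measurable_const.prodMk measurable_id)) _
  simp_rw [h1]
  exact lintegral_add_left (hA.lintegral_prod_right' (ν := surf)) _

theorem opN_ll_iSup {A : ℕ → V × S2 → ℝ≥0∞} (hA : ∀ k, Measurable (A k)) (hm : Monotone A) :
    ∫⁻ w : V, ∫⁻ ω : S2, (⨆ k, A k (w, ω)) ∂surf =
      ⨆ k, ∫⁻ w : V, ∫⁻ ω : S2, A k (w, ω) ∂surf := by
  have h1 : ∀ w : V, ∫⁻ ω : S2, (⨆ k, A k (w, ω)) ∂surf =
      ⨆ k, ∫⁻ ω : S2, A k (w, ω) ∂surf := fun w =>
    lintegral_iSup (fun k => (hA k).comp (measurable_const.prodMk measurable_id))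
      (fun i j hij ω => hm hij (w, ω))
  simp_rw [h1]
  exact lintegral_iSup (fun k => (hA k).lintegral_prod_right' (ν := surf))
    (fun i j hij w => lintegral_mono fun ω => hm hij (w, ω))

theorem GamN_add_left (N : ℕ) {f g h : V → ℝ≥0∞} (hf : Measurable f) (hh : Measurable h) (v : V) :
    GamN N (fun u => f u + g u) h v = GamN N f h v + GamN N g h v := by
  have h1 := opN_ll_add (B := fun q : V × S2 => ENNReal.ofReal (DL.bN N v q.1 q.2) *
      (g (post v q.1 q.2) * h (postStar v q.1 q.2))) (opN_meas_vw N hf hh v)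
  unfold GamN
  refine Eq.trans ?_ h1
  refine lintegral_congr fun w => lintegral_congr fun ω => ?_
  ring

theorem GamN_add_right (N : ℕ) {f g h : V → ℝ≥0∞} (hf : Measurable f) (hh : Measurable h)
    (v : V) : GamN N h (fun u => f u + g u) v = GamN N h f v + GamN N h g v := by
  have h1 := opN_ll_add (B := fun q : V × S2 => ENNReal.ofReal (DL.bN N v q.1 q.2) *
      (h (post v q.1 q.2) * g (postStar v q.1 q.2))) (opN_meas_vw N hh hf v)
  unfold GamN
  refine Eq.trans ?_ h1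
  refine lintegral_congr fun w => lintegral_congr fun ω => ?_
  ring

/-- additivity -/
theorem GamN_add (N : ℕ) {f g h k : V → ℝ≥0∞} (hf : Measurable f) (hg : Measurable g)
    (hh : Measurable h) (hk : Measurable k) (v : V) :
    GamN N (fun u => f u + g u) (fun u => h u + k u) v =
      GamN N f h v + GamN N f k v + (GamN N g h v + GamN N g k v) := by
  rw [GamN_add_left N (h := fun u => h u + k u) hf (hh.add hk), GamN_add_right N hh hf,
    GamN_add_right N hh hg]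

theorem opN_iSup_mul {a b : ℕ → ℝ≥0∞} (ha : Monotone a) (hb : Monotone b) :
    (⨆ k, a k) * (⨆ k, b k) = ⨆ k, a k * b k := by
  apply le_antisymm
  · rw [ENNReal.iSup_mul]
    refine iSup_le fun i => ?_
    rw [ENNReal.mul_iSup]
    refine iSup_le fun j => ?_
    refine le_trans ?_ (le_iSup _ (max i j))
    exact mul_le_mul' (ha (le_max_left _ _)) (hb (le_max_right _ _))
  · exact iSup_le fun k => mul_le_mul' (le_iSup _ k) (le_iSup _ k)

/-- monotone convergence -/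
theorem GamN_iSup (N : ℕ) {f : ℕ → V → ℝ≥0∞} (hf : ∀ k, Measurable (f k)) (hm : Monotone f)
    (v : V) : GamN N (fun u => ⨆ k, f k u) (fun u => ⨆ k, f k u) v =
      ⨆ k, GamN N (f k) (f k) v := by
  have h1 := opN_ll_iSup (A := fun k (q : V × S2) => ENNReal.ofReal (DL.bN N v q.1 q.2) *
      (f k (post v q.1 q.2) * f k (postStar v q.1 q.2)))
    (fun k => opN_meas_vw N (hf k) (hf k) v)
    (fun i j hij q => mul_le_mul_right (mul_le_mul' (hm hij _) (hm hij _)) _)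
  unfold GamN
  refine Eq.trans ?_ h1
  refine lintegral_congr fun w => lintegral_congr fun ω => ?_
  rw [← ENNReal.mul_iSup, opN_iSup_mul (fun i j hij => hm hij _) (fun i j hij => hm hij _)]

/-- the truncated gain of DL is `GamN` -/
theorem gainN_eq_GamN (N : ℕ) {g : V → ℝ} (hg : ∀ v, 0 ≤ g v) (v : V) :
    DL.gainN N g v = GamN N (nn g) (nn g) v := by
  unfold DL.gainN GamN nn
  refine lintegral_congr fun w => lintegral_congr fun ω => ?_
  rw [ENNReal.ofReal_mul (DL.bN_nonneg N v w ω), ENNReal.ofReal_mul (hg _)]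

/-- bound of the truncated operator by sup norms -/
theorem exists_GamN_le (N : ℕ) : ∃ C : ℝ, 0 ≤ C ∧ ∀ (f g : V → ℝ≥0∞) (a b : ℝ≥0∞),
    (∀ v, ‖v‖ ≤ N → f v ≤ a) → (∀ v, ‖v‖ ≤ N → g v ≤ b) → ∀ v,
    GamN N f g v ≤ ENNReal.ofReal C * (a * b) := by
  have hfin : ENNReal.ofReal (2 * N) * (volume (Metric.closedBall (0 : V) N) * surf univ) ≠ ⊤ :=
    ENNReal.mul_ne_top ENNReal.ofReal_ne_top (ENNReal.mul_ne_top
      (measure_closedBall_lt_top.ne) (measure_ne_top _ _))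
  refine ⟨(ENNReal.ofReal (2 * N) *
    (volume (Metric.closedBall (0 : V) N) * surf univ)).toReal, ENNReal.toReal_nonneg, ?_⟩
  intro f g a b hf hg v
  rw [ENNReal.ofReal_toReal hfin]
  unfold GamN
  have h1 : ∀ (w : V) (ω : S2), ENNReal.ofReal (DL.bN N v w ω) *
      (f (post v w ω) * g (postStar v w ω)) ≤
      (Metric.closedBall (0 : V) N).indicator (fun _ => ENNReal.ofReal (2 * N) * (a * b)) w := by
    intro w ω
    by_cases h : DL.bN N v w ω = 0
    · simp [h]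
    · obtain ⟨-, h2, h3, h4⟩ := DL.bN_ne_zero h
      rw [indicator_of_mem (by simpa using h2)]
      exact mul_le_mul' (ENNReal.ofReal_le_ofReal (DL.bN_le_two N v w ω))
        (mul_le_mul' (hf _ h3) (hg _ h4))
  calc ∫⁻ w : V, ∫⁻ ω : S2, ENNReal.ofReal (DL.bN N v w ω) *
        (f (post v w ω) * g (postStar v w ω)) ∂surf
      ≤ ∫⁻ w : V, ∫⁻ _ω : S2, (Metric.closedBall (0 : V) N).indicator
          (fun _ => ENNReal.ofReal (2 * N) * (a * b)) w ∂surf :=
        lintegral_mono fun w => lintegral_mono fun ω => h1 w ω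
    _ = ENNReal.ofReal (2 * N) * (volume (Metric.closedBall (0 : V) N) * surf univ) *
          (a * b) := by
        simp_rw [lintegral_const]
        rw [lintegral_mul_const' _ _ (measure_ne_top _ _),
          lintegral_indicator measurableSet_closedBall, setLIntegral_const]
        ring

end Vale.Agent.P140.NU.Nm
end
end

section

set_option linter.all false

open MeasureTheory Set Filter
open scoped ENNReal Topology NNReal

noncomputable section

namespace Vale.Agent.P140.DL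

variable {n : ℕ} {F0 G0 : T3 → V → ℝ} {F G : ℝ → T3 → V → ℝ}

theorem int_exp_mul (k t : ℝ) : k * ∫ s in (0:ℝ)..t, Real.exp (k * s) = Real.exp (k * t) - 1 := by
  rw [← intervalIntegral.integral_const_mul]
  have h := intervalIntegral.integral_eq_sub_of_hasDerivAt (a := 0) (b := t)
    (f := fun s => Real.exp (k * s)) (f' := fun s => k * Real.exp (k * s))
    (fun s _ => by
      have h1 : HasDerivAt (fun s : ℝ => k * s) (k * 1) s := (hasDerivAt_id s).const_mul k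
      have h2 := h1.exp
      rw [mul_one, mul_comm] at h2
      exact h2)
    (Continuous.intervalIntegrable (by fun_prop) _ _)
  rw [h]
  simp

/-- Gronwall inequality for a family of functions without measurability -/
theorem gron_family {ι : Type*} {u : ι → ℝ → ℝ} {A K M T : ℝ} (hK : 0 ≤ K) (hA : 0 ≤ A)
    (hM : ∀ i, ∀ t ∈ Icc 0 T, u i t ≤ M)
    (h : ∀ c : ℝ → ℝ, Continuous c → (∀ i, ∀ s ∈ Icc 0 T, u i s ≤ c s) →
      ∀ i, ∀ t ∈ Icc 0 T, u i t ≤ A + K * ∫ s in (0:ℝ)..t, c s) :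
    ∀ i, ∀ t ∈ Icc 0 T, u i t ≤ A * Real.exp (K * t) := by
  have hl : 0 < 2 * K + 1 := by linarith
  have key : ∀ k : ℕ, ∀ i, ∀ t ∈ Icc 0 T,
      u i t ≤ A * Real.exp (K * t) + |M| * (1 / 2) ^ k * Real.exp ((2 * K + 1) * t) := by
    intro k
    induction k with
    | zero =>
      intro i t ht
      have h1 := hM i t ht
      have h2 : (1:ℝ) ≤ Real.exp ((2 * K + 1) * t) := Real.one_le_exp (mul_nonneg hl.le ht.1)
      have h3 := le_abs_self M
      have h4 := abs_nonneg M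
      have h5 : 0 ≤ A * Real.exp (K * t) := mul_nonneg hA (Real.exp_pos _).le
      have h6 : |M| * 1 ≤ |M| * Real.exp ((2 * K + 1) * t) := mul_le_mul_of_nonneg_left h2 h4
      rw [pow_zero, mul_one]
      linarith
    | succ k ih =>
      intro i t ht
      have h1 := h (fun t => A * Real.exp (K * t) + |M| * (1 / 2) ^ k * Real.exp ((2 * K + 1) * t))
        (by fun_prop) ih i t ht
      have i1 : IntervalIntegrable (fun s => A * Real.exp (K * s)) volume 0 t :=
        Continuous.intervalIntegrable (by fun_prop) _ _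
      have i2 : IntervalIntegrable (fun s => |M| * (1 / 2) ^ k * Real.exp ((2 * K + 1) * s))
          volume 0 t := Continuous.intervalIntegrable (by fun_prop) _ _
      rw [intervalIntegral.integral_add i1 i2, intervalIntegral.integral_const_mul,
        intervalIntegral.integral_const_mul] at h1
      have e1 := int_exp_mul K t
      have e2 := int_exp_mul (2 * K + 1) t
      set I1 := ∫ s in (0:ℝ)..t, Real.exp (K * s)
      set I2 := ∫ s in (0:ℝ)..t, Real.exp ((2 * K + 1) * s)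
      have h0 : 0 ≤ I2 := intervalIntegral.integral_nonneg ht.1 fun s _ => (Real.exp_pos _).le
      have h4 : 0 ≤ |M| * (1 / 2) ^ k := by (clear * -; positivity)
      have h5 : K * I2 ≤ 1 / 2 * Real.exp ((2 * K + 1) * t) := by linarith only [h0, e2]
      have h6 : |M| * (1 / 2) ^ k * (K * I2) ≤
          |M| * (1 / 2) ^ k * (1 / 2 * Real.exp ((2 * K + 1) * t)) :=
        mul_le_mul_of_nonneg_left h5 h4
      have h7 : K * (A * I1 + |M| * (1 / 2) ^ k * I2) =
          A * (K * I1) + |M| * (1 / 2) ^ k * (K * I2) := by ring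
      rw [h7, e1] at h1
      have h8 : |M| * (1 / 2) ^ (k + 1) * Real.exp ((2 * K + 1) * t) =
        |M| * (1 / 2) ^ k * (1 / 2 * Real.exp ((2 * K + 1) * t)) := by ring
      rw [h8]
      linarith only [h6, h1]
  intro i t ht
  have hlim : Tendsto (fun k : ℕ => A * Real.exp (K * t) +
      |M| * (1 / 2) ^ k * Real.exp ((2 * K + 1) * t)) atTop
      (𝓝 (A * Real.exp (K * t) + |M| * 0 * Real.exp ((2 * K + 1) * t))) := by
    apply Tendsto.const_add
    apply Tendsto.mul_const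
    apply Tendsto.const_mul
    exact tendsto_pow_atTop_nhds_zero_of_lt_one (by norm_num) (by norm_num)
  have := ge_of_tendsto' hlim (fun k => key k i t ht)
  simpa using this

theorem IsBM.meas_slice (h : IsBM n F0 F) (t : ℝ) (x : T3) : Measurable (F t x) :=
  h.meas.comp (by fun_prop : Measurable fun v : V => ((t, x, v) : ℝ × T3 × V))

/-- currying -/
def FF (F : ℝ → T3 → V → ℝ) (a : ℝ × T3) (v : V) : ℝ := F a.1 a.2 v

theorem IsBM.meas_FF (h : IsBM n F0 F) :
    Measurable fun q : (ℝ × T3) × V => FF F q.1 q.2 :=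
  h.meas.comp (by fun_prop : Measurable fun q : (ℝ × T3) × V => ((q.1.1, q.1.2, q.2) : ℝ × T3 × V))

theorem meas_reassoc : Measurable fun q : ℝ × T3 × V => (((q.1, q.2.1), q.2.2) : (ℝ × T3) × V) :=
  (measurable_fst.prodMk (measurable_fst.comp measurable_snd)).prodMk
    (measurable_snd.comp measurable_snd)

theorem IsBM.meas_gainP (h : IsBM n F0 F) :
    Measurable fun q : ℝ × T3 × V => gainP n (F q.1 q.2.1) q.2.2 := by
  have h1 := measurable_gainP (α := ℝ × T3) n (f := FF F)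
  have h2 := (h1 h.meas_FF).comp meas_reassoc
  exact h2

theorem IsBM.meas_rateP (h : IsBM n F0 F) :
    Measurable fun q : ℝ × T3 × V => rateP n (F q.1 q.2.1) q.2.2 := by
  have h1 := measurable_rateP (α := ℝ × T3) n (f := FF F)
  have h2 := (h1 h.meas_FF).comp meas_reassoc
  exact h2

theorem IsBM.meas_QN' (h : IsBM n F0 F) :
    Measurable fun q : ℝ × T3 × V => QN n F q.1 q.2.1 q.2.2 :=
  h.meas_gainP.ennreal_toReal.sub (h.meas.mul h.meas_rateP.ennreal_toReal)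

theorem IsBM.meas_QN (h : IsBM n F0 F) : Measurable (along (QN n F)) :=
  measurable_along h.meas_QN'

theorem gainP_eq_zero {n : ℕ} {v : V} (h : (n : ℝ) < ‖v‖) (g : V → ℝ) : gainP n g v = 0 := by
  unfold gainP
  rw [gainN_eq_zero h, mul_zero]

theorem rateP_eq_zero {n : ℕ} {v : V} (h : (n : ℝ) < ‖v‖) (g : V → ℝ) : rateP n g v = 0 := by
  unfold rateP
  rw [rateN_eq_zero h, mul_zero]

theorem QN_eq_zero {n : ℕ} {v : V} (h : (n : ℝ) < ‖v‖) (F : ℝ → T3 → V → ℝ) (t : ℝ) (x : T3) :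
    QN n F t x v = 0 := by
  unfold QN
  rw [gainP_eq_zero h, rateP_eq_zero h]
  simp

/-- the collision term is bounded on bounded time intervals -/
theorem IsBM.QN_bdd (h : IsBM n F0 F) (T : ℝ) : ∃ B : ℝ, ∀ t ∈ Icc 0 T, ∀ x v,
    (gainP n (F t x) v).toReal ≤ B ∧ (rateP n (F t x) v).toReal ≤ B ∧ |QN n F t x v| ≤ B ∧
    gainP n (F t x) v ≠ ⊤ ∧ rateP n (F t x) v ≠ ⊤ := by
  obtain ⟨B0, hB0⟩ := h.bdd T
  obtain ⟨K1, hK1, H1⟩ := gainP_le n
  obtain ⟨K2, hK2, H2⟩ := rateP_le n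
  set B : ℝ := max B0 0 with hB
  have hBn : 0 ≤ B := le_max_right _ _
  refine ⟨K1 * B + K2 * B + B * (K2 * B), fun t ht x v => ?_⟩
  have hFB : ∀ v, ‖v‖ ≤ n → F t x v ≤ B := fun v hv => (hB0 t ht x v hv).trans (le_max_left _ _)
  have h1 := H1 (F t x) (h.meas_slice t x) (h.nonneg t x) B hFB v
  have h2 := H2 (F t x) (h.meas_slice t x) (h.nonneg t x) B hFB v
  have hp1 : 0 ≤ K1 * B := mul_nonneg hK1 hBn
  have hp2 : 0 ≤ K2 * B := mul_nonneg hK2 hBn
  have hp3 : 0 ≤ B * (K2 * B) := mul_nonneg hBn hp2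
  have g1 : (gainP n (F t x) v).toReal ≤ K1 * B := ENNReal.toReal_le_of_le_ofReal hp1 h1
  have g2 : (rateP n (F t x) v).toReal ≤ K2 * B := ENNReal.toReal_le_of_le_ofReal hp2 h2
  have g3 : 0 ≤ (gainP n (F t x) v).toReal := ENNReal.toReal_nonneg
  have g4 : 0 ≤ (rateP n (F t x) v).toReal := ENNReal.toReal_nonneg
  refine ⟨by linarith, by linarith, ?_, ne_top_of_le_ne_top ENNReal.ofReal_ne_top h1,
    ne_top_of_le_ne_top ENNReal.ofReal_ne_top h2⟩
  rcases le_or_gt ‖v‖ (n : ℝ) with hv | hv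
  · have g5 := hFB v hv
    have g6 := h.nonneg t x v
    have g7 : F t x v * (rateP n (F t x) v).toReal ≤ B * (K2 * B) :=
      mul_le_mul g5 g2 g4 hBn
    have g8 : 0 ≤ F t x v * (rateP n (F t x) v).toReal := mul_nonneg g6 g4
    unfold QN
    rw [abs_le]
    constructor <;> linarith
  · rw [QN_eq_zero hv, abs_zero]
    linarith

theorem IsBM.QN_integrable (h : IsBM n F0 F) (p : T3 × V) (T : ℝ) :
    IntegrableOn (fun s => along (QN n F) (s, p)) (Ioc 0 T) := by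
  obtain ⟨B, hB⟩ := h.QN_bdd T
  apply Measure.integrableOn_of_bounded (M := B) (by simp)
  · exact (h.meas_QN.comp (by fun_prop : Measurable fun s : ℝ => ((s, p) : ℝ × T3 × V))).aestronglyMeasurable
  · filter_upwards [ae_restrict_mem measurableSet_Ioc] with s hs
    exact (hB s (Ioc_subset_Icc_self hs) _ _).2.2.1

theorem along_flow_neg (F : ℝ → T3 → V → ℝ) (t : ℝ) (x : T3) (v : V) :
    along F (t, flow (-t) (x, v)) = F t x v := by
  rw [along_eq]
  simp only [stFlow, flow_flow_neg]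

/-- outside the ball of radius `n` the solution is transported -/
theorem IsBM.eq_of_lt (h : IsBM n F0 F) {p : T3 × V} (hp : (n : ℝ) < ‖p.2‖) {t : ℝ}
    (ht : 0 ≤ t) : along F (t, p) = F0 p.1 p.2 := by
  rw [h.mild p t ht]
  have : ∀ s : ℝ, along (QN n F) (s, p) = 0 := fun s => QN_eq_zero hp F _ _
  simp only [this, integral_zero, add_zero]

theorem IsBM.initial (h : IsBM n F0 F) (x : T3) (v : V) : F 0 x v = F0 x v := by
  have h1 := h.mild (x, v) 0 le_rfl
  simp only [Ioc_self, Measure.restrict_empty, integral_zero_measure, add_zero] at h1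
  rw [← h1]
  simp [along, toTorus_zero]

theorem IsBM.bound_nonneg (h : IsBM n F0 F) {B : ℝ} (hB : ∀ x v, ‖v‖ ≤ n → F0 x v ≤ B) :
    0 ≤ B := by
  have h1 := hB 0 0 (by simp)
  have h2 := h.nonneg0 0 0
  linarith

/-- the value at a point as an integral along the characteristic -/
theorem IsBM.mild_point (h : IsBM n F0 F) {t : ℝ} (ht : 0 ≤ t) (x : T3) (v : V) :
    F t x v = F0 (flow (-t) (x, v)).1 v + ∫ s in (0:ℝ)..t, QN n F s (flow (s - t) (x, v)).1 v := by
  have h1 := h.mild (flow (-t) (x, v)) t ht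
  rw [along_flow_neg] at h1
  rw [h1, intervalIntegral.integral_of_le ht]
  congr 1
  apply integral_congr_ae
  filter_upwards with s
  simp only [along, flow]
  congr 1
  rw [add_assoc, ← toTorus_add, ← add_smul]
  congr 3
  ring

theorem IsBM.QN_intervalIntegrable (h : IsBM n F0 F) {t : ℝ} (ht : 0 ≤ t) (x : T3) (v : V) :
    IntervalIntegrable (fun s => QN n F s (flow (s - t) (x, v)).1 v) volume 0 t := by
  rw [intervalIntegrable_iff_integrableOn_Ioc_of_le ht]
  have h1 := h.QN_integrable (flow (-t) (x, v)) t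
  refine h1.congr ?_
  filter_upwards with s
  simp only [along, flow]
  congr 1
  rw [add_assoc, ← toTorus_add, ← add_smul]
  congr 3
  ring

/-- a priori exponential bound -/
theorem exists_growth (n : ℕ) : ∃ K : ℝ, 0 ≤ K ∧ ∀ F0 F, IsBM n F0 F → ∀ B : ℝ,
    (∀ x v, ‖v‖ ≤ n → F0 x v ≤ B) → ∀ t, 0 ≤ t → ∀ x v, ‖v‖ ≤ n →
    F t x v ≤ B * Real.exp (K * t) := by
  obtain ⟨K, hK, H⟩ := gainP_le n
  refine ⟨K, hK, fun F0 F h B hB t ht x v hv => ?_⟩
  have hB0 := h.bound_nonneg hB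
  obtain ⟨M, hM⟩ := h.bdd t
  refine gron_family (ι := {p : T3 × V // ‖p.2‖ ≤ n}) (u := fun p s => F s p.1.1 p.1.2)
    (M := M) (T := t) hK hB0 (fun p s hs => hM s hs _ _ p.2) ?_ ⟨(x, v), hv⟩ t ⟨ht, le_rfl⟩
  rintro c hc hcF ⟨⟨y, w⟩, hw⟩ s hs
  simp only at hw ⊢
  rw [h.mild_point hs.1 y w]
  apply add_le_add (hB _ _ hw)
  rw [← intervalIntegral.integral_const_mul]
  apply intervalIntegral.integral_mono_on hs.1 (h.QN_intervalIntegrable hs.1 y w)
    (Continuous.intervalIntegrable (by fun_prop) _ _)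
  intro r hr
  have hrt : r ∈ Icc 0 t := ⟨hr.1, hr.2.trans hs.2⟩
  have hc0 : 0 ≤ c r := (h.nonneg r 0 0).trans (hcF ⟨(0, 0), by simp⟩ r hrt)
  have h1 := H (F r (flow (r - s) (y, w)).1) (h.meas_slice _ _) (h.nonneg _ _) (c r)
    (fun v hv => hcF ⟨(_, v), hv⟩ r hrt) w
  have h2 : (gainP n (F r (flow (r - s) (y, w)).1) w).toReal ≤ K * c r :=
    ENNReal.toReal_le_of_le_ofReal (mul_nonneg hK hc0) h1
  have h3 : 0 ≤ F r (flow (r - s) (y, w)).1 w * (rateP n (F r (flow (r - s) (y, w)).1) w).toReal :=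
    mul_nonneg (h.nonneg _ _ _) ENNReal.toReal_nonneg
  unfold QN
  linarith

/-- Lipschitz dependence on the data -/
theorem exists_stable (n : ℕ) (B T : ℝ) : ∃ K : ℝ, 0 ≤ K ∧ ∀ F0 G0 F G, IsBM n F0 F →
    IsBM n G0 G → (∀ x v, ‖v‖ ≤ n → F0 x v ≤ B) → (∀ x v, ‖v‖ ≤ n → G0 x v ≤ B) →
    ∀ d : ℝ, 0 ≤ d → (∀ x v, ‖v‖ ≤ n → |F0 x v - G0 x v| ≤ d) →
    ∀ t ∈ Icc 0 T, ∀ x v, ‖v‖ ≤ n → |F t x v - G t x v| ≤ K * d := by
  obtain ⟨K0, hK0, H0⟩ := exists_growth n
  set B' : ℝ := |B| * Real.exp (K0 * |T|) with hB'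
  have hB'0 : 0 ≤ B' := by positivity
  obtain ⟨K1, hK1, H1⟩ := gainP_lip n B'
  obtain ⟨K2, hK2, H2⟩ := rateP_lip n B'
  obtain ⟨K3, hK3, H3⟩ := rateP_le n
  set L : ℝ := K1 + K3 * B' + B' * K2 with hL
  have hL0 : 0 ≤ L := by (clear * - hK1 hK3 hK2; positivity)
  refine ⟨Real.exp (L * |T|), (Real.exp_pos _).le, ?_⟩
  intro F0 G0 F G hF hG hF0 hG0 d hd hFG t ht x v hv
  have hT : 0 ≤ T := ht.1.trans ht.2
  have bnd : ∀ F0 F, IsBM n F0 F → (∀ x v, ‖v‖ ≤ n → F0 x v ≤ B) → ∀ s ∈ Icc 0 t, ∀ y w,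
      ‖w‖ ≤ n → F s y w ≤ B' := by
    intro F0 F hF hF0 s hs y w hw
    have h1 := H0 F0 F hF B hF0 s hs.1 y w hw
    refine h1.trans ?_
    have h2 : B ≤ |B| := le_abs_self B
    have h3 : K0 * s ≤ K0 * |T| :=
      mul_le_mul_of_nonneg_left ((hs.2.trans ht.2).trans (le_abs_self T)) hK0
    exact mul_le_mul h2 (Real.exp_le_exp.mpr h3) (Real.exp_pos _).le (abs_nonneg _)
  have bF := bnd F0 F hF hF0
  have bG := bnd G0 G hG hG0
  have key : |F t x v - G t x v| ≤ d * Real.exp (L * t) := by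
    refine gron_family (ι := {p : T3 × V // ‖p.2‖ ≤ n})
      (u := fun p s => |F s p.1.1 p.1.2 - G s p.1.1 p.1.2|)
      (M := B') (T := t) hL0 hd ?_ ?_ ⟨(x, v), hv⟩ t ⟨ht.1, le_rfl⟩
    · rintro ⟨⟨y, w⟩, hw⟩ s hs
      simp only at hw ⊢
      have h1 := bF s hs y w hw
      have h2 := bG s hs y w hw
      have h3 := hF.nonneg s y w
      have h4 := hG.nonneg s y w
      rw [abs_le]
      constructor <;> linarith
    · rintro c hc hcF ⟨⟨y, w⟩, hw⟩ s hs
      simp only at hw ⊢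
      rw [hF.mild_point hs.1 y w, hG.mild_point hs.1 y w]
      have iF := hF.QN_intervalIntegrable hs.1 y w
      have iG := hG.QN_intervalIntegrable hs.1 y w
      have e : ∀ a b a' b' : ℝ, a + b - (a' + b') = (a - a') + (b - b') := by intros; ring
      rw [e, ← intervalIntegral.integral_sub iF iG]
      refine (abs_add_le _ _).trans (add_le_add (hFG _ _ hw) ?_)
      rw [← intervalIntegral.integral_const_mul]
      refine (intervalIntegral.abs_integral_le_integral_abs hs.1).trans ?_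
      apply intervalIntegral.integral_mono_on hs.1 (iF.sub iG).abs
        (Continuous.intervalIntegrable (by fun_prop) _ _)
      intro r hr
      have hrt : r ∈ Icc 0 t := ⟨hr.1, hr.2.trans hs.2⟩
      have hc0 : 0 ≤ c r := (abs_nonneg _).trans (hcF ⟨(0, 0), by simp⟩ r hrt)
      set z : T3 := (flow (r - s) (y, w)).1 with hz
      have a1 := H1 (F r z) (G r z) (hF.meas_slice _ _) (hG.meas_slice _ _) (hF.nonneg _ _)
        (hG.nonneg _ _) (fun v hv => bF r hrt z v hv) (fun v hv => bG r hrt z v hv) (c r) hc0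
        (fun v hv => hcF ⟨(z, v), hv⟩ r hrt) w
      have a2 := H2 (F r z) (G r z) (hF.meas_slice _ _) (hG.meas_slice _ _) (hF.nonneg _ _)
        (hG.nonneg _ _) (fun v hv => bF r hrt z v hv) (fun v hv => bG r hrt z v hv) (c r) hc0
        (fun v hv => hcF ⟨(z, v), hv⟩ r hrt) w
      have a3 : (rateP n (F r z) w).toReal ≤ K3 * B' :=
        ENNReal.toReal_le_of_le_ofReal (mul_nonneg hK3 hB'0)
          (H3 (F r z) (hF.meas_slice _ _) (hF.nonneg _ _) B' (fun v hv => bF r hrt z v hv) w)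
      have a4 : |F r z w - G r z w| ≤ c r := hcF ⟨(z, w), hw⟩ r hrt
      have a5 : G r z w ≤ B' := bG r hrt z w hw
      have a6 := hG.nonneg r z w
      have a7 : 0 ≤ (rateP n (F r z) w).toReal := ENNReal.toReal_nonneg
      unfold QN
      set α := (gainP n (F r z) w).toReal
      set α' := (gainP n (G r z) w).toReal
      set β := (rateP n (F r z) w).toReal
      set β' := (rateP n (G r z) w).toReal
      have e1 : α - F r z w * β - (α' - G r z w * β') =
        (α - α') + (-(F r z w - G r z w) * β + -(G r z w) * (β - β')) := by ring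
      rw [e1]
      refine (abs_add_le _ _).trans ?_
      have b1 : |-(F r z w - G r z w) * β + -(G r z w) * (β - β')| ≤ c r * (K3 * B') + B' * (K2 * c r) := by
        refine (abs_add_le _ _).trans (add_le_add ?_ ?_)
        · rw [abs_mul, abs_neg, abs_of_nonneg a7]
          exact mul_le_mul a4 a3 a7 hc0
        · rw [abs_mul, abs_neg, abs_of_nonneg a6]
          exact mul_le_mul a5 a2 (abs_nonneg _) hB'0
      calc _ ≤ K1 * c r + (c r * (K3 * B') + B' * (K2 * c r)) := add_le_add a1 b1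
        _ = L * c r := by rw [hL]; ring
  refine key.trans ?_
  rw [mul_comm]
  apply mul_le_mul_of_nonneg_right _ hd
  apply Real.exp_le_exp.mpr
  exact mul_le_mul_of_nonneg_left (ht.2.trans (le_abs_self T)) hL0

theorem IsBM.unique (hF : IsBM n F0 F) (hG : IsBM n F0 G) {t : ℝ} (ht : 0 ≤ t) (x : T3) (v : V) :
    F t x v = G t x v := by
  rcases le_or_gt ‖v‖ (n : ℝ) with hv | hv
  · obtain ⟨B, hB⟩ := hF.bdd 0
    have hB' : ∀ x v, ‖v‖ ≤ n → F0 x v ≤ B := by
      intro x v hv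
      rw [← hF.initial]
      exact hB 0 ⟨le_rfl, le_rfl⟩ x v hv
    obtain ⟨K, hK, H⟩ := exists_stable n B t
    have h1 := H F0 F0 F G hF hG hB' hB' 0 le_rfl (by simp) t ⟨ht, le_rfl⟩ x v hv
    rw [mul_zero] at h1
    have h2 : |F t x v - G t x v| = 0 := le_antisymm h1 (abs_nonneg _)
    exact sub_eq_zero.mp (abs_eq_zero.mp h2)
  · rw [← along_flow_neg F t x v, ← along_flow_neg G t x v]
    rw [hF.eq_of_lt (p := flow (-t) (x, v)) hv ht, hG.eq_of_lt (p := flow (-t) (x, v)) hv ht]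

/-- exponential form of the mild equation -/
theorem IsBM.exp_form (h : IsBM n F0 F) (p : T3 × V) {t : ℝ} (ht : 0 ≤ t) :
    along F (t, p) = F0 p.1 p.2 * Real.exp (-∫ s in Ioc 0 t,
        (rateP n (F s (flow s p).1) p.2).toReal)
      + ∫ s in Ioc 0 t, (gainP n (F s (flow s p).1) p.2).toReal *
        Real.exp (-∫ r in Ioc s t, (rateP n (F r (flow r p).1) p.2).toReal) := by
  obtain ⟨B, hB⟩ := h.QN_bdd t
  have mp : Measurable fun s : ℝ => ((s, flow s p) : ℝ × T3 × V) :=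
    measurable_id.prodMk ((measurable_flow_uncurry.comp (measurable_id.prodMk measurable_const) :))
  set a : ℝ → ℝ := fun s => (rateP n (F s (flow s p).1) p.2).toReal with ha
  set b : ℝ → ℝ := fun s => (gainP n (F s (flow s p).1) p.2).toReal with hb
  have ma : Measurable a := (h.meas_rateP.comp mp).ennreal_toReal
  have mb : Measurable b := (h.meas_gainP.comp mp).ennreal_toReal
  have ia : IntervalIntegrable a volume 0 t := by
    rw [intervalIntegrable_iff_integrableOn_Ioc_of_le ht]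
    apply Measure.integrableOn_of_bounded (M := B) (by simp) ma.aestronglyMeasurable
    filter_upwards [ae_restrict_mem measurableSet_Ioc] with s hs
    rw [Real.norm_eq_abs, abs_of_nonneg ENNReal.toReal_nonneg]
    exact (hB s (Ioc_subset_Icc_self hs) _ _).2.1
  have ir : IntervalIntegrable (fun s => along (QN n F) (s, p)) volume 0 t := by
    rw [intervalIntegrable_iff_integrableOn_Ioc_of_le ht]
    exact h.QN_integrable p t
  have hm : ∀ s, 0 ≤ s → F0 p.1 p.2 + ∫ r in (0:ℝ)..s, along (QN n F) (r, p) = along F (s, p) := by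
    intro s hs
    rw [intervalIntegral.integral_of_le hs, ← h.mild p s hs]
  have h1 := int_factor ht ir ia (F0 p.1 p.2) le_rfl ht le_rfl
  rw [hm t ht] at h1
  have h2 : ∫ s in (0:ℝ)..t, (along (QN n F) (s, p) + a s * (F0 p.1 p.2 +
      ∫ u in (0:ℝ)..s, along (QN n F) (u, p))) * Real.exp (0 + ∫ u in (0:ℝ)..s, a u)
      = ∫ s in (0:ℝ)..t, b s * Real.exp (0 + ∫ u in (0:ℝ)..s, a u) := by
    apply intervalIntegral.integral_congr
    intro s hs
    rw [uIcc_of_le ht] at hs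
    simp only
    rw [hm s hs.1]
    congr 1
    have : along (QN n F) (s, p) = b s - along F (s, p) * a s := rfl
    rw [this]
    ring
  rw [h2] at h1
  simp only [intervalIntegral.integral_same, add_zero, zero_add, Real.exp_zero, mul_one] at h1
  have e1 : ∀ x : ℝ, Real.exp x * Real.exp (-x) = 1 := fun x => by
    rw [← Real.exp_add, add_neg_cancel, Real.exp_zero]
  rw [← intervalIntegral.integral_of_le ht, ← intervalIntegral.integral_of_le ht]
  set Λ : ℝ → ℝ := fun s => ∫ u in (0:ℝ)..s, a u with hΛ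
  have h3 : ∫ s in (0:ℝ)..t, b s * Real.exp (-∫ r in Ioc s t, a r)
      = Real.exp (-Λ t) * ∫ s in (0:ℝ)..t, b s * Real.exp (Λ s) := by
    rw [← intervalIntegral.integral_const_mul]
    apply intervalIntegral.integral_congr
    intro s hs
    rw [uIcc_of_le ht] at hs
    simp only
    have i1 : IntervalIntegrable a volume 0 s := ia.mono_set (by
      rw [uIcc_of_le hs.1, uIcc_of_le ht]; exact Icc_subset_Icc le_rfl hs.2)
    have i2 : IntervalIntegrable a volume s t := ia.mono_set (by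
      rw [uIcc_of_le hs.2, uIcc_of_le ht]; exact Icc_subset_Icc hs.1 le_rfl)
    have e2 : Λ t = Λ s + ∫ r in s..t, a r :=
      (intervalIntegral.integral_add_adjacent_intervals i1 i2).symm
    rw [← intervalIntegral.integral_of_le hs.2]
    have e3 : -∫ r in s..t, a r = -Λ t + Λ s := by linarith
    rw [e3, Real.exp_add]
    ring
  rw [h3]
  have h4 : along F (t, p) = (along F (t, p) * Real.exp (Λ t)) * Real.exp (-Λ t) := by
    rw [mul_assoc, e1, mul_one]
  rw [h4, h1]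
  ring

end Vale.Agent.P140.DL
end
end

section

/-!
P140, module N: the minimal solution with the cold datum (monotone iteration).
-/

open MeasureTheory Set Filter
open scoped ENNReal Topology

noncomputable section

namespace Vale.Agent.P140.NU.Nm

theorem itN_mv_mv (x : T3) (v : V) (a b : ℝ) : mv (mv x v a) v b = mv x v (a + b) := by
  unfold mv
  rw [add_assoc, ← toTorus_add, ← add_smul]

theorem itN_mv_zero (x : T3) (v : V) : mv x v 0 = x := by
  unfold mv
  rw [zero_smul, toTorus_zero, add_zero]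

theorem itN_mv_neg (x : T3) (v : V) (t : ℝ) : mv (mv x v t) v (-t) = x := by
  rw [itN_mv_mv, add_neg_cancel, itN_mv_zero]

theorem itN_mv_neg' (x : T3) (v : V) (t : ℝ) : mv (mv x v (-t)) v t = x := by
  rw [itN_mv_mv, neg_add_cancel, itN_mv_zero]

theorem itN_measurable_mv : Measurable fun q : (T3 × V) × ℝ => mv q.1.1 q.1.2 q.2 := by
  unfold mv
  apply Measurable.add
  · fun_prop
  · exact measurable_toTorus.comp (by fun_prop)

/-- cumulative collision rate along the flight starting at `x` at time `0` -/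
def RR (N : ℕ) (F : ℝ → T3 → V → ℝ) (t : ℝ) (x : T3) (v : V) : ℝ :=
  ∫ s in Ioc 0 t, (DL.rateP N (F s (mv x v s)) v).toReal

/-- the Duhamel operator, along the flight starting at `x` at time `0` -/
def PhL (N : ℕ) (c0 : T3 → V → ℝ) (F : ℝ → T3 → V → ℝ) (g : ℝ → T3 → V → ℝ≥0∞)
    (t : ℝ) (x : T3) (v : V) : ℝ≥0∞ :=
  ENNReal.ofReal (c0 x v * Real.exp (-RR N F t x v)) +
    ∫⁻ τ in Ioc 0 t, ENNReal.ofReal (Real.exp (RR N F τ x v - RR N F t x v)) *
      (DL.pfN N (F τ (mv x v τ)) * GamN N (g τ (mv x v τ)) (g τ (mv x v τ)) v)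

/-- the Duhamel operator -/
def Ph (N : ℕ) (c0 : T3 → V → ℝ) (F : ℝ → T3 → V → ℝ) (g : ℝ → T3 → V → ℝ≥0∞)
    (t : ℝ) (x : T3) (v : V) : ℝ≥0∞ := PhL N c0 F g t (mv x v (-t)) v

theorem Ph_mv (N : ℕ) (c0 : T3 → V → ℝ) (F : ℝ → T3 → V → ℝ) (g : ℝ → T3 → V → ℝ≥0∞)
    (t : ℝ) (x : T3) (v : V) : Ph N c0 F g t (mv x v t) v = PhL N c0 F g t x v := by
  unfold Ph
  rw [itN_mv_neg]

/-- the monotone iteration -/
def itr (N : ℕ) (c0 : T3 → V → ℝ) (F : ℝ → T3 → V → ℝ) : ℕ → ℝ → T3 → V → ℝ≥0∞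
  | 0 => fun _ _ _ => 0
  | k + 1 => Ph N c0 F (itr N c0 F k)

/-- the minimal solution -/
def Gs (N : ℕ) (c0 : T3 → V → ℝ) (F : ℝ → T3 → V → ℝ) (t : ℝ) (x : T3) (v : V) : ℝ≥0∞ :=
  ⨆ k, itr N c0 F k t x v

variable {N : ℕ} {c0 F0 : T3 → V → ℝ} {F : ℝ → T3 → V → ℝ}

/-! ### measurability -/

section meas

/-- arguments of a function along flights -/
theorem itN_meas_arg : Measurable fun q : ((ℝ × T3 × V) × ℝ) × V =>
    (q.1.2, mv q.1.1.2.1 q.1.1.2.2 q.1.2, q.2) := by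
  have h1 : Measurable fun q : ((ℝ × T3 × V) × ℝ) × V => mv q.1.1.2.1 q.1.1.2.2 q.1.2 := by
    have h2 := itN_measurable_mv.comp (f := fun q : ((ℝ × T3 × V) × ℝ) × V =>
      ((q.1.1.2.1, q.1.1.2.2), q.1.2)) (by fun_prop)
    exact h2
  exact (by fun_prop : Measurable fun q : ((ℝ × T3 × V) × ℝ) × V => q.1.2).prodMk
    (h1.prodMk (by fun_prop))

theorem itN_meas_rate (mF : Measurable fun p : ℝ × T3 × V => F p.1 p.2.1 p.2.2) :
    Measurable fun q : (ℝ × T3 × V) × ℝ =>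
      (DL.rateP N (F q.2 (mv q.1.2.1 q.1.2.2 q.2)) q.1.2.2).toReal := by
  have h1 : Measurable fun q : ((ℝ × T3 × V) × ℝ) × V =>
      F q.1.2 (mv q.1.1.2.1 q.1.1.2.2 q.1.2) q.2 := mF.comp itN_meas_arg
  have h2 := DL.measurable_rateP N
    (f := fun (q : (ℝ × T3 × V) × ℝ) (u : V) => F q.2 (mv q.1.2.1 q.1.2.2 q.2) u) h1
  have h3 := h2.comp (f := fun q : (ℝ × T3 × V) × ℝ => (q, q.1.2.2)) (by fun_prop)
  exact h3.ennreal_toReal

theorem itN_meas_pf (mF : Measurable fun p : ℝ × T3 × V => F p.1 p.2.1 p.2.2) :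
    Measurable fun q : (ℝ × T3 × V) × ℝ =>
      DL.pfN N (F q.2 (mv q.1.2.1 q.1.2.2 q.2)) := by
  have h1 : Measurable fun q : ((ℝ × T3 × V) × ℝ) × V =>
      F q.1.2 (mv q.1.1.2.1 q.1.1.2.2 q.1.2) q.2 := mF.comp itN_meas_arg
  exact DL.measurable_pfN N
    (f := fun (q : (ℝ × T3 × V) × ℝ) (u : V) => F q.2 (mv q.1.2.1 q.1.2.2 q.2) u) h1

theorem itN_meas_GamN {g h : ℝ → T3 → V → ℝ≥0∞}
    (mg : Measurable fun p : ℝ × T3 × V => g p.1 p.2.1 p.2.2)
    (mh : Measurable fun p : ℝ × T3 × V => h p.1 p.2.1 p.2.2) :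
    Measurable fun q : (ℝ × T3 × V) × ℝ =>
      GamN N (g q.2 (mv q.1.2.1 q.1.2.2 q.2)) (h q.2 (mv q.1.2.1 q.1.2.2 q.2)) q.1.2.2 := by
  have h1 : Measurable fun q : ((ℝ × T3 × V) × ℝ) × V =>
      g q.1.2 (mv q.1.1.2.1 q.1.1.2.2 q.1.2) q.2 := mg.comp itN_meas_arg
  have h1' : Measurable fun q : ((ℝ × T3 × V) × ℝ) × V =>
      h q.1.2 (mv q.1.1.2.1 q.1.1.2.2 q.1.2) q.2 := mh.comp itN_meas_arg
  have h2 := measurable_GamN N
    (f := fun (q : (ℝ × T3 × V) × ℝ) (u : V) => g q.2 (mv q.1.2.1 q.1.2.2 q.2) u)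
    (g := fun (q : (ℝ × T3 × V) × ℝ) (u : V) => h q.2 (mv q.1.2.1 q.1.2.2 q.2) u) h1 h1'
  exact h2.comp (f := fun q : (ℝ × T3 × V) × ℝ => (q, q.1.2.2)) (by fun_prop)

theorem itN_measSet : MeasurableSet {q : (ℝ × T3 × V) × ℝ | q.2 ∈ Ioc 0 q.1.1} := by
  have h1 : MeasurableSet {q : (ℝ × T3 × V) × ℝ | 0 < q.2} :=
    measurableSet_lt measurable_const measurable_snd
  have h2 : MeasurableSet {q : (ℝ × T3 × V) × ℝ | q.2 ≤ q.1.1} :=
    measurableSet_le measurable_snd (by fun_prop)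
  exact h1.inter h2

theorem measurable_RR (mF : Measurable fun p : ℝ × T3 × V => F p.1 p.2.1 p.2.2) :
    Measurable fun p : ℝ × T3 × V => RR N F p.1 p.2.1 p.2.2 := by
  have h1 : StronglyMeasurable ({q : (ℝ × T3 × V) × ℝ | q.2 ∈ Ioc 0 q.1.1}.indicator
      fun q => (DL.rateP N (F q.2 (mv q.1.2.1 q.1.2.2 q.2)) q.1.2.2).toReal) :=
    ((itN_meas_rate mF).indicator itN_measSet).stronglyMeasurable
  have h2 := (h1.integral_prod_right' (ν := (volume : Measure ℝ))).measurable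
  have h3 : (fun p : ℝ × T3 × V => RR N F p.1 p.2.1 p.2.2) =
      fun p => ∫ s, ({q : (ℝ × T3 × V) × ℝ | q.2 ∈ Ioc 0 q.1.1}.indicator
      fun q => (DL.rateP N (F q.2 (mv q.1.2.1 q.1.2.2 q.2)) q.1.2.2).toReal) (p, s) := by
    funext p
    unfold RR
    rw [← integral_indicator measurableSet_Ioc]
    rfl
  rw [h3]
  exact h2

theorem measurable_PhL (mF : Measurable fun p : ℝ × T3 × V => F p.1 p.2.1 p.2.2)
    (mc : Measurable fun p : T3 × V => c0 p.1 p.2) {g : ℝ → T3 → V → ℝ≥0∞}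
    (mg : Measurable fun p : ℝ × T3 × V => g p.1 p.2.1 p.2.2) :
    Measurable fun p : ℝ × T3 × V => PhL N c0 F g p.1 p.2.1 p.2.2 := by
  have mR := measurable_RR (N := N) mF
  have h1 : Measurable fun p : ℝ × T3 × V =>
      ENNReal.ofReal (c0 p.2.1 p.2.2 * Real.exp (-RR N F p.1 p.2.1 p.2.2)) := by
    have h2 : Measurable fun p : ℝ × T3 × V => c0 p.2.1 p.2.2 := mc.comp measurable_snd
    exact (h2.mul mR.neg.exp).ennreal_ofReal
  have hk : Measurable ({q : (ℝ × T3 × V) × ℝ | q.2 ∈ Ioc 0 q.1.1}.indicator fun q =>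
      ENNReal.ofReal (Real.exp (RR N F q.2 q.1.2.1 q.1.2.2 - RR N F q.1.1 q.1.2.1 q.1.2.2)) *
      (DL.pfN N (F q.2 (mv q.1.2.1 q.1.2.2 q.2)) *
        GamN N (g q.2 (mv q.1.2.1 q.1.2.2 q.2)) (g q.2 (mv q.1.2.1 q.1.2.2 q.2)) q.1.2.2)) := by
    refine Measurable.indicator ?_ itN_measSet
    have a1 : Measurable fun q : (ℝ × T3 × V) × ℝ => RR N F q.2 q.1.2.1 q.1.2.2 :=
      mR.comp (f := fun q : (ℝ × T3 × V) × ℝ => (q.2, q.1.2.1, q.1.2.2)) (by fun_prop)
    have a2 : Measurable fun q : (ℝ × T3 × V) × ℝ => RR N F q.1.1 q.1.2.1 q.1.2.2 :=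
      mR.comp measurable_fst
    exact (a1.sub a2).exp.ennreal_ofReal.mul ((itN_meas_pf mF).mul (itN_meas_GamN mg mg))
  have h2 := hk.lintegral_prod_right' (ν := (volume : Measure ℝ))
  have h3 : (fun p : ℝ × T3 × V => PhL N c0 F g p.1 p.2.1 p.2.2) = fun p =>
      ENNReal.ofReal (c0 p.2.1 p.2.2 * Real.exp (-RR N F p.1 p.2.1 p.2.2)) +
      ∫⁻ s, ({q : (ℝ × T3 × V) × ℝ | q.2 ∈ Ioc 0 q.1.1}.indicator fun q =>
      ENNReal.ofReal (Real.exp (RR N F q.2 q.1.2.1 q.1.2.2 - RR N F q.1.1 q.1.2.1 q.1.2.2)) *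
      (DL.pfN N (F q.2 (mv q.1.2.1 q.1.2.2 q.2)) *
        GamN N (g q.2 (mv q.1.2.1 q.1.2.2 q.2)) (g q.2 (mv q.1.2.1 q.1.2.2 q.2)) q.1.2.2))
        (p, s) := by
    funext p
    unfold PhL
    rw [← lintegral_indicator measurableSet_Ioc]
    rfl
  rw [h3]
  exact h1.add h2

theorem measurable_Ph (mF : Measurable fun p : ℝ × T3 × V => F p.1 p.2.1 p.2.2)
    (mc : Measurable fun p : T3 × V => c0 p.1 p.2) {g : ℝ → T3 → V → ℝ≥0∞}
    (mg : Measurable fun p : ℝ × T3 × V => g p.1 p.2.1 p.2.2) :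
    Measurable fun p : ℝ × T3 × V => Ph N c0 F g p.1 p.2.1 p.2.2 := by
  have h1 := measurable_PhL (N := N) mF mc mg
  have h2 : Measurable fun p : ℝ × T3 × V => (p.1, mv p.2.1 p.2.2 (-p.1), p.2.2) := by
    have h3 := itN_measurable_mv.comp (f := fun p : ℝ × T3 × V => ((p.2.1, p.2.2), -p.1))
      (by fun_prop)
    exact measurable_fst.prodMk (h3.prodMk (by fun_prop))
  exact (h1.comp h2 :)

theorem measurable_itr (mF : Measurable fun p : ℝ × T3 × V => F p.1 p.2.1 p.2.2)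
    (mc : Measurable fun p : T3 × V => c0 p.1 p.2) (k : ℕ) :
    Measurable fun p : ℝ × T3 × V => itr N c0 F k p.1 p.2.1 p.2.2 := by
  induction k with
  | zero => exact measurable_const
  | succ k ih => exact measurable_Ph mF mc ih

theorem measurable_Gs (mF : Measurable fun p : ℝ × T3 × V => F p.1 p.2.1 p.2.2)
    (mc : Measurable fun p : T3 × V => c0 p.1 p.2) :
    Measurable fun p : ℝ × T3 × V => Gs N c0 F p.1 p.2.1 p.2.2 :=
  Measurable.iSup fun k => measurable_itr mF mc k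

end meas

/-! ### monotonicity -/

theorem PhL_mono {g g' : ℝ → T3 → V → ℝ≥0∞} {t : ℝ} (x : T3) (v : V)
    (h : ∀ τ ∈ Ioc 0 t, ∀ u, g τ (mv x v τ) u ≤ g' τ (mv x v τ) u) :
    PhL N c0 F g t x v ≤ PhL N c0 F g' t x v := by
  unfold PhL
  refine add_le_add le_rfl ?_
  refine setLIntegral_mono' measurableSet_Ioc fun τ hτ => ?_
  exact mul_le_mul_right (mul_le_mul_right (GamN_mono (h τ hτ) (h τ hτ) v) _) _

theorem itr_le_succ (k : ℕ) : ∀ t x v, itr N c0 F k t x v ≤ itr N c0 F (k + 1) t x v := by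
  induction k with
  | zero => intro t x v; exact zero_le
  | succ k ih =>
    intro t x v
    change Ph N c0 F (itr N c0 F k) t x v ≤ Ph N c0 F (itr N c0 F (k + 1)) t x v
    exact PhL_mono _ _ fun τ _ u => ih τ _ u

theorem itr_mono (t : ℝ) (x : T3) (v : V) : Monotone fun k => itr N c0 F k t x v :=
  monotone_nat_of_le_succ fun k => itr_le_succ k t x v

theorem itN_slice {g : ℝ → T3 → V → ℝ≥0∞}
    (mg : Measurable fun p : ℝ × T3 × V => g p.1 p.2.1 p.2.2) (τ : ℝ) (y : T3) :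
    Measurable (g τ y) := by
  have h := mg.comp (f := fun u : V => (τ, y, u)) (by fun_prop)
  exact h

theorem itN_meas_along {g : ℝ → T3 → V → ℝ≥0∞}
    (mF : Measurable fun p : ℝ × T3 × V => F p.1 p.2.1 p.2.2)
    (mg : Measurable fun p : ℝ × T3 × V => g p.1 p.2.1 p.2.2) (t : ℝ) (x : T3) (v : V) :
    Measurable fun τ : ℝ => ENNReal.ofReal (Real.exp (RR N F τ x v - RR N F t x v)) *
      (DL.pfN N (F τ (mv x v τ)) * GamN N (g τ (mv x v τ)) (g τ (mv x v τ)) v) := by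
  have a1 := measurable_RR (N := N) mF
  have a2 : Measurable fun τ : ℝ => RR N F τ x v :=
    a1.comp (f := fun τ : ℝ => (τ, x, v)) (by fun_prop)
  have a3 : Measurable fun τ : ℝ => DL.pfN N (F τ (mv x v τ)) :=
    (itN_meas_pf (N := N) mF).comp (f := fun τ : ℝ => ((t, x, v), τ)) (by fun_prop)
  have a4 : Measurable fun τ : ℝ => GamN N (g τ (mv x v τ)) (g τ (mv x v τ)) v :=
    (itN_meas_GamN (N := N) mg mg).comp (f := fun τ : ℝ => ((t, x, v), τ)) (by fun_prop)
  exact (a2.sub_const _).exp.ennreal_ofReal.mul (a3.mul a4)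

/-- continuity of the Duhamel operator along increasing sequences -/
theorem PhL_iSup (mF : Measurable fun p : ℝ × T3 × V => F p.1 p.2.1 p.2.2)
    {g : ℕ → ℝ → T3 → V → ℝ≥0∞}
    (mg : ∀ k, Measurable fun p : ℝ × T3 × V => g k p.1 p.2.1 p.2.2)
    (hm : ∀ t x v, Monotone fun k => g k t x v) (t : ℝ) (x : T3) (v : V) :
    PhL N c0 F (fun t x v => ⨆ k, g k t x v) t x v = ⨆ k, PhL N c0 F (g k) t x v := by
  unfold PhL
  rw [← ENNReal.add_iSup]
  congr 1
  have h2 : ∀ τ, ENNReal.ofReal (Real.exp (RR N F τ x v - RR N F t x v)) *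
      (DL.pfN N (F τ (mv x v τ)) * GamN N (fun u => ⨆ k, g k τ (mv x v τ) u)
        (fun u => ⨆ k, g k τ (mv x v τ) u) v) = ⨆ k,
      ENNReal.ofReal (Real.exp (RR N F τ x v - RR N F t x v)) *
      (DL.pfN N (F τ (mv x v τ)) * GamN N (g k τ (mv x v τ)) (g k τ (mv x v τ)) v) := by
    intro τ
    rw [← ENNReal.mul_iSup, ← ENNReal.mul_iSup]
    have h3 := GamN_iSup N (f := fun k => g k τ (mv x v τ))
      (fun k => itN_slice (mg k) τ (mv x v τ)) (fun i j hij u => hm τ _ u hij) v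
    rw [h3]
  have h4 : (∫⁻ τ in Ioc 0 t, ENNReal.ofReal (Real.exp (RR N F τ x v - RR N F t x v)) *
      (DL.pfN N (F τ (mv x v τ)) * GamN N (fun u => ⨆ k, g k τ (mv x v τ) u)
        (fun u => ⨆ k, g k τ (mv x v τ) u) v)) = ∫⁻ τ in Ioc 0 t, ⨆ k,
      ENNReal.ofReal (Real.exp (RR N F τ x v - RR N F t x v)) *
      (DL.pfN N (F τ (mv x v τ)) * GamN N (g k τ (mv x v τ)) (g k τ (mv x v τ)) v) :=
    lintegral_congr fun τ => h2 τ
  rw [h4]
  refine lintegral_iSup (fun k => itN_meas_along mF (mg k) t x v) ?_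
  intro i j hij τ
  exact mul_le_mul_right (mul_le_mul_right (GamN_mono (fun u => hm τ _ u hij)
    (fun u => hm τ _ u hij) v) _) _

/-- the minimal solution is a fixed point -/
theorem Gs_eq (mF : Measurable fun p : ℝ × T3 × V => F p.1 p.2.1 p.2.2)
    (mc : Measurable fun p : T3 × V => c0 p.1 p.2) (t : ℝ) (x : T3) (v : V) :
    Gs N c0 F t (mv x v t) v = PhL N c0 F (Gs N c0 F) t x v := by
  have h1 : PhL N c0 F (Gs N c0 F) t x v = ⨆ k, PhL N c0 F (itr N c0 F k) t x v :=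
    PhL_iSup mF (measurable_itr mF mc) itr_mono t x v
  rw [h1]
  unfold Gs
  apply le_antisymm
  · refine iSup_le fun k => ?_
    refine le_trans (itr_le_succ k t _ v) ?_
    refine le_trans (le_of_eq ?_) (le_iSup _ k)
    exact Ph_mv N c0 F _ t x v
  · refine iSup_le fun k => ?_
    refine le_trans (le_of_eq ?_) (le_iSup _ (k + 1))
    exact (Ph_mv N c0 F _ t x v).symm

/-! ### consequences of the a priori bounds -/

theorem itN_rate_int (hF : DL.IsBM N F0 F) (x : T3) (v : V) (T : ℝ) :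
    IntegrableOn (fun s => (DL.rateP N (F s (mv x v s)) v).toReal) (Ioc 0 T) := by
  obtain ⟨B, hB⟩ := hF.QN_bdd T
  have hm : Measurable fun s : ℝ => (DL.rateP N (F s (mv x v s)) v).toReal :=
    (itN_meas_rate (N := N) hF.meas).comp (f := fun s : ℝ => ((T, x, v), s)) (by fun_prop)
  refine Measure.integrableOn_of_bounded (M := B) (by simp) hm.aestronglyMeasurable ?_
  filter_upwards [ae_restrict_mem measurableSet_Ioc] with s hs
  rw [Real.norm_of_nonneg ENNReal.toReal_nonneg]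
  exact (hB s ⟨hs.1.le, hs.2⟩ _ v).2.1

theorem RR_sub (hF : DL.IsBM N F0 F) (x : T3) (v : V) {τ t : ℝ} (h0 : 0 ≤ τ) (h1 : τ ≤ t) :
    RR N F t x v - RR N F τ x v = ∫ s in Ioc τ t, (DL.rateP N (F s (mv x v s)) v).toReal := by
  unfold RR
  have h2 : Ioc 0 t = Ioc 0 τ ∪ Ioc τ t := (Ioc_union_Ioc_eq_Ioc h0 h1).symm
  have h3 := itN_rate_int hF x v t
  rw [h2] at h3 ⊢
  rw [setIntegral_union (Ioc_disjoint_Ioc_of_le le_rfl) measurableSet_Ioc
    (h3.mono_set subset_union_left) (h3.mono_set subset_union_right)]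
  ring

theorem RR_nonneg (t : ℝ) (x : T3) (v : V) : 0 ≤ RR N F t x v :=
  integral_nonneg fun _ => ENNReal.toReal_nonneg

theorem RR_le (hF : DL.IsBM N F0 F) (x : T3) (v : V) {τ t : ℝ} (h0 : 0 ≤ τ) (h1 : τ ≤ t) :
    RR N F τ x v ≤ RR N F t x v := by
  have h2 := RR_sub hF x v h0 h1
  have h3 : 0 ≤ ∫ s in Ioc τ t, (DL.rateP N (F s (mv x v s)) v).toReal :=
    integral_nonneg fun _ => ENNReal.toReal_nonneg
  linarith

/-- comparison with a supersolution -/
theorem Gs_le_of_super (hF : DL.IsBM N F0 F) (hc : ∀ x v, 0 ≤ c0 x v)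
    {U : ℝ → T3 → V → ℝ≥0∞} {t0 : ℝ}
    (hU : ∀ t ∈ Icc 0 t0, ∀ x v, ENNReal.ofReal (c0 x v) +
      ∫⁻ τ in Ioc 0 t, Gam (U τ (mv x v τ)) (U τ (mv x v τ)) v ≤ U t (mv x v t) v) :
    ∀ t ∈ Icc 0 t0, ∀ x v, Gs N c0 F t x v ≤ U t x v := by
  have key : ∀ k, ∀ t ∈ Icc 0 t0, ∀ x v, itr N c0 F k t x v ≤ U t x v := by
    intro k
    induction k with
    | zero => intro t _ x v; exact zero_le
    | succ k ih =>
      intro t ht x v
      set y : T3 := mv x v (-t) with hy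
      have hyx : mv y v t = x := itN_mv_neg' x v t
      have h1 : itr N c0 F (k + 1) t x v = PhL N c0 F (itr N c0 F k) t y v := rfl
      rw [h1, ← hyx]
      refine le_trans ?_ (hU t ht y v)
      unfold PhL
      refine add_le_add ?_ ?_
      · refine ENNReal.ofReal_le_ofReal ?_
        have h2 : Real.exp (-RR N F t y v) ≤ 1 := Real.exp_le_one_iff.2 (by
          have := RR_nonneg (N := N) (F := F) t y v
          linarith)
        exact mul_le_of_le_one_right (hc y v) h2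
      · refine setLIntegral_mono' measurableSet_Ioc fun τ hτ => ?_
        have h3 : ENNReal.ofReal (Real.exp (RR N F τ y v - RR N F t y v)) ≤ 1 := by
          rw [ENNReal.ofReal_le_one, Real.exp_le_one_iff]
          have := RR_le hF y v hτ.1.le hτ.2
          linarith
        have h4 : GamN N (itr N c0 F k τ (mv y v τ)) (itr N c0 F k τ (mv y v τ)) v ≤
            Gam (U τ (mv y v τ)) (U τ (mv y v τ)) v := by
          refine (GamN_mono (fun u => ?_) (fun u => ?_) v).trans (GamN_le_Gam _ _ _ _)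
          · exact ih τ ⟨hτ.1.le, hτ.2.trans ht.2⟩ _ u
          · exact ih τ ⟨hτ.1.le, hτ.2.trans ht.2⟩ _ u
        calc _ ≤ 1 * (1 * Gam (U τ (mv y v τ)) (U τ (mv y v τ)) v) :=
              mul_le_mul' h3 (mul_le_mul' (DL.pfN_le_one _ _) h4)
          _ = _ := by rw [one_mul, one_mul]
  intro t ht x v
  exact iSup_le fun k => key k t ht x v

theorem itN_gain_meas (mF : Measurable fun p : ℝ × T3 × V => F p.1 p.2.1 p.2.2) (x : T3) (v : V) :
    Measurable fun s : ℝ => DL.gainP N (F s (mv x v s)) v := by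
  have h1 : Measurable fun q : ((ℝ × T3 × V) × ℝ) × V =>
      F q.1.2 (mv q.1.1.2.1 q.1.1.2.2 q.1.2) q.2 := mF.comp itN_meas_arg
  have h2 := DL.measurable_gainP N
    (f := fun (q : (ℝ × T3 × V) × ℝ) (u : V) => F q.2 (mv q.1.2.1 q.1.2.2 q.2) u) h1
  exact h2.comp (f := fun s : ℝ => ((((0 : ℝ), x, v), s), v)) (by fun_prop)

theorem gainP_eq (N : ℕ) {g : V → ℝ} (hg : ∀ v, 0 ≤ g v) (v : V) :
    DL.gainP N g v = DL.pfN N g * GamN N (nn g) (nn g) v := by
  unfold DL.gainP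
  rw [gainN_eq_GamN N hg]

/-- exponential form in extended nonnegative numbers -/
theorem expform (hF : DL.IsBM N F0 F) {t : ℝ} (ht : 0 ≤ t) (x : T3) (v : V) :
    ENNReal.ofReal (F t (mv x v t) v) = PhL N F0 F (fun τ y => nn (F τ y)) t x v := by
  have h1 := hF.exp_form (x, v) ht
  have e1 : along F (t, (x, v)) = F t (mv x v t) v := rfl
  have e2 : (∫ s in Ioc 0 t, (DL.gainP N (F s (flow s (x, v)).1) (x, v).2).toReal *
        Real.exp (-∫ r in Ioc s t, (DL.rateP N (F r (flow r (x, v)).1) (x, v).2).toReal)) =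
      ∫ s in Ioc 0 t, (DL.gainP N (F s (mv x v s)) v).toReal *
        Real.exp (RR N F s x v - RR N F t x v) := by
    refine setIntegral_congr_fun measurableSet_Ioc fun s hs => ?_
    have h2 := RR_sub hF x v hs.1.le hs.2
    have h3 : (∫ r in Ioc s t, (DL.rateP N (F r (flow r (x, v)).1) (x, v).2).toReal) =
        RR N F t x v - RR N F s x v := h2.symm
    simp only [h3, neg_sub]
    rfl
  rw [e1, e2] at h1
  have e3 : F0 (x, v).1 (x, v).2 *
      Real.exp (-∫ s in Ioc 0 t, (DL.rateP N (F s (flow s (x, v)).1) (x, v).2).toReal) =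
      F0 x v * Real.exp (-RR N F t x v) := rfl
  rw [e3] at h1
  obtain ⟨B, hB⟩ := hF.QN_bdd t
  have hB' : ∀ s ∈ Ioc 0 t, (DL.gainP N (F s (mv x v s)) v).toReal ≤ B ∧
      DL.gainP N (F s (mv x v s)) v ≠ ⊤ := fun s hs =>
    ⟨(hB s ⟨hs.1.le, hs.2⟩ _ v).1, (hB s ⟨hs.1.le, hs.2⟩ _ v).2.2.2.1⟩
  have mR : Measurable fun s : ℝ => Real.exp (RR N F s x v - RR N F t x v) := by
    have a2 : Measurable fun τ : ℝ => RR N F τ x v :=
      (measurable_RR (N := N) hF.meas).comp (f := fun τ : ℝ => (τ, x, v)) (by fun_prop)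
    exact (a2.sub_const _).exp
  have mG := itN_gain_meas (N := N) hF.meas x v
  have hD0 : ∀ s, 0 ≤ (DL.gainP N (F s (mv x v s)) v).toReal *
      Real.exp (RR N F s x v - RR N F t x v) := fun s =>
    mul_nonneg ENNReal.toReal_nonneg (Real.exp_pos _).le
  have hint : IntegrableOn (fun s => (DL.gainP N (F s (mv x v s)) v).toReal *
      Real.exp (RR N F s x v - RR N F t x v)) (Ioc 0 t) := by
    refine Measure.integrableOn_of_bounded (M := B) (by simp)
      (mG.ennreal_toReal.mul mR).aestronglyMeasurable ?_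
    filter_upwards [ae_restrict_mem measurableSet_Ioc] with s hs
    rw [Real.norm_of_nonneg (hD0 s)]
    have h3 : Real.exp (RR N F s x v - RR N F t x v) ≤ 1 := by
      rw [Real.exp_le_one_iff]
      have := RR_le hF x v hs.1.le hs.2
      linarith
    exact (mul_le_of_le_one_right ENNReal.toReal_nonneg h3).trans (hB' s hs).1
  rw [h1, ENNReal.ofReal_add (mul_nonneg (hF.nonneg0 x v) (Real.exp_pos _).le)
    (integral_nonneg hD0), ofReal_integral_eq_lintegral_ofReal hint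
    (Eventually.of_forall hD0)]
  unfold PhL
  congr 1
  refine setLIntegral_congr_fun measurableSet_Ioc fun s hs => ?_
  simp only
  rw [mul_comm, ENNReal.ofReal_mul (Real.exp_pos _).le, ENNReal.ofReal_toReal (hB' s hs).2,
    gainP_eq N (fun u => hF.nonneg s _ u)]

/-- the iteration stays below `F` -/
theorem Gs_le_F (hF : DL.IsBM N F0 F) (hc : ∀ x v, c0 x v ≤ F0 x v) {t : ℝ} (ht : 0 ≤ t)
    (x : T3) (v : V) : Gs N c0 F t x v ≤ ENNReal.ofReal (F t x v) := by
  have key : ∀ k, ∀ t, 0 ≤ t → ∀ x v, itr N c0 F k t x v ≤ ENNReal.ofReal (F t x v) := by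
    intro k
    induction k with
    | zero => intro t _ x v; exact zero_le
    | succ k ih =>
      intro t ht x v
      set y : T3 := mv x v (-t) with hy
      have hyx : mv y v t = x := itN_mv_neg' x v t
      have h1 : itr N c0 F (k + 1) t x v = PhL N c0 F (itr N c0 F k) t y v := rfl
      rw [h1, ← hyx, expform hF ht y v]
      unfold PhL
      refine add_le_add ?_ ?_
      · exact ENNReal.ofReal_le_ofReal (mul_le_mul_of_nonneg_right (hc y v) (Real.exp_pos _).le)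
      · refine setLIntegral_mono' measurableSet_Ioc fun τ hτ => ?_
        refine mul_le_mul_right (mul_le_mul_right ?_ _) _
        exact GamN_mono (fun u => ih τ hτ.1.le _ u) (fun u => ih τ hτ.1.le _ u) v
  exact iSup_le fun k => key k t ht x v

theorem Gs_ne_top (hF : DL.IsBM N F0 F) (hc : ∀ x v, c0 x v ≤ F0 x v) {t : ℝ} (ht : 0 ≤ t)
    (x : T3) (v : V) : Gs N c0 F t x v ≠ ⊤ :=
  ((Gs_le_F hF hc ht x v).trans_lt ENNReal.ofReal_lt_top).ne

/-! ### invariance -/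

theorem itN_zsh_mv (x : T3) (v : V) (t a : ℝ) : mv (zsh x a) v t = zsh (mv x v t) a := by
  unfold mv zsh
  abel

theorem RR_zsh {a : ℝ} (hinv : ∀ t, 0 ≤ t → ∀ x v, F t (zsh x a) v = F t x v) (t : ℝ) (x : T3)
    (v : V) : RR N F t (zsh x a) v = RR N F t x v := by
  unfold RR
  refine setIntegral_congr_fun measurableSet_Ioc fun s hs => ?_
  have h1 : F s (mv (zsh x a) v s) = F s (mv x v s) := by
    funext u
    rw [itN_zsh_mv, hinv s hs.1.le]
  simp only [h1]

theorem itr_zsh {a : ℝ} (hinv : ∀ t, 0 ≤ t → ∀ x v, F t (zsh x a) v = F t x v)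
    (hc : ∀ x v, c0 (zsh x a) v = c0 x v) (k : ℕ) :
    ∀ t, ∀ x v, itr N c0 F k t (zsh x a) v = itr N c0 F k t x v := by
  induction k with
  | zero => intro t x v; rfl
  | succ k ih =>
    intro t x v
    change PhL N c0 F (itr N c0 F k) t (mv (zsh x a) v (-t)) v =
      PhL N c0 F (itr N c0 F k) t (mv x v (-t)) v
    rw [itN_zsh_mv]
    set y : T3 := mv x v (-t) with hy
    unfold PhL
    rw [RR_zsh hinv, hc]
    congr 1
    refine setLIntegral_congr_fun measurableSet_Ioc fun s hs => ?_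
    have h1 : F s (mv (zsh y a) v s) = F s (mv y v s) := by
      funext u
      rw [itN_zsh_mv, hinv s hs.1.le]
    have h2 : itr N c0 F k s (mv (zsh y a) v s) = itr N c0 F k s (mv y v s) := by
      funext u
      rw [itN_zsh_mv, ih s]
    simp only [h1, h2, RR_zsh hinv]

theorem Gs_zsh {a : ℝ} (hinv : ∀ t, 0 ≤ t → ∀ x v, F t (zsh x a) v = F t x v)
    (hc : ∀ x v, c0 (zsh x a) v = c0 x v) (t : ℝ) (x : T3) (v : V) :
    Gs N c0 F t (zsh x a) v = Gs N c0 F t x v := by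
  unfold Gs
  simp_rw [itr_zsh hinv hc]

end Vale.Agent.P140.NU.Nm
end
end

section

/-!
P140, non-uniqueness, module T (T4, T5): Carleman representation.
-/

open MeasureTheory Set Filter
open scoped ENNReal Topology

noncomputable section

namespace Vale.Agent.P140.NU

/-! ## T4: Carleman representation, orthonormal form -/

open Classical in
/-- first vector of a measurable frame of the plane orthogonal to `n` -/
def fr1 (n : V) : V :=
  if n 0 = 0 ∧ n 1 = 0 then !₂[1, 0, 0] else (√(n 0 ^ 2 + n 1 ^ 2))⁻¹ • !₂[-n 1, n 0, 0]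

open Classical in
/-- second vector of a measurable frame of the plane orthogonal to `n` -/
def fr2 (n : V) : V :=
  if n 0 = 0 ∧ n 1 = 0 then !₂[0, 1, 0] else
    (√(n 0 ^ 2 + n 1 ^ 2) * ‖n‖)⁻¹ • !₂[-(n 0 * n 2), -(n 1 * n 2), n 0 ^ 2 + n 1 ^ 2]

theorem measurable_coordT (i : Fin 3) : Measurable fun n : V => n i := by
  have : Continuous fun n : V => n i := by fun_prop
  exact this.measurable

theorem measurable_vecT {α : Type*} [MeasurableSpace α] {a b c : α → ℝ} (ha : Measurable a)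
    (hb : Measurable b) (hc : Measurable c) : Measurable fun x => (!₂[a x, b x, c x] : V) := by
  have h1 : Measurable fun x => (![a x, b x, c x] : Fin 3 → ℝ) := by
    rw [measurable_pi_iff]
    intro i
    fin_cases i
    · exact ha
    · exact hb
    · exact hc
  exact (WithLp.measurable_toLp 2 (Fin 3 → ℝ)).comp h1

theorem measurableSet_axT : MeasurableSet {n : V | n 0 = 0 ∧ n 1 = 0} :=
  (measurableSet_eq_fun (measurable_coordT 0) measurable_const).inter
    (measurableSet_eq_fun (measurable_coordT 1) measurable_const)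

theorem measurable_fr1 : Measurable fr1 := by
  unfold fr1
  refine Measurable.ite measurableSet_axT measurable_const ?_
  have h0 := measurable_coordT 0
  have h1 := measurable_coordT 1
  exact (((h0.pow_const 2).add (h1.pow_const 2)).sqrt.inv).smul
    (measurable_vecT h1.neg h0 measurable_const)

theorem measurable_fr2 : Measurable fr2 := by
  unfold fr2
  refine Measurable.ite measurableSet_axT measurable_const ?_
  have h0 := measurable_coordT 0
  have h1 := measurable_coordT 1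
  have h2 := measurable_coordT 2
  exact ((((h0.pow_const 2).add (h1.pow_const 2)).sqrt.mul measurable_norm).inv).smul
    (measurable_vecT (h0.mul h2).neg (h1.mul h2).neg ((h0.pow_const 2).add (h1.pow_const 2)))

theorem norm_sq3T (n : V) : ‖n‖ ^ 2 = n 0 ^ 2 + n 1 ^ 2 + n 2 ^ 2 := by
  rw [EuclideanSpace.norm_sq_eq, Fin.sum_univ_three]
  simp only [Real.norm_eq_abs, sq_abs]

theorem inner3T (n m : V) : inner ℝ n m = n 0 * m 0 + n 1 * m 1 + n 2 * m 2 := by
  rw [PiLp.inner_apply, Fin.sum_univ_three]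
  simp only [RCLike.inner_apply, conj_trivial]
  ring

theorem norm_eq_one_of_sqT {n : V} (h : n 0 ^ 2 + n 1 ^ 2 + n 2 ^ 2 = 1) : ‖n‖ = 1 := by
  rw [← norm_sq3T] at h
  exact (pow_eq_one_iff_of_nonneg (norm_nonneg _) two_ne_zero).1 h

/-- the two vectors are orthonormal and orthogonal to `n` -/
theorem fr_propsT {n : V} (hn : n ≠ 0) : ‖fr1 n‖ = 1 ∧ ‖fr2 n‖ = 1 ∧
    inner ℝ (fr1 n) (fr2 n) = (0 : ℝ) ∧ inner ℝ n (fr1 n) = (0 : ℝ) ∧
    inner ℝ n (fr2 n) = (0 : ℝ) := by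
  by_cases h : n 0 = 0 ∧ n 1 = 0
  · have e1 : fr1 n = !₂[1, 0, 0] := if_pos h
    have e2 : fr2 n = !₂[0, 1, 0] := if_pos h
    rw [e1, e2]
    refine ⟨norm_eq_one_of_sqT (by simp), norm_eq_one_of_sqT (by simp), ?_, ?_, ?_⟩
    · rw [inner3T]; simp
    · rw [inner3T]; simp [h.1]
    · rw [inner3T]; simp [h.2]
  · have e1 : fr1 n = (√(n 0 ^ 2 + n 1 ^ 2))⁻¹ • !₂[-n 1, n 0, 0] := if_neg h
    have e2 : fr2 n = (√(n 0 ^ 2 + n 1 ^ 2) * ‖n‖)⁻¹ •
      !₂[-(n 0 * n 2), -(n 1 * n 2), n 0 ^ 2 + n 1 ^ 2] := if_neg h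
    have hp : 0 < n 0 ^ 2 + n 1 ^ 2 := by
      rcases not_and_or.1 h with h' | h'
      · have := sq_pos_of_ne_zero h'
        positivity
      · have := sq_pos_of_ne_zero h'
        positivity
    obtain ⟨s, hs⟩ : ∃ s : ℝ, s = √(n 0 ^ 2 + n 1 ^ 2) := ⟨_, rfl⟩
    have hs2 : s ^ 2 = n 0 ^ 2 + n 1 ^ 2 := by rw [hs]; exact Real.sq_sqrt hp.le
    have hs0 : 0 < s := by rw [hs]; exact Real.sqrt_pos.2 hp
    obtain ⟨N, hN⟩ : ∃ N : ℝ, N = ‖n‖ := ⟨_, rfl⟩
    have hN0 : 0 < N := by rw [hN]; exact norm_pos_iff.2 hn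
    have hN2 : N ^ 2 = n 0 ^ 2 + n 1 ^ 2 + n 2 ^ 2 := by rw [hN]; exact norm_sq3T n
    rw [e1, e2, ← hs, ← hN]
    have c0 : ∀ (a x y z : ℝ), (a • (!₂[x, y, z] : V)) 0 = a * x := fun a x y z => by simp
    have c1 : ∀ (a x y z : ℝ), (a • (!₂[x, y, z] : V)) 1 = a * y := fun a x y z => by simp
    have c2 : ∀ (a x y z : ℝ), (a • (!₂[x, y, z] : V)) 2 = a * z := fun a x y z => by simp
    refine ⟨norm_eq_one_of_sqT ?_, norm_eq_one_of_sqT ?_, ?_, ?_, ?_⟩
    · rw [c0, c1, c2]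
      field_simp
      rw [hs2]
      ring
    · rw [c0, c1, c2]
      have hsN : (s * N) ^ 2 = (n 0 ^ 2 + n 1 ^ 2) * (n 0 ^ 2 + n 1 ^ 2 + n 2 ^ 2) := by
        rw [mul_pow, hs2, hN2]
      have hsN0 : s * N ≠ 0 := (mul_pos hs0 hN0).ne'
      have h3 : ((s * N)⁻¹ * -(n 0 * n 2)) ^ 2 + ((s * N)⁻¹ * -(n 1 * n 2)) ^ 2 +
          ((s * N)⁻¹ * (n 0 ^ 2 + n 1 ^ 2)) ^ 2 =
          ((s * N) ^ 2)⁻¹ * ((n 0 ^ 2 + n 1 ^ 2) * (n 0 ^ 2 + n 1 ^ 2 + n 2 ^ 2)) := by
        ring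
      rw [h3, ← hsN]
      exact inv_mul_cancel₀ (pow_ne_zero 2 hsN0)
    · rw [inner3T, c0, c1, c2, c0, c1, c2]
      ring
    · rw [inner3T, c0, c1, c2]
      ring
    · rw [inner3T, c0, c1, c2]
      ring

theorem frame_ofT {n b1 b2 : V} (hn : n ≠ 0) (h1 : ‖b1‖ = 1) (h2 : ‖b2‖ = 1)
    (h12 : inner ℝ b1 b2 = (0 : ℝ)) (hn1 : inner ℝ n b1 = (0 : ℝ))
    (hn2 : inner ℝ n b2 = (0 : ℝ)) : Frame (‖n‖⁻¹ • n) b1 b2 where
  norm0 := by
    rw [norm_smul, norm_inv, norm_norm]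
    exact inv_mul_cancel₀ (norm_ne_zero_iff.2 hn)
  norm1 := h1
  norm2 := h2
  in01 := by rw [inner_smul_left, hn1, mul_zero]
  in02 := by rw [inner_smul_left, hn2, mul_zero]
  in12 := h12

theorem frame_fr {n : V} (hn : n ≠ 0) : Frame (‖n‖⁻¹ • n) (fr1 n) (fr2 n) := by
  obtain ⟨h1, h2, h3, h4, h5⟩ := fr_propsT hn
  exact frame_ofT hn h1 h2 h3 h4 h5

/-- integral of `g` over the plane through `v` orthogonal to `n` -/
def plI (g : V → ℝ≥0∞) (v n : V) : ℝ≥0∞ := ∫⁻ q : ℝ × ℝ, g (v + (q.1 • fr1 n + q.2 • fr2 n))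

theorem lint_ind01T : ∫⁻ r : ℝ, (Icc (0 : ℝ) 1).indicator (fun _ => (1 : ℝ≥0∞)) r = 1 := by
  rw [lintegral_indicator measurableSet_Icc]
  simp

/-- a plane integral as a space integral -/
theorem Frame.plane {e b1 b2 : V} (h : Frame e b1 b2) {g : V → ℝ≥0∞} (hg : Measurable g) (v : V) :
    ∫⁻ q : ℝ × ℝ, g (v + (q.1 • b1 + q.2 • b2)) =
      ∫⁻ z : V, (Icc (0 : ℝ) 1).indicator (fun _ => (1 : ℝ≥0∞)) (inner ℝ e z) *
        g (v + (z - (inner ℝ e z : ℝ) • e)) := by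
  have mi : Measurable fun z : V => (inner ℝ e z : ℝ) := by fun_prop
  have m1 : Measurable ((Icc (0 : ℝ) 1).indicator (fun _ => (1 : ℝ≥0∞))) :=
    measurable_const.indicator measurableSet_Icc
  have mH : Measurable fun z : V => (Icc (0 : ℝ) 1).indicator (fun _ => (1 : ℝ≥0∞))
      (inner ℝ e z) * g (v + (z - (inner ℝ e z : ℝ) • e)) :=
    (m1.comp mi).mul (hg.comp (measurable_const.add (measurable_id.sub (mi.smul_const e))))
  rw [h.lintegral mH]
  have h1 : ∀ (a : ℝ) (q : ℝ × ℝ), (Icc (0 : ℝ) 1).indicator (fun _ => (1 : ℝ≥0∞))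
      (inner ℝ e (a • e + (q.1 • b1 + q.2 • b2))) * g (v + ((a • e + (q.1 • b1 + q.2 • b2)) -
        (inner ℝ e (a • e + (q.1 • b1 + q.2 • b2)) : ℝ) • e)) =
      (Icc (0 : ℝ) 1).indicator (fun _ => (1 : ℝ≥0∞)) a * g (v + (q.1 • b1 + q.2 • b2)) := by
    intro a q
    rw [h.inner_e, add_sub_cancel_left]
  simp only [h1]
  have mg : Measurable fun q : ℝ × ℝ => g (v + (q.1 • b1 + q.2 • b2)) := hg.comp (by fun_prop)
  have h2 : ∀ a : ℝ, ∫⁻ q : ℝ × ℝ, (Icc (0 : ℝ) 1).indicator (fun _ => (1 : ℝ≥0∞)) a *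
      g (v + (q.1 • b1 + q.2 • b2)) = (Icc (0 : ℝ) 1).indicator (fun _ => (1 : ℝ≥0∞)) a *
        ∫⁻ q : ℝ × ℝ, g (v + (q.1 • b1 + q.2 • b2)) := fun a => lintegral_const_mul _ mg
  simp only [h2]
  rw [lintegral_mul_const _ m1, lint_ind01T, one_mul]

/-- the plane integral in any orthonormal frame of the plane -/
theorem plI_eq {n b1 b2 : V} (hn : n ≠ 0) (h1 : ‖b1‖ = 1) (h2 : ‖b2‖ = 1)
    (h12 : inner ℝ b1 b2 = (0 : ℝ)) (hn1 : inner ℝ n b1 = (0 : ℝ)) (hn2 : inner ℝ n b2 = (0 : ℝ))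
    {g : V → ℝ≥0∞} (hg : Measurable g) (v : V) :
    plI g v n = ∫⁻ q : ℝ × ℝ, g (v + (q.1 • b1 + q.2 • b2)) := by
  unfold plI
  rw [(frame_fr hn).plane hg, (frame_ofT hn h1 h2 h12 hn1 hn2).plane hg]

theorem plI_smul {n : V} {c : ℝ} (hc : c ≠ 0) {g : V → ℝ≥0∞} (hg : Measurable g) (v : V) :
    plI g v (c • n) = plI g v n := by
  rcases eq_or_ne n 0 with h0 | h0
  · rw [h0, smul_zero]
  · have hcn : c • n ≠ 0 := smul_ne_zero hc h0
    obtain ⟨h1, h2, h3, h4, h5⟩ := fr_propsT hcn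
    rw [inner_smul_left] at h4 h5
    have h4' := (mul_eq_zero.1 h4).resolve_left hc
    have h5' := (mul_eq_zero.1 h5).resolve_left hc
    exact (plI_eq h0 h1 h2 h3 h4' h5' hg v).symm

theorem measurable_plArgT {α : Type*} [MeasurableSpace α] :
    Measurable fun r : (α × V × V) × (ℝ × ℝ) =>
      (r.1.1, r.1.2.1 + (r.2.1 • fr1 r.1.2.2 + r.2.2 • fr2 r.1.2.2)) := by
  have a1 : Measurable fun r : (α × V × V) × (ℝ × ℝ) => r.1.2.1 :=
    measurable_fst.comp (measurable_snd.comp measurable_fst)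
  have a2 : Measurable fun r : (α × V × V) × (ℝ × ℝ) => r.1.2.2 :=
    measurable_snd.comp (measurable_snd.comp measurable_fst)
  have a3 : Measurable fun r : (α × V × V) × (ℝ × ℝ) => r.2.1 :=
    measurable_fst.comp measurable_snd
  have a4 : Measurable fun r : (α × V × V) × (ℝ × ℝ) => r.2.2 :=
    measurable_snd.comp measurable_snd
  have a5 : Measurable fun r : (α × V × V) × (ℝ × ℝ) => r.1.1 :=
    measurable_fst.comp measurable_fst
  exact a5.prodMk (a1.add ((a3.smul (measurable_fr1.comp a2)).add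
    (a4.smul (measurable_fr2.comp a2))))

theorem measurable_plI {α : Type*} [MeasurableSpace α] {g : α → V → ℝ≥0∞}
    (hg : Measurable fun p : α × V => g p.1 p.2) :
    Measurable fun p : α × V × V => plI (g p.1) p.2.1 p.2.2 := by
  obtain ⟨G, hG⟩ : ∃ G : α × V → ℝ≥0∞, G = fun p => g p.1 p.2 := ⟨_, rfl⟩
  have mG : Measurable G := by rw [hG]; exact hg
  have m2 := mG.comp (measurable_plArgT (α := α))
  have m3 := Measurable.lintegral_prod_right' (ν := (volume : Measure (ℝ × ℝ))) m2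
  have e1 : (fun p : α × V × V => plI (g p.1) p.2.1 p.2.2) =
      fun p : α × V × V => ∫⁻ q : ℝ × ℝ, (G ∘ fun r : (α × V × V) × (ℝ × ℝ) =>
      (r.1.1, r.1.2.1 + (r.2.1 • fr1 r.1.2.2 + r.2.2 • fr2 r.1.2.2))) (p, q) := by
    funext p
    unfold plI
    refine lintegral_congr fun q => ?_
    rw [hG]
    rfl
  rw [e1]
  exact m3

theorem measurable_plI' {g : V → ℝ≥0∞} (hg : Measurable g) :
    Measurable fun p : V × V => plI g p.1 p.2 := by
  have hg' : Measurable fun p : Unit × V => g p.2 := hg.comp measurable_snd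
  have h := measurable_plI (α := Unit) (g := fun _ => g) hg'
  have h2 : Measurable fun p : V × V => ((), p.1, p.2) := by fun_prop
  have h3 := h.comp h2
  exact h3

/-- Carleman representation -/
theorem Gam_carleman {f g : V → ℝ≥0∞} (hf : Measurable f) (hg : Measurable g) (v : V) :
    Gam f g v = 2 * ∫⁻ u : V, ENNReal.ofReal ‖v - u‖⁻¹ * (f u * plI g v (v - u)) := by
  have mP : Measurable fun u : V => plI g v (v - u) := by
    have k1 : Measurable fun u : V => (v, v - u) :=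
      measurable_const.prodMk (measurable_const.sub measurable_id)
    have k2 := (measurable_plI' hg).comp k1
    exact k2
  have mfP : Measurable fun u : V => f u * plI g v (v - u) := hf.mul mP
  have h1 := line_polar mfP v
  have h2 : ∫⁻ y : V, ENNReal.ofReal ‖y - v‖⁻¹ * (f y * plI g v (v - y)) =
      ∫⁻ u : V, ENNReal.ofReal ‖v - u‖⁻¹ * (f u * plI g v (v - u)) :=
    lintegral_congr fun u => by rw [norm_sub_rev]
  rw [← h2, ← h1]
  unfold Gam
  have mB := meas_BgI hf hg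
  have mB' : Measurable fun p : V × S2 => ENNReal.ofReal |relA v p.1 p.2| *
      (f (post v p.1 p.2) * g (postStar v p.1 p.2)) := by
    have k1 : Measurable fun p : V × S2 => (v, p.1, p.2) := by fun_prop
    have k2 := mB.comp k1
    exact k2
  rw [lintegral_lintegral_swap mB'.aemeasurable]
  refine lintegral_congr fun o => ?_
  have ho : (o : V) ≠ 0 := by
    intro h
    have := norm_o o
    rw [h, norm_zero] at this
    exact zero_ne_one this
  have hF : Frame (o : V) (fr1 (o : V)) (fr2 (o : V)) := by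
    have := frame_fr ho
    rwa [norm_o, inv_one, one_smul] at this
  have mo2 : Measurable fun x : V => ENNReal.ofReal |relA v (v + x) o| *
      (f (post v (v + x) o) * g (postStar v (v + x) o)) := by
    have k1 : Measurable fun x : V => (v + x, o) :=
      (measurable_const.add measurable_id).prodMk measurable_const
    have k2 := mB'.comp k1
    exact k2
  rw [← lintegral_add_left_eq_self (μ := (volume : Measure V)) _ v]
  rw [hF.lintegral mo2]
  refine lintegral_congr fun a => ?_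
  have i1 : ∀ q : ℝ × ℝ, relA v (v + (a • (o : V) + (q.1 • fr1 (o : V) + q.2 • fr2 (o : V)))) o =
      -a := by
    intro q
    unfold relA
    rw [sub_add_cancel_left, inner_neg_left, real_inner_comm, hF.inner_e]
  have i2 : ∀ q : ℝ × ℝ, post v (v + (a • (o : V) + (q.1 • fr1 (o : V) + q.2 • fr2 (o : V)))) o =
      v + a • (o : V) := by
    intro q
    unfold post
    rw [i1]
    module
  have i3 : ∀ q : ℝ × ℝ, postStar v
      (v + (a • (o : V) + (q.1 • fr1 (o : V) + q.2 • fr2 (o : V)))) o =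
      v + (q.1 • fr1 (o : V) + q.2 • fr2 (o : V)) := by
    intro q
    unfold postStar
    rw [i1]
    module
  simp only [i1, i2, i3, abs_neg]
  have mg : Measurable fun q : ℝ × ℝ => g (v + (q.1 • fr1 (o : V) + q.2 • fr2 (o : V))) :=
    hg.comp (by fun_prop)
  have e1 : ∫⁻ q : ℝ × ℝ, ENNReal.ofReal |a| * (f (v + a • (o : V)) *
      g (v + (q.1 • fr1 (o : V) + q.2 • fr2 (o : V)))) =
      ENNReal.ofReal |a| * (f (v + a • (o : V)) * plI g v o) := by
    unfold plI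
    rw [← lintegral_const_mul _ mg, ← lintegral_const_mul _ (mg.const_mul _)]
  rw [e1]
  rcases eq_or_ne a 0 with ha | ha
  · rw [ha]; simp
  · rw [sub_add_cancel_left, ← neg_smul, plI_smul (neg_ne_zero.2 ha) hg]

/-! ## T5: Carleman representation, horizontal form -/

theorem Frame.expand {e b1 b2 : V} (h : Frame e b1 b2) {d : V} (hd : inner ℝ e d = (0 : ℝ)) :
    d = (inner ℝ b1 d : ℝ) • b1 + (inner ℝ b2 d : ℝ) • b2 := by
  obtain ⟨b, h0, h1, h2⟩ := h.exists_basis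
  have e1 := b.sum_repr' d
  rw [Fin.sum_univ_three, h0, h1, h2, hd, zero_smul, zero_add] at e1
  exact e1.symm

theorem lint_affineT (α : ℝ) {β : ℝ} (hβ : β ≠ 0) :
    ∫⁻ a : ℝ, (Icc (0 : ℝ) 1).indicator (fun _ => (1 : ℝ≥0∞)) (α + β * a) =
      ENNReal.ofReal |β⁻¹| := by
  have h1 : (fun a : ℝ => (Icc (0 : ℝ) 1).indicator (fun _ => (1 : ℝ≥0∞)) (α + β * a)) =
      ((β * ·) ⁻¹' Icc (-α) (1 - α)).indicator fun _ => 1 := by
    funext a
    simp only [indicator, mem_Icc, mem_preimage]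
    have h2 : (0 ≤ α + β * a ∧ α + β * a ≤ 1) ↔ (-α ≤ β * a ∧ β * a ≤ 1 - α) := by
      constructor
      · rintro ⟨h, h'⟩
        exact ⟨by linarith, by linarith⟩
      · rintro ⟨h, h'⟩
        exact ⟨by linarith, by linarith⟩
    simp only [h2]
  have hm : MeasurableSet ((β * ·) ⁻¹' Icc (-α) (1 - α)) :=
    measurableSet_Icc.preimage (measurable_const_mul β)
  rw [h1, lintegral_indicator hm, setLIntegral_const, one_mul, Real.volume_preimage_mul_left hβ,
    Real.volume_Icc]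
  have h3 : 1 - α - -α = 1 := by ring
  rw [h3, ENNReal.ofReal_one, mul_one]

/-- integral over the plane orthogonal to `n`, projected along the vertical direction -/
theorem plI_vert {n : V} (hn : n 2 ≠ 0) {g : V → ℝ≥0∞} (hg : Measurable g) (v : V) :
    plI g v n = ∫⁻ z : V, (Icc (0 : ℝ) 1).indicator (fun _ => (1 : ℝ≥0∞))
      (inner ℝ (‖n‖⁻¹ • n) z) * g (v + (z - (inner ℝ n z / n 2) • !₂[(0 : ℝ), 0, 1])) := by
  have hn0 : n ≠ 0 := by
    rintro rfl
    exact hn rfl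
  have hN0 : ‖n‖ ≠ 0 := norm_ne_zero_iff.2 hn0
  have h := frame_fr hn0
  obtain ⟨e, he⟩ : ∃ e : V, e = ‖n‖⁻¹ • n := ⟨_, rfl⟩
  rw [← he] at h ⊢
  obtain ⟨E, hE⟩ : ∃ E : V, E = !₂[(0 : ℝ), 0, 1] := ⟨_, rfl⟩
  have hnE : inner ℝ n E = n 2 := by rw [hE, inner3T]; simp
  rw [← hE]
  have hne : n = ‖n‖ • e := by rw [he, smul_smul, mul_inv_cancel₀ hN0, one_smul]
  have m1 : Measurable ((Icc (0 : ℝ) 1).indicator (fun _ => (1 : ℝ≥0∞))) :=
    measurable_const.indicator measurableSet_Icc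
  have mi : Measurable fun z : V => (inner ℝ e z : ℝ) := by fun_prop
  have mn : Measurable fun z : V => (inner ℝ n z : ℝ) := by fun_prop
  have mp : Measurable fun z : V => v + (z - (inner ℝ n z / n 2) • E) :=
    measurable_const.add (measurable_id.sub ((mn.div_const _).smul_const E))
  have mK : Measurable fun z : V => (Icc (0 : ℝ) 1).indicator (fun _ => (1 : ℝ≥0∞))
      (inner ℝ e z) * g (v + (z - (inner ℝ n z / n 2) • E)) := (m1.comp mi).mul (hg.comp mp)
  rw [h.lintegral mK]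
  -- the displacement inside the plane
  obtain ⟨d, hd⟩ : ∃ d : V, d = e - (‖n‖ / n 2) • E := ⟨_, rfl⟩
  have hed : inner ℝ e d = (0 : ℝ) := by
    have h1 : inner ℝ n d = (0 : ℝ) := by
      rw [hd, inner_sub_right, inner_smul_right, hnE, he, inner_smul_right,
        real_inner_self_eq_norm_sq]
      field_simp
      ring
    rw [he, inner_smul_left, h1, mul_zero]
  have hdd := h.expand hed
  obtain ⟨x, hx⟩ : ∃ x : ℝ, x = inner ℝ (fr1 n) d := ⟨_, rfl⟩
  obtain ⟨y, hy⟩ : ∃ y : ℝ, y = inner ℝ (fr2 n) d := ⟨_, rfl⟩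
  rw [← hx, ← hy] at hdd
  have h2 : ∀ a : ℝ, ∫⁻ q : ℝ × ℝ, (Icc (0 : ℝ) 1).indicator (fun _ => (1 : ℝ≥0∞))
      (inner ℝ e (a • e + (q.1 • fr1 n + q.2 • fr2 n))) *
        g (v + ((a • e + (q.1 • fr1 n + q.2 • fr2 n)) -
          (inner ℝ n (a • e + (q.1 • fr1 n + q.2 • fr2 n)) / n 2) • E)) =
      (Icc (0 : ℝ) 1).indicator (fun _ => (1 : ℝ≥0∞)) a * plI g v n := by
    intro a
    have k1 : ∀ q : ℝ × ℝ, (Icc (0 : ℝ) 1).indicator (fun _ => (1 : ℝ≥0∞))
      (inner ℝ e (a • e + (q.1 • fr1 n + q.2 • fr2 n))) *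
        g (v + ((a • e + (q.1 • fr1 n + q.2 • fr2 n)) -
          (inner ℝ n (a • e + (q.1 • fr1 n + q.2 • fr2 n)) / n 2) • E)) =
        (Icc (0 : ℝ) 1).indicator (fun _ => (1 : ℝ≥0∞)) a *
          (fun q : ℝ × ℝ => g (v + (q.1 • fr1 n + q.2 • fr2 n))) (q + (a * x, a * y)) := by
      intro q
      have i1 : inner ℝ n (a • e + (q.1 • fr1 n + q.2 • fr2 n)) = ‖n‖ * a := by
        nth_rewrite 1 [hne]
        rw [inner_smul_left, h.inner_e]
        simp
      rw [h.inner_e, i1]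
      congr 2
      simp only [Prod.fst_add, Prod.snd_add]
      have k2 : (q.1 + a * x) • fr1 n + (q.2 + a * y) • fr2 n =
          q.1 • fr1 n + q.2 • fr2 n + a • d := by
        rw [hdd]
        module
      rw [k2, hd]
      have k3 : ‖n‖ * a / n 2 = a * (‖n‖ / n 2) := by ring
      rw [k3]
      module
    simp only [k1]
    have mq : Measurable fun q : ℝ × ℝ => g (v + (q.1 • fr1 n + q.2 • fr2 n)) :=
      hg.comp (by fun_prop)
    have mq' : Measurable fun q : ℝ × ℝ =>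
        (fun q : ℝ × ℝ => g (v + (q.1 • fr1 n + q.2 • fr2 n))) (q + (a * x, a * y)) :=
      mq.comp (measurable_id.add_const _)
    rw [lintegral_const_mul _ mq']
    have k4 := lintegral_add_right_eq_self (μ := (volume : Measure (ℝ × ℝ)))
      (fun q : ℝ × ℝ => g (v + (q.1 • fr1 n + q.2 • fr2 n))) (a * x, a * y)
    rw [k4]
    rfl
  simp only [h2]
  rw [lintegral_mul_const _ m1, lint_ind01T, one_mul]

theorem plI_horizontal {n : V} (hn : n 2 ≠ 0) {g : V → ℝ≥0∞} (hg : Measurable g) (v : V) :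
    plI g v n = ENNReal.ofReal (‖n‖ / |n 2|) *
      ∫⁻ q : ℝ × ℝ, g (v + !₂[q.1, q.2, -(q.1 * n 0 + q.2 * n 1) / n 2]) := by
  have hn0 : n ≠ 0 := by
    rintro rfl
    exact hn rfl
  have hN0 : ‖n‖ ≠ 0 := norm_ne_zero_iff.2 hn0
  rw [plI_vert hn hg]
  have m1 : Measurable ((Icc (0 : ℝ) 1).indicator (fun _ => (1 : ℝ≥0∞))) :=
    measurable_const.indicator measurableSet_Icc
  have mi : Measurable fun z : V => (inner ℝ (‖n‖⁻¹ • n) z : ℝ) := by fun_prop
  have mn : Measurable fun z : V => (inner ℝ n z : ℝ) := by fun_prop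
  have mp : Measurable fun z : V => v + (z - (inner ℝ n z / n 2) • !₂[(0 : ℝ), 0, 1]) :=
    measurable_const.add (measurable_id.sub ((mn.div_const _).smul_const _))
  have mK : Measurable fun z : V => (Icc (0 : ℝ) 1).indicator (fun _ => (1 : ℝ≥0∞))
      (inner ℝ (‖n‖⁻¹ • n) z) * g (v + (z - (inner ℝ n z / n 2) • !₂[(0 : ℝ), 0, 1])) :=
    (m1.comp mi).mul (hg.comp mp)
  rw [frame_std.lintegral mK]
  have mq : Measurable fun q : ℝ × ℝ => g (v + !₂[q.1, q.2, -(q.1 * n 0 + q.2 * n 1) / n 2]) := by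
    have k1 : Measurable fun q : ℝ × ℝ => -(q.1 * n 0 + q.2 * n 1) / n 2 := by fun_prop
    exact hg.comp (measurable_const.add (measurable_vecT measurable_fst measurable_snd k1))
  have k1 : ∀ (a : ℝ) (q : ℝ × ℝ), (Icc (0 : ℝ) 1).indicator (fun _ => (1 : ℝ≥0∞))
      (inner ℝ (‖n‖⁻¹ • n) (a • (!₂[(0 : ℝ), 0, 1] : V) + (q.1 • !₂[(1 : ℝ), 0, 0] +
        q.2 • !₂[(0 : ℝ), 1, 0]))) * g (v + ((a • (!₂[(0 : ℝ), 0, 1] : V) +
        (q.1 • !₂[(1 : ℝ), 0, 0] + q.2 • !₂[(0 : ℝ), 1, 0])) -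
        (inner ℝ n (a • (!₂[(0 : ℝ), 0, 1] : V) +
        (q.1 • !₂[(1 : ℝ), 0, 0] + q.2 • !₂[(0 : ℝ), 1, 0])) / n 2) • !₂[(0 : ℝ), 0, 1])) =
      (Icc (0 : ℝ) 1).indicator (fun _ => (1 : ℝ≥0∞))
        (‖n‖⁻¹ * (n 0 * q.1 + n 1 * q.2) + (‖n‖⁻¹ * n 2) * a) *
        g (v + !₂[q.1, q.2, -(q.1 * n 0 + q.2 * n 1) / n 2]) := by
    intro a q
    have z1 : (a • (!₂[(0 : ℝ), 0, 1] : V) + (q.1 • !₂[(1 : ℝ), 0, 0] +
        q.2 • !₂[(0 : ℝ), 1, 0])) = !₂[q.1, q.2, a] := by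
      ext i
      fin_cases i <;> simp
    have z2 : inner ℝ n (!₂[q.1, q.2, a] : V) = n 0 * q.1 + n 1 * q.2 + n 2 * a := by
      rw [inner3T]
      simp
    have z3 : (!₂[q.1, q.2, a] : V) -
        ((n 0 * q.1 + n 1 * q.2 + n 2 * a) / n 2) • !₂[(0 : ℝ), 0, 1] =
        !₂[q.1, q.2, -(q.1 * n 0 + q.2 * n 1) / n 2] := by
      ext i
      fin_cases i
      · simp
      · simp
      · simp
        field_simp
        ring
    rw [z1, inner_smul_left, z2, z3]
    congr 2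
    simp only [conj_trivial]
    ring
  simp only [k1]
  rw [lintegral_lintegral_swap]
  · have k2 : ∀ q : ℝ × ℝ, ∫⁻ a : ℝ, (Icc (0 : ℝ) 1).indicator (fun _ => (1 : ℝ≥0∞))
        (‖n‖⁻¹ * (n 0 * q.1 + n 1 * q.2) + (‖n‖⁻¹ * n 2) * a) *
        g (v + !₂[q.1, q.2, -(q.1 * n 0 + q.2 * n 1) / n 2]) =
        ENNReal.ofReal (‖n‖ / |n 2|) *
          g (v + !₂[q.1, q.2, -(q.1 * n 0 + q.2 * n 1) / n 2]) := by
      intro q
      have m2 : Measurable fun a : ℝ => (Icc (0 : ℝ) 1).indicator (fun _ => (1 : ℝ≥0∞))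
        (‖n‖⁻¹ * (n 0 * q.1 + n 1 * q.2) + (‖n‖⁻¹ * n 2) * a) := m1.comp (by fun_prop)
      rw [lintegral_mul_const _ m2, lint_affineT _ (mul_ne_zero (inv_ne_zero hN0) hn)]
      congr 2
      rw [mul_inv, inv_inv, abs_mul, abs_norm, abs_inv, div_eq_mul_inv]
    simp only [k2]
    rw [lintegral_const_mul _ mq]
  · apply Measurable.aemeasurable
    apply Measurable.mul
    · apply m1.comp
      fun_prop
    · exact mq.comp measurable_snd

theorem ae_coord_neT (i : Fin 3) (c : ℝ) : ∀ᵐ u : V, u i ≠ c := by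
  have h1 : ∀ᵐ y : Fin 3 → ℝ, y i ≠ c :=
    Measure.ae_eval_ne (fun _ : Fin 3 => (volume : Measure ℝ)) i c
  exact (PiLp.volume_preserving_ofLp (Fin 3)).quasiMeasurePreserving.ae h1

theorem Gam_carleman_h {f g : V → ℝ≥0∞} (hf : Measurable f) (hg : Measurable g) (v : V) :
    Gam f g v = 2 * ∫⁻ u : V, ENNReal.ofReal |v 2 - u 2|⁻¹ * (f u *
      ∫⁻ q : ℝ × ℝ, g (v + !₂[q.1, q.2,
        -(q.1 * (v 0 - u 0) + q.2 * (v 1 - u 1)) / (v 2 - u 2)])) := by
  rw [Gam_carleman hf hg]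
  congr 1
  refine lintegral_congr_ae ?_
  filter_upwards [ae_coord_neT 2 (v 2)] with u hu
  have h2 : (v - u) 2 ≠ 0 := by
    rw [PiLp.sub_apply]
    exact sub_ne_zero.2 (Ne.symm hu)
  have h0 : v - u ≠ 0 := by
    intro h
    apply h2
    rw [h]
    rfl
  rw [plI_horizontal h2 hg]
  simp only [PiLp.sub_apply] at h2 ⊢
  have h3 : ENNReal.ofReal ‖v - u‖⁻¹ * ENNReal.ofReal (‖v - u‖ / |v 2 - u 2|) =
      ENNReal.ofReal |v 2 - u 2|⁻¹ := by
    rw [← ENNReal.ofReal_mul (by positivity)]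
    congr 1
    have := norm_ne_zero_iff.2 h0
    field_simp
  rw [← h3]
  ring

theorem Gam_carleman_hq {f g : V → ℝ≥0∞} (hf : Measurable f) (hg : Measurable g) (v : V) :
    Gam f g v = 2 * ∫⁻ u : V, f u * (ENNReal.ofReal |v 2 - u 2|⁻¹ * ∫⁻ q : ℝ × ℝ,
      g !₂[q.1, q.2, v 2 - ((q.1 - v 0) * (v 0 - u 0) + (q.2 - v 1) * (v 1 - u 1)) /
        (v 2 - u 2)]) := by
  rw [Gam_carleman_h hf hg]
  congr 1
  refine lintegral_congr fun u => ?_
  have h1 : ∫⁻ q : ℝ × ℝ, g (v + !₂[q.1, q.2,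
        -(q.1 * (v 0 - u 0) + q.2 * (v 1 - u 1)) / (v 2 - u 2)]) =
      ∫⁻ q : ℝ × ℝ, g !₂[q.1, q.2, v 2 - ((q.1 - v 0) * (v 0 - u 0) +
        (q.2 - v 1) * (v 1 - u 1)) / (v 2 - u 2)] := by
    rw [← lintegral_add_left_eq_self (μ := (volume : Measure (ℝ × ℝ))) (fun q : ℝ × ℝ =>
      g !₂[q.1, q.2, v 2 - ((q.1 - v 0) * (v 0 - u 0) +
        (q.2 - v 1) * (v 1 - u 1)) / (v 2 - u 2)]) (v 0, v 1)]
    refine lintegral_congr fun q => ?_
    congr 1
    ext i
    fin_cases i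
    · simp
    · simp
    · simp
      ring
  rw [h1]
  ring

end Vale.Agent.P140.NU
end
end

section

/-!
P140, module S: measurability and algebra of the generalized gain operator.
-/

open MeasureTheory Set Filter
open scoped ENNReal Topology

noncomputable section

namespace Vale.Agent.P140.NU.S

theorem cont_vec : Continuous fun p : (ℝ × ℝ) × ℝ => vec p.1 p.2 := by
  unfold vec
  refine (PiLp.continuous_toLp 2 _).comp (continuous_pi fun i => ?_)
  fin_cases i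
  · exact continuous_fst.fst
  · exact continuous_fst.snd
  · exact continuous_snd

theorem meas_vec : Measurable fun p : (ℝ × ℝ) × ℝ => vec p.1 p.2 := cont_vec.measurable

theorem meas_hgt : Measurable fun p : V × V × (ℝ × ℝ) => hgt p.1 p.2.1 p.2.2 := by
  unfold hgt
  have mv : ∀ i : Fin 3, Measurable fun p : V × V × (ℝ × ℝ) => p.1 i := fun i =>
    (measurable_coord i).comp measurable_fst
  have mu : ∀ i : Fin 3, Measurable fun p : V × V × (ℝ × ℝ) => p.2.1 i := fun i =>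
    (measurable_coord i).comp measurable_snd.fst
  have m1 : Measurable fun p : V × V × (ℝ × ℝ) => p.2.2.1 := measurable_snd.snd.fst
  have m2 : Measurable fun p : V × V × (ℝ × ℝ) => p.2.2.2 := measurable_snd.snd.snd
  exact (mv 2).sub ((((m1.sub (mv 0)).mul ((mv 0).sub (mu 0))).add
    ((m2.sub (mv 1)).mul ((mv 1).sub (mu 1)))).div ((mv 2).sub (mu 2)))

theorem meas_gr : Measurable fun p : V × V × (ℝ × ℝ) => gr p.1 p.2.1 p.2.2 :=
  meas_vec.comp (measurable_snd.snd.prodMk meas_hgt)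

theorem meas_ind {α : Type*} [MeasurableSpace α] {p : α → Prop} (h : MeasurableSet {a | p a}) :
    Measurable fun a => ind (p a) := by
  classical
  unfold ind
  exact Measurable.ite h measurable_const measurable_const

theorem meas_Ga : Measurable fun p : V × V × V => Ga p.1 p.2.1 p.2.2 := by
  unfold Ga Wt
  have m1 : Measurable fun p : V × V × V => ENNReal.ofReal (Real.exp (-(‖p.2.2‖ ^ 2 / 8))) :=
    (Real.measurable_exp.comp ((measurable_snd.snd.norm.pow_const 2).div_const 8).neg).ennreal_ofReal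
  have m2 : Measurable fun p : V × V × V => ENNReal.ofReal ‖p.2.2 - p.1‖ ^ (-(3 / 2) : ℝ) :=
    (measurable_snd.snd.sub measurable_fst).norm.ennreal_ofReal.pow_const _
  have m3 : Measurable fun p : V × V × V => ENNReal.ofReal ‖p.2.2 - p.2.1‖ ^ (-(3 / 2) : ℝ) :=
    (measurable_snd.snd.sub measurable_snd.fst).norm.ennreal_ofReal.pow_const _
  exact m1.mul ((measurable_const.add (m2.add m3) :))

theorem meas_us (P : Par) (s : ℝ) : Measurable fun x : T3 => us P s x := by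
  unfold us
  have m0 : Measurable fun x : T3 => P.w * (rep x 0 / rr x) :=
    ((measurable_rep 0).div measurable_rr).const_mul _
  have m1 : Measurable fun x : T3 => P.w * (rep x 1 / rr x) :=
    ((measurable_rep 1).div measurable_rr).const_mul _
  exact meas_vec.comp ((m0.prodMk m1).prodMk measurable_const)

theorem meas_Ph (P : Par) : Measurable fun p : T3 × V => Ph P p.1 p.2 := by
  have h0 : Measurable fun p : T3 × V => ((us P 1 p.1, us P (-1) p.1, p.2) : V × V × V) :=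
    ((meas_us P 1).comp measurable_fst).prodMk
      (((meas_us P (-1)).comp measurable_fst).prodMk measurable_snd)
  have h1 := meas_Ga.comp h0
  exact h1

theorem meas_pl {α : Type*} [MeasurableSpace α] {v u : α → V} {G : α → V → ℝ≥0∞}
    (hv : Measurable v) (hu : Measurable u) (hG : Measurable fun p : α × V => G p.1 p.2) :
    Measurable fun a => pl (v a) (u a) (G a) := by
  unfold pl
  have m1 : Measurable fun a => ENNReal.ofReal |v a 2 - u a 2|⁻¹ :=
    (((measurable_coord 2).comp hv).sub ((measurable_coord 2).comp hu)).abs.inv.ennreal_ofReal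
  have h0 : Measurable fun p : α × (ℝ × ℝ) => ((v p.1, u p.1, p.2) : V × V × (ℝ × ℝ)) :=
    (hv.comp measurable_fst).prodMk ((hu.comp measurable_fst).prodMk measurable_snd)
  have h1 := meas_gr.comp h0
  have h2 : Measurable fun p : α × (ℝ × ℝ) => ((p.1, gr (v p.1) (u p.1) p.2) : α × V) :=
    measurable_fst.prodMk h1
  have h3 := hG.comp h2
  have m2 : Measurable fun p : α × (ℝ × ℝ) => G p.1 (gr (v p.1) (u p.1) p.2) := h3
  have m3 : Measurable fun a => ∫⁻ q : ℝ × ℝ, G a (gr (v a) (u a) q) :=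
    m2.lintegral_prod_right'
  exact m1.mul m3

theorem pl_mono {v u : V} {f g : V → ℝ≥0∞} (h : ∀ w, f w ≤ g w) : pl v u f ≤ pl v u g :=
  mul_le_mul' le_rfl (lintegral_mono fun _ => h _)

theorem meas_gr_right (v u : V) : Measurable fun q : ℝ × ℝ => gr v u q := by
  have h0 : Measurable fun q : ℝ × ℝ => ((v, u, q) : V × V × (ℝ × ℝ)) :=
    measurable_const.prodMk (measurable_const.prodMk measurable_id)
  have h1 := meas_gr.comp h0
  exact h1

theorem meas_comp_gr (v u : V) {f : V → ℝ≥0∞} (hf : Measurable f) :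
    Measurable fun q : ℝ × ℝ => f (gr v u q) := by
  have h1 := hf.comp (meas_gr_right v u)
  exact h1

theorem pl_add {v u : V} {f g : V → ℝ≥0∞} (hf : Measurable f) :
    pl v u (fun w => f w + g w) = pl v u f + pl v u g := by
  unfold pl
  rw [← mul_add, ← lintegral_add_left (meas_comp_gr v u hf)]

theorem pl_const_mul {v u : V} {f : V → ℝ≥0∞} (c : ℝ≥0∞) (hf : Measurable f) :
    pl v u (fun w => c * f w) = c * pl v u f := by
  unfold pl
  rw [mul_left_comm c, ← lintegral_const_mul c (meas_comp_gr v u hf)]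

theorem KG_mono {P : Par} {n : ℕ} {t : ℝ} {x : T3} {v : V} {G G' : V → V → ℝ≥0∞}
    (h : ∀ u w, cf P n t x u ≠ 0 → G u w ≤ G' u w) : KG P n t x v G ≤ KG P n t x v G' := by
  unfold KG
  refine mul_le_mul' le_rfl (lintegral_mono fun u => ?_)
  by_cases hc : cf P n t x u = 0
  · simp [hc]
  · exact mul_le_mul' le_rfl (pl_mono fun w => h u w hc)

theorem meas_cf_right (P : Par) (n : ℕ) (t : ℝ) (x : T3) : Measurable fun u => cf P n t x u := by
  have h0 : Measurable fun u : V => ((t, x, u) : ℝ × T3 × V) :=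
    measurable_const.prodMk (measurable_const.prodMk measurable_id)
  have h1 := (measurable_cf P n).comp h0
  exact h1

theorem meas_right {G : V → V → ℝ≥0∞} (hG : Measurable fun p : V × V => G p.1 p.2) (u : V) :
    Measurable (G u) := by
  have h0 : Measurable fun w : V => ((u, w) : V × V) := measurable_const.prodMk measurable_id
  have h1 := hG.comp h0
  exact h1

theorem meas_cf_pl (P : Par) (n : ℕ) (t : ℝ) (x : T3) (v : V) {G : V → V → ℝ≥0∞}
    (hG : Measurable fun p : V × V => G p.1 p.2) :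
    Measurable fun u => cf P n t x u * pl v u (G u) :=
  (meas_cf_right P n t x).mul (meas_pl (α := V) (v := fun _ => v) (u := fun u => u)
    (G := fun u => G u) measurable_const measurable_id hG)

theorem KG_add {P : Par} {n : ℕ} {t : ℝ} {x : T3} {v : V} {G G' : V → V → ℝ≥0∞}
    (hG : Measurable fun p : V × V => G p.1 p.2) :
    KG P n t x v (fun u w => G u w + G' u w) = KG P n t x v G + KG P n t x v G' := by
  unfold KG
  rw [← mul_add, ← lintegral_add_left (meas_cf_pl P n t x v hG)]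
  congr 1
  refine lintegral_congr fun u => ?_
  have hu : Measurable (G u) := meas_right hG u
  rw [pl_add hu, mul_add]

theorem KG_const_mul {P : Par} {n : ℕ} {t : ℝ} {x : T3} {v : V} {G : V → V → ℝ≥0∞} (c : ℝ≥0∞)
    (hG : Measurable fun p : V × V => G p.1 p.2) :
    KG P n t x v (fun u w => c * G u w) = c * KG P n t x v G := by
  unfold KG
  rw [mul_left_comm, ← lintegral_const_mul c (meas_cf_pl P n t x v hG)]
  congr 1
  refine lintegral_congr fun u => ?_
  have hu : Measurable (G u) := meas_right hG u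
  rw [pl_const_mul c hu, mul_left_comm]

/-- Carleman representation; from `Gam_carleman_h` of module T (`Vale.Agent.P140.NU.T.Main`) -/
theorem KK_KG {P : Par} {n : ℕ} {t : ℝ} {x : T3} {v : V} {f : T3 → V → ℝ≥0∞}
    (hf : Measurable (f x)) : KK P n t f x v = KG P n t x v fun _ w => f x w := by
  unfold KK KG pl gr vec hgt
  rw [Gam_carleman_hq (meas_cf_right P n t x) hf v, ← mul_assoc]
  norm_num

theorem UK_KG {P : Par} {n : ℕ} {t1 t : ℝ} {x : T3} {v : V} {f : ℝ → T3 → V → ℝ≥0∞}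
    (hf : Measurable fun p : ℝ × T3 × V => f p.1 p.2.1 p.2.2) :
    UK P n t1 f t x v = ∫⁻ τ in Icc t1 t, KG P n τ (mv x v (τ - t)) v
      fun _ w => f τ (mv x v (τ - t)) w := by
  unfold UK
  refine lintegral_congr fun τ => ?_
  have h0 : Measurable fun w : V => ((τ, mv x v (τ - t), w) : ℝ × T3 × V) :=
    measurable_const.prodMk (measurable_const.prodMk measurable_id)
  have h1 := hf.comp h0
  exact KK_KG h1

theorem meas_UK {P : Par} {n : ℕ} {t1 : ℝ} {f : ℝ → T3 → V → ℝ≥0∞}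
    (hf : Measurable fun p : ℝ × T3 × V => f p.1 p.2.1 p.2.2) :
    Measurable fun p : ℝ × T3 × V => UK P n t1 f p.1 p.2.1 p.2.2 :=
  measurable_UK P n t1 hf

theorem UK_mono {P : Par} {n : ℕ} {t1 t : ℝ} {x : T3} {v : V} {f g : ℝ → T3 → V → ℝ≥0∞}
    (h : ∀ τ ∈ Icc t1 t, ∀ x v, f τ x v ≤ g τ x v) :
    UK P n t1 f t x v ≤ UK P n t1 g t x v := by
  unfold UK
  refine setLIntegral_mono' measurableSet_Icc fun τ hτ => ?_
  unfold KK Gam
  refine mul_le_mul' le_rfl (lintegral_mono fun w => lintegral_mono fun ω => ?_)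
  exact mul_le_mul' le_rfl (mul_le_mul' le_rfl (h τ hτ _ _))

end Vale.Agent.P140.NU.S
end
end

section

/-!
P140, module S: integrals of the singular Gaussian over planes.
-/

open MeasureTheory Set Filter
open scoped ENNReal Topology

noncomputable section

namespace Vale.Agent.P140.NU.S

/-- a Gaussian in the plane -/
def gE (p : ℝ × ℝ) : ℝ≥0∞ := ENNReal.ofReal (Real.exp (-(p.1 ^ 2 + p.2 ^ 2) / 16))

theorem measurable_gE : Measurable gE := by
  unfold gE
  fun_prop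

theorem gE_fin : ∃ C : ℝ, 0 < C ∧ ∫⁻ p, gE p ≤ ENNReal.ofReal C := by
  have h1 : Integrable (fun x : ℝ => Real.exp (-(1 / 16) * x ^ 2)) :=
    integrable_exp_neg_mul_sq (by norm_num)
  have h2 := h1.mul_prod h1
  have h3 : (fun p : ℝ × ℝ => Real.exp (-(p.1 ^ 2 + p.2 ^ 2) / 16)) =
      fun p : ℝ × ℝ => Real.exp (-(1 / 16) * p.1 ^ 2) * Real.exp (-(1 / 16) * p.2 ^ 2) := by
    funext p
    rw [← Real.exp_add]
    congr 1
    ring
  have h4 : Integrable (fun p : ℝ × ℝ => Real.exp (-(p.1 ^ 2 + p.2 ^ 2) / 16)) := by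
    rw [h3]; exact h2
  have h5 : ∫⁻ p, gE p < ⊤ := h4.lintegral_lt_top
  refine ⟨(∫⁻ p, gE p).toReal + 1, by positivity, ?_⟩
  rw [ENNReal.ofReal_add ENNReal.toReal_nonneg zero_le_one, ENNReal.ofReal_toReal h5.ne]
  exact le_self_add

/-- the singular function of the plane -/
def sg2 (a0 b0 : ℝ) (p : ℝ × ℝ) : ℝ≥0∞ :=
  ENNReal.ofReal ((p.1 - a0) ^ 2 + (p.2 - b0) ^ 2) ^ (-(3 / 4) : ℝ)

theorem measurable_sg2 (a0 b0 : ℝ) : Measurable (sg2 a0 b0) := by
  unfold sg2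
  apply Measurable.pow_const
  fun_prop

theorem sing_leT {w a : V} {x : ℝ} (hx : x ≤ ‖w - a‖ ^ 2) :
    ENNReal.ofReal ‖w - a‖ ^ (-(3 / 2) : ℝ) ≤ ENNReal.ofReal x ^ (-(3 / 4) : ℝ) := by
  have h1 : ENNReal.ofReal ‖w - a‖ ^ (-(3 / 2) : ℝ) =
      ENNReal.ofReal (‖w - a‖ ^ 2) ^ (-(3 / 4) : ℝ) := by
    rw [ENNReal.ofReal_pow (norm_nonneg _), ← ENNReal.rpow_natCast, ← ENNReal.rpow_mul]
    norm_num
  rw [h1, ENNReal.rpow_neg, ENNReal.rpow_neg, ENNReal.inv_le_inv]
  exact ENNReal.rpow_le_rpow (ENNReal.ofReal_le_ofReal hx) (by norm_num)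

theorem pl_monoT {v u : V} {f g : V → ℝ≥0∞} (h : ∀ w, f w ≤ g w) : pl v u f ≤ pl v u g := by
  unfold pl
  gcongr
  exact h _

theorem pl_const_mulT {v u : V} {c : ℝ≥0∞} (hc : c ≠ ⊤) (f : V → ℝ≥0∞) :
    pl v u (fun w => c * f w) = c * pl v u f := by
  unfold pl
  rw [lintegral_const_mul' _ _ hc, mul_left_comm]

theorem measurable_WtT (a b : V) : Measurable (Wt a b) := by
  unfold Wt
  apply Measurable.const_add
  apply Measurable.add
  · apply Measurable.pow_const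
    fun_prop
  · apply Measurable.pow_const
    fun_prop

theorem measurable_ind_memT {A : Set V} (hA : MeasurableSet A) :
    Measurable fun w => ind (w ∈ A) := by
  classical
  unfold ind
  exact Measurable.ite hA measurable_const measurable_const

/-- the singular weight in a frame -/
theorem Wt_frameT {v y e1 e2 : V} (hf : IsFr y e1 e2) (a b : V) (p : ℝ × ℝ) :
    Wt a b (v + p.1 • e1 + p.2 • e2) ≤
      1 + (sg2 (inner ℝ (a - v) e1) (inner ℝ (a - v) e2) p +
        sg2 (inner ℝ (b - v) e1) (inner ℝ (b - v) e2) p) := by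
  unfold Wt sg2
  gcongr
  · exact sing_leT (frame_dist hf a p)
  · exact sing_leT (frame_dist hf b p)

theorem lint_sg2_gE {C : ℝ} (hC : ∀ a0 b0 : ℝ,
    ∫⁻ p : ℝ × ℝ, ENNReal.ofReal ((p.1 - a0) ^ 2 + (p.2 - b0) ^ 2) ^ (-(3 / 4) : ℝ) *
      ENNReal.ofReal (Real.exp (-(p.1 ^ 2 + p.2 ^ 2) / 16)) ≤ ENNReal.ofReal C)
    (a0 b0 : ℝ) (c : ℝ × ℝ) : ∫⁻ p, sg2 a0 b0 p * gE (p - c) ≤ ENNReal.ofReal C := by
  rw [← lintegral_add_right_eq_self (fun p => sg2 a0 b0 p * gE (p - c)) c]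
  refine le_trans (le_of_eq ?_) (hC (a0 - c.1) (b0 - c.2))
  refine lintegral_congr fun p => ?_
  unfold sg2 gE
  rw [add_sub_cancel_right]
  congr 3
  simp only [Prod.fst_add, Prod.snd_add]
  ring

/-- the bound with a weaker Gaussian -/
theorem pl16 : ∃ C : ℝ, 0 < C ∧ ∀ v u a b : V, v 2 ≠ u 2 →
    pl v u (fun w => ENNReal.ofReal (Real.exp (-(‖w‖ ^ 2 / 16))) * Wt a b w) ≤
      ENNReal.ofReal (C / ‖v - u‖) := by
  obtain ⟨C1, hC1, h1⟩ := plane_gauss
  obtain ⟨C2, hC2, h2⟩ := gE_fin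
  refine ⟨C2 + (C1 + C1), by linarith, fun v u a b h => ?_⟩
  have hy : (v - u) 2 ≠ 0 := by
    have : (v - u) 2 = v 2 - u 2 := rfl
    rw [this]
    exact sub_ne_zero.2 h
  obtain ⟨e1, e2, hf, -, -⟩ := exists_hframe hy
  rw [pl_frame h hf (by
    apply Measurable.mul _ (measurable_WtT a b)
    fun_prop)]
  set c : ℝ × ℝ := (inner ℝ (0 - v) e1, inner ℝ (0 - v) e2) with hc
  have hpt : ∀ p : ℝ × ℝ,
      ENNReal.ofReal (Real.exp (-(‖v + p.1 • e1 + p.2 • e2‖ ^ 2 / 16))) *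
        Wt a b (v + p.1 • e1 + p.2 • e2) ≤
      gE (p - c) + (sg2 (inner ℝ (a - v) e1) (inner ℝ (a - v) e2) p * gE (p - c) +
        sg2 (inner ℝ (b - v) e1) (inner ℝ (b - v) e2) p * gE (p - c)) := by
    intro p
    have g1 : ENNReal.ofReal (Real.exp (-(‖v + p.1 • e1 + p.2 • e2‖ ^ 2 / 16))) ≤ gE (p - c) := by
      unfold gE
      apply ENNReal.ofReal_le_ofReal
      apply Real.exp_le_exp.2
      have g2 := frame_dist (v := v) hf 0 p
      rw [sub_zero] at g2
      have g3 : (p - c).1 = p.1 - inner ℝ (0 - v) e1 := rfl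
      have g4 : (p - c).2 = p.2 - inner ℝ (0 - v) e2 := rfl
      rw [g3, g4]
      linarith
    calc _ ≤ gE (p - c) * (1 + (sg2 (inner ℝ (a - v) e1) (inner ℝ (a - v) e2) p +
          sg2 (inner ℝ (b - v) e1) (inner ℝ (b - v) e2) p)) := mul_le_mul' g1 (Wt_frameT hf a b p)
      _ = _ := by ring
  have hm : Measurable fun p : ℝ × ℝ => gE (p - c) := measurable_gE.comp (measurable_id.sub_const _)
  calc ENNReal.ofReal ‖v - u‖⁻¹ * ∫⁻ p : ℝ × ℝ,
        ENNReal.ofReal (Real.exp (-(‖v + p.1 • e1 + p.2 • e2‖ ^ 2 / 16))) *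
          Wt a b (v + p.1 • e1 + p.2 • e2)
      ≤ ENNReal.ofReal ‖v - u‖⁻¹ * (ENNReal.ofReal C2 + (ENNReal.ofReal C1 +
          ENNReal.ofReal C1)) := by
        gcongr
        refine (lintegral_mono hpt).trans ?_
        have hm2 : Measurable fun p : ℝ × ℝ =>
            sg2 (inner ℝ (a - v) e1) (inner ℝ (a - v) e2) p * gE (p - c) :=
          (measurable_sg2 _ _).mul hm
        rw [lintegral_add_left hm, lintegral_add_left hm2]
        gcongr
        · rw [lintegral_sub_right_eq_self gE c]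
          exact h2
        · exact lint_sg2_gE h1 _ _ c
        · exact lint_sg2_gE h1 _ _ c
    _ = ENNReal.ofReal ((C2 + (C1 + C1)) / ‖v - u‖) := by
        rw [← ENNReal.ofReal_add hC1.le hC1.le, ← ENNReal.ofReal_add hC2.le (by linarith),
          ← ENNReal.ofReal_mul (by positivity)]
        congr 1
        rw [div_eq_inv_mul]

/-- (PI1) -/
theorem pl_total : ∃ C : ℝ, 0 < C ∧ ∀ v u a b : V, v 2 ≠ u 2 →
    pl v u (Ga a b) ≤ ENNReal.ofReal (C / ‖v - u‖) := by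
  obtain ⟨C, hC, h⟩ := pl16
  refine ⟨C, hC, fun v u a b hvu => (pl_monoT fun w => ?_).trans (h v u a b hvu)⟩
  unfold Ga
  gcongr ?_ * _
  apply ENNReal.ofReal_le_ofReal
  apply Real.exp_le_exp.2
  have : 0 ≤ ‖w‖ ^ 2 := by positivity
  linarith

/-- Gaussian tail -/
theorem pl_tail {η : ℝ} (hη : 0 < η) : ∃ R : ℝ, 0 < R ∧ ∀ v u a b : V, v 2 ≠ u 2 →
    pl v u (fun w => ind (R < ‖w‖) * Ga a b w) ≤ ENNReal.ofReal (η / ‖v - u‖) := by
  obtain ⟨C, hC, h⟩ := pl16
  set R := 16 * C / η + 1 with hR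
  have hR0 : 0 < 16 * C / η := by positivity
  have hR1 : 1 ≤ R := by rw [hR]; linarith
  have hexp : Real.exp (-(R ^ 2 / 16)) * C ≤ η := by
    have h1 : R ^ 2 / 16 + 1 ≤ Real.exp (R ^ 2 / 16) := Real.add_one_le_exp _
    have h2 : 16 * C ≤ η * R := by
      have : η * R = 16 * C + η := by
        rw [hR, mul_add, mul_div_cancel₀ _ hη.ne', mul_one]
      linarith only [this, hη]
    have h3 : R ≤ R ^ 2 := by (by_contra nlg; linarith only [nlg, mul_nonneg (sub_nonneg.2 hR1) (sub_nonneg.2 h2), mul_pos (sub_pos.2 hC) (sub_pos.2 hR0), mul_pos (sub_pos.2 (not_le.1 nlg)) (sub_pos.2 hη)])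
    have h4 : η * R ≤ η * R ^ 2 := by (by_contra nlg; linarith only [nlg, mul_nonneg (sub_nonneg.2 hR1) (sub_nonneg.2 h2), mul_pos (sub_pos.2 hC) (sub_pos.2 hR0), mul_nonneg (mul_self_nonneg (1 : ℝ)) (le_of_lt (sub_pos.2 (not_le.1 nlg)))])
    rw [Real.exp_neg, inv_mul_le_iff₀ (Real.exp_pos _)]
    have h5 : (R ^ 2 / 16 + 1) * η ≤ Real.exp (R ^ 2 / 16) * η := by
      exact mul_le_mul_of_nonneg_right h1 hη.le
    linarith only [h5, h4, h2, hη]
  refine ⟨R, by linarith, fun v u a b hvu => ?_⟩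
  have h1 : ∀ w : V, ind (R < ‖w‖) * Ga a b w ≤ ENNReal.ofReal (Real.exp (-(R ^ 2 / 16))) *
      (ENNReal.ofReal (Real.exp (-(‖w‖ ^ 2 / 16))) * Wt a b w) := by
    intro w
    unfold ind
    split_ifs with hw
    · unfold Ga
      rw [one_mul, ← mul_assoc]
      gcongr ?_ * _
      rw [← ENNReal.ofReal_mul (Real.exp_pos _).le, ← Real.exp_add]
      apply ENNReal.ofReal_le_ofReal
      apply Real.exp_le_exp.2
      have : R ^ 2 ≤ ‖w‖ ^ 2 := by
        apply pow_le_pow_left₀ (by linarith only [hR0]) hw.le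
      linarith only [this]
    · rw [zero_mul]
      exact zero_le
  refine (pl_monoT h1).trans ?_
  rw [pl_const_mulT ENNReal.ofReal_ne_top]
  calc ENNReal.ofReal (Real.exp (-(R ^ 2 / 16))) * _
      ≤ ENNReal.ofReal (Real.exp (-(R ^ 2 / 16))) * ENNReal.ofReal (C / ‖v - u‖) := by
        gcongr
        exact h v u a b hvu
    _ = ENNReal.ofReal (Real.exp (-(R ^ 2 / 16)) * C / ‖v - u‖) := by
        rw [← ENNReal.ofReal_mul (Real.exp_pos _).le, mul_div_assoc]
    _ ≤ ENNReal.ofReal (η / ‖v - u‖) := by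
        apply ENNReal.ofReal_le_ofReal
        gcongr

/-- (PI2) sets of small area -/
theorem pl_small {η R ρ : ℝ} (hη : 0 < η) (hR : 0 < R) (hρ : 0 < ρ) : ∃ ε : ℝ, 0 < ε ∧
    ∀ v u a b : V, v 2 ≠ u 2 → ‖v - u‖ ≤ R → ρ ≤ ‖v - u‖ → ∀ A : Set V, MeasurableSet A →
    pl v u (fun w => ind (w ∈ A)) ≤ ENNReal.ofReal ε →
    pl v u (fun w => ind (w ∈ A) * Ga a b w) ≤ ENNReal.ofReal η := by
  obtain ⟨ε0, hε0, h0⟩ := plane_small (η * ρ / 4) (by positivity)
  refine ⟨min (ε0 / R) (η / 4), lt_min (by positivity) (by linarith), ?_⟩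
  intro v u a b h hvR hvρ A hA hsm
  have hn : 0 < ‖v - u‖ := lt_of_lt_of_le hρ hvρ
  have hy : (v - u) 2 ≠ 0 := by
    have : (v - u) 2 = v 2 - u 2 := rfl
    rw [this]
    exact sub_ne_zero.2 h
  obtain ⟨e1, e2, hf, -, -⟩ := exists_hframe hy
  have hmi := measurable_ind_memT hA
  rw [pl_frame h hf hmi] at hsm
  set φ : ℝ × ℝ → V := fun p => v + p.1 • e1 + p.2 • e2 with hφ
  have hφm : Measurable φ := by
    rw [hφ]
    fun_prop
  set A' := φ ⁻¹' A with hA'
  have hA'm : MeasurableSet A' := hφm hA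
  have hind : ∀ p, ind (φ p ∈ A) = A'.indicator 1 p := by
    intro p
    unfold ind
    by_cases hp : φ p ∈ A
    · rw [if_pos hp, indicator_of_mem (show p ∈ A' from hp)]
      rfl
    · rw [if_neg hp, indicator_of_notMem (show p ∉ A' from hp)]
  have hvol : ∫⁻ p : ℝ × ℝ, ind (v + p.1 • e1 + p.2 • e2 ∈ A) = volume A' := by
    have : ∀ p : ℝ × ℝ, ind (v + p.1 • e1 + p.2 • e2 ∈ A) = A'.indicator 1 p := hind
    simp only [this]
    rw [lintegral_indicator_one hA'm]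
  rw [hvol] at hsm
  have hvolA : volume A' ≤ ENNReal.ofReal ε0 := by
    have h1 : volume A' = ENNReal.ofReal ‖v - u‖ * (ENNReal.ofReal ‖v - u‖⁻¹ * volume A') := by
      rw [← mul_assoc, ← ENNReal.ofReal_mul hn.le, mul_inv_cancel₀ hn.ne', ENNReal.ofReal_one,
        one_mul]
    rw [h1]
    calc ENNReal.ofReal ‖v - u‖ * (ENNReal.ofReal ‖v - u‖⁻¹ * volume A')
        ≤ ENNReal.ofReal R * ENNReal.ofReal (ε0 / R) := by
          gcongr
          exact hsm.trans (ENNReal.ofReal_le_ofReal (min_le_left _ _))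
      _ = ENNReal.ofReal ε0 := by
          rw [← ENNReal.ofReal_mul hR.le, mul_div_cancel₀ _ hR.ne']
  have h1 : ∀ w : V, ind (w ∈ A) * Ga a b w ≤ ind (w ∈ A) * Wt a b w := by
    intro w
    unfold Ga
    gcongr
    have h2 : ENNReal.ofReal (Real.exp (-(‖w‖ ^ 2 / 8))) ≤ 1 := by
      rw [← ENNReal.ofReal_one]
      apply ENNReal.ofReal_le_ofReal
      apply Real.exp_le_one_iff.2
      have : 0 ≤ ‖w‖ ^ 2 := by positivity
      linarith
    calc _ ≤ 1 * Wt a b w := mul_le_mul' h2 le_rfl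
      _ = _ := one_mul _
  refine (pl_monoT h1).trans ?_
  have hmW : Measurable fun w : V => ind (w ∈ A) * Wt a b w := hmi.mul (measurable_WtT a b)
  rw [pl_frame h hf hmW]
  set α1 := inner ℝ (a - v) e1
  set α2 := inner ℝ (a - v) e2
  set β1 := inner ℝ (b - v) e1
  set β2 := inner ℝ (b - v) e2
  have h2 : ∫⁻ p : ℝ × ℝ, ind (v + p.1 • e1 + p.2 • e2 ∈ A) * Wt a b (v + p.1 • e1 + p.2 • e2) ≤
      volume A' + ((∫⁻ p in A', sg2 α1 α2 p) + ∫⁻ p in A', sg2 β1 β2 p) := by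
    have h3 : ∀ p : ℝ × ℝ,
        ind (v + p.1 • e1 + p.2 • e2 ∈ A) * Wt a b (v + p.1 • e1 + p.2 • e2) ≤
          A'.indicator (fun p => 1 + (sg2 α1 α2 p + sg2 β1 β2 p)) p := by
      intro p
      rw [show ind (v + p.1 • e1 + p.2 • e2 ∈ A) = A'.indicator 1 p from hind p]
      by_cases hp : p ∈ A'
      · rw [indicator_of_mem hp, indicator_of_mem hp, Pi.one_apply, one_mul]
        exact Wt_frameT hf a b p
      · rw [indicator_of_notMem hp, indicator_of_notMem hp, zero_mul]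
    refine (lintegral_mono h3).trans ?_
    rw [lintegral_indicator hA'm, lintegral_add_left measurable_const,
      lintegral_add_left (measurable_sg2 _ _), setLIntegral_const, one_mul]
  have h4 : ENNReal.ofReal ‖v - u‖⁻¹ * ENNReal.ofReal (η * ρ / 4) ≤ ENNReal.ofReal (η / 4) := by
    rw [← ENNReal.ofReal_mul (by positivity)]
    apply ENNReal.ofReal_le_ofReal
    rw [inv_mul_le_iff₀ hn]
    linarith only [mul_nonneg (le_of_lt (sub_pos.2 hη)) (sub_nonneg.2 hvρ)]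
  calc ENNReal.ofReal ‖v - u‖⁻¹ * _
      ≤ ENNReal.ofReal ‖v - u‖⁻¹ * (volume A' + ((∫⁻ p in A', sg2 α1 α2 p) +
          ∫⁻ p in A', sg2 β1 β2 p)) := by gcongr
    _ = ENNReal.ofReal ‖v - u‖⁻¹ * volume A' + (ENNReal.ofReal ‖v - u‖⁻¹ *
          (∫⁻ p in A', sg2 α1 α2 p) + ENNReal.ofReal ‖v - u‖⁻¹ * ∫⁻ p in A', sg2 β1 β2 p) := by
        ring
    _ ≤ ENNReal.ofReal (η / 4) + (ENNReal.ofReal (η / 4) + ENNReal.ofReal (η / 4)) := by
        gcongr
        · exact hsm.trans (ENNReal.ofReal_le_ofReal (min_le_right _ _))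
        · exact (mul_le_mul' le_rfl (h0 α1 α2 A' hA'm hvolA)).trans h4
        · exact (mul_le_mul' le_rfl (h0 β1 β2 A' hA'm hvolA)).trans h4
    _ ≤ ENNReal.ofReal η := by
        rw [← ENNReal.ofReal_add (by linarith) (by linarith),
          ← ENNReal.ofReal_add (by linarith) (by linarith)]
        apply ENNReal.ofReal_le_ofReal
        linarith

end Vale.Agent.P140.NU.S
end
end

section

/-!
P140, module S: exceptional sets in planes.
-/

open MeasureTheory Set Filter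
open scoped ENNReal Topology

noncomputable section

namespace Vale.Agent.P140.NU.S

namespace PlBad

theorem Ga_eq_wgt (a b w : V) : Ga a b w = wgt a b w := by
  have h : ∀ x : ℝ, 0 ≤ x →
      ENNReal.ofReal (x ^ 2) ^ (-(3 / 4) : ℝ) = ENNReal.ofReal x ^ (-(3 / 2) : ℝ) := by
    intro x hx
    rw [ENNReal.ofReal_pow hx, ← ENNReal.rpow_natCast, ← ENNReal.rpow_mul]
    norm_num
  unfold Ga Wt wgt
  rw [h _ (norm_nonneg _), h _ (norm_nonneg _), mul_comm, ← add_assoc, neg_div]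

theorem measurable_Ga' (a b : V) : Measurable (Ga a b) := by
  have : Ga a b = wgt a b := funext (Ga_eq_wgt a b)
  rw [this]
  exact measurable_wgt a b

theorem ind_pos {p : Prop} (h : p) : ind p = 1 := by
  unfold ind; exact if_pos h

theorem ind_neg {p : Prop} (h : ¬ p) : ind p = 0 := by
  unfold ind; exact if_neg h

theorem measurable_ind {α : Type*} [MeasurableSpace α] {p : α → Prop}
    (h : MeasurableSet {x | p x}) : Measurable fun x => ind (p x) := by
  unfold ind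
  exact Measurable.ite h measurable_const measurable_const

theorem pl_mono' {v u : V} {f g : V → ℝ≥0∞} (h : ∀ q, f (gr v u q) ≤ g (gr v u q)) :
    pl v u f ≤ pl v u g := by
  unfold pl
  gcongr with q
  exact h q

theorem inner_V (x y : V) : inner ℝ x y = x 0 * y 0 + x 1 * y 1 + x 2 * y 2 := by
  rw [PiLp.inner_apply, Fin.sum_univ_three]
  simp only [RCLike.inner_apply, conj_trivial]
  ring

theorem normsq_V (x : V) : ‖x‖ ^ 2 = x 0 ^ 2 + x 1 ^ 2 + x 2 ^ 2 := by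
  rw [← real_inner_self_eq_norm_sq, inner_V]
  ring

theorem gr_orth {v u : V} (hne : v 2 ≠ u 2) (q : ℝ × ℝ) :
    inner ℝ (gr v u q - v) (v - u) = (0 : ℝ) := by
  have h := hgt_spec hne q
  rw [inner_V]
  simp only [PiLp.sub_apply]
  exact h

/-- strips in planes -/
theorem pl_str {η R ρ g : ℝ} (hη : 0 < η) (hR : 0 < R) (hρ : 0 < ρ) (hg : 0 < g) :
    ∃ l0 : ℝ, 0 < l0 ∧ ∀ l, 0 ≤ l → l ≤ l0 → ∀ v u a b : V, v 2 ≠ u 2 → ρ ≤ ‖v - u‖ →
      ∀ (d : V) (κ : ℝ), g ^ 2 * ‖v - u‖ ^ 2 + inner ℝ d (v - u) ^ 2 ≤ ‖d‖ ^ 2 * ‖v - u‖ ^ 2 →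
      pl v u (fun w => ind (|inner ℝ d w - κ| < l ∧ ‖w‖ ≤ R) * Ga a b w) ≤ ENNReal.ofReal η := by
  obtain ⟨l0, h0, h⟩ := wgt_strip (η * ρ) R g (by positivity) hR hg
  refine ⟨l0, h0, fun l hl hl0 v u a b hne hρ' d κ hd => ?_⟩
  have hY : 0 < ‖v - u‖ := hρ.trans_le hρ'
  obtain ⟨e1, e2, hf, -, -⟩ := exists_hframe (y := v - u) (by
    rw [PiLp.sub_apply]; exact sub_ne_zero.2 hne)
  have hS : MeasurableSet {w : V | |inner ℝ d w - κ| < l ∧ ‖w‖ ≤ R} := by
    have k1 : MeasurableSet {w : V | |inner ℝ d w - κ| < l} :=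
      measurableSet_lt (by fun_prop) (by fun_prop)
    have k2 : MeasurableSet {w : V | ‖w‖ ≤ R} := measurableSet_le (by fun_prop) (by fun_prop)
    exact k1.inter k2
  rw [pl_frame hne hf (f := fun w => ind (|inner ℝ d w - κ| < l ∧ ‖w‖ ≤ R) * Ga a b w)
    ((measurable_ind hS).mul (measurable_Ga' a b))]
  have hgr : g ^ 2 ≤ inner ℝ d e1 ^ 2 + inner ℝ d e2 ^ 2 := by
    have hp := frame_parseval (norm_pos_iff.1 hY) hf d
    have h3 : g ^ 2 + inner ℝ d (v - u) ^ 2 / ‖v - u‖ ^ 2 ≤ ‖d‖ ^ 2 := by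
      rw [← mul_le_mul_iff_left₀ (pow_pos hY 2), add_mul, div_mul_cancel₀ _ (pow_pos hY 2).ne']
      exact hd
    linarith only [h3, hp]
  have key := h l hl hl0 e1 e2 ⟨hf.n1, hf.n2, hf.o12⟩ v a b d κ hgr
  have e : ∀ p : ℝ × ℝ, ind (|inner ℝ d (v + p.1 • e1 + p.2 • e2) - κ| < l ∧
      ‖v + p.1 • e1 + p.2 • e2‖ ≤ R) * Ga a b (v + p.1 • e1 + p.2 • e2) =
      {q : V | |inner ℝ d q - κ| < l ∧ ‖q‖ ≤ R}.indicator (wgt a b) (Pl v e1 e2 p) := by
    intro p
    change ind (|inner ℝ d (Pl v e1 e2 p) - κ| < l ∧ ‖Pl v e1 e2 p‖ ≤ R) *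
      Ga a b (Pl v e1 e2 p) = _
    by_cases hp : |inner ℝ d (Pl v e1 e2 p) - κ| < l ∧ ‖Pl v e1 e2 p‖ ≤ R
    · rw [ind_pos hp, indicator_of_mem (show Pl v e1 e2 p ∈ {q : V | |inner ℝ d q - κ| < l ∧
        ‖q‖ ≤ R} from hp), one_mul, Ga_eq_wgt]
    · rw [ind_neg hp, indicator_of_notMem (show Pl v e1 e2 p ∉ {q : V | |inner ℝ d q - κ| < l ∧
        ‖q‖ ≤ R} from hp), zero_mul]
  rw [lintegral_congr e]
  calc _ ≤ ENNReal.ofReal ‖v - u‖⁻¹ * ENNReal.ofReal (η * ρ) := by gcongr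
    _ = ENNReal.ofReal (‖v - u‖⁻¹ * (η * ρ)) := by
      rw [ENNReal.ofReal_mul (inv_nonneg.2 hY.le)]
    _ ≤ ENNReal.ofReal η := by
      apply ENNReal.ofReal_le_ofReal
      rw [inv_mul_le_iff₀ hY]
      linarith only [mul_nonneg (le_of_lt (sub_pos.2 hη)) (sub_nonneg.2 hρ')]

/-- tails -/
theorem pl_far {η ρ : ℝ} (hη : 0 < η) (hρ : 0 < ρ) : ∃ R : ℝ, 0 < R ∧ ∀ v u a b : V, v 2 ≠ u 2 →
    ρ ≤ ‖v - u‖ → pl v u (fun w => ind (R < ‖w‖) * Ga a b w) ≤ ENNReal.ofReal η := by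
  obtain ⟨R, hR, h⟩ := pl_tail (η := η * ρ) (by positivity)
  refine ⟨R, hR, fun v u a b hne hρ' => (h v u a b hne).trans ?_⟩
  apply ENNReal.ofReal_le_ofReal
  rw [div_le_iff₀ (hρ.trans_le hρ')]
  gcongr

theorem measurable_far (R : ℝ) (a b : V) : Measurable fun w : V => ind (R < ‖w‖) * Ga a b w :=
  (measurable_ind (measurableSet_lt (by fun_prop) (by fun_prop))).mul (measurable_Ga' a b)

theorem measurable_str (l R κ : ℝ) (d a b : V) :
    Measurable fun w : V => ind (|inner ℝ d w - κ| < l ∧ ‖w‖ ≤ R) * Ga a b w := by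
  have hS : MeasurableSet {w : V | |inner ℝ d w - κ| < l ∧ ‖w‖ ≤ R} := by
    have k1 : MeasurableSet {w : V | |inner ℝ d w - κ| < l} :=
      measurableSet_lt (by fun_prop) (by fun_prop)
    have k2 : MeasurableSet {w : V | ‖w‖ ≤ R} := measurableSet_le (by fun_prop) (by fun_prop)
    exact k1.inter k2
  exact (measurable_ind hS).mul (measurable_Ga' a b)

theorem Cp.norm_le {a b : V} (h : Cp a b) : ‖a‖ ≤ 2 ∧ ‖b‖ ≤ 2 := by
  obtain ⟨h1, h2, h3, h4, h5⟩ := h
  constructor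
  · apply abs_le_of_sq_le_sq' _ (by norm_num) |>.2
    rw [normsq_V, h1]
    linarith
  · apply abs_le_of_sq_le_sq' _ (by norm_num) |>.2
    rw [normsq_V, h2, ← h3, ← h4]
    linarith

theorem norm_le_of_Cp {a b u v : V} {Vm δ : ℝ} (h : Cp a b) (hδ : δ ≤ 1)
    (hu : ‖u - a‖ ≤ δ ∨ ‖u - b‖ ≤ δ) (hv : ‖v‖ ≤ Vm) : ‖v - u‖ ≤ Vm + 3 := by
  have h1 := Cp.norm_le h
  have h2 : ‖u‖ ≤ 3 := by
    rcases hu with hu | hu
    · have := norm_le_norm_add_norm_sub' u a
      linarith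
    · have := norm_le_norm_add_norm_sub' u b
      linarith
  have := norm_sub_le v u
  linarith

/-- heights in an almost horizontal plane -/
theorem flat_dist {v u w : V} {g M : ℝ} (hg0 : 0 < g) (hg1 : g ≤ 1 / 2) (hM : 0 ≤ M)
    (horth : inner ℝ (w - v) (v - u) = (0 : ℝ)) (hY : 0 < ‖v - u‖)
    (hcase : ‖v - u‖ ^ 2 < g ^ 2 * ‖v - u‖ ^ 2 + (v 2 - u 2) ^ 2) (hwv : ‖w - v‖ ≤ M) :
    |w 2 - v 2| ≤ 2 * g * M := by
  have hYsq := normsq_V (v - u)
  rw [inner_V] at horth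
  have hwv2 := normsq_V (w - v)
  simp only [PiLp.sub_apply] at hYsq horth hwv2
  have hwv3 : ‖w - v‖ ^ 2 ≤ M ^ 2 := by gcongr
  set Y := ‖v - u‖
  set p0 := w 0 - v 0
  set p1 := w 1 - v 1
  set p2 := w 2 - v 2
  set y0 := v 0 - u 0
  set y1 := v 1 - u 1
  set y2 := v 2 - u 2
  have hperp : y0 ^ 2 + y1 ^ 2 ≤ (g * Y) ^ 2 := by rw [mul_pow]; linarith only [hYsq, hcase]
  have hcs : (p2 * y2) ^ 2 ≤ M ^ 2 * (g * Y) ^ 2 := by
    have e1 : p2 * y2 = -(p0 * y0 + p1 * y1) := by linarith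
    rw [e1, neg_sq]
    have h4 : (p0 * y0 + p1 * y1) ^ 2 ≤ (p0 ^ 2 + p1 ^ 2) * (y0 ^ 2 + y1 ^ 2) := by
      have h44 := sq_nonneg (p0 * y1 - p1 * y0)
      linarith only [h44]
    have h5 : p0 ^ 2 + p1 ^ 2 ≤ M ^ 2 := by
      have := sq_nonneg p2
      linarith
    exact h4.trans (mul_le_mul h5 hperp (by (clear * -; positivity)) (by positivity))
  have hy2 : Y ^ 2 ≤ 4 * y2 ^ 2 := by
    have h6 : (g * Y) ^ 2 ≤ (1 / 2 * Y) ^ 2 := by gcongr
    have h66 : (1 / 2 * Y) ^ 2 = 1 / 4 * Y ^ 2 := by ring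
    have h67 : (g * Y) ^ 2 = g ^ 2 * Y ^ 2 := by ring
    have := sq_nonneg y2
    linarith only [this, h6, hcase]
  have h7 : p2 ^ 2 ≤ (2 * g * M) ^ 2 := by
    have h8 : p2 ^ 2 * Y ^ 2 ≤ (2 * g * M) ^ 2 * Y ^ 2 := by
      calc p2 ^ 2 * Y ^ 2 ≤ p2 ^ 2 * (4 * y2 ^ 2) := by gcongr
        _ = 4 * (p2 * y2) ^ 2 := by ring
        _ ≤ 4 * (M ^ 2 * (g * Y) ^ 2) := by gcongr
        _ = _ := by ring
    exact le_of_mul_le_mul_right h8 (by positivity)
  exact abs_le_of_sq_le_sq h7 (by positivity)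

theorem flat_height {v u a b : V} {g ρ δ : ℝ} (hρ : 0 < ρ) (hg0 : 0 < g) (hC : Cp a b)
    (hva : ρ ≤ ‖v - a‖) (hvb : ρ ≤ ‖v - b‖) (hu : ‖u - a‖ ≤ δ ∨ ‖u - b‖ ≤ δ) (hδ2 : δ ≤ ρ / 4)
    (hcase : ‖v - u‖ ^ 2 < g ^ 2 * ‖v - u‖ ^ 2 + (v 2 - u 2) ^ 2) (hgY : g * ‖v - u‖ ≤ ρ / 4) :
    ρ / 2 ≤ |v 2 - 1| ∧ ρ / 2 ≤ |v 2 + 1| := by
  have hYsq := normsq_V (v - u)
  simp only [PiLp.sub_apply] at hYsq
  obtain ⟨hC1, hC2, hC3, hC4, hC5⟩ := hC
  have hperp : (v 0 - u 0) ^ 2 + (v 1 - u 1) ^ 2 ≤ (g * ‖v - u‖) ^ 2 := by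
    rw [mul_pow]; linarith only [hYsq, hcase]
  have hp1 : √((v 0 - u 0) ^ 2 + (v 1 - u 1) ^ 2) ≤ ρ / 4 :=
    Real.sqrt_le_iff.2 ⟨by positivity, hperp.trans (by gcongr)⟩
  have hp2 : √((u 0 - a 0) ^ 2 + (u 1 - a 1) ^ 2) ≤ ρ / 4 := by
    apply Real.sqrt_le_iff.2 ⟨by positivity, ?_⟩
    rcases hu with hu | hu
    · have h1 := normsq_V (u - a)
      simp only [PiLp.sub_apply] at h1
      have h2 : ‖u - a‖ ^ 2 ≤ (ρ / 4) ^ 2 := by
        have := norm_nonneg (u - a)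
        have h3 := hu.trans hδ2
        gcongr
      have := sq_nonneg (u 2 - a 2)
      linarith only [this, h2, h1]
    · have h1 := normsq_V (u - b)
      simp only [PiLp.sub_apply] at h1
      have h2 : ‖u - b‖ ^ 2 ≤ (ρ / 4) ^ 2 := by
        have := norm_nonneg (u - b)
        have h3 := hu.trans hδ2
        gcongr
      rw [hC3, hC4]
      have := sq_nonneg (u 2 - b 2)
      linarith only [this, h2, h1]
  have hp3 : (v 0 - a 0) ^ 2 + (v 1 - a 1) ^ 2 ≤ (ρ / 2) ^ 2 := by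
    have h1 := planar_add_le (v 0 - u 0) (v 1 - u 1) (u 0 - a 0) (u 1 - a 1)
    rw [sub_add_sub_cancel, sub_add_sub_cancel] at h1
    have h2 : √((v 0 - a 0) ^ 2 + (v 1 - a 1) ^ 2) ≤ ρ / 2 := by linarith
    exact (Real.sqrt_le_iff.1 h2).2
  constructor
  · have h1 := normsq_V (v - a)
    simp only [PiLp.sub_apply, hC1] at h1
    have h2 : ρ ^ 2 ≤ ‖v - a‖ ^ 2 := by gcongr
    apply le_of_sq_le_sq _ (abs_nonneg _)
    rw [sq_abs]
    have h3 : (ρ / 2) ^ 2 = ρ ^ 2 / 4 := by ring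
    have := sq_nonneg ρ
    linarith only [this, h2, h1, hp3]
  · have h1 := normsq_V (v - b)
    simp only [PiLp.sub_apply, hC2, ← hC3, ← hC4] at h1
    have h2 : ρ ^ 2 ≤ ‖v - b‖ ^ 2 := by gcongr
    apply le_of_sq_le_sq _ (abs_nonneg _)
    rw [sq_abs]
    rw [sub_neg_eq_add] at h1
    have h3 : (ρ / 2) ^ 2 = ρ ^ 2 / 4 := by ring
    have := sq_nonneg ρ
    linarith only [this, h2, h1, hp3]

/-- the component in the plane orthogonal to `y` of a unit vector that is almost parallel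
to `y` -/
theorem inplane_small {e y p : V} {g : ℝ} (hg0 : 0 < g) (he : ‖e‖ = 1) (hY : 0 < ‖y‖)
    (hpy : inner ℝ p y = (0 : ℝ)) (hcase : ‖y‖ ^ 2 < g ^ 2 * ‖y‖ ^ 2 + inner ℝ e y ^ 2) :
    |inner ℝ e p| ≤ g * ‖p‖ := by
  set x : V := e - (inner ℝ e y / ‖y‖ ^ 2) • y with hx
  have hxp : inner ℝ e p = inner ℝ x p := by
    rw [hx, inner_sub_left, real_inner_smul_left, real_inner_comm p y, hpy]
    ring
  have hxn : ‖x‖ ^ 2 ≤ g ^ 2 := by
    rw [hx, ← real_inner_self_eq_norm_sq]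
    simp only [inner_sub_left, inner_sub_right, real_inner_smul_left,
      real_inner_smul_right]
    rw [real_inner_self_eq_norm_sq, real_inner_self_eq_norm_sq, he, real_inner_comm e y]
    have hyy : 0 < ‖y‖ ^ 2 := by positivity
    have e1 : (1 : ℝ) ^ 2 - inner ℝ e y / ‖y‖ ^ 2 * inner ℝ e y -
        (inner ℝ e y / ‖y‖ ^ 2 * inner ℝ e y - inner ℝ e y / ‖y‖ ^ 2 *
          (inner ℝ e y / ‖y‖ ^ 2 * ‖y‖ ^ 2)) =
        1 - inner ℝ e y ^ 2 / ‖y‖ ^ 2 := by
      field_simp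
      ring
    have e2 : 1 - inner ℝ e y ^ 2 / ‖y‖ ^ 2 ≤ g ^ 2 := by
      rw [sub_le_iff_le_add, ← sub_le_iff_le_add', le_div_iff₀ hyy]
      linarith only [hcase]
    linarith only [e2, e1]
  have hxg : ‖x‖ ≤ g := abs_le_of_sq_le_sq' hxn hg0.le |>.2
  rw [hxp]
  refine (abs_real_inner_le_norm x p).trans ?_
  gcongr

end PlBad

open PlBad

theorem plane_bad0 {η ρ Vm : ℝ} (hη : 0 < η) (hρ : 0 < ρ) (hV : 0 < Vm) :
    ∃ V' a' δ : ℝ, 0 < V' ∧ 0 < a' ∧ 0 < δ ∧ ∀ v u a b : V, Cp a b → ‖v‖ ≤ Vm →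
      ρ ≤ ‖v - a‖ → ρ ≤ ‖v - b‖ → (‖u - a‖ ≤ δ ∨ ‖u - b‖ ≤ δ) → v 2 ≠ u 2 →
      pl v u (fun w => ind (V' < ‖w‖ ∨ ¬ Reg a' w) * Ga a b w) ≤ ENNReal.ofReal η := by
  obtain ⟨V', hV', hT⟩ := pl_far (η := η / 3) (ρ := ρ / 2) (by positivity) (by positivity)
  obtain ⟨g, hg0, hg1, hg2, hg3⟩ : ∃ g : ℝ, 0 < g ∧ g ≤ 1 / 2 ∧ 2 * g * (V' + Vm) ≤ ρ / 4 ∧
      g * (Vm + 3) ≤ ρ / 4 := by
    refine ⟨min (1 / 2) (min (ρ / (8 * (V' + Vm))) (ρ / (4 * (Vm + 3)))), by positivity,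
      min_le_left _ _, ?_, ?_⟩
    · have h1 : min (1 / 2) (min (ρ / (8 * (V' + Vm))) (ρ / (4 * (Vm + 3)))) ≤
          ρ / (8 * (V' + Vm)) := (min_le_right _ _).trans (min_le_left _ _)
      rw [le_div_iff₀ (by positivity)] at h1
      linarith only [h1]
    · have h1 : min (1 / 2) (min (ρ / (8 * (V' + Vm))) (ρ / (4 * (Vm + 3)))) ≤
          ρ / (4 * (Vm + 3)) := (min_le_right _ _).trans (min_le_right _ _)
      rw [le_div_iff₀ (by positivity)] at h1
      linarith only [h1]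
  obtain ⟨l0, hl0, hS⟩ := pl_str (η := η / 3) (R := V') (ρ := ρ / 2) (g := g) (by positivity) hV'
    (by positivity) hg0
  obtain ⟨δ, hδ0, hδ1, hδ2⟩ : ∃ δ : ℝ, 0 < δ ∧ δ ≤ 1 ∧ δ ≤ ρ / 4 :=
    ⟨min 1 (ρ / 4), by positivity, min_le_left _ _, min_le_right _ _⟩
  refine ⟨V', min l0 (ρ / 4), δ, hV', by positivity, hδ0, ?_⟩
  intro v u a b hC hv hva hvb hu hne
  set a' := min l0 (ρ / 4) with ha'
  have ha'0 : 0 < a' := by positivity
  have ha'1 : a' ≤ l0 := min_le_left _ _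
  have ha'2 : a' ≤ ρ / 4 := min_le_right _ _
  have hYu : ‖v - u‖ ≤ Vm + 3 := norm_le_of_Cp hC hδ1 hu hv
  have hYl : ρ / 2 ≤ ‖v - u‖ := by
    rcases hu with hu | hu
    · have h1 : ‖v - a‖ ≤ ‖v - u‖ + ‖u - a‖ := by
        have := norm_add_le (v - u) (u - a)
        rwa [sub_add_sub_cancel] at this
      linarith only [h1, hu, ha'2, ha'0, hva, hδ2]
    · have h1 : ‖v - b‖ ≤ ‖v - u‖ + ‖u - b‖ := by
        have := norm_add_le (v - u) (u - b)
        rwa [sub_add_sub_cancel] at this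
      linarith only [h1, hu, ha'2, ha'0, hvb, hδ2]
  have hY0 : 0 < ‖v - u‖ := by linarith only [hYl, ha'2, ha'0]
  have hTail := hT v u a b hne hYl
  by_cases hcase : g ^ 2 * ‖v - u‖ ^ 2 + (v 2 - u 2) ^ 2 ≤ ‖v - u‖ ^ 2
  · -- strips
    set ez : V := EuclideanSpace.single 2 (1 : ℝ) with hez
    have hin : ∀ w : V, inner ℝ ez w = w 2 := by
      intro w
      rw [hez, EuclideanSpace.inner_single_left]
      simp
    have hnz : ‖ez‖ = 1 := by rw [hez, PiLp.norm_single]; simp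
    have hcond : g ^ 2 * ‖v - u‖ ^ 2 + inner ℝ ez (v - u) ^ 2 ≤ ‖ez‖ ^ 2 * ‖v - u‖ ^ 2 := by
      rw [hin, hnz, PiLp.sub_apply]
      linarith only [hcase]
    have s1 := hS a' ha'0.le ha'1 v u a b hne hYl ez 1 hcond
    have s2 := hS a' ha'0.le ha'1 v u a b hne hYl ez (-1) hcond
    calc pl v u (fun w => ind (V' < ‖w‖ ∨ ¬ Reg a' w) * Ga a b w)
        ≤ pl v u (fun w => (fun w => ind (V' < ‖w‖) * Ga a b w) w +
          (fun w => (fun w => ind (|inner ℝ ez w - 1| < a' ∧ ‖w‖ ≤ V') * Ga a b w) w +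
          (fun w => ind (|inner ℝ ez w - (-1)| < a' ∧ ‖w‖ ≤ V') * Ga a b w) w) w) := by
          apply pl_mono'
          intro q
          set w := gr v u q
          simp only [hin]
          rw [← add_mul, ← add_mul]
          gcongr
          by_cases h1 : V' < ‖w‖
          · rw [ind_pos (Or.inl h1), ind_pos h1]
            exact le_self_add
          · by_cases h2 : Reg a' w
            · rw [ind_neg (by tauto)]
              exact zero_le
            · rw [ind_pos (Or.inr h2)]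
              push Not at h1
              unfold Reg at h2
              rw [not_and_or, not_le, not_le] at h2
              rcases h2 with h2 | h2
              · rw [ind_pos (show |w 2 - 1| < a' ∧ ‖w‖ ≤ V' from ⟨h2, h1⟩)]
                exact le_add_left le_self_add
              · rw [ind_pos (show |w 2 - -1| < a' ∧ ‖w‖ ≤ V' from ⟨by rwa [sub_neg_eq_add], h1⟩)]
                exact le_add_left (le_add_left le_rfl)
      _ = _ := by
          rw [pl_add (measurable_far V' a b), pl_add (measurable_str a' V' 1 ez a b)]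
      _ ≤ ENNReal.ofReal (η / 3) + (ENNReal.ofReal (η / 3) + ENNReal.ofReal (η / 3)) :=
          add_le_add hTail (add_le_add s1 s2)
      _ = ENNReal.ofReal η := by
          rw [← ENNReal.ofReal_add (by positivity) (by positivity),
            ← ENNReal.ofReal_add (by positivity) (by positivity)]
          congr 1
          ring
  · -- almost horizontal planes
    push Not at hcase
    have hgY : g * ‖v - u‖ ≤ ρ / 4 := (mul_le_mul_of_nonneg_left hYu hg0.le).trans hg3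
    obtain ⟨hv1, hv2⟩ := flat_height hρ hg0 hC hva hvb hu hδ2 hcase hgY
    calc pl v u (fun w => ind (V' < ‖w‖ ∨ ¬ Reg a' w) * Ga a b w)
        ≤ pl v u (fun w => ind (V' < ‖w‖) * Ga a b w) := by
          apply pl_mono'
          intro q
          have horth := gr_orth hne q
          generalize gr v u q = w at horth ⊢
          gcongr
          by_cases h1 : V' < ‖w‖
          · rw [ind_pos (Or.inl h1), ind_pos h1]
          · have h2 : Reg a' w := by
              push Not at h1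
              have hwv : ‖w - v‖ ≤ V' + Vm := (norm_sub_le w v).trans (add_le_add h1 hv)
              have h9 : |w 2 - v 2| ≤ ρ / 4 :=
                (flat_dist hg0 hg1 (by positivity) horth hY0 hcase hwv).trans hg2
              have h10 := abs_sub_abs_le_abs_sub (v 2 - 1) (v 2 - w 2)
              have h11 := abs_sub_abs_le_abs_sub (v 2 + 1) (v 2 - w 2)
              rw [show v 2 - 1 - (v 2 - w 2) = w 2 - 1 by ring, abs_sub_comm (v 2) (w 2)] at h10
              rw [show v 2 + 1 - (v 2 - w 2) = w 2 + 1 by ring, abs_sub_comm (v 2) (w 2)] at h11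
              constructor <;> linarith
            rw [ind_neg (by tauto)]
            exact zero_le
      _ ≤ ENNReal.ofReal (η / 3) := hTail
      _ ≤ ENNReal.ofReal η := ENNReal.ofReal_le_ofReal (by linarith only [hη])

theorem plane_strip {η ρ Vm : ℝ} (hη : 0 < η) (hρ : 0 < ρ) (hV : 0 < Vm) :
    ∃ l δ : ℝ, 0 < l ∧ 0 < δ ∧ ∀ v u a b : V, Cp a b → ‖v‖ ≤ Vm → Reg ρ v →
      (‖u - a‖ ≤ δ ∨ ‖u - b‖ ≤ δ) → v 2 ≠ u 2 → ∀ d : V,
      pl v u (fun w => ind (|inner ℝ d (w + u - (2 : ℝ) • v)| < l * ‖d‖) * Ga a b w) ≤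
        ENNReal.ofReal η := by
  obtain ⟨R, hR, hT⟩ := pl_far (η := η / 2) (ρ := ρ / 2) (by positivity) (by positivity)
  obtain ⟨g, hg0, hg1, hg2⟩ : ∃ g : ℝ, 0 < g ∧ g ≤ 1 / 2 ∧ g * (R + Vm) ≤ ρ / 8 := by
    refine ⟨min (1 / 2) (ρ / (8 * (R + Vm))), by positivity, min_le_left _ _, ?_⟩
    have h1 : min (1 / 2) (ρ / (8 * (R + Vm))) ≤ ρ / (8 * (R + Vm)) := min_le_right _ _
    rw [le_div_iff₀ (by positivity)] at h1
    linarith
  obtain ⟨l0, hl0, hS⟩ := pl_str (η := η / 2) (R := R) (ρ := ρ / 2) (g := g) (by positivity) hR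
    (by positivity) hg0
  refine ⟨min l0 (ρ / 8), ρ / 2, by positivity, by positivity, ?_⟩
  intro v u a b hC hv hreg hu hne d
  set l := min l0 (ρ / 8) with hl
  have hl'0 : 0 < l := by positivity
  have hl1 : l ≤ l0 := min_le_left _ _
  have hl2 : l ≤ ρ / 8 := min_le_right _ _
  obtain ⟨hC1, hC2, hC3, hC4, hC5⟩ := hC
  have hYl : ρ / 2 ≤ ‖v - u‖ := by
    have h0 : |v 2 - u 2| ≤ ‖v - u‖ := by
      have := PiLp.norm_apply_le (v - u) 2
      rwa [PiLp.sub_apply, Real.norm_eq_abs] at this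
    rcases hu with hu | hu
    · have h1 : |u 2 - 1| ≤ ‖u - a‖ := by
        have := PiLp.norm_apply_le (u - a) 2
        rwa [PiLp.sub_apply, Real.norm_eq_abs, hC1] at this
      have h2 := abs_sub_abs_le_abs_sub (v 2 - 1) (u 2 - 1)
      rw [sub_sub_sub_cancel_right] at h2
      have := hreg.1
      linarith only [this, h2, h1, hu, h0]
    · have h1 : |u 2 + 1| ≤ ‖u - b‖ := by
        have := PiLp.norm_apply_le (u - b) 2
        rwa [PiLp.sub_apply, Real.norm_eq_abs, hC2, sub_neg_eq_add] at this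
      have h2 := abs_sub_abs_le_abs_sub (v 2 + 1) (u 2 + 1)
      rw [add_sub_add_right_eq_sub] at h2
      have := hreg.2
      linarith only [this, h2, h1, hu, h0]
  have hY0 : 0 < ‖v - u‖ := by linarith
  have hTail := hT v u a b hne hYl
  rcases eq_or_ne d 0 with rfl | hd
  · calc _ ≤ pl v u (fun _ => 0) := by
          apply pl_mono'
          intro q
          rw [ind_neg (by simp), zero_mul]
      _ ≤ ENNReal.ofReal η := by
          unfold pl
          simp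
  have hd0 : 0 < ‖d‖ := norm_pos_iff.2 hd
  set e : V := ‖d‖⁻¹ • d with he
  have hen : ‖e‖ = 1 := by
    rw [he, norm_smul, norm_inv, norm_norm, inv_mul_cancel₀ hd0.ne']
  have hin : ∀ x : V, inner ℝ d x = ‖d‖ * inner ℝ e x := by
    intro x
    rw [he, real_inner_smul_left, ← mul_assoc, mul_inv_cancel₀ hd0.ne', one_mul]
  have hiff : ∀ x : V, |inner ℝ d x| < l * ‖d‖ ↔ |inner ℝ e x| < l := by
    intro x
    rw [hin, abs_mul, abs_of_pos hd0, mul_comm l]
    exact mul_lt_mul_iff_right₀ hd0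
  simp only [hiff]
  by_cases hcase : g ^ 2 * ‖v - u‖ ^ 2 + inner ℝ e (v - u) ^ 2 ≤ ‖v - u‖ ^ 2
  · have s1 := hS l hl'0.le hl1 v u a b hne hYl e (inner ℝ e ((2 : ℝ) • v - u)) (by
      rw [hen]; linarith only [hcase])
    calc _ ≤ pl v u (fun w => (fun w => ind (R < ‖w‖) * Ga a b w) w +
          (fun w => ind (|inner ℝ e w - inner ℝ e ((2 : ℝ) • v - u)| < l ∧ ‖w‖ ≤ R) *
            Ga a b w) w) := by
          apply pl_mono'
          intro q
          set w := gr v u q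
          simp only
          rw [← add_mul]
          gcongr
          by_cases h1 : R < ‖w‖
          · rw [ind_pos h1]
            by_cases h2 : |inner ℝ e (w + u - (2 : ℝ) • v)| < l
            · rw [ind_pos h2]; exact le_self_add
            · rw [ind_neg h2]; exact zero_le
          · push Not at h1
            by_cases h2 : |inner ℝ e (w + u - (2 : ℝ) • v)| < l
            · have h3 : |inner ℝ e w - inner ℝ e ((2 : ℝ) • v - u)| < l ∧ ‖w‖ ≤ R := by
                refine ⟨?_, h1⟩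
                rw [← inner_sub_right]
                rwa [show w - ((2 : ℝ) • v - u) = w + u - (2 : ℝ) • v by abel]
              rw [ind_pos h2, ind_pos h3]
              exact le_add_self
            · rw [ind_neg h2]; exact zero_le
      _ = _ := pl_add (measurable_far R a b)
      _ ≤ ENNReal.ofReal (η / 2) + ENNReal.ofReal (η / 2) := add_le_add hTail s1
      _ = ENNReal.ofReal η := by
          rw [← ENNReal.ofReal_add (by positivity) (by positivity)]
          congr 1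
          ring
  · push Not at hcase
    set y : V := v - u with hy
    have hc1 : ‖y‖ / 2 ≤ |inner ℝ e y| := by
      apply le_of_sq_le_sq _ (abs_nonneg _)
      rw [sq_abs]
      have : g ^ 2 ≤ (1 / 2) ^ 2 := by gcongr
      (by_contra nlg; linarith only [nlg, mul_nonneg (sub_nonneg.2 this) (le_of_lt (sub_pos.2 (pow_pos hY0 2))), mul_pos (sub_pos.2 hY0) (sub_pos.2 hY0), mul_nonneg (sub_nonneg.2 hg1) (le_of_lt (sub_pos.2 hcase)), mul_pos (sub_pos.2 hg0) (sub_pos.2 hcase), mul_nonneg (le_of_lt (sub_pos.2 (not_le.1 nlg))) (sub_nonneg.2 hg1), mul_pos (sub_pos.2 (not_le.1 nlg)) (sub_pos.2 hg0)])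
    calc _ ≤ pl v u (fun w => ind (R < ‖w‖) * Ga a b w) := by
          apply pl_mono'
          intro q
          have horth := gr_orth hne q
          generalize gr v u q = w at horth ⊢
          gcongr
          by_cases h1 : R < ‖w‖
          · rw [ind_pos h1]
            by_cases h2 : |inner ℝ e (w + u - (2 : ℝ) • v)| < l
            · rw [ind_pos h2]
            · rw [ind_neg h2]; exact zero_le
          · push Not at h1
            rw [ind_neg]
            · exact zero_le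
            · push Not
              set p : V := w - v with hp
              have hpn : ‖p‖ ≤ R + Vm := (norm_sub_le w v).trans (add_le_add h1 hv)
              have h3 : |inner ℝ e p| ≤ ρ / 8 := by
                refine (inplane_small hg0 hen hY0 horth hcase).trans ?_
                exact (mul_le_mul_of_nonneg_left hpn hg0.le).trans hg2
              have h4 : w + u - (2 : ℝ) • v = p - y := by
                rw [hp, hy, two_smul]; abel
              rw [h4, inner_sub_right]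
              have h5 := abs_sub_abs_le_abs_sub (inner ℝ e y) (inner ℝ e p)
              rw [abs_sub_comm]
              linarith only [h5, h3, hc1, hYl, hl2]
      _ ≤ ENNReal.ofReal (η / 2) := hTail
      _ ≤ ENNReal.ofReal η := ENNReal.ofReal_le_ofReal (by linarith only [hη])

end Vale.Agent.P140.NU.S
end
end

section

/-!
P140, module S: exceptional sets in planes, II.
-/

open MeasureTheory Set Filter
open scoped ENNReal Topology

noncomputable section

namespace Vale.Agent.P140.NU.S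

/-- integral of an indicator function -/
theorem pb2_lint_ind {S : Set (ℝ × ℝ)} (hS : MeasurableSet S) :
    ∫⁻ q, ind (q ∈ S) = volume S := by
  rw [← lintegral_indicator_one hS]
  refine lintegral_congr fun q => ?_
  by_cases h : q ∈ S
  · rw [indicator_of_mem h, ind, if_pos h, Pi.one_apply]
  · rw [indicator_of_notMem h, ind, if_neg h]

/-- the heights of `v` and `u` are different -/
theorem pb2_gap {ρ δ : ℝ} {v u a b : V} (hc : Cp a b) (hv : Reg ρ v) (hδ : δ ≤ ρ / 2)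
    (h : ‖u - a‖ ≤ δ ∨ ‖u - b‖ ≤ δ) : ρ / 2 ≤ |v 2 - u 2| := by
  obtain ⟨ha, hb, -, -, -⟩ := hc
  obtain ⟨hv1, hv2⟩ := hv
  rcases h with h | h
  · have h1 : |(u - a) 2| ≤ ‖u - a‖ := by
      have := PiLp.norm_apply_le (u - a) 2
      rwa [Real.norm_eq_abs] at this
    have h2 : (u - a) 2 = u 2 - 1 := by rw [PiLp.sub_apply, ha]
    rw [h2] at h1
    have h3 := abs_sub_abs_le_abs_sub (v 2 - 1) (u 2 - 1)
    have h4 : v 2 - 1 - (u 2 - 1) = v 2 - u 2 := by ring
    rw [h4] at h3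
    linarith only [h3, h1, h, hv1, hδ]
  · have h1 : |(u - b) 2| ≤ ‖u - b‖ := by
      have := PiLp.norm_apply_le (u - b) 2
      rwa [Real.norm_eq_abs] at this
    have h2 : (u - b) 2 = u 2 + 1 := by rw [PiLp.sub_apply, hb]; ring
    rw [h2] at h1
    have h3 := abs_sub_abs_le_abs_sub (v 2 + 1) (u 2 + 1)
    have h4 : v 2 + 1 - (u 2 + 1) = v 2 - u 2 := by ring
    rw [h4] at h3
    linarith

/-- bound for the plane integral of the indicator function of a vertical cylinder -/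
theorem pb2_pl_le {ρ M : ℝ} {v u : V} (hρ : 0 < ρ) (h : ρ / 2 ≤ |v 2 - u 2|)
    {S : Set (ℝ × ℝ)} (hS : MeasurableSet S) (hM : volume S ≤ ENNReal.ofReal M) :
    pl v u (fun w => ind ((w 0, w 1) ∈ S)) ≤ ENNReal.ofReal (2 / ρ * M) := by
  have h1 : ∫⁻ q : ℝ × ℝ, (fun w : V => ind ((w 0, w 1) ∈ S)) (gr v u q) = volume S := by
    rw [← pb2_lint_ind hS]
    rfl
  rw [pl, h1, ENNReal.ofReal_mul (by positivity)]
  refine mul_le_mul' (ENNReal.ofReal_le_ofReal ?_) hM
  rw [inv_le_comm₀ (by linarith only [h, hρ]) (by positivity), inv_div]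
  exact h

theorem pb2_norm_cold {a b : V} (hc : Cp a b) : ‖a‖ ≤ 2 ∧ ‖b‖ ≤ 2 := by
  obtain ⟨ha, hb, h0, h1, h2⟩ := hc
  constructor
  · rw [EuclideanSpace.norm_eq, Fin.sum_univ_three]
    simp only [Real.norm_eq_abs, sq_abs]
    apply Real.sqrt_le_iff.2
    constructor
    · norm_num
    · rw [ha]; linarith
  · rw [EuclideanSpace.norm_eq, Fin.sum_univ_three]
    simp only [Real.norm_eq_abs, sq_abs]
    apply Real.sqrt_le_iff.2
    constructor
    · norm_num
    · rw [hb, ← h0, ← h1]; linarith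

/-- the area of a disc is at most that of the square -/
theorem pb2_disc {b : ℝ} (hb : 0 < b) :
    volume {q : ℝ × ℝ | q.1 ^ 2 + q.2 ^ 2 < b ^ 2} ≤ ENNReal.ofReal (4 * b ^ 2) := by
  have hsub : {q : ℝ × ℝ | q.1 ^ 2 + q.2 ^ 2 < b ^ 2} ⊆ Ioo (-b) b ×ˢ Ioo (-b) b := by
    intro q hq
    have hq' : q.1 ^ 2 + q.2 ^ 2 < b ^ 2 := hq
    have h1 : |q.1| < b := abs_lt_of_sq_lt_sq (by linarith only [sq_nonneg q.2, hq']) hb.le
    have h2 : |q.2| < b := abs_lt_of_sq_lt_sq (by linarith only [sq_nonneg q.1, hq']) hb.le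
    exact ⟨abs_lt.1 h1, abs_lt.1 h2⟩
  refine (measure_mono hsub).trans ?_
  rw [Measure.volume_eq_prod, Measure.prod_prod, Real.volume_Ioo, ← ENNReal.ofReal_mul (by linarith)]
  apply ENNReal.ofReal_le_ofReal
  nlinarith

theorem plane_perp {η ρ Vm : ℝ} (hη : 0 < η) (hρ : 0 < ρ) (hV : 0 < Vm) :
    ∃ b' δ : ℝ, 0 < b' ∧ 0 < δ ∧ ∀ v u a b : V, Cp a b → ‖v‖ ≤ Vm → Reg ρ v →
      (‖u - a‖ ≤ δ ∨ ‖u - b‖ ≤ δ) → v 2 ≠ u 2 →
      pl v u (fun w => ind (w 0 ^ 2 + w 1 ^ 2 < b' ^ 2) * Ga a b w) ≤ ENNReal.ofReal η := by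
  obtain ⟨ε, hε, H⟩ := pl_small hη (show (0 : ℝ) < Vm + 3 by linarith)
    (show (0 : ℝ) < ρ / 2 by linarith)
  refine ⟨√(ε * ρ / 8), min (ρ / 2) 1, by positivity, by positivity, ?_⟩
  intro v u a b hc hv hreg hu hne
  have hb2 : √(ε * ρ / 8) ^ 2 = ε * ρ / 8 := Real.sq_sqrt (by positivity)
  have hb0 : 0 < √(ε * ρ / 8) := by positivity
  have hgap := pb2_gap hc hreg (min_le_left _ _) hu
  have hnu : ‖u‖ ≤ 3 := by
    obtain ⟨h1, h2⟩ := pb2_norm_cold hc
    have h3 : min (ρ / 2) 1 ≤ 1 := min_le_right _ _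
    rcases hu with hu | hu
    · have : ‖u‖ ≤ ‖u - a‖ + ‖a‖ := by
        calc ‖u‖ = ‖(u - a) + a‖ := by rw [sub_add_cancel]
          _ ≤ _ := norm_add_le _ _
      linarith only [this, hu, h3, h1]
    · have : ‖u‖ ≤ ‖u - b‖ + ‖b‖ := by
        calc ‖u‖ = ‖(u - b) + b‖ := by rw [sub_add_cancel]
          _ ≤ _ := norm_add_le _ _
      linarith only [this, hu, h3, h2]
  have hR : ‖v - u‖ ≤ Vm + 3 := (norm_sub_le _ _).trans (by linarith)
  have hρ' : ρ / 2 ≤ ‖v - u‖ := by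
    have h1 := PiLp.norm_apply_le (v - u) 2
    rw [Real.norm_eq_abs, PiLp.sub_apply] at h1
    linarith
  have hA : MeasurableSet {w : V | w 0 ^ 2 + w 1 ^ 2 < √(ε * ρ / 8) ^ 2} := by
    apply measurableSet_lt <;> fun_prop
  have hS : MeasurableSet {q : ℝ × ℝ | q.1 ^ 2 + q.2 ^ 2 < √(ε * ρ / 8) ^ 2} := by
    apply measurableSet_lt <;> fun_prop
  refine H v u a b hne hR hρ' _ hA ?_
  refine (pb2_pl_le hρ hgap hS (pb2_disc hb0)).trans (ENNReal.ofReal_le_ofReal ?_)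
  rw [hb2]
  apply le_of_eq
  field_simp
  norm_num

/-- the area of an annulus -/
theorem pb2_annulus {s r R : ℝ} (hs : 0 < s) (hr : 0 ≤ r) (hR : r ≤ R) (X : ℝ × ℝ) :
    volume {q : ℝ × ℝ | r ≤ √((X.1 - s * q.1) ^ 2 + (X.2 - s * q.2) ^ 2) ∧
        √((X.1 - s * q.1) ^ 2 + (X.2 - s * q.2) ^ 2) < R} =
      ENNReal.ofReal (Real.pi * (R ^ 2 - r ^ 2) / s ^ 2) := by
  set S : Set (ℝ × ℝ) := {q : ℝ × ℝ | r ≤ √((X.1 - s * q.1) ^ 2 + (X.2 - s * q.2) ^ 2) ∧
        √((X.1 - s * q.1) ^ 2 + (X.2 - s * q.2) ^ 2) < R} with hS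
  rw [← Complex.volume_preserving_equiv_real_prod.measure_preimage_equiv S]
  have hsq : ∀ z : ℂ, √((X.1 - s * z.re) ^ 2 + (X.2 - s * z.im) ^ 2) =
      s * ‖z - (⟨X.1 / s, X.2 / s⟩ : ℂ)‖ := by
    intro z
    rw [Complex.norm_eq_sqrt_sq_add_sq, Complex.sub_re, Complex.sub_im]
    have h1 : (X.1 - s * z.re) ^ 2 + (X.2 - s * z.im) ^ 2 =
        s ^ 2 * ((z.re - X.1 / s) ^ 2 + (z.im - X.2 / s) ^ 2) := by
      field_simp
      ring
    rw [h1, Real.sqrt_mul (by positivity), Real.sqrt_sq hs.le]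
  have hset : Complex.measurableEquivRealProd ⁻¹' S =
      Metric.ball (⟨X.1 / s, X.2 / s⟩ : ℂ) (R / s) \ Metric.ball (⟨X.1 / s, X.2 / s⟩ : ℂ) (r / s) := by
    ext z
    rw [mem_diff, Metric.mem_ball, Metric.mem_ball, dist_eq_norm, not_lt]
    show (r ≤ √((X.1 - s * z.re) ^ 2 + (X.2 - s * z.im) ^ 2) ∧
        √((X.1 - s * z.re) ^ 2 + (X.2 - s * z.im) ^ 2) < R) ↔ _
    rw [hsq, lt_div_iff₀ hs, div_le_iff₀ hs, mul_comm s]
    exact and_comm
  rw [hset, measure_diff (Metric.ball_subset_ball (by gcongr)) measurableSet_ball.nullMeasurableSet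
    measure_ball_lt_top.ne, Complex.volume_ball, Complex.volume_ball]
  have hpi : (NNReal.pi : ℝ≥0∞) = ENNReal.ofReal Real.pi := by
    rw [← NNReal.coe_real_pi, ENNReal.ofReal_coe_nnreal]
  have hR0 : 0 ≤ R := hr.trans hR
  rw [hpi, ← ENNReal.ofReal_pow (by positivity), ← ENNReal.ofReal_pow (by positivity),
    ← ENNReal.ofReal_mul (by positivity), ← ENNReal.ofReal_mul (by positivity),
    ← ENNReal.ofReal_sub _ (by positivity)]
  congr 1
  field_simp

theorem plane_annulus {η ρ k w0 : ℝ} (hη : 0 < η) (hρ : 0 < ρ) (hk : 0 < k) (hw : 0 < w0) :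
    ∃ e δ : ℝ, 0 < e ∧ 0 < δ ∧ ∀ v u a b : V, Cp a b → Reg ρ v →
      (‖u - a‖ ≤ δ ∨ ‖u - b‖ ≤ δ) → ∀ T s r : ℝ, 0 < T → k * T ≤ s → 0 ≤ r → r ≤ w0 * T →
      ∀ X : ℝ × ℝ,
      pl v u (fun w => ind (r ≤ √((X.1 - s * w 0) ^ 2 + (X.2 - s * w 1) ^ 2) ∧
        √((X.1 - s * w 0) ^ 2 + (X.2 - s * w 1) ^ 2) < r + e * T)) ≤ ENNReal.ofReal η := by
  have hpi := Real.pi_pos
  set e : ℝ := min 1 (η * ρ * k ^ 2 / (2 * Real.pi * (2 * w0 + 1))) with he
  have he0 : 0 < e := by positivity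
  have he1 : e ≤ 1 := min_le_left _ _
  have he2 : e ≤ η * ρ * k ^ 2 / (2 * Real.pi * (2 * w0 + 1)) := min_le_right _ _
  refine ⟨e, ρ / 2, he0, by positivity, ?_⟩
  intro v u a b hc hreg hu T s r hT hs hr hr2 X
  have hs0 : 0 < s := lt_of_lt_of_le (by positivity) hs
  have hgap := pb2_gap hc hreg le_rfl hu
  have hS : MeasurableSet {q : ℝ × ℝ | r ≤ √((X.1 - s * q.1) ^ 2 + (X.2 - s * q.2) ^ 2) ∧
        √((X.1 - s * q.1) ^ 2 + (X.2 - s * q.2) ^ 2) < r + e * T} := by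
    have m1 : Measurable fun q : ℝ × ℝ => √((X.1 - s * q.1) ^ 2 + (X.2 - s * q.2) ^ 2) := by
      fun_prop
    exact (measurableSet_le measurable_const m1).inter (measurableSet_lt m1 measurable_const)
  refine (pb2_pl_le hρ hgap hS (pb2_annulus hs0 hr (by linarith only [mul_pos he0 hT]) X).le).trans
    (ENNReal.ofReal_le_ofReal ?_)
  have h1 : (r + e * T) ^ 2 - r ^ 2 ≤ (2 * w0 + 1) * e * T ^ 2 := by
    have h2 : r * (e * T) ≤ w0 * T * (e * T) := mul_le_mul_of_nonneg_right hr2 (by positivity)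
    have h3 : e * (e * T ^ 2) ≤ 1 * (e * T ^ 2) := mul_le_mul_of_nonneg_right he1 (by positivity)
    linarith only [h3, h2]
  have h4 : k ^ 2 * T ^ 2 ≤ s ^ 2 := by
    rw [← mul_pow]
    exact pow_le_pow_left₀ (by positivity) hs 2
  have h5 : Real.pi * ((r + e * T) ^ 2 - r ^ 2) / s ^ 2 ≤
      Real.pi * ((2 * w0 + 1) * e) / k ^ 2 := by
    rw [div_le_div_iff₀ (by positivity) (by positivity)]
    calc Real.pi * ((r + e * T) ^ 2 - r ^ 2) * k ^ 2
        ≤ Real.pi * ((2 * w0 + 1) * e * T ^ 2) * k ^ 2 := by gcongr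
      _ = Real.pi * ((2 * w0 + 1) * e) * (k ^ 2 * T ^ 2) := by ring
      _ ≤ Real.pi * ((2 * w0 + 1) * e) * s ^ 2 := by gcongr
  calc 2 / ρ * (Real.pi * ((r + e * T) ^ 2 - r ^ 2) / s ^ 2)
      ≤ 2 / ρ * (Real.pi * ((2 * w0 + 1) * e) / k ^ 2) := by gcongr
    _ ≤ 2 / ρ * (Real.pi * ((2 * w0 + 1) * (η * ρ * k ^ 2 / (2 * Real.pi * (2 * w0 + 1)))) /
        k ^ 2) := by gcongr
    _ = η := by field_simp

end Vale.Agent.P140.NU.S
end
end

section

/-!
P140, module S: contributions of the exceptional sets, at fixed times.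
-/

open MeasureTheory Set Filter
open scoped ENNReal Topology

noncomputable section

namespace Vale.Agent.P140.NU.S

/-! ### auxiliary facts -/

theorem bad_w_pos {P : Par} (hP : Nice P) : 0 < P.w := by
  have h1 := hP.c1
  unfold Par.w
  positivity

theorem bad_w_le_one {P : Par} (hP : Nice P) : P.w ≤ 1 := by
  have h1 := hP.c1
  unfold Par.w
  rw [div_le_one (by positivity)]
  linarith only [sq_nonneg (P.c - 1), h1]

theorem bad_ss_pos {P : Par} (hP : Nice P) (n : ℕ) : 0 < P.ss n :=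
  div_pos (pow_pos hP.lam0 _) (bad_w_pos hP)

theorem bad_TT_pos {P : Par} (hP : Nice P) (n : ℕ) {t : ℝ} (ht : 0 ≤ t) : 0 < P.TT n t :=
  add_pos_of_nonneg_of_pos ht (bad_ss_pos hP n)

theorem bad_Cp {P : Par} (hP : Nice P) (x : T3) : Cp (us P 1 x) (us P (-1) x) := by
  have h0 := bad_w_pos hP
  have h1 := bad_w_le_one hP
  refine ⟨rfl, rfl, rfl, rfl, (us_sq h0.le x 1).trans ?_⟩
  nlinarith

theorem bad_mul {C T η : ℝ} (hC : 0 < C) (hT : 0 < T) :
    ENNReal.ofReal (C / T) * ENNReal.ofReal (η / C) = ENNReal.ofReal (η / T) := by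
  rw [← ENNReal.ofReal_mul (by positivity)]
  congr 1
  field_simp

theorem bad_abs_apply_le (v : V) (i : Fin 3) : |v i| ≤ ‖v‖ := by
  have h := norm_sq_eq v
  have h2 := vp_sq v
  refine abs_le_of_sq_le_sq' ?_ (norm_nonneg v) |> abs_le.2
  fin_cases i
  · show v 0 ^ 2 ≤ _
    linarith only [sq_nonneg (v 2), sq_nonneg (v 1), h2, h]
  · show v 1 ^ 2 ≤ _
    linarith only [sq_nonneg (v 2), sq_nonneg (v 0), h2, h]
  · show v 2 ^ 2 ≤ _
    linarith only [sq_nonneg (v 1), sq_nonneg (v 0), h2, h]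

theorem bad_reg_dist {P : Par} {ρ : ℝ} {x : T3} {v u : V} (hv : Reg ρ v)
    (hu : ‖u - us P 1 x‖ ≤ ρ / 2 ∨ ‖u - us P (-1) x‖ ≤ ρ / 2) : ρ / 2 ≤ ‖v - u‖ := by
  have h0 : |v 2 - u 2| ≤ ‖v - u‖ := bad_abs_apply_le (v - u) 2
  obtain ⟨h1, h2⟩ := hv
  rcases hu with hu | hu
  · have h3 : |u 2 - 1| ≤ ‖u - us P 1 x‖ := bad_abs_apply_le (u - us P 1 x) 2
    have h4 : |v 2 - 1| ≤ |v 2 - u 2| + |u 2 - 1| := abs_sub_le _ _ _
    linarith only [h4, h3, hu, h1, h0]
  · have h3 : |u 2 - (-1)| ≤ ‖u - us P (-1) x‖ := bad_abs_apply_le (u - us P (-1) x) 2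
    have h4 : |v 2 - (-1)| ≤ |v 2 - u 2| + |u 2 - (-1)| := abs_sub_le _ _ _
    have h5 : v 2 - (-1) = v 2 + 1 := by ring
    rw [h5] at h4
    linarith

/-! ### the exceptional sets -/

/-- everything, after a regular velocity -/
theorem reg_total {P : Par} (hP : Nice P) {ρ M : ℝ} (hρ : 0 < ρ) (hM : 0 < M) :
    ∃ C : ℝ, 0 < C ∧ ∀ᶠ t0 in 𝓝[>] (0 : ℝ), ∀ n, P.ss n ≤ t0 → ∀ t ∈ Icc 0 t0, ∀ x,
      rr x ≤ M * P.TT n t → ∀ v, Reg ρ v →
      KG P n t x v (fun _ w => Ph P x w) ≤ ENNReal.ofReal (C / P.TT n t) := by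
  obtain ⟨C1, hC1, h1⟩ := pl_total
  obtain ⟨C2, hC2, h2⟩ := KG_le hP
  refine ⟨C2 * (C1 / (ρ / 2)), by positivity, ?_⟩
  filter_upwards [cold_near hP (half_pos hρ) hM, h2] with t0 hcn hkg n hn t ht x hx v hv
  have hT := bad_TT_pos hP n ht.1
  refine (hkg n t ht x v _ (ENNReal.ofReal (C1 / (ρ / 2))) ?_).trans ?_
  · intro u hu huv
    have h3 := (hcn n hn t ht x hx u hu).2
    have h4 := bad_reg_dist hv h3
    refine (h1 v u _ _ huv).trans (ENNReal.ofReal_le_ofReal ?_)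
    gcongr
  · rw [← ENNReal.ofReal_mul (by positivity)]
    apply ENNReal.ofReal_le_ofReal
    apply le_of_eq
    field_simp

/-- velocities too large or not regular; `v` only has to be away from the two cold velocities -/
theorem bad_vel {P : Par} (hP : Nice P) {η ρ Vm M : ℝ} (hη : 0 < η) (hρ : 0 < ρ) (hV : 0 < Vm)
    (hM : 0 < M) : ∃ V' a' : ℝ, 0 < V' ∧ 0 < a' ∧ ∀ᶠ t0 in 𝓝[>] (0 : ℝ), ∀ n, P.ss n ≤ t0 →
      ∀ t ∈ Icc 0 t0, ∀ x, rr x ≤ M * P.TT n t → ∀ v, ‖v‖ ≤ Vm →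
      ρ ≤ ‖v - us P 1 x‖ → ρ ≤ ‖v - us P (-1) x‖ →
      KG P n t x v (fun _ w => ind (V' < ‖w‖ ∨ ¬ Reg a' w) * Ph P x w) ≤
        ENNReal.ofReal (η / P.TT n t) := by
  obtain ⟨C, hC, h2⟩ := KG_le hP
  obtain ⟨V', a', δ, hV', ha', hδ, h1⟩ := plane_bad0 (div_pos hη hC) hρ hV
  refine ⟨V', a', hV', ha', ?_⟩
  filter_upwards [cold_near hP hδ hM, h2] with t0 hcn hkg n hn t ht x hx v hv hv1 hv2
  rw [← bad_mul hC (bad_TT_pos hP n ht.1)]
  refine hkg n t ht x v _ _ ?_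
  intro u hu huv
  exact h1 v u _ _ (bad_Cp hP x) hv hv1 hv2 (hcn n hn t ht x hx u hu).2 huv

/-- small horizontal part -/
theorem bad_perp {P : Par} (hP : Nice P) {η ρ Vm M : ℝ} (hη : 0 < η) (hρ : 0 < ρ) (hV : 0 < Vm)
    (hM : 0 < M) : ∃ b' : ℝ, 0 < b' ∧ ∀ᶠ t0 in 𝓝[>] (0 : ℝ), ∀ n, P.ss n ≤ t0 →
      ∀ t ∈ Icc 0 t0, ∀ x, rr x ≤ M * P.TT n t → ∀ v, ‖v‖ ≤ Vm → Reg ρ v →
      KG P n t x v (fun _ w => ind (w 0 ^ 2 + w 1 ^ 2 < b' ^ 2) * Ph P x w) ≤
        ENNReal.ofReal (η / P.TT n t) := by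
  obtain ⟨C, hC, h2⟩ := KG_le hP
  obtain ⟨b', δ, hb', hδ, h1⟩ := plane_perp (div_pos hη hC) hρ hV
  refine ⟨b', hb', ?_⟩
  filter_upwards [cold_near hP hδ hM, h2] with t0 hcn hkg n hn t ht x hx v hv hv1
  rw [← bad_mul hC (bad_TT_pos hP n ht.1)]
  refine hkg n t ht x v _ _ ?_
  intro u hu huv
  exact h1 v u _ _ (bad_Cp hP x) hv hv1 (hcn n hn t ht x hx u hu).2 huv

/-- the strip where the sweep is slow -/
theorem bad_strip {P : Par} (hP : Nice P) {η ρ Vm M : ℝ} (hη : 0 < η) (hρ : 0 < ρ) (hV : 0 < Vm)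
    (hM : 0 < M) : ∃ l : ℝ, 0 < l ∧ ∀ᶠ t0 in 𝓝[>] (0 : ℝ), ∀ n, P.ss n ≤ t0 →
      ∀ t ∈ Icc 0 t0, ∀ x, rr x ≤ M * P.TT n t → ∀ v, ‖v‖ ≤ Vm → Reg ρ v → ∀ d : V,
      KG P n t x v (fun u w => ind (|inner ℝ d (w + u - (2 : ℝ) • v)| < l * ‖d‖) * Ph P x w) ≤
        ENNReal.ofReal (η / P.TT n t) := by
  obtain ⟨C, hC, h2⟩ := KG_le hP
  obtain ⟨l, δ, hl, hδ, h1⟩ := plane_strip (div_pos hη hC) hρ hV
  refine ⟨l, hl, ?_⟩
  filter_upwards [cold_near hP hδ hM, h2] with t0 hcn hkg n hn t ht x hx v hv hv1 d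
  rw [← bad_mul hC (bad_TT_pos hP n ht.1)]
  refine hkg n t ht x v _ _ ?_
  intro u hu huv
  exact h1 v u _ _ (bad_Cp hP x) hv hv1 (hcn n hn t ht x hx u hu).2 huv d

/-- Tonelli for `pl` -/
theorem bad_pl_swap {v u : V} {S : Set ℝ} {p : V → Prop} {F : ℝ → V → ℝ≥0∞}
    (hp : MeasurableSet {w | p w}) (hF : Measurable fun q : ℝ × V => F q.1 q.2) :
    pl v u (fun w => ind (p w) * ∫⁻ τ in S, F τ w) =
      ∫⁻ τ in S, pl v u (fun w => ind (p w) * F τ w) := by
  have hp1 : Measurable fun w : V => ind (p w) := meas_ind hp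
  have hgr : Measurable fun q : ℝ × ℝ => gr v u q :=
    meas_gr.comp (measurable_const.prodMk (measurable_const.prodMk measurable_id))
  have hj : Measurable fun z : (ℝ × ℝ) × ℝ => ind (p (gr v u z.1)) * F z.2 (gr v u z.1) :=
    (hp1.comp (hgr.comp measurable_fst)).mul
      (hF.comp (measurable_snd.prodMk (hgr.comp measurable_fst)))
  unfold pl
  rw [lintegral_const_mul _ ?_]
  · congr 1
    rw [lintegral_lintegral_swap (f := fun (τ : ℝ) (q : ℝ × ℝ) =>
      ind (p (gr v u q)) * F τ (gr v u q))]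
    · apply lintegral_congr
      intro q
      rw [lintegral_const_mul]
      exact hF.comp (measurable_id.prodMk measurable_const)
    · exact (hj.comp measurable_swap).aemeasurable
  · exact (hj.comp measurable_swap).lintegral_prod_right'

/-- small labels at the next collision -/
theorem bad_label {P : Par} (hP : Nice P) {η ρ Vm M k : ℝ} (hη : 0 < η) (hρ : 0 < ρ)
    (hV : 0 < Vm) (hM : 0 < M) (hk : 0 < k) : ∃ e : ℝ, 0 < e ∧ ∀ᶠ t0 in 𝓝[>] (0 : ℝ), ∀ n,
      P.ss n ≤ t0 → ∀ t ∈ Icc 0 t0, ∀ t1 ∈ Icc 0 t, ∀ T : ℝ, P.TT n t ≤ T → T ≤ 2 * P.TT n t1 →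
      ∀ x, rr x ≤ M * T → ∀ v, Reg ρ v →
      KG P n t x v (fun _ w => ind (‖w‖ ≤ Vm) * ∫⁻ τ in Icc t1 (t - k * T),
        ind (0 ≤ rr (mv x w (τ - t)) - P.w * τ ∧ rr (mv x w (τ - t)) - P.w * τ < e * T)) ≤
        ENNReal.ofReal η := by
  obtain ⟨C, hC, h2⟩ := KG_le hP
  have hw := bad_w_pos hP
  obtain ⟨e, δ, he, hδ, h1⟩ := plane_annulus (div_pos hη hC) hρ hk hw
  refine ⟨e, he, ?_⟩
  have hM2 : 0 < 2 * M := by positivity
  have hsm : ∀ᶠ t0 in 𝓝[>] (0 : ℝ), t0 < 1 / (2 * (4 * M + Vm)) :=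
    (eventually_lt_nhds (by positivity)).filter_mono nhdsWithin_le_nhds
  filter_upwards [cold_near hP hδ hM2, h2, hsm] with t0 hcn hkg ht0 n hn t ht t1 ht1 T hT1 hT2 x
    hx v hv
  have hTT := bad_TT_pos hP n ht.1
  have hTT1 := bad_TT_pos hP n ht1.1
  have hT : 0 < T := hTT.trans_le hT1
  have hmono : P.TT n t1 ≤ P.TT n t := by
    unfold Par.TT
    linarith [ht1.2]
  have ht0' : 0 ≤ t0 := ht.1.trans ht.2
  have hTle : T ≤ 4 * t0 := by
    have : P.TT n t1 ≤ 2 * t0 := by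
      unfold Par.TT
      linarith [ht1.2, ht.2]
    linarith
  have htT : t ≤ P.TT n t := by
    unfold Par.TT
    linarith [bad_ss_pos hP n]
  have hloc : M * T + t0 * Vm < 1 / 2 := by
    rw [lt_div_iff₀ (by positivity)] at ht0
    (by_contra nlg; linarith only [nlg, mul_nonneg (le_of_lt (sub_pos.2 hM2)) (sub_nonneg.2 hTle), mul_nonneg (mul_self_nonneg (1 : ℝ)) (sub_nonneg.2 (not_lt.1 nlg)), ht0])
  have hxM : rr x ≤ 2 * M * P.TT n t := by
    have : M * T ≤ M * (2 * P.TT n t) := by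
      apply mul_le_mul_of_nonneg_left _ hM.le
      linarith
    linarith
  have hfin : ENNReal.ofReal (C / P.TT n t) *
      (ENNReal.ofReal (η / C) * ENNReal.ofReal (P.TT n t)) = ENNReal.ofReal η := by
    rw [← ENNReal.ofReal_mul (by positivity), ← ENNReal.ofReal_mul (by positivity)]
    congr 1
    field_simp
  rw [← hfin]
  refine hkg n t ht x v _ _ ?_
  intro u hu huv
  have hcold := (hcn n hn t ht x hxM u hu).2
  have hmF : Measurable fun q : ℝ × V => ind (0 ≤ rr (mv x q.2 (q.1 - t)) - P.w * q.1 ∧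
      rr (mv x q.2 (q.1 - t)) - P.w * q.1 < e * T) := by
    have hm : Measurable fun q : ℝ × V => rr (mv x q.2 (q.1 - t)) - P.w * q.1 :=
      (measurable_rr.comp (measurable_mv.comp ((measurable_fst.sub_const t).prodMk
        (measurable_const.prodMk measurable_snd)))).sub (measurable_fst.const_mul _)
    exact meas_ind ((measurableSet_le measurable_const hm).inter
      (measurableSet_lt hm measurable_const))
  rw [bad_pl_swap (measurableSet_le measurable_norm measurable_const) hmF]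
  calc ∫⁻ τ in Icc t1 (t - k * T), pl v u (fun w => ind (‖w‖ ≤ Vm) *
        ind (0 ≤ rr (mv x w (τ - t)) - P.w * τ ∧ rr (mv x w (τ - t)) - P.w * τ < e * T))
      ≤ ∫⁻ τ in Icc t1 (t - k * T), ENNReal.ofReal (η / C) := by
        apply setLIntegral_mono measurable_const
        intro τ hτ
        have hτt : k * T ≤ t - τ := by linarith [hτ.2]
        have hkT : 0 < k * T := by positivity
        have hτ0 : 0 ≤ τ := ht1.1.trans hτ.1
        have hr0 : 0 ≤ P.w * τ := by positivity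
        have hr1 : P.w * τ ≤ P.w * T := by
          apply mul_le_mul_of_nonneg_left _ hw.le
          linarith
        refine le_trans (pl_mono ?_) (h1 v u _ _ (bad_Cp hP x) hv hcold T (t - τ) (P.w * τ) hT hτt
          hr0 hr1 (rep x 0, rep x 1))
        intro w
        unfold ind
        by_cases hwV : ‖w‖ ≤ Vm
        · rw [if_pos hwV, one_mul]
          have hrr : rr (mv x w (τ - t)) =
              √((rep x 0 - (t - τ) * w 0) ^ 2 + (rep x 1 - (t - τ) * w 1) ^ 2) := by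
            rw [rr_mv]
            · congr 1
              ring
            · have h5 : |τ - t| ≤ t0 := by
                rw [abs_sub_comm, abs_of_nonneg (by linarith only [hkT, hτt])]
                linarith [ht.2]
              have h6 : |τ - t| * vp w ≤ t0 * Vm := by
                apply mul_le_mul h5 ((vp_le_norm w).trans hwV) (vp_nonneg w) ht0'
              linarith only [h6, hloc, hx]
          rw [← hrr]
          split_ifs with h7 h8
          · exact le_rfl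
          · exact absurd ⟨by linarith only [h7.1], by linarith [h7.2]⟩ h8
          · exact bot_le
          · exact le_rfl
        · rw [if_neg hwV, zero_mul]
          exact bot_le
    _ = ENNReal.ofReal (η / C) * volume (Icc t1 (t - k * T)) := by
        rw [setLIntegral_const]
    _ ≤ ENNReal.ofReal (η / C) * ENNReal.ofReal (P.TT n t) := by
        rw [Real.volume_Icc]
        gcongr
        have : 0 < k * T := by positivity
        linarith [ht1.1]

end Vale.Agent.P140.NU.S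
end
end

section

/-!
P140, module S: one collision after a regular velocity, up to a small error.
-/

open MeasureTheory Set Filter
open scoped ENNReal Topology

noncomputable section

namespace Vale.Agent.P140.NU.S

theorem ind_le_oneS (p : Prop) : ind p ≤ 1 := by
  unfold ind; split_ifs <;> simp

theorem ind_of {p : Prop} (h : p) : ind p = 1 := by unfold ind; rw [if_pos h]

theorem ind_of_not {p : Prop} (h : ¬ p) : ind p = 0 := by unfold ind; rw [if_neg h]

theorem Reg.sub_us {P : Par} {ρ : ℝ} {v : V} (h : Reg ρ v) (x : T3) :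
    ρ ≤ ‖v - us P 1 x‖ ∧ ρ ≤ ‖v - us P (-1) x‖ := by
  have key : ∀ s : ℝ, |v 2 - s| ≤ ‖v - us P s x‖ := fun s => by
    have h1 := PiLp.norm_apply_le (v - us P s x) 2
    have h2 : (v - us P s x) 2 = v 2 - s := rfl
    rwa [h2, Real.norm_eq_abs] at h1
  refine ⟨h.1.trans (key 1), h.2.trans ?_⟩
  have := key (-1)
  rwa [sub_neg_eq_add] at this

theorem TT_mono (P : Par) (n : ℕ) {s t : ℝ} (h : s ≤ t) : P.TT n s ≤ P.TT n t := by
  unfold Par.TT; linarith

theorem meas_inner (d v : V) : Measurable fun p : V × V =>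
    |inner ℝ d (p.2 + p.1 - (2 : ℝ) • v)| := by
  apply Measurable.abs
  have : Continuous fun p : V × V => inner ℝ d (p.2 + p.1 - (2 : ℝ) • v) := by fun_prop
  exact this.measurable

theorem meas_c2 (i : Fin 3) : Measurable fun p : V × V => p.2 i :=
  (measurable_coord i).comp measurable_snd

theorem meas_Reg (a' : ℝ) : MeasurableSet {p : V × V | Reg a' p.2} :=
  (measurableSet_le measurable_const ((meas_c2 2).sub_const 1).abs).inter
      (measurableSet_le measurable_const ((meas_c2 2).add_const 1).abs)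

theorem meas_perp : Measurable fun p : V × V => p.2 0 ^ 2 + p.2 1 ^ 2 :=
  ((meas_c2 0).pow_const 2).add ((meas_c2 1).pow_const 2)

/-- good velocities -/
def GR (V' a' b' l : ℝ) (d v u w : V) : Prop :=
  ‖w‖ ≤ V' ∧ Reg a' w ∧ b' ^ 2 ≤ w 0 ^ 2 + w 1 ^ 2 ∧ l * ‖d‖ ≤ |inner ℝ d (w + u - (2 : ℝ) • v)|

theorem meas_GR (V' a' b' l : ℝ) (d v : V) :
    MeasurableSet {p : V × V | GR V' a' b' l d v p.1 p.2} := by
  have h1 : MeasurableSet {p : V × V | ‖p.2‖ ≤ V'} :=
    measurableSet_le measurable_snd.norm measurable_const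
  have h2 : MeasurableSet {p : V × V | b' ^ 2 ≤ p.2 0 ^ 2 + p.2 1 ^ 2} :=
    measurableSet_le measurable_const meas_perp
  have h3 : MeasurableSet {p : V × V | l * ‖d‖ ≤ |inner ℝ d (p.2 + p.1 - (2 : ℝ) • v)|} :=
    measurableSet_le measurable_const (meas_inner d v)
  exact h1.inter ((meas_Reg a').inter (h2.inter h3))

theorem meas_Ph2 (P : Par) (y : T3) : Measurable fun p : V × V => Ph P y p.2 := by
  have h : Measurable fun p : V × V => ((y, p.2) : T3 × V) :=
    measurable_const.prodMk measurable_snd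
  have h2 := (meas_Ph P).comp h
  exact h2

/-- splitting of the gain at a fixed time -/
theorem KG_split {P : Par} {n : ℕ} {τ : ℝ} {y : T3} {v d : V} {V' a' b' l : ℝ} {g : V → ℝ≥0∞}
    {H ε : ℝ≥0∞} (hg : Measurable g) (hgH : ∀ u w, cf P n τ y u ≠ 0 → g w ≤ H * Ph P y w)
    (b1 : KG P n τ y v (fun _ w => ind (V' < ‖w‖ ∨ ¬ Reg a' w) * Ph P y w) ≤ ε)
    (b2 : KG P n τ y v (fun _ w => ind (w 0 ^ 2 + w 1 ^ 2 < b' ^ 2) * Ph P y w) ≤ ε)
    (b3 : KG P n τ y v (fun u w =>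
      ind (|inner ℝ d (w + u - (2 : ℝ) • v)| < l * ‖d‖) * Ph P y w) ≤ ε) :
    KG P n τ y v (fun _ w => g w) ≤
      KG P n τ y v (fun u w => ind (GR V' a' b' l d v u w) * g w) + H * (ε + (ε + ε)) := by
  have m0 : Measurable fun p : V × V => ind (GR V' a' b' l d v p.1 p.2) * g p.2 :=
    (meas_ind (meas_GR V' a' b' l d v)).mul (hg.comp measurable_snd)
  have m1 : Measurable fun p : V × V => ind (V' < ‖p.2‖ ∨ ¬ Reg a' p.2) * Ph P y p.2 := by
    refine (meas_ind ?_).mul (meas_Ph2 P y)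
    exact (measurableSet_lt measurable_const measurable_snd.norm).union (meas_Reg a').compl
  have m2 : Measurable fun p : V × V =>
      ind (p.2 0 ^ 2 + p.2 1 ^ 2 < b' ^ 2) * Ph P y p.2 := by
    refine (meas_ind ?_).mul (meas_Ph2 P y)
    exact measurableSet_lt meas_perp measurable_const
  have m3 : Measurable fun p : V × V =>
      ind (|inner ℝ d (p.2 + p.1 - (2 : ℝ) • v)| < l * ‖d‖) * Ph P y p.2 := by
    refine (meas_ind ?_).mul (meas_Ph2 P y)
    exact measurableSet_lt (meas_inner d v) measurable_const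
  calc KG P n τ y v (fun _ w => g w)
      ≤ KG P n τ y v (fun u w => (ind (GR V' a' b' l d v u w) * g w) +
        H * (ind (V' < ‖w‖ ∨ ¬ Reg a' w) * Ph P y w + (ind (w 0 ^ 2 + w 1 ^ 2 < b' ^ 2) * Ph P y w
          + ind (|inner ℝ d (w + u - (2 : ℝ) • v)| < l * ‖d‖) * Ph P y w))) := by
        refine KG_mono fun u w hu => ?_
        have e := hgH u w hu
        by_cases c1 : V' < ‖w‖ ∨ ¬ Reg a' w
        · rw [ind_of c1, one_mul, mul_add]
          exact e.trans (le_add_left (le_add_right le_rfl))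
        by_cases c2 : w 0 ^ 2 + w 1 ^ 2 < b' ^ 2
        · rw [ind_of c2, one_mul, mul_add, mul_add]
          exact e.trans (le_add_left (le_add_left (le_add_right le_rfl)))
        by_cases c3 : |inner ℝ d (w + u - (2 : ℝ) • v)| < l * ‖d‖
        · rw [ind_of c3, one_mul, mul_add, mul_add]
          exact e.trans (le_add_left (le_add_left (le_add_left le_rfl)))
        · push Not at c1 c2 c3
          have h : GR V' a' b' l d v u w := ⟨c1.1, c1.2, c2, c3⟩
          rw [ind_of h, one_mul]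
          exact le_add_right le_rfl
    _ = KG P n τ y v (fun u w => ind (GR V' a' b' l d v u w) * g w) +
        H * (KG P n τ y v (fun u w => ind (V' < ‖w‖ ∨ ¬ Reg a' w) * Ph P y w) +
          (KG P n τ y v (fun u w => ind (w 0 ^ 2 + w 1 ^ 2 < b' ^ 2) * Ph P y w)
          + KG P n τ y v (fun u w =>
            ind (|inner ℝ d (w + u - (2 : ℝ) • v)| < l * ‖d‖) * Ph P y w))) := by
        rw [KG_add m0, KG_const_mul H (m1.add (m2.add m3)), KG_add m1, KG_add m2]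
    _ ≤ _ := by gcongr

theorem Nice.w0 {P : Par} (hP : Nice P) : 0 < P.w := by
  unfold Par.w
  have := hP.c1
  positivity

theorem Nice.ss0 {P : Par} (hP : Nice P) (n : ℕ) : 0 < P.ss n := by
  unfold Par.ss
  have h1 := hP.lam0
  have h2 := hP.w0
  positivity

/-- positions and times at scale `T` -/
theorem fix_facts {P : Par} (hP : Nice P) {M Vm t1 τ T : ℝ} {n : ℕ} (ht1 : 0 ≤ t1)
    (hT : P.TT n τ ≤ T) (hT' : T ≤ 2 * P.TT n t1) {x : T3} (hx : rr x ≤ M * T) {v : V}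
    (hv : ‖v‖ ≤ Vm) {τ' : ℝ} (h : τ' ∈ Icc t1 τ) : T ≤ 2 * P.TT n τ' ∧ 0 < P.TT n τ' ∧
      rr (mv x v (τ' - τ)) ≤ (M + Vm) * T ∧ P.TT n τ' ≤ T := by
  have hss := hP.ss0 n
  have e0 : 0 < P.TT n τ' := by unfold Par.TT; linarith [h.1]
  have e1 : P.TT n t1 ≤ P.TT n τ' := TT_mono P n h.1
  have e6 : P.TT n τ' ≤ P.TT n τ := TT_mono P n h.2
  have hT0 : 0 < T := by linarith
  have e2 : T ≤ 2 * P.TT n τ' := by linarith
  refine ⟨e2, e0, ?_, by linarith⟩
  have e3 := rr_mv_le' x v (τ' - τ)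
  have e4 : |τ' - τ| ≤ T := by
    rw [abs_sub_comm, abs_of_nonneg (by linarith [h.2])]
    unfold Par.TT at hT
    linarith [h.1]
  have e5 : |τ' - τ| * ‖v‖ ≤ T * Vm := mul_le_mul e4 hv (norm_nonneg _) hT0.le
  linarith only [e5, e3, hx]

theorem ofReal_div_TT {P : Par} {n : ℕ} {τ' T c : ℝ} (h : T ≤ 2 * P.TT n τ') (h0 : 0 < P.TT n τ')
    (hT : 0 < T) (hc : 0 ≤ c) :
    ENNReal.ofReal (c / P.TT n τ') ≤ ENNReal.ofReal (2 * c / T) := by
  apply ENNReal.ofReal_le_ofReal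
  rw [div_le_div_iff₀ h0 hT]
  linarith only [mul_nonneg (sub_nonneg.2 h) (sub_nonneg.2 hc)]

/-- bounds at fixed times imply the bound for the time integral -/
theorem step_time {t1 τ T C η k : ℝ} {H : ℝ≥0∞} {Φ Ψ : ℝ → ℝ≥0∞} (hT : 0 < T) (hC : 0 < C)
    (hη : 0 < η) (ht : 0 ≤ t1) (hτ : τ ≤ T) (hk : k ∈ Ioc 0 (η / (4 * C)))
    (htot : ∀ τ' ∈ Icc t1 τ, Φ τ' ≤ H * ENNReal.ofReal (2 * C / T))
    (hbad : ∀ τ' ∈ Icc t1 τ, Φ τ' ≤ Ψ τ' + H * ENNReal.ofReal (η / 2 / T)) :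
    ∫⁻ τ' in Icc t1 τ, Φ τ' ≤ (∫⁻ τ' in Icc t1 (τ - k * T), Ψ τ') + ENNReal.ofReal η * H := by
  have hsplit : Icc t1 τ ⊆ (Icc t1 (τ - k * T) ∪ Icc (max t1 (τ - k * T)) τ) := by
    intro s hs
    rcases le_total s (τ - k * T) with h | h
    · exact Or.inl ⟨hs.1, h⟩
    · exact Or.inr ⟨max_le hs.1 h, hs.2⟩
  have hkT : 0 < k * T := mul_pos hk.1 hT
  calc ∫⁻ τ' in Icc t1 τ, Φ τ'
      ≤ (∫⁻ τ' in Icc t1 (τ - k * T), Φ τ') + ∫⁻ τ' in Icc (max t1 (τ - k * T)) τ, Φ τ' :=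
        (lintegral_mono_set hsplit).trans (lintegral_union_le _ _ _)
    _ ≤ (∫⁻ τ' in Icc t1 (τ - k * T), (Ψ τ' + H * ENNReal.ofReal (η / 2 / T))) +
        ∫⁻ τ' in Icc (max t1 (τ - k * T)) τ, H * ENNReal.ofReal (2 * C / T) := by
        refine add_le_add ?_ ?_
        · refine setLIntegral_mono' measurableSet_Icc fun τ' h => hbad τ' ⟨h.1, ?_⟩
          linarith [h.2]
        · refine setLIntegral_mono' measurableSet_Icc fun τ' h => htot τ' ⟨?_, h.2⟩
          exact (le_max_left _ _).trans h.1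
    _ ≤ (∫⁻ τ' in Icc t1 (τ - k * T), Ψ τ') +
          H * ENNReal.ofReal (η / 2 / T) * ENNReal.ofReal T +
          H * ENNReal.ofReal (2 * C / T) * ENNReal.ofReal (k * T) := by
        rw [lintegral_add_right _ measurable_const, setLIntegral_const, setLIntegral_const,
          Real.volume_Icc, Real.volume_Icc]
        gcongr
        · linarith
        · linarith [le_max_right t1 (τ - k * T)]
    _ ≤ _ + ENNReal.ofReal η * H := by
        rw [add_assoc]
        gcongr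
        rw [mul_assoc, mul_assoc, ← mul_add, mul_comm (ENNReal.ofReal η),
          ← ENNReal.ofReal_mul (by positivity), ← ENNReal.ofReal_mul (by positivity),
          ← ENNReal.ofReal_add (by positivity) (by positivity)]
        gcongr
        have e1 : η / 2 / T * T = η / 2 := by field_simp
        have e2 : 2 * C / T * (k * T) = 2 * C * k := by field_simp
        have e3 : 2 * C * k ≤ η / 2 := by
          have := hk.2
          rw [le_div_iff₀ (by positivity)] at this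
          linarith
        linarith only [e3, e2, e1]

/-- one collision after a regular velocity -/
theorem step {P : Par} (hP : Nice P) {η ρ Vm M : ℝ} (hη : 0 < η) (hρ : 0 < ρ) (hV : 0 < Vm)
    (hM : 0 < M) : ∃ V' a' b' l k0 : ℝ, 0 < V' ∧ 0 < a' ∧ 0 < b' ∧ 0 < l ∧ 0 < k0 ∧
      ∀ᶠ t0 in 𝓝[>] (0 : ℝ), ∀ n, P.ss n ≤ t0 →
      ∀ γ ∈ Icc (1 / 8 : ℝ) (1 / 6), ∀ t1 τ T, 0 ≤ t1 → t1 ≤ τ → τ ≤ t0 → P.TT n τ ≤ T →
      T ≤ 2 * P.TT n t1 → ∀ k ∈ Ioc 0 k0, ∀ g : ℝ → T3 → V → ℝ≥0∞,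
      (Measurable fun p : ℝ × T3 × V => g p.1 p.2.1 p.2.2) → ∀ H : ℝ≥0∞,
      (∀ τ' ∈ Icc t1 τ, ∀ x v, g τ' x v ≤ H * Pi P n γ τ' x v) →
      ∀ x, rr x ≤ M * T → ∀ v, ‖v‖ ≤ Vm → Reg ρ v → ∀ D : ℝ → V,
      UK P n t1 g τ x v ≤ (∫⁻ τ' in Icc t1 (τ - k * T), KG P n τ' (mv x v (τ' - τ)) v
        fun u w => ind (GR V' a' b' l (D τ') v u w) * g τ' (mv x v (τ' - τ)) w) +
        ENNReal.ofReal η * H := by
  have hM' : 0 < 2 * (M + Vm) := by positivity
  obtain ⟨C, hC, hC'⟩ := reg_total hP hρ hM'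
  obtain ⟨V', a', hV', ha', h1⟩ := bad_vel hP (show 0 < η / 12 by positivity) hρ hV hM'
  obtain ⟨b', hb', h2⟩ := bad_perp hP (show 0 < η / 12 by positivity) hρ hV hM'
  obtain ⟨l, hl, h3⟩ := bad_strip hP (show 0 < η / 12 by positivity) hρ hV hM'
  refine ⟨V', a', b', l, η / (4 * C), hV', ha', hb', hl, by positivity, ?_⟩
  filter_upwards [hC', h1, h2, h3, cold_near hP one_pos hM'] with t0 h0 h1 h2 h3 hnear
  intro n hn γ hγ t1 τ T ht1 h1τ hτ hT hT' k hk g hg H hgH x hx v hv hreg D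
  have hw := hP.w0
  have hT0 : 0 < T := by
    have : 0 < P.TT n τ := by
      have := hP.ss0 n
      unfold Par.TT; linarith
    linarith
  have hfix := fun τ' (h : τ' ∈ Icc t1 τ) => fix_facts hP ht1 hT hT' hx hv h
  have hfx : ∀ τ' ∈ Icc t1 τ, rr (mv x v (τ' - τ)) ≤ 2 * (M + Vm) * P.TT n τ' := by
    intro τ' h
    obtain ⟨q2, q3, q4, _⟩ := hfix τ' h
    refine q4.trans ?_
    have : 0 < M + Vm := by positivity
    linarith only [mul_nonneg (sub_nonneg.2 q2) (le_of_lt (sub_pos.2 this))]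
  have hq1 : ∀ τ' ∈ Icc t1 τ, τ' ∈ Icc 0 t0 := fun τ' h => ⟨ht1.trans h.1, h.2.trans hτ⟩
  have hPh : ∀ τ' ∈ Icc t1 τ, ∀ u w, cf P n τ' (mv x v (τ' - τ)) u ≠ 0 →
      g τ' (mv x v (τ' - τ)) w ≤ H * Ph P (mv x v (τ' - τ)) w := by
    intro τ' h u w hu
    have e := (hnear n hn τ' (hq1 τ' h) _ (hfx τ' h) u hu).1
    have e' : rr (mv x v (τ' - τ)) ≠ 0 := by
      have : 0 < P.w * P.TT n τ' := mul_pos hw (hfix τ' h).2.1
      linarith
    exact (hgH τ' h _ _).trans (mul_le_mul_right (Pi_le_Ph hP hγ.1 (hq1 τ' h).1 e' w) H)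
  rw [UK_KG hg]
  refine step_time (Φ := fun τ' => KG P n τ' (mv x v (τ' - τ)) v
    (fun _ w => g τ' (mv x v (τ' - τ)) w)) hT0 hC hη ht1 ?_ hk ?_ ?_
  · unfold Par.TT at hT
    linarith [hP.ss0 n]
  · intro τ' h
    have q := hfix τ' h
    calc KG P n τ' (mv x v (τ' - τ)) v (fun _ w => g τ' (mv x v (τ' - τ)) w)
        ≤ KG P n τ' (mv x v (τ' - τ)) v (fun _ w => H * Ph P (mv x v (τ' - τ)) w) :=
          KG_mono fun u w hu => hPh τ' h u w hu
      _ = H * KG P n τ' (mv x v (τ' - τ)) v (fun _ w => Ph P (mv x v (τ' - τ)) w) :=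
          KG_const_mul H (meas_Ph2 P _)
      _ ≤ H * ENNReal.ofReal (2 * C / T) := by
          gcongr
          exact (h0 n hn τ' (hq1 τ' h) _ (hfx τ' h) v hreg).trans
            (ofReal_div_TT q.1 q.2.1 hT0 hC.le)
  · intro τ' h
    have q := hfix τ' h
    have hsub := hreg.sub_us (P := P) (mv x v (τ' - τ))
    have hc : (0 : ℝ) ≤ η / 12 := by positivity
    have b1 := (h1 n hn τ' (hq1 τ' h) _ (hfx τ' h) v hv hsub.1 hsub.2).trans
      (ofReal_div_TT q.1 q.2.1 hT0 hc)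
    have b2 := (h2 n hn τ' (hq1 τ' h) _ (hfx τ' h) v hv hreg).trans
      (ofReal_div_TT q.1 q.2.1 hT0 hc)
    have b3 := (h3 n hn τ' (hq1 τ' h) _ (hfx τ' h) v hv hreg (D τ')).trans
      (ofReal_div_TT q.1 q.2.1 hT0 hc)
    refine (KG_split (d := D τ') (hg.comp (measurable_const.prodMk
      (measurable_const.prodMk measurable_id))) (hPh τ' h) b1 b2 b3).trans ?_
    have e : ENNReal.ofReal (2 * (η / 12) / T) + (ENNReal.ofReal (2 * (η / 12) / T) +
            ENNReal.ofReal (2 * (η / 12) / T)) = ENNReal.ofReal (η / 2 / T) := by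
      rw [← ENNReal.ofReal_add (by positivity) (by positivity),
            ← ENNReal.ofReal_add (by positivity) (by positivity)]
      congr 1
      ring
    rw [e]
    exact le_rfl

end Vale.Agent.P140.NU.S
end
end
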