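import Vale.Agent.P140.MathlibUsed
import Vale.Agent.P140.Bd3.B9
import Vale.Agent.P140.Bd3.B4
import Vale.Agent.P140.Bd3.B5
import Vale.Agent.P140.Bd3.B3
import Vale.Agent.P140.Bd3.B7
import Vale.Agent.P140.Bd3.B10

set_option linter.all false

attribute [local instance 5000] Vale.Agent.P140.Sc.a01 Vale.Agent.P140.Sc.a02 Vale.Agent.P140.Sc.a03 Vale.Agent.P140.Sc.a04 Vale.Agent.P140.Sc.a05 Vale.Agent.P140.Sc.a06 Vale.Agent.P140.Sc.a07 Vale.Agent.P140.Sc.a08 Vale.Agent.P140.Sc.a09 Vale.Agent.P140.Sc.a10 Vale.Agent.P140.Sc.a11 Vale.Agent.P140.Sc.a12 Vale.Agent.P140.Sc.a13 Vale.Agent.P140.Sc.a14 Vale.Agent.P140.Sc.a15 Vale.Agent.P140.Sc.a16 Vale.Agent.P140.Sc.a17 Vale.Agent.P140.Sc.a18 Vale.Agent.P140.Sc.a19 Vale.Agent.P140.Sc.a20 Vale.Agent.P140.Sc.a21 Vale.Agent.P140.Sc.a22 Vale.Agent.P140.Sc.a23 Vale.Agent.P140.Sc.a24 Vale.Agent.P140.Sc.a25 Vale.Agent.P140.Sc.a26 Vale.Agent.P140.Sc.a27 Vale.Agent.P140.Sc.a28 Vale.Agent.P140.Sc.a29 Vale.Agent.P140.Sc.a30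 Vale.Agent.P140.Sc.a31 Vale.Agent.P140.Sc.a32 Vale.Agent.P140.Sc.a33 Vale.Agent.P140.Sc.r01 Vale.Agent.P140.Sc.r02 Vale.Agent.P140.Sc.r03 Vale.Agent.P140.Sc.r04 Vale.Agent.P140.Sc.r05 Vale.Agent.P140.Sc.r06 Vale.Agent.P140.Sc.r07 Vale.Agent.P140.Sc.r08 Vale.Agent.P140.Sc.r09 Vale.Agent.P140.Sc.r10 Vale.Agent.P140.Sc.r11 Vale.Agent.P140.Sc.r12 Vale.Agent.P140.Sc.r13 Vale.Agent.P140.Sc.r14 Vale.Agent.P140.Sc.r15 Vale.Agent.P140.Sc.r16 Vale.Agent.P140.Sc.r17 Vale.Agent.P140.Sc.r18 Vale.Agent.P140.Sc.a34 Vale.Agent.P140.Sc.a35 Vale.Agent.P140.Sc.a36 Vale.Agent.P140.Sc.a37 Vale.Agent.P140.Sc.a38 Vale.Agent.P140.Sc.a39 Vale.Agent.P140.Sc.a40 Vale.Agent.P140.Sc.a42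

section

/-!
P140, module N: the mild form of the equation of the hot part.
-/

open MeasureTheory Set Filter
open scoped ENNReal Topology

noncomputable section

namespace Vale.Agent.P140.NU.Nm

/-- from the exponential form to the mild form -/
theorem mildN_of_exp {r L y : ℝ → ℝ} {T : ℝ} (hT : 0 ≤ T) (hr : IntegrableOn r (Ioc 0 T))
    (hL : IntegrableOn L (Ioc 0 T)) (c : ℝ)
    (hy : ∀ t ∈ Icc 0 T, y t = c * Real.exp (-∫ s in Ioc 0 t, L s) + ∫ s in Ioc 0 t,
      Real.exp ((∫ u in Ioc 0 s, L u) - ∫ u in Ioc 0 t, L u) * r s) :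
    y T = c + ∫ s in Ioc 0 T, (r s - L s * y s) := by
  set Λ : ℝ → ℝ := fun t => ∫ s in (0 : ℝ)..t, L s with hΛ
  have hΛe : ∀ t, 0 ≤ t → (∫ s in Ioc 0 t, L s) = Λ t := fun t ht => by
    simp only [hΛ]
    rw [intervalIntegral.integral_of_le ht]
  have hLi : IntervalIntegrable L volume 0 T := by
    rw [intervalIntegrable_iff_integrableOn_Ioc_of_le hT]
    exact hL
  have hri : IntervalIntegrable r volume 0 T := by
    rw [intervalIntegrable_iff_integrableOn_Ioc_of_le hT]
    exact hr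
  have hΛc : ContinuousOn Λ (uIcc 0 T) := by
    have := (ac_primitive hLi 0).continuousOn
    simpa only [hΛ, zero_add] using this
  have hrE : IntervalIntegrable (fun s => r s * Real.exp (Λ s)) volume 0 T :=
    hri.mul_continuousOn hΛc.rexp
  have hy' : ∀ t ∈ Icc 0 T, (c + ∫ s in (0 : ℝ)..t, r s * Real.exp (Λ s)) =
      y t * Real.exp (Λ t) := by
    intro t ht
    rw [hy t ht, hΛe t ht.1, intervalIntegral.integral_of_le ht.1]
    have e1 : (∫ s in Ioc 0 t, Real.exp ((∫ u in Ioc 0 s, L u) - Λ t) * r s) =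
        Real.exp (-Λ t) * ∫ s in Ioc 0 t, r s * Real.exp (Λ s) := by
      rw [← integral_const_mul]
      refine setIntegral_congr_fun measurableSet_Ioc fun s hs => ?_
      rw [hΛe s hs.1.le, sub_eq_add_neg, Real.exp_add]
      ring
    rw [e1, add_mul]
    have e2 : Real.exp (-Λ t) * Real.exp (Λ t) = 1 := by rw [← Real.exp_add]; simp
    rw [mul_assoc, e2, mul_one, mul_assoc, mul_comm (∫ s in Ioc 0 t, r s * Real.exp (Λ s)),
      ← mul_assoc, e2, one_mul]
  have hf := int_factor (L := fun s => -L s) hT hrE hLi.neg c le_rfl hT le_rfl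
  have hneg : ∀ t, (0 : ℝ) + ∫ s in (0 : ℝ)..t, -L s = -Λ t := by
    intro t
    rw [intervalIntegral.integral_neg, zero_add]
  simp only [hneg] at hf
  have h0 : Λ 0 = 0 := by simp [hΛ]
  have h1 : (c + ∫ s in (0 : ℝ)..T, r s * Real.exp (Λ s)) * Real.exp (-Λ T) = y T := by
    rw [hy' T ⟨hT, le_rfl⟩, mul_assoc, ← Real.exp_add]
    simp
  rw [h1, h0] at hf
  rw [hf]
  simp only [intervalIntegral.integral_same, add_zero, neg_zero, Real.exp_zero, mul_one]
  rw [intervalIntegral.integral_of_le hT]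
  congr 1
  refine setIntegral_congr_fun measurableSet_Ioc fun s hs => ?_
  rw [hy' s ⟨hs.1.le, hs.2⟩]
  have e2 : Real.exp (Λ s) * Real.exp (-Λ s) = 1 := by rw [← Real.exp_add]; simp
  calc (r s * Real.exp (Λ s) + -L s * (y s * Real.exp (Λ s))) * Real.exp (-Λ s)
      = (r s - L s * y s) * (Real.exp (Λ s) * Real.exp (-Λ s)) := by ring
    _ = r s - L s * y s := by rw [e2, mul_one]

variable {N : ℕ} {c0 F0 : T3 → V → ℝ} {F : ℝ → T3 → V → ℝ}

/-- the cold part as a real function -/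
def Gr (N : ℕ) (c0 : T3 → V → ℝ) (F : ℝ → T3 → V → ℝ) (t : ℝ) (x : T3) (v : V) : ℝ :=
  if 0 ≤ t then (Gs N c0 F t x v).toReal else 0

theorem Gr_of_nonneg {t : ℝ} (ht : 0 ≤ t) (x : T3) (v : V) :
    Gr N c0 F t x v = (Gs N c0 F t x v).toReal := by
  simp only [Gr, ht, ↓reduceIte]

theorem Gr_nonneg (t : ℝ) (x : T3) (v : V) : 0 ≤ Gr N c0 F t x v := by
  unfold Gr
  split_ifs
  · exact ENNReal.toReal_nonneg
  · exact le_rfl

theorem nn_Gr (hF : DL.IsBM N F0 F) (hc : ∀ x v, c0 x v ≤ F0 x v) {t : ℝ} (ht : 0 ≤ t)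
    (x : T3) : nn (Gr N c0 F t x) = Gs N c0 F t x := by
  funext v
  unfold nn
  rw [Gr_of_nonneg ht, ENNReal.ofReal_toReal (Gs_ne_top hF hc ht x v)]

theorem Gr_le_F (hF : DL.IsBM N F0 F) (hc : ∀ x v, c0 x v ≤ F0 x v) (t : ℝ)
    (x : T3) (v : V) : Gr N c0 F t x v ≤ F t x v := by
  unfold Gr
  split_ifs with ht
  · exact ENNReal.toReal_le_of_le_ofReal (hF.nonneg t x v) (Gs_le_F hF hc ht x v)
  · exact hF.nonneg t x v

theorem measurable_Gr (mF : Measurable fun p : ℝ × T3 × V => F p.1 p.2.1 p.2.2)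
    (mc : Measurable fun p : T3 × V => c0 p.1 p.2) :
    Measurable fun p : ℝ × T3 × V => Gr N c0 F p.1 p.2.1 p.2.2 := by
  have h1 : Measurable fun p : ℝ × T3 × V => (Gs N c0 F p.1 p.2.1 p.2.2).toReal :=
    (measurable_Gs (N := N) mF mc).ennreal_toReal
  exact Measurable.ite (measurableSet_le measurable_const measurable_fst) h1 measurable_const

/-- gain of the cold part -/
def gG (N : ℕ) (c0 : T3 → V → ℝ) (F : ℝ → T3 → V → ℝ) (x : T3) (v : V) (s : ℝ) : ℝ≥0∞ :=
  DL.pfN N (F s (mv x v s)) * GamN N (Gs N c0 F s (mv x v s)) (Gs N c0 F s (mv x v s)) v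

theorem measurable_gG (mF : Measurable fun p : ℝ × T3 × V => F p.1 p.2.1 p.2.2)
    (mc : Measurable fun p : T3 × V => c0 p.1 p.2) (x : T3) (v : V) :
    Measurable (gG N c0 F x v) := by
  have a3 : Measurable fun τ : ℝ => DL.pfN N (F τ (mv x v τ)) :=
    (itN_meas_pf (N := N) mF).comp (f := fun τ : ℝ => (((0 : ℝ), x, v), τ)) (by fun_prop)
  have a4 : Measurable fun τ : ℝ => GamN N (Gs N c0 F τ (mv x v τ)) (Gs N c0 F τ (mv x v τ)) v :=
    (itN_meas_GamN (N := N) (measurable_Gs mF mc) (measurable_Gs mF mc)).comp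
      (f := fun τ : ℝ => (((0 : ℝ), x, v), τ)) (by fun_prop)
  exact a3.mul a4

theorem gG_le (hF : DL.IsBM N F0 F) (hc : ∀ x v, c0 x v ≤ F0 x v) {s : ℝ} (hs : 0 ≤ s) (x : T3)
    (v : V) : gG N c0 F x v s ≤ DL.gainP N (F s (mv x v s)) v := by
  unfold gG
  rw [gainP_eq N (fun u => hF.nonneg s _ u)]
  exact mul_le_mul_right (GamN_mono (fun u => Gs_le_F hF hc hs _ u)
    (fun u => Gs_le_F hF hc hs _ u) v) _

/-- exponential form of the equation of the cold part -/
theorem Gr_exp (hF : DL.IsBM N F0 F) (mc : Measurable fun p : T3 × V => c0 p.1 p.2)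
    (hc0 : ∀ x v, 0 ≤ c0 x v) (hc : ∀ x v, c0 x v ≤ F0 x v) {t : ℝ} (ht : 0 ≤ t)
    (x : T3) (v : V) :
    Gr N c0 F t (mv x v t) v = c0 x v * Real.exp (-RR N F t x v) +
      ∫ s in Ioc 0 t, Real.exp (RR N F s x v - RR N F t x v) * (gG N c0 F x v s).toReal := by
  rw [Gr_of_nonneg ht, Gs_eq hF.meas mc]
  unfold PhL
  obtain ⟨B, hB⟩ := hF.QN_bdd t
  have hfin : ∀ s ∈ Ioc 0 t, gG N c0 F x v s ≤ ENNReal.ofReal B := fun s hs => by
    have h1 := hB s ⟨hs.1.le, hs.2⟩ (mv x v s) v
    refine (gG_le hF hc hs.1.le x v).trans ?_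
    rw [← ENNReal.ofReal_toReal h1.2.2.2.1]
    exact ENNReal.ofReal_le_ofReal h1.1
  have hE : ∀ s ∈ Ioc 0 t, ENNReal.ofReal (Real.exp (RR N F s x v - RR N F t x v)) ≤ 1 :=
    fun s hs => by
      rw [ENNReal.ofReal_le_one, Real.exp_le_one_iff]
      have := RR_le hF x v hs.1.le hs.2
      linarith only [this]
  have hm : Measurable fun s : ℝ => ENNReal.ofReal (Real.exp (RR N F s x v - RR N F t x v)) *
      gG N c0 F x v s := itN_meas_along hF.meas (measurable_Gs hF.meas mc) t x v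
  have hlt : ∀ s ∈ Ioc 0 t, ENNReal.ofReal (Real.exp (RR N F s x v - RR N F t x v)) *
      gG N c0 F x v s ≤ ENNReal.ofReal B := fun s hs =>
    (mul_le_mul' (hE s hs) (hfin s hs)).trans (by rw [one_mul])
  have hint : ∫⁻ s in Ioc 0 t, ENNReal.ofReal (Real.exp (RR N F s x v - RR N F t x v)) *
      gG N c0 F x v s ≠ ⊤ := by
    refine ((setLIntegral_mono' measurableSet_Ioc hlt).trans_lt ?_).ne
    rw [setLIntegral_const]
    exact ENNReal.mul_lt_top ENNReal.ofReal_lt_top (by simp only [Real.volume_Ioc, sub_zero, ENNReal.ofReal_lt_top])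
  have hgoal : (∫⁻ s in Ioc 0 t, ENNReal.ofReal (Real.exp (RR N F s x v - RR N F t x v)) *
      (DL.pfN N (F s (mv x v s)) * GamN N (Gs N c0 F s (mv x v s))
        (Gs N c0 F s (mv x v s)) v)) = ∫⁻ s in Ioc 0 t,
      ENNReal.ofReal (Real.exp (RR N F s x v - RR N F t x v)) * gG N c0 F x v s := rfl
  rw [hgoal, ENNReal.toReal_add ENNReal.ofReal_ne_top hint,
    ENNReal.toReal_ofReal (mul_nonneg (hc0 x v) (Real.exp_pos _).le)]
  congr 1
  rw [← integral_toReal hm.aemeasurable]
  · refine setIntegral_congr_fun measurableSet_Ioc fun s hs => ?_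
    rw [ENNReal.toReal_mul, ENNReal.toReal_ofReal (Real.exp_pos _).le]
  · filter_upwards [ae_restrict_mem measurableSet_Ioc] with s hs
    exact (hlt s hs).trans_lt ENNReal.ofReal_lt_top

theorem gG_int (hF : DL.IsBM N F0 F) (mc : Measurable fun p : T3 × V => c0 p.1 p.2)
    (hc : ∀ x v, c0 x v ≤ F0 x v) (x : T3) (v : V) (t : ℝ) :
    IntegrableOn (fun s => (gG N c0 F x v s).toReal) (Ioc 0 t) := by
  obtain ⟨B, hB⟩ := hF.QN_bdd t
  refine Measure.integrableOn_of_bounded (M := B) (by simp only [Real.volume_Ioc, sub_zero, ne_eq, ENNReal.ofReal_ne_top, not_false_eq_true])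
    (measurable_gG hF.meas mc x v).ennreal_toReal.aestronglyMeasurable ?_
  filter_upwards [ae_restrict_mem measurableSet_Ioc] with s hs
  rw [Real.norm_of_nonneg ENNReal.toReal_nonneg]
  have h1 := hB s ⟨hs.1.le, hs.2⟩ (mv x v s) v
  exact (ENNReal.toReal_mono h1.2.2.2.1 (gG_le hF hc hs.1.le x v)).trans h1.1

/-- mild form of the equation of the cold part -/
theorem Gr_mild (hF : DL.IsBM N F0 F) (mc : Measurable fun p : T3 × V => c0 p.1 p.2)
    (hc0 : ∀ x v, 0 ≤ c0 x v) (hc : ∀ x v, c0 x v ≤ F0 x v) {t : ℝ} (ht : 0 ≤ t)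
    (x : T3) (v : V) :
    Gr N c0 F t (mv x v t) v = c0 x v + ∫ s in Ioc 0 t, ((gG N c0 F x v s).toReal -
      (DL.rateP N (F s (mv x v s)) v).toReal * Gr N c0 F s (mv x v s) v) :=
  mildN_of_exp (r := fun s => (gG N c0 F x v s).toReal)
    (L := fun s => (DL.rateP N (F s (mv x v s)) v).toReal)
    (y := fun s => Gr N c0 F s (mv x v s) v) ht (gG_int hF mc hc x v t)
    (itN_rate_int hF x v t) (c0 x v) (fun _ hs => Gr_exp hF mc hc0 hc hs.1 x v)

theorem itN_Gr_int (hF : DL.IsBM N F0 F) (mc : Measurable fun p : T3 × V => c0 p.1 p.2)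
    (hc : ∀ x v, c0 x v ≤ F0 x v) (x : T3) (v : V) (t : ℝ) :
    IntegrableOn (fun s => (DL.rateP N (F s (mv x v s)) v).toReal *
      Gr N c0 F s (mv x v s) v) (Ioc 0 t) := by
  obtain ⟨B, hB⟩ := hF.QN_bdd t
  obtain ⟨B', hB'⟩ := hF.bdd t
  have hm1 : Measurable fun s : ℝ => (DL.rateP N (F s (mv x v s)) v).toReal :=
    (itN_meas_rate (N := N) hF.meas).comp (f := fun s : ℝ => ((t, x, v), s)) (by fun_prop)
  have hmv : Measurable fun s : ℝ => mv x v s :=
    itN_measurable_mv.comp (f := fun s : ℝ => ((x, v), s)) (by fun_prop)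
  have hm2 : Measurable fun s : ℝ => Gr N c0 F s (mv x v s) v := by
    have h1 : Measurable fun s : ℝ => (s, mv x v s, v) :=
      measurable_id.prodMk (hmv.prodMk measurable_const)
    exact (measurable_Gr (N := N) hF.meas mc).comp h1
  by_cases hv : ‖v‖ ≤ N
  · refine Measure.integrableOn_of_bounded (M := B * B') (by simp only [Real.volume_Ioc, sub_zero, ne_eq, ENNReal.ofReal_ne_top, not_false_eq_true])
      (hm1.mul hm2).aestronglyMeasurable ?_
    filter_upwards [ae_restrict_mem measurableSet_Ioc] with s hs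
    rw [Real.norm_of_nonneg (mul_nonneg ENNReal.toReal_nonneg (Gr_nonneg _ _ _))]
    have h1 := (hB s ⟨hs.1.le, hs.2⟩ (mv x v s) v).2.1
    have h2 := (Gr_le_F hF hc s (mv x v s) v).trans (hB' s ⟨hs.1.le, hs.2⟩ _ v hv)
    exact mul_le_mul h1 h2 (Gr_nonneg _ _ _) (ENNReal.toReal_nonneg.trans h1)
  · have h0 : (fun s => (DL.rateP N (F s (mv x v s)) v).toReal *
        Gr N c0 F s (mv x v s) v) = fun _ => 0 := by
      funext s
      have : DL.rateP N (F s (mv x v s)) v = 0 := by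
        unfold DL.rateP
        rw [DL.rateN_eq_zero (not_le.1 hv), mul_zero]
      rw [this]
      simp
    rw [h0]
    exact integrableOn_zero

/-- the difference of the collision terms -/
theorem QN_sub_eq (hF : DL.IsBM N F0 F) (mc : Measurable fun p : T3 × V => c0 p.1 p.2)
    (hc : ∀ x v, c0 x v ≤ F0 x v) {s : ℝ} (hs : 0 ≤ s) (x : T3) (v : V) :
    DL.QN N F s (mv x v s) v - ((gG N c0 F x v s).toReal -
      (DL.rateP N (F s (mv x v s)) v).toReal * Gr N c0 F s (mv x v s) v) =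
    Qh N (F s (mv x v s)) (Gr N c0 F s (mv x v s))
        (fun u => F s (mv x v s) u - Gr N c0 F s (mv x v s) u) v := by
  set y : T3 := mv x v s with hy
  obtain ⟨B, hB⟩ := hF.QN_bdd s
  have hfin : DL.gainP N (F s y) v ≠ ⊤ := (hB s ⟨hs, le_rfl⟩ y v).2.2.2.1
  have hmG : Measurable (Gs N c0 F s y) := itN_slice (measurable_Gs hF.meas mc) s y
  have hmF : Measurable (F s y) := by
    have h := hF.meas.comp (f := fun u : V => (s, y, u)) (by fun_prop)
    exact h
  have hmGr : Measurable (Gr N c0 F s y) := by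
    have h := (measurable_Gr (N := N) hF.meas mc).comp (f := fun u : V => (s, y, u)) (by fun_prop)
    exact h
  set h : V → ℝ := fun u => F s y u - Gr N c0 F s y u with hh
  have hmh : Measurable (nn h) := (hmF.sub hmGr).ennreal_ofReal
  have hG : nn (Gr N c0 F s y) = Gs N c0 F s y := nn_Gr hF hc hs y
  have hsum : nn (F s y) = fun u => Gs N c0 F s y u + nn h u := by
    funext u
    rw [← hG]
    unfold nn
    rw [← ENNReal.ofReal_add (Gr_nonneg _ _ _) (sub_nonneg.2 (Gr_le_F hF hc s y u))]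
    congr 1
    ring
  have hgain : DL.gainP N (F s y) v = gG N c0 F x v s + DL.pfN N (F s y) *
      (GamN N (Gs N c0 F s y) (nn h) v + GamN N (nn h) (Gs N c0 F s y) v +
        GamN N (nn h) (nn h) v) := by
    rw [gainP_eq N (fun u => hF.nonneg s _ u), hsum, GamN_add N hmG hmh hmG hmh]
    unfold gG
    ring
  rw [hgain] at hfin
  obtain ⟨f1, f2⟩ := ENNReal.add_ne_top.1 hfin
  unfold DL.QN Qh
  rw [hgain, hG, ENNReal.toReal_add f1 f2]
  simp only [hh]
  ring

/-- mild form of the equation of the hot part -/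
theorem hot_mild (hF : DL.IsBM N F0 F) (mc : Measurable fun p : T3 × V => c0 p.1 p.2)
    (hc0 : ∀ x v, 0 ≤ c0 x v) (hc : ∀ x v, c0 x v ≤ F0 x v) {t : ℝ} (ht : 0 ≤ t)
    (x : T3) (v : V) :
    F t (mv x v t) v - Gr N c0 F t (mv x v t) v = (F0 x v - c0 x v) +
      ∫ s in Ioc 0 t, Qh N (F s (mv x v s)) (Gr N c0 F s (mv x v s))
        (fun u => F s (mv x v s) u - Gr N c0 F s (mv x v s) u) v := by
  have h1 : F t (mv x v t) v = F0 x v + ∫ s in Ioc 0 t, DL.QN N F s (mv x v s) v :=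
    hF.mild (x, v) t ht
  have h2 := Gr_mild hF mc hc0 hc ht x v
  have h3 : IntegrableOn (fun s => DL.QN N F s (mv x v s) v) (Ioc 0 t) :=
    hF.QN_integrable (x, v) t
  have h4 : IntegrableOn (fun s => (gG N c0 F x v s).toReal -
      (DL.rateP N (F s (mv x v s)) v).toReal * Gr N c0 F s (mv x v s) v) (Ioc 0 t) :=
    (gG_int hF mc hc x v t).sub (itN_Gr_int hF mc hc x v t)
  have h5 : (∫ s in Ioc 0 t, Qh N (F s (mv x v s)) (Gr N c0 F s (mv x v s))
        (fun u => F s (mv x v s) u - Gr N c0 F s (mv x v s) u) v) =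
      ∫ s in Ioc 0 t, (DL.QN N F s (mv x v s) v - ((gG N c0 F x v s).toReal -
      (DL.rateP N (F s (mv x v s)) v).toReal * Gr N c0 F s (mv x v s) v)) :=
    setIntegral_congr_fun measurableSet_Ioc fun s hs => (QN_sub_eq hF mc hc hs.1.le x v).symm
  rw [h5, integral_sub h3 h4, h1, h2]
  ring

/-- lower bound of the cold part -/
theorem Gr_low (hF : DL.IsBM N F0 F) (mc : Measurable fun p : T3 × V => c0 p.1 p.2)
    (hc0 : ∀ x v, 0 ≤ c0 x v) (hc : ∀ x v, c0 x v ≤ F0 x v) {t : ℝ} (ht : 0 ≤ t)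
    (x : T3) (v : V) : c0 x v * Real.exp (-∫ τ in Ioc 0 t,
      (DL.rateP N (F τ (mv x v τ)) v).toReal) ≤ Gr N c0 F t (mv x v t) v := by
  have h1 := Gr_exp hF mc hc0 hc ht x v
  have h2 : 0 ≤ ∫ s in Ioc 0 t, Real.exp (RR N F s x v - RR N F t x v) *
      (gG N c0 F x v s).toReal := integral_nonneg fun s =>
    mul_nonneg (Real.exp_pos _).le ENNReal.toReal_nonneg
  have h3 : c0 x v * Real.exp (-∫ τ in Ioc 0 t, (DL.rateP N (F τ (mv x v τ)) v).toReal) =
      c0 x v * Real.exp (-RR N F t x v) := rfl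
  rw [h3]
  linarith only [h1, h2]

/-! ### invariance of the solution -/

theorem itN_measurable_zsh (a : ℝ) : Measurable fun x : T3 => zsh x a := by
  unfold zsh
  exact measurable_id.add_const _

/-- solutions with invariant data are invariant -/
theorem IsBM_zsh (hF : DL.IsBM N F0 F) {a : ℝ} (h0 : ∀ x v, F0 (zsh x a) v = F0 x v)
    (t : ℝ) (ht : 0 ≤ t) (x : T3) (v : V) : F t (zsh x a) v = F t x v := by
  have hG : DL.IsBM N F0 (fun t x v => F t (zsh x a) v) := by
    refine ⟨hF.meas0, hF.nonneg0, ?_, fun t x v => hF.nonneg t _ v, ?_, ?_⟩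
    · have h1 : Measurable fun p : ℝ × T3 × V => (p.1, zsh p.2.1 a, p.2.2) :=
        measurable_fst.prodMk (((itN_measurable_zsh a).comp
          (measurable_fst.comp measurable_snd)).prodMk (measurable_snd.comp measurable_snd))
      exact hF.meas.comp h1
    · intro T
      obtain ⟨B, hB⟩ := hF.bdd T
      exact ⟨B, fun t ht x v hv => hB t ht _ v hv⟩
    · intro p t ht
      have h1 := hF.mild (zsh p.1 a, p.2) t ht
      have e1 : ∀ s : ℝ, zsh (p.1 + toTorus (s • p.2)) a = zsh p.1 a + toTorus (s • p.2) :=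
        fun s => (itN_zsh_mv p.1 p.2 s a).symm
      have e2 : along (fun t x v => F t (zsh x a) v) (t, p) = along F (t, (zsh p.1 a, p.2)) := by
        unfold along
        simp only
        rw [e1]
      have e3 : ∀ s : ℝ, along (DL.QN N (fun t x v => F t (zsh x a) v)) (s, p) =
          along (DL.QN N F) (s, (zsh p.1 a, p.2)) := by
        intro s
        unfold along DL.QN
        simp only
        rw [e1]
      rw [e2, h1, h0]
      congr 1
      exact setIntegral_congr_fun measurableSet_Ioc fun s _ => (e3 s).symm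
  exact hG.unique hF ht x v

end Vale.Agent.P140.NU.Nm
end
end

section

/-!
P140, module N: the split of a solution of the truncated problem, from a supersolution.
-/

open MeasureTheory Set Filter
open scoped ENNReal Topology

noncomputable section

namespace Vale.Agent.P140.NU.Nm

variable {P : Par}

theorem coldn_nonneg (hP : P.Good) (n : ℕ) (x : T3) (v : V) : 0 ≤ coldn P n x v := by
  unfold coldn
  exact Finset.sum_nonneg fun j _ => coldj_nonneg P (hP.amp_pos j).le x v

theorem seed_nonneg (hP : P.Good) (n : ℕ) (x : T3) (v : V) : 0 ≤ seed P n x v := by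
  unfold seed
  split_ifs
  · exact (inv_pos.2 (hP.ss_pos n)).le
  · exact le_rfl

theorem coldn_le_dat (hP : P.Good) (n : ℕ) {κ : ℝ} (hκ : 0 ≤ κ) (x : T3) (v : V) :
    coldn P n x v ≤ dat P n κ x v := by
  unfold dat
  linarith only [mul_nonneg hκ (seed_nonneg hP n x v)]

/-- the split, given a supersolution of the equation of the cold part -/
theorem split_of_super (hP : P.Good) {n N : ℕ} {CB t0 κ : ℝ} (hκ : 0 ≤ κ)
    {U : ℝ → T3 → V → ℝ≥0∞}
    (hU : ∀ t ∈ Icc 0 t0, ∀ x v, ENNReal.ofReal (coldn P n x v) +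
      ∫⁻ τ in Ioc 0 t, Gam (U τ (mv x v τ)) (U τ (mv x v τ)) v ≤ U t (mv x v t) v)
    (hUB : ∀ t ∈ Icc 0 t0, ∀ x v,
      U t x v ≤ cf P n t x v + bf P n t x v + ENNReal.ofReal CB * Bb P t x v)
    {F : ℝ → T3 → V → ℝ} (hF : DL.IsBM N (dat P n κ) F) :
    ∃ G h, Split P CB t0 n N κ F G h := by
  have mc : Measurable fun p : T3 × V => coldn P n p.1 p.2 := measurable_coldn P n
  have hc0 := coldn_nonneg hP n
  have hc := coldn_le_dat hP n hκ
  have hinv : ∀ a t, 0 ≤ t → ∀ x v, F t (zsh x a) v = F t x v := fun a t ht x v =>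
    IsBM_zsh hF (fun x v => dat_zsh P n κ x a v) t ht x v
  refine ⟨Gr N (coldn P n) F, fun t x v => F t x v - Gr N (coldn P n) F t x v, ?_⟩
  refine ⟨hF, fun t x v => by ring, measurable_Gr hF.meas mc, hF.meas.sub (measurable_Gr hF.meas mc),
    fun t x v => Gr_nonneg t x v, fun t x v => sub_nonneg.2 (Gr_le_F hF hc t x v), ?_, ?_, ?_, ?_⟩
  · intro t x v a ht
    rw [hinv a t ht, Gr_of_nonneg ht, Gr_of_nonneg ht,
      Gs_zsh (hinv a) (fun x v => coldn_zsh P n x a v)]
  · intro t ht x v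
    exact Gr_low hF mc hc0 hc ht x v
  · intro t ht x v
    rw [Gr_of_nonneg ht.1, ENNReal.ofReal_toReal (Gs_ne_top hF hc ht.1 x v)]
    exact (Gs_le_of_super hF hc0 hU t ht x v).trans (hUB t ht x v)
  · intro t ht x v
    have h1 := hot_mild hF mc hc0 hc ht x v
    have h2 : dat P n κ x v - coldn P n x v = κ * seed P n x v := by
      unfold dat
      ring
    rw [h2] at h1
    exact h1

end Vale.Agent.P140.NU.Nm
end
end

section

/-!
P140, non-uniqueness, module T (T6, T7): algebra of the collision operators, weak form,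
truncated kernel.
-/

open MeasureTheory Set Filter
open scoped ENNReal Topology

noncomputable section

namespace Vale.Agent.P140.NU

open Nm

theorem Gam_eq_Bg (f g : V → ℝ≥0∞) (v : V) : Gam f g v = Bg f g v := rfl

/-- weak form -/
theorem Gam_weak {φ f g : V → ℝ≥0∞} (hφ : Measurable φ) (hf : Measurable f) (hg : Measurable g) :
    ∫⁻ v, φ v * Gam f g v = ∫⁻ v, ∫⁻ w, f v * g w *
      ∫⁻ ω : S2, ENNReal.ofReal |relA v w ω| * φ (post v w ω) ∂surf := by
  have hP : Measurable fun q : V × V × V × V => φ q.1 * (f q.2.2.1 * g q.2.2.2) :=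
    (hφ.comp measurable_fst).mul
      ((hf.comp (measurable_fst.comp (measurable_snd.comp measurable_snd))).mul
        (hg.comp (measurable_snd.comp (measurable_snd.comp measurable_snd))))
  have h := lintegral_kk_post hP
  simp only at h
  have mB := meas_BgI hf hg
  have e1 : ∀ v, φ v * Gam f g v = ∫⁻ w, ∫⁻ o, kk v w o *
      (φ v * (f (post v w o) * g (postStar v w o))) ∂surf := by
    intro v
    rw [Gam_eq_Bg]
    unfold Bg
    rw [← lintegral_const_mul _ (meas_sec_w mB v)]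
    refine lintegral_congr fun w => ?_
    rw [← lintegral_const_mul _ (meas_sec_o mB v w)]
    refine lintegral_congr fun o => ?_
    simp only
    ring
  rw [lintegral_congr e1, h]
  have mφ : Measurable fun p : V × V × S2 => kk p.1 p.2.1 p.2.2 * φ (post p.1 p.2.1 p.2.2) :=
    measurable_kk.mul (meas_post_comp hφ)
  refine lintegral_congr fun v => lintegral_congr fun w => ?_
  have h2 := lintegral_const_mul (μ := surf) (f v * g w) (meas_sec_o mφ v w)
  simp only [kk] at h2
  rw [← h2]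
  refine lintegral_congr fun o => ?_
  simp only [kk]
  ring

theorem LL_mono {f f' : V → ℝ≥0∞} (h : ∀ v, f v ≤ f' v) (v : V) : LL f v ≤ LL f' v :=
  Ln_mono h v

theorem LL_add {f f' : V → ℝ≥0∞} (hf : Measurable f) (v : V) :
    LL (fun u => f u + f' u) v = LL f v + LL f' v :=
  Ln_add hf v

theorem LL_const_mul {f : V → ℝ≥0∞} (hf : Measurable f) (c : ℝ≥0∞) (v : V) :
    LL (fun u => c * f u) v = c * LL f v :=
  Ln_const_mul hf c v

/-! ### truncated kernel -/

theorem ll_const_mul {A : V × S2 → ℝ≥0∞} (hA : Measurable A) (c : ℝ≥0∞) :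
    ∫⁻ w : V, ∫⁻ ω : S2, c * A (w, ω) ∂surf = c * ∫⁻ w : V, ∫⁻ ω : S2, A (w, ω) ∂surf := by
  rw [← lintegral_const_mul c (hA.lintegral_prod_right' (ν := surf))]
  refine lintegral_congr fun w => ?_
  exact lintegral_const_mul c (hA.comp (measurable_const.prodMk measurable_id))

theorem const_mul_GamN (N : ℕ) {f g : V → ℝ≥0∞} (hf : Measurable f) (hg : Measurable g)
    (c : ℝ≥0∞) (v : V) : ∫⁻ w : V, ∫⁻ ω : S2, c * (ENNReal.ofReal (DL.bN N v w ω) *
      (f (post v w ω) * g (postStar v w ω))) ∂surf = c * GamN N f g v :=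
  ll_const_mul (opN_meas_vw N hf hg v) c

theorem GamN_const_mul (N : ℕ) {f g : V → ℝ≥0∞} (hf : Measurable f) (hg : Measurable g)
    (c c' : ℝ≥0∞) (v : V) :
    GamN N (fun u => c * f u) (fun u => c' * g u) v = c * c' * GamN N f g v := by
  rw [← const_mul_GamN N hf hg]
  unfold GamN
  refine lintegral_congr fun w => lintegral_congr fun ω => ?_
  ring

/-- weak form of the truncated gain -/
theorem GamN_weak (N : ℕ) {φ f g : V → ℝ≥0∞} (hφ : Measurable φ) (hf : Measurable f)
    (hg : Measurable g) :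
    ∫⁻ v, φ v * GamN N f g v = ∫⁻ v, ∫⁻ w, f v * g w *
      ∫⁻ ω : S2, ENNReal.ofReal (DL.bN N v w ω) * φ (post v w ω) ∂surf := by
  have mb := opN_meas_k N
  have hH : Measurable fun p : V × V × S2 => ENNReal.ofReal (DL.bN N p.1 p.2.1 p.2.2) *
      (φ p.1 * (f (post p.1 p.2.1 p.2.2) * g (postStar p.1 p.2.1 p.2.2))) :=
    mb.mul ((meas_1 hφ).mul ((meas_post_comp hf).mul (meas_postStar_comp hg)))
  have h := lintegral_coll hH
  simp only [DL.bN_post, post_post, postStar_post] at h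
  have e1 : ∀ v, φ v * GamN N f g v = ∫⁻ w, ∫⁻ o, ENNReal.ofReal (DL.bN N v w o) *
      (φ v * (f (post v w o) * g (postStar v w o))) ∂surf := by
    intro v
    rw [← const_mul_GamN N hf hg]
    refine lintegral_congr fun w => lintegral_congr fun ω => ?_
    ring
  rw [lintegral_congr e1, ← h]
  have mφ : Measurable fun p : V × V × S2 =>
      ENNReal.ofReal (DL.bN N p.1 p.2.1 p.2.2) * φ (post p.1 p.2.1 p.2.2) :=
    mb.mul (meas_post_comp hφ)
  refine lintegral_congr fun v => lintegral_congr fun w => ?_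
  rw [← lintegral_const_mul _ (meas_sec_o mφ v w)]
  refine lintegral_congr fun o => ?_
  ring

end Vale.Agent.P140.NU
end
end

section

/-!
P140-NU, module J: weak forms of the gain operators.
-/

open MeasureTheory Set Filter
open scoped ENNReal Topology

noncomputable section

namespace Vale.Agent.P140.NU.J

variable {N : ℕ} {f g φ : V → ℝ≥0∞}

/-! ### auxiliary facts for a general symmetric kernel -/

theorem weakAux_meas {b : V × V × S2 → ℝ≥0∞} (hb : Measurable b) (hφ : Measurable φ) :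
    Measurable fun p : V × V => ∫⁻ ω : S2, b (p.1, p.2, ω) * φ (post p.1 p.2 ω) ∂surf :=
  meas_inner_int (H := fun p : V × V × S2 => b p * φ (post p.1 p.2.1 p.2.2))
    (hb.mul (meas_post_comp hφ))

theorem weakAux_meas' {b : V × V × S2 → ℝ≥0∞} (hb : Measurable b) (hφ : Measurable φ) :
    Measurable fun p : V × V => ∫⁻ ω : S2, b (p.1, p.2, ω) * φ (postStar p.1 p.2 ω) ∂surf :=
  meas_inner_int (H := fun p : V × V × S2 => b p * φ (postStar p.1 p.2.1 p.2.2))
    (hb.mul (meas_postStar_comp hφ))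

/-- exchange of the two particles -/
theorem weakAux_swap {b : V × V × S2 → ℝ≥0∞} (hb : Measurable b)
    (hs : ∀ v w ω, b (w, v, ω) = b (v, w, ω)) (hf : Measurable f) (hg : Measurable g)
    (hφ : Measurable φ) :
    ∫⁻ v, ∫⁻ w, f v * g w * ∫⁻ ω : S2, b (v, w, ω) * φ (post v w ω) ∂surf =
      ∫⁻ v, ∫⁻ w, g v * f w * ∫⁻ ω : S2, b (v, w, ω) * φ (postStar v w ω) ∂surf := by
  have hm : Measurable fun p : V × V => f p.1 * g p.2 *
      ∫⁻ ω : S2, b (p.1, p.2, ω) * φ (post p.1 p.2 ω) ∂surf :=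
    ((hf.comp measurable_fst).mul (hg.comp measurable_snd)).mul (weakAux_meas hb hφ)
  rw [lintegral_lintegral_swap (f := fun v w => f v * g w *
      ∫⁻ ω : S2, b (v, w, ω) * φ (post v w ω) ∂surf) hm.aemeasurable]
  refine lintegral_congr fun v => lintegral_congr fun w => ?_
  rw [mul_comm (f w) (g v)]
  congr 1
  refine lintegral_congr fun ω => ?_
  rw [hs v w ω, post_swap v w ω]

/-- splitting of the symmetric pair gain -/
theorem weakAux_split {b : V × V × S2 → ℝ≥0∞} (hb : Measurable b) (hf : Measurable f)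
    (hg : Measurable g) (hφ : Measurable φ) :
    ∫⁻ v, g v * ∫⁻ u : V, f u * ∫⁻ ω : S2, b (v, u, ω) *
        (φ (post v u ω) + φ (postStar v u ω)) ∂surf =
      (∫⁻ v, ∫⁻ w, g v * f w * ∫⁻ ω : S2, b (v, w, ω) * φ (postStar v w ω) ∂surf) +
        ∫⁻ v, ∫⁻ w, g v * f w * ∫⁻ ω : S2, b (v, w, ω) * φ (post v w ω) ∂surf := by
  have h1 := weakAux_meas hb hφ
  have h2 := weakAux_meas' hb hφ
  have hgf : Measurable fun p : V × V => g p.1 * f p.2 :=
    (hg.comp measurable_fst).mul (hf.comp measurable_snd)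
  have m2 : Measurable fun p : V × V => g p.1 * f p.2 *
      ∫⁻ ω : S2, b (p.1, p.2, ω) * φ (postStar p.1 p.2 ω) ∂surf := hgf.mul h2
  have m2' : ∀ v, Measurable fun w : V => g v * f w *
      ∫⁻ ω : S2, b (v, w, ω) * φ (postStar v w ω) ∂surf := fun v =>
    m2.comp (measurable_const.prodMk measurable_id)
  rw [← lintegral_add_left (m2.lintegral_prod_right' (ν := (volume : Measure V)))]
  refine lintegral_congr fun v => ?_
  rw [← lintegral_add_left (m2' v)]
  have e : ∀ u : V, ∫⁻ ω : S2, b (v, u, ω) * (φ (post v u ω) + φ (postStar v u ω)) ∂surf =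
      (∫⁻ ω : S2, b (v, u, ω) * φ (postStar v u ω) ∂surf) +
        ∫⁻ ω : S2, b (v, u, ω) * φ (post v u ω) ∂surf := by
    intro u
    rw [← lintegral_add_left (meas_sec_o (H := fun p : V × V × S2 => b p *
      φ (postStar p.1 p.2.1 p.2.2)) (hb.mul (meas_postStar_comp hφ)) v u)]
    refine lintegral_congr fun ω => ?_
    ring
  have m3 : Measurable fun u : V => f u * ∫⁻ ω : S2, b (v, u, ω) *
      (φ (post v u ω) + φ (postStar v u ω)) ∂surf := by
    refine hf.mul ?_
    exact meas_sec_w (H := fun p : V × V × S2 => b p *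
      (φ (post p.1 p.2.1 p.2.2) + φ (postStar p.1 p.2.1 p.2.2)))
      (hb.mul ((meas_post_comp hφ).add (meas_postStar_comp hφ))) v
  rw [← lintegral_const_mul _ m3]
  refine lintegral_congr fun u => ?_
  rw [e u]
  ring

theorem weakAux_meas_bN (N : ℕ) :
    Measurable fun p : V × V × S2 => ENNReal.ofReal (DL.bN N p.1 p.2.1 p.2.2) :=
  Nm.opN_meas_k N

theorem weakAux_bN_swap (N : ℕ) (v w : V) (ω : S2) :
    ENNReal.ofReal (DL.bN N w v ω) = ENNReal.ofReal (DL.bN N v w ω) := by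
  rw [DL.bN_swap]

theorem weakAux_relA_swap (v w : V) (ω : S2) :
    ENNReal.ofReal |relA w v ω| = ENNReal.ofReal |relA v w ω| := by
  rw [relA_swap, abs_neg]

/-- measurability of a pair functional -/
theorem weakAux_measurable {b : V × V × S2 → ℝ≥0∞} (hb : Measurable b) (hf : Measurable f) :
    Measurable fun v : V => ∫⁻ u : V, f u * ∫⁻ ω : S2, b (v, u, ω) ∂surf := by
  have h1 : Measurable fun p : V × V => ∫⁻ ω : S2, b (p.1, p.2, ω) ∂surf := meas_inner_int hb
  have h2 : Measurable fun p : V × V => f p.2 * ∫⁻ ω : S2, b (p.1, p.2, ω) ∂surf :=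
    (hf.comp measurable_snd).mul h1
  exact h2.lintegral_prod_right' (ν := (volume : Measure V))

theorem measurable_GamN (hf : Measurable f) (hg : Measurable g) : Measurable (GamN N f g) := by
  have h : Measurable fun p : V × V × S2 => ENNReal.ofReal (DL.bN N p.1 p.2.1 p.2.2) *
      (f (post p.1 p.2.1 p.2.2) * g (postStar p.1 p.2.1 p.2.2)) :=
    (weakAux_meas_bN N).mul ((meas_post_comp hf).mul (meas_postStar_comp hg))
  have h2 := meas_inner_int2 h
  exact h2

theorem measurable_Gam' (hf : Measurable f) (hg : Measurable g) : Measurable (Gam f g) :=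
  meas_inner_int2 (meas_BgI hf hg)

/-- weak form of the truncated gain, `f` and `g` play symmetric roles
(`lintegral_coll`, `bN_post`, `bN_swap`, `post_swap`) -/
theorem weak_GamN (hf : Measurable f) (hg : Measurable g) (hφ : Measurable φ) :
    ∫⁻ v, φ v * (GamN N f g v + GamN N g f v) = ∫⁻ v, g v * PW N f φ v := by
  have e1 : ∀ v, φ v * (GamN N f g v + GamN N g f v) =
      φ v * GamN N f g v + φ v * GamN N g f v := fun v => mul_add _ _ _
  have m1 : Measurable fun v => φ v * GamN N f g v := hφ.mul (measurable_GamN hf hg)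
  rw [lintegral_congr e1, lintegral_add_left m1, GamN_weak N hφ hf hg, GamN_weak N hφ hg hf]
  have h1 := weakAux_swap (weakAux_meas_bN N) (weakAux_bN_swap N) hf hg hφ
  have h2 := weakAux_split (weakAux_meas_bN N) hf hg hφ
  simp only at h1 h2
  unfold PW
  rw [h1, h2]

theorem weak_Gam (hf : Measurable f) (hg : Measurable g) (hφ : Measurable φ) :
    ∫⁻ v, φ v * (Gam f g v + Gam g f v) = ∫⁻ v, g v * PU f φ v := by
  have e1 : ∀ v, φ v * (Gam f g v + Gam g f v) =
      φ v * Gam f g v + φ v * Gam g f v := fun v => mul_add _ _ _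
  have m1 : Measurable fun v => φ v * Gam f g v := hφ.mul (measurable_Gam' hf hg)
  rw [lintegral_congr e1, lintegral_add_left m1, Gam_weak hφ hf hg, Gam_weak hφ hg hf]
  have h1 := weakAux_swap (b := fun p => kk p.1 p.2.1 p.2.2) measurable_kk
    weakAux_relA_swap hf hg hφ
  have h2 := weakAux_split (b := fun p => kk p.1 p.2.1 p.2.2) measurable_kk hf hg hφ
  simp only [kk] at h1 h2
  unfold PU
  rw [h1, h2]

theorem weak_Gam_self (hf : Measurable f) (hφ : Measurable φ) :
    2 * ∫⁻ v, φ v * Gam f f v = ∫⁻ v, f v * PU f φ v := by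
  have m1 : Measurable fun v => φ v * Gam f f v := hφ.mul (measurable_Gam' hf hf)
  rw [← weak_Gam hf hf hφ, ← lintegral_const_mul _ m1]
  refine lintegral_congr fun v => ?_
  ring

theorem GamN_const_mul_left (c : ℝ≥0∞) (hf : Measurable f) (hg : Measurable g) (v : V) :
    GamN N (fun u => c * f u) g v = c * GamN N f g v := by
  have h := GamN_const_mul N hf hg c 1 v
  simpa only [one_mul, mul_one] using h

theorem GamN_const_mul_right (c : ℝ≥0∞) (hf : Measurable f) (hg : Measurable g) (v : V) :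
    GamN N f (fun u => c * g u) v = c * GamN N f g v := by
  have h := GamN_const_mul N hf hg 1 c v
  simpa only [one_mul] using h

theorem measurable_PW (hf : Measurable f) (hφ : Measurable φ) : Measurable (PW N f φ) :=
  weakAux_measurable (b := fun p => ENNReal.ofReal (DL.bN N p.1 p.2.1 p.2.2) *
    (φ (post p.1 p.2.1 p.2.2) + φ (postStar p.1 p.2.1 p.2.2)))
    ((weakAux_meas_bN N).mul ((meas_post_comp hφ).add (meas_postStar_comp hφ))) hf

theorem measurable_RW (hf : Measurable f) : Measurable (RW N f) :=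
  (weakAux_measurable (weakAux_meas_bN N) hf :)

theorem measurable_LL' (hf : Measurable f) : Measurable (LL f) :=
  meas_inner_int2 (meas_LnI hf)

theorem RW_mono {f' : V → ℝ≥0∞} (hf : ∀ v, f v ≤ f' v) (v : V) : RW N f v ≤ RW N f' v := by
  unfold RW
  exact lintegral_mono fun u => mul_le_mul_left (hf u) _

theorem RW_const_mul (c : ℝ≥0∞) (hf : Measurable f) (v : V) :
    RW N (fun u => c * f u) v = c * RW N f v := by
  have m1 : Measurable fun u => f u * ∫⁻ ω : S2, ENNReal.ofReal (DL.bN N v u ω) ∂surf :=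
    hf.mul (meas_sec_w (weakAux_meas_bN N) v)
  unfold RW
  rw [← lintegral_const_mul c m1]
  refine lintegral_congr fun u => ?_
  ring

theorem RW_le_LL (hf : Measurable f) (v : V) : RW N f v ≤ LL f v := by
  unfold RW LL
  refine lintegral_mono fun u => ?_
  have h := lintegral_mul_const (μ := surf) (f u) (meas_sec_o measurable_kk v u)
  simp only [kk] at h
  rw [h, mul_comm]
  exact mul_le_mul_left (lintegral_mono fun ω =>
    ENNReal.ofReal_le_ofReal (DL.bN_le N v u ω)) _

/-- the truncated rate of a nonnegative real density -/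
theorem rateN_eq_RW (F : V → ℝ) (hF : Measurable F) (hF0 : ∀ v, 0 ≤ F v) (v : V) :
    DL.rateN N F v = RW N (nn F) v := by
  unfold DL.rateN RW nn
  refine lintegral_congr fun u => ?_
  rw [← lintegral_const_mul _ (meas_sec_o (weakAux_meas_bN N) v u)]
  refine lintegral_congr fun ω => ?_
  rw [ENNReal.ofReal_mul (DL.bN_nonneg N v u ω), mul_comm]

/-- `LL f v = 2π ∫ f(u) |v-u| du` -/
theorem LL_eq_MM (hf : Measurable f) (v : V) :
    LL f v = ENNReal.ofReal (2 * Real.pi) * MM f v := by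
  rw [LL_eq hf v]
  unfold MM
  congr 1
  refine lintegral_congr fun u => ?_
  rw [mul_comm]

end Vale.Agent.P140.NU.J
end
end

section

/-!
P140, non-uniqueness, module B: statements.
-/
end

section

open MeasureTheory Set Filter
open scoped ENNReal Topology NNReal

noncomputable section

namespace Vale.Agent.P140.DL

variable {N : ℕ → ℕ} {F0 : ℕ → T3 → V → ℝ} {F : ℕ → ℝ → T3 → V → ℝ} {C : ℝ≥0}

theorem IsApprox.b1_meas_t {n : ℕ} {f0 : T3 → V → ℝ} {f : ℝ → T3 → V → ℝ}
    (h : IsApprox n f0 f) (t : ℝ) : Measurable fun p : T3 × V => f t p.1 p.2 :=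
  h.meas.comp (by fun_prop : Measurable fun p : T3 × V => ((t, p) : ℝ × T3 × V))

theorem b1_den0_nonneg {f : T3 → V → ℝ} (hf : ∀ x v, 0 ≤ f x v) (p : T3 × V) : 0 ≤ den0 f p :=
  div_nonneg (hf _ _) (Maxw_pos _).le

theorem b1_meas_den0 {f : T3 → V → ℝ} (hf : Measurable fun p : T3 × V => f p.1 p.2) :
    Measurable (den0 f) := hf.div (measurable_Maxw.comp measurable_snd)

theorem b1_meas_den {f : ℝ → T3 → V → ℝ}
    (hf : Measurable fun p : ℝ × T3 × V => f p.1 p.2.1 p.2.2) : Measurable (den f) :=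
  hf.div (measurable_Maxw.comp measurable_snd.snd)

theorem b1_split {α ι : Type*} [MeasurableSpace α] {μ : Measure α} {g : ι → α → ℝ≥0∞}
    (h : ∀ ε : ℝ≥0∞, 0 < ε → ∃ f : ι → α → ℝ≥0∞, UI μ f ∧ (∀ i, Measurable (f i)) ∧
      ∃ r : ι → α → ℝ≥0∞, (∀ i, ∀ᵐ a ∂μ, g i a ≤ f i a + r i a) ∧ ∀ i, ∫⁻ a, r i a ∂μ ≤ ε) :
    UI μ g := by
  intro ε hε
  have h2 : 0 < ε / 2 := ENNReal.half_pos hε.ne'
  obtain ⟨f, hf, mf, r, hr, hr2⟩ := h (ε / 2) h2
  obtain ⟨K, hK⟩ := hf (ε / 2) h2
  refine ⟨K, fun i => ?_⟩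
  calc ∫⁻ a, (g i a - K) ∂μ ≤ ∫⁻ a, ((f i a - K) + r i a) ∂μ := by
        apply lintegral_mono_ae
        filter_upwards [hr i] with a ha
        rw [tsub_le_iff_right]
        calc g i a ≤ f i a + r i a := ha
          _ ≤ ((f i a - K) + K) + r i a := by gcongr; exact le_tsub_add
          _ = f i a - K + r i a + K := by ring
    _ = ∫⁻ a, (f i a - K) ∂μ + ∫⁻ a, r i a ∂μ := lintegral_add_left ((mf i).sub_const _) _
    _ ≤ ε / 2 + ε / 2 := add_le_add (hK i) (hr2 i)
    _ = ε := ENNReal.add_halves ε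

/-- uniform integrability of all time slices -/
theorem ASeq.ui_time (h : ASeq N F0 F C) :
    UI muM fun (i : ℕ × Ici (0 : ℝ)) p => ENNReal.ofReal (den0 (F i.1 i.2) p) := by
  refine UI.of_hE (g := fun (i : ℕ × Ici (0 : ℝ)) p => den0 (F i.1 i.2) p) (C := C) ?_ ?_ ?_
  · intro i
    exact b1_meas_den0 ((h.apx i.1).b1_meas_t _)
  · intro i p
    exact b1_den0_nonneg ((h.apx i.1).nonneg _) p
  · intro i
    rw [← relEntropy_eq_hE ((h.apx i.1).b1_meas_t _)]
    exact (le_self_add.trans ((h.apx i.1).entropy _ i.2.2)).trans (h.ent i.1)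

theorem b1_ae_Ici : ∀ᵐ t ∂nuE, t ∈ Ici (0 : ℝ) := by
  have h : ∀ᵐ t ∂((volume : Measure ℝ).restrict (Ioi (0 : ℝ))), t ∈ Ici (0 : ℝ) :=
    (ae_restrict_mem measurableSet_Ioi).mono fun t ht => mem_Ici.2 (le_of_lt (mem_Ioi.1 ht))
  exact (withDensity_absolutelyContinuous _ _).ae_le h

theorem ASeq.ui_den (h : ASeq N F0 F C) : UI PP fun n q => ENNReal.ofReal (den (F n) q) :=
  UI.of_slices (g := fun n t p => ENNReal.ofReal (den0 (F n t) p)) b1_ae_Ici h.ui_time
    (fun n => (b1_meas_den (h.apx n).meas).ennreal_ofReal)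

theorem b1_exists_R (C : ℝ≥0) {ε : ℝ≥0∞} (hε : 0 < ε) :
    ∃ R : ℝ, 1 ≤ R ∧ ENNReal.ofReal (2 / R) * C ≤ ε := by
  by_cases ht : ε = ⊤
  · exact ⟨1, le_rfl, by rw [ht]; exact le_top⟩
  · have he : 0 < ε.toReal := ENNReal.toReal_pos hε.ne' ht
    have hC : (0 : ℝ) ≤ C := C.2
    have hq : 0 ≤ 2 * (C : ℝ) / ε.toReal := by (clear * - he; positivity)
    refine ⟨1 + 2 * C / ε.toReal, by (clear * - hq; linarith), ?_⟩
    have h1 : ((C : ℝ≥0∞)) = ENNReal.ofReal (C : ℝ) := by simp
    rw [h1, ← ENNReal.ofReal_mul (by positivity)]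
    apply ENNReal.ofReal_le_of_le_toReal
    have h2 : 0 < 1 + 2 * (C : ℝ) / ε.toReal := by (clear * - he; positivity)
    rw [div_mul_eq_mul_div, div_le_iff₀ h2]
    have h3 : ε.toReal * (1 + 2 * (C : ℝ) / ε.toReal) = ε.toReal + 2 * C := by
      (clear * - he; field_simp)
    rw [h3]
    linarith only [he]

theorem b1_weight {R a : ℝ} (hR : 1 ≤ R) (ha : 0 ≤ a) : 1 + a ≤ (1 + R) + 2 / R * (1 + a ^ 2) := by
  have hR0 : 0 < R := by linarith
  rcases le_total a R with h | h
  · have : 0 ≤ 2 / R * (1 + a ^ 2) := by (clear * - hR; positivity)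
    linarith only [this, h]
  · have h1 : 1 + a ≤ 2 / R * (1 + a ^ 2) := by
      rw [div_mul_eq_mul_div, le_div_iff₀ hR0]
      nlinarith only [h, ha]
    linarith only [h1, hR0]

/-- uniform integrability with the weight `1 + |v|`, for all time slices -/
theorem ASeq.ui_time_weight (h : ASeq N F0 F C) :
    UI muM fun (i : ℕ × Ici (0 : ℝ)) p =>
      ENNReal.ofReal ((1 + ‖p.2‖) * den0 (F i.1 i.2) p) := by
  refine b1_split fun ε hε => ?_
  obtain ⟨R, hR1, hR⟩ := b1_exists_R C hε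
  refine ⟨fun i p => ENNReal.ofReal (1 + R) * ENNReal.ofReal (den0 (F i.1 i.2) p), ?_, ?_,
    fun i p => ENNReal.ofReal (2 / R) * (psi2 p.2 * ENNReal.ofReal (den0 (F i.1 i.2) p)), ?_, ?_⟩
  · exact UI.const_mul h.ui_time (1 + R).toNNReal
  · intro i
    exact (b1_meas_den0 ((h.apx i.1).b1_meas_t _)).ennreal_ofReal.const_mul _
  · intro i
    refine ae_of_all _ fun p => ?_
    have hd : 0 ≤ den0 (F i.1 i.2) p := b1_den0_nonneg ((h.apx i.1).nonneg _) p
    have hR0 : 0 < R := by linarith only [hR1]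
    simp only [psi2]
    rw [← ENNReal.ofReal_mul (by positivity), ← ENNReal.ofReal_mul (by positivity),
      ← ENNReal.ofReal_mul (by positivity), ← ENNReal.ofReal_add (by (clear * - hR1 hd; positivity)) (by positivity)]
    apply ENNReal.ofReal_le_ofReal
    have := mul_le_mul_of_nonneg_right (b1_weight hR1 (norm_nonneg p.2)) hd
    linarith only [this]
  · intro i
    have hm := (h.apx i.1).b1_meas_t (i.2 : ℝ)
    have hmm : Measurable fun p : T3 × V =>
        psi2 p.2 * ENNReal.ofReal (den0 (F i.1 i.2) p) :=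
      (measurable_psi2.comp measurable_snd).mul (b1_meas_den0 hm).ennreal_ofReal
    rw [lintegral_const_mul _ hmm, lintegral_den0 hm measurable_psi2,
      (h.apx i.1).energy _ i.2.2]
    exact (mul_le_mul_right (h.mom i.1) _).trans hR

theorem b1_Maxw_first : ∫⁻ v, ENNReal.ofReal (1 + ‖v‖) ∂mV < ⊤ := by
  rw [lintegral_mV (by fun_prop)]
  have h1 : ∀ v : V, ENNReal.ofReal (Maxw v) * ENNReal.ofReal (1 + ‖v‖)
      ≤ ENNReal.ofReal (2 * (2 * Real.pi) ^ (-(3 / 2) : ℝ)) * gau (1 / 4) v := by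
    intro v
    unfold gau Maxw
    rw [← ENNReal.ofReal_mul (by (clear * -; positivity)), ← ENNReal.ofReal_mul (by positivity)]
    apply ENNReal.ofReal_le_ofReal
    have h2 : 1 + ‖v‖ ≤ 2 * Real.exp (1 / 4 * ‖v‖ ^ 2) := by
      have h3 := Real.add_one_le_exp (1 / 4 * ‖v‖ ^ 2)
      linarith only [sq_nonneg (‖v‖ - 1), h3]
    have h4 : Real.exp (-(‖v‖ ^ 2 / 2)) * Real.exp (1 / 4 * ‖v‖ ^ 2)
        = Real.exp (-(1 / 4 * ‖v‖ ^ 2)) := by
      rw [← Real.exp_add]
      congr 1
      ring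
    have h5 : 0 ≤ (2 * Real.pi) ^ (-(3 / 2) : ℝ) := by positivity
    calc (2 * Real.pi) ^ (-(3 / 2) : ℝ) * Real.exp (-(‖v‖ ^ 2 / 2)) * (1 + ‖v‖)
        ≤ (2 * Real.pi) ^ (-(3 / 2) : ℝ) * Real.exp (-(‖v‖ ^ 2 / 2))
          * (2 * Real.exp (1 / 4 * ‖v‖ ^ 2)) := by gcongr
      _ = 2 * (2 * Real.pi) ^ (-(3 / 2) : ℝ)
          * (Real.exp (-(‖v‖ ^ 2 / 2)) * Real.exp (1 / 4 * ‖v‖ ^ 2)) := by ring
      _ = _ := by rw [h4]
  refine (lintegral_mono h1).trans_lt ?_
  rw [lintegral_const_mul _ (measurable_gau _)]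
  exact ENNReal.mul_lt_top ENNReal.ofReal_lt_top (lintegral_gau (by norm_num)).lt_top

theorem ASeq.b1_ui_weight (h : ASeq N F0 F C) :
    UI PP fun n q => ENNReal.ofReal ((1 + ‖q.2.2‖) * den (F n) q) :=
  UI.of_slices (g := fun n t p => ENNReal.ofReal ((1 + ‖p.2‖) * den0 (F n t) p)) b1_ae_Ici
    h.ui_time_weight (fun n => by
      have h1 := b1_meas_den (h.apx n).meas
      have h2 : Measurable fun q : ℝ × T3 × V => (1 + ‖q.2.2‖) := by fun_prop
      exact (h2.mul h1).ennreal_ofReal)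

/-- weighted local density -/
def b1_A (f : ℝ → T3 → V → ℝ) (z : ℝ × T3) : ℝ≥0∞ :=
  ∫⁻ w, ENNReal.ofReal ((1 + ‖w‖) * den f (z.1, z.2, w)) ∂mV

theorem b1_meas_A0 {f : ℝ → T3 → V → ℝ}
    (hf : Measurable fun p : ℝ × T3 × V => f p.1 p.2.1 p.2.2) :
    Measurable fun z : (ℝ × T3) × V =>
      ENNReal.ofReal ((1 + ‖z.2‖) * den f (z.1.1, z.1.2, z.2)) := by
  have h1 := (b1_meas_den hf).comp
    (by fun_prop : Measurable fun z : (ℝ × T3) × V => ((z.1.1, z.1.2, z.2) : ℝ × T3 × V))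
  have h2 : Measurable fun z : (ℝ × T3) × V => (1 + ‖z.2‖) := by fun_prop
  exact (h2.mul h1).ennreal_ofReal

theorem b1_meas_A {f : ℝ → T3 → V → ℝ}
    (hf : Measurable fun p : ℝ × T3 × V => f p.1 p.2.1 p.2.2) : Measurable (b1_A f) :=
  (b1_meas_A0 hf).lintegral_prod_right'

theorem b1_A_eq {f : ℝ → T3 → V → ℝ}
    (hf : Measurable fun p : ℝ × T3 × V => f p.1 p.2.1 p.2.2) (z : ℝ × T3) :
    b1_A f z = ∫⁻ w : V, ENNReal.ofReal ((1 + ‖w‖) * f z.1 z.2 w) := by
  unfold b1_A
  have hm : Measurable fun w : V => ENNReal.ofReal ((1 + ‖w‖) * den f (z.1, z.2, w)) := by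
    have h1 : Measurable fun w : V => ((z.1, z.2, w) : ℝ × T3 × V) := by fun_prop
    have h2 : Measurable fun w : V => (1 + ‖w‖) := by fun_prop
    exact (h2.mul ((b1_meas_den hf).comp h1)).ennreal_ofReal
  rw [lintegral_mV hm]
  apply lintegral_congr
  intro w
  have hM := Maxw_pos w
  rw [← ENNReal.ofReal_mul hM.le]
  congr 1
  unfold den
  (clear * - hM; field_simp)

theorem ASeq.b1_ui_A (h : ASeq N F0 F C) : UI zet fun n z => b1_A (F n) z := by
  have h1 := h.b1_ui_weight
  have hT : MeasurePreserving (MeasurableEquiv.prodAssoc : (ℝ × T3) × V ≃ᵐ ℝ × T3 × V)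
      (zet.prod mV) PP := by
    unfold zet PP muM
    exact measurePreserving_prodAssoc nuE volume mV
  have h2 := UI.comp_mp h1 (fun n => by
      have h1 := b1_meas_den (h.apx n).meas
      have h2 : Measurable fun q : ℝ × T3 × V => (1 + ‖q.2.2‖) := by fun_prop
      exact (h2.mul h1).ennreal_ofReal) hT
  exact UI.marginal (ν := mV) h2 (fun n => b1_meas_A0 (h.apx n).meas)

theorem b1_rate_le (n : ℕ) {f : ℝ → T3 → V → ℝ}
    (hf : Measurable fun p : ℝ × T3 × V => f p.1 p.2.1 p.2.2)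
    (hf0 : ∀ t x v, 0 ≤ f t x v) (q : ℝ × T3 × V) :
    rateP n (f q.1 q.2.1) q.2.2 ≤ ENNReal.ofReal (4 * Real.pi) *
      (b1_A f (q.1, q.2.1) * ENNReal.ofReal (1 + ‖q.2.2‖)) := by
  have hs := measurable_slice hf q.1 q.2.1
  calc rateP n (f q.1 q.2.1) q.2.2 ≤ rateN n (f q.1 q.2.1) q.2.2 := by
        unfold rateP
        exact mul_le_of_le_one_left zero_le (pfN_le_one _ _)
    _ ≤ surf univ * ∫⁻ w, ENNReal.ofReal ((‖q.2.2‖ + ‖w‖) * f q.1 q.2.1 w) := rateN_le n hs _
    _ ≤ _ := by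
        rw [surf_univ, b1_A_eq hf]
        gcongr
        rw [mul_comm, ← lintegral_const_mul' _ _ ENNReal.ofReal_ne_top]
        apply lintegral_mono
        intro w
        simp only
        rw [← ENNReal.ofReal_mul (by positivity)]
        apply ENNReal.ofReal_le_ofReal
        have h0 := hf0 q.1 q.2.1 w
        have h1 := norm_nonneg q.2.2
        have h2 := norm_nonneg w
        have h3 : ‖q.2.2‖ + ‖w‖ ≤ (1 + ‖q.2.2‖) * (1 + ‖w‖) := by linarith only [mul_nonneg (sub_nonneg.2 h1) (sub_nonneg.2 h2)]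
        linarith only [mul_nonneg (sub_nonneg.2 h3) (sub_nonneg.2 h0)]

theorem ASeq.ui_rate (h : ASeq N F0 F C) :
    UI PP fun n q => rateP (N n) (F n q.1 q.2.1) q.2.2 := by
  have h1 := h.b1_ui_A
  have h2 := UI.prod_mul (ν := mV) h1 (fun n => b1_meas_A (h.apx n).meas)
    (f := fun v : V => ENNReal.ofReal (1 + ‖v‖)) (by fun_prop) b1_Maxw_first
  have h3 := UI.comp_mp h2 (fun n => ((b1_meas_A (h.apx n).meas).comp measurable_fst).mul
    (by fun_prop)) measurePreserving_assoc_PP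
  have h4 := UI.const_mul h3 (4 * Real.pi).toNNReal
  refine UI.mono h4 fun n => ae_of_all _ fun q => ?_
  exact b1_rate_le (N n) (h.apx n).meas (h.apx n).nonneg q

theorem b1_div_le {j : ℕ} {d : ℝ} (hd : 0 ≤ d) :
    ENNReal.ofReal d / ENNReal.ofReal (1 + d / ((j : ℝ) + 1)) ≤ ENNReal.ofReal ((j : ℝ) + 1) := by
  have hj : (0 : ℝ) < (j : ℝ) + 1 := by (clear * -; positivity)
  apply ENNReal.div_le_of_le_mul
  rw [← ENNReal.ofReal_mul hj.le]
  apply ENNReal.ofReal_le_ofReal
  have : ((j : ℝ) + 1) * (1 + d / ((j : ℝ) + 1)) = (j : ℝ) + 1 + d := by field_simp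
  rw [this]
  linarith only []

theorem ASeq.ui_loss (h : ASeq N F0 F C) (j : ℕ) :
    UI PP fun n q => ENNReal.ofReal (den (F n) q) * rateP (N n) (F n q.1 q.2.1) q.2.2 /
      ENNReal.ofReal (1 + den (F n) q / ((j : ℝ) + 1)) := by
  refine UI.mono (UI.const_mul h.ui_rate ((j : ℝ) + 1).toNNReal) fun n => ae_of_all _ fun q => ?_
  have hd : 0 ≤ den (F n) q := div_nonneg ((h.apx n).nonneg _ _ _) (Maxw_pos _).le
  have h1 := b1_div_le (j := j) hd
  calc ENNReal.ofReal (den (F n) q) * rateP (N n) (F n q.1 q.2.1) q.2.2 /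
      ENNReal.ofReal (1 + den (F n) q / ((j : ℝ) + 1))
      = ENNReal.ofReal (den (F n) q) / ENNReal.ofReal (1 + den (F n) q / ((j : ℝ) + 1)) *
        rateP (N n) (F n q.1 q.2.1) q.2.2 := by
        rw [ENNReal.div_eq_inv_mul, ENNReal.div_eq_inv_mul]
        ring
    _ ≤ ENNReal.ofReal ((j : ℝ) + 1) * rateP (N n) (F n q.1 q.2.1) q.2.2 := by gcongr

/-- local entropy dissipation -/
def b1_e (n : ℕ) (g : V → ℝ) (v : V) : ℝ≥0∞ :=
  ∫⁻ w : V, ∫⁻ o : S2, pfN n g * ENNReal.ofReal (bN n v w o) *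
    dissDensity (g (post v w o) * g (postStar v w o)) (g v * g w) ∂surf

theorem b1_meas_e (n : ℕ) {α : Type*} [MeasurableSpace α] {f : α → V → ℝ}
    (hf : Measurable fun q : α × V => f q.1 q.2) :
    Measurable fun q : α × V => b1_e n (f q.1) q.2 := by
  unfold b1_e
  have h0 : Measurable fun z : ((α × V) × V) × S2 => ((z.1.1.2, z.1.2, z.2) : V × V × S2) := by
    fun_prop
  have hp : Measurable fun z : ((α × V) × V) × S2 => post z.1.1.2 z.1.2 z.2 :=
    (measurable_post.comp h0 :)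
  have hps : Measurable fun z : ((α × V) × V) × S2 => postStar z.1.1.2 z.1.2 z.2 :=
    (measurable_postStar.comp h0 :)
  have h1 : Measurable fun z : ((α × V) × V) × S2 => f z.1.1.1 (post z.1.1.2 z.1.2 z.2) :=
    hf.comp ((measurable_fst.comp (measurable_fst.comp measurable_fst)).prodMk hp)
  have h2 : Measurable fun z : ((α × V) × V) × S2 => f z.1.1.1 (postStar z.1.1.2 z.1.2 z.2) :=
    hf.comp ((measurable_fst.comp (measurable_fst.comp measurable_fst)).prodMk hps)
  have h3 : Measurable fun z : ((α × V) × V) × S2 => f z.1.1.1 z.1.1.2 :=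
    hf.comp (by fun_prop : Measurable fun z : ((α × V) × V) × S2 => (z.1.1.1, z.1.1.2))
  have h4 : Measurable fun z : ((α × V) × V) × S2 => f z.1.1.1 z.1.2 :=
    hf.comp (by fun_prop : Measurable fun z : ((α × V) × V) × S2 => (z.1.1.1, z.1.2))
  have h5 : Measurable fun z : ((α × V) × V) × S2 => pfN n (f z.1.1.1) :=
    (measurable_pfN n hf).comp (measurable_fst.comp (measurable_fst.comp measurable_fst))
  have h6 : Measurable fun z : ((α × V) × V) × S2 => ENNReal.ofReal (bN n z.1.1.2 z.1.2 z.2) :=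
    ((measurable_bN n).comp h0).ennreal_ofReal
  have h7 := (h5.mul h6).mul (measurable_dissDensity (h1.mul h2) (h3.mul h4))
  exact h7.lintegral_prod_right'.lintegral_prod_right'

theorem b1_gain_le (n : ℕ) {g : V → ℝ} (hg : Measurable g) (hg0 : ∀ v, 0 ≤ g v) {K : ℝ}
    (hK : 2 ≤ K) (v : V) :
    gainP n g v ≤ ENNReal.ofReal K * (ENNReal.ofReal (g v) * rateP n g v)
      + ENNReal.ofReal (2 / Real.log K) * b1_e n g v := by
  have hpf : pfN n g ≠ ⊤ := ((pfN_le_one n g).trans_lt ENNReal.one_lt_top).ne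
  have hbm : Measurable fun z : V × S2 => bN n v z.1 z.2 := by
    have h1 : Measurable fun z : V × S2 => ((v, z.1, z.2) : V × V × S2) := by fun_prop
    have h2 := (measurable_bN n).comp h1
    exact h2
  have e1 : gainP n g v = ∫⁻ w : V, ∫⁻ o : S2, pfN n g *
      ENNReal.ofReal (bN n v w o * (g (post v w o) * g (postStar v w o))) ∂surf := by
    unfold gainP gainN
    rw [← lintegral_const_mul' _ _ hpf]
    apply lintegral_congr
    intro w
    rw [← lintegral_const_mul' _ _ hpf]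
  have e2 : ENNReal.ofReal K * (ENNReal.ofReal (g v) * rateP n g v) =
      ∫⁻ w : V, ∫⁻ o : S2, ENNReal.ofReal K * (ENNReal.ofReal (g v) * (pfN n g *
        ENNReal.ofReal (bN n v w o * g w))) ∂surf := by
    unfold rateP rateN
    rw [← lintegral_const_mul' _ _ hpf, ← lintegral_const_mul' _ _ ENNReal.ofReal_ne_top,
      ← lintegral_const_mul' _ _ ENNReal.ofReal_ne_top]
    apply lintegral_congr
    intro w
    rw [← lintegral_const_mul' _ _ hpf, ← lintegral_const_mul' _ _ ENNReal.ofReal_ne_top,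
      ← lintegral_const_mul' _ _ ENNReal.ofReal_ne_top]
  have e3 : ENNReal.ofReal (2 / Real.log K) * b1_e n g v =
      ∫⁻ w : V, ∫⁻ o : S2, ENNReal.ofReal (2 / Real.log K) * (pfN n g *
        ENNReal.ofReal (bN n v w o) *
        dissDensity (g (post v w o) * g (postStar v w o)) (g v * g w)) ∂surf := by
    unfold b1_e
    rw [← lintegral_const_mul' _ _ ENNReal.ofReal_ne_top]
    apply lintegral_congr
    intro w
    rw [← lintegral_const_mul' _ _ ENNReal.ofReal_ne_top]
  have m1 : Measurable fun z : V × S2 => ENNReal.ofReal K * (ENNReal.ofReal (g v) * (pfN n g *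
        ENNReal.ofReal (bN n v z.1 z.2 * g z.1))) :=
    (((hbm.mul (hg.comp measurable_fst)).ennreal_ofReal.const_mul _).const_mul _).const_mul _
  rw [e1, e2, e3, ← lintegral_add_left m1.lintegral_prod_right']
  apply lintegral_mono
  intro w
  simp only
  have m2 : Measurable fun o : S2 => ENNReal.ofReal K * (ENNReal.ofReal (g v) * (pfN n g *
        ENNReal.ofReal (bN n v w o * g w))) := by
    have h1 : Measurable fun o : S2 => ((w, o) : V × S2) := by fun_prop
    have h2 := m1.comp h1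
    exact h2
  rw [← lintegral_add_left m2]
  apply lintegral_mono
  intro o
  simp only
  have hb := bN_nonneg n v w o
  have h1 := ofReal_le_diss (mul_nonneg (hg0 (post v w o)) (hg0 (postStar v w o)))
    (mul_nonneg (hg0 v) (hg0 w)) hK
  rw [ENNReal.ofReal_mul hb, ENNReal.ofReal_mul hb]
  have hK0 : 0 ≤ K := by linarith only [hK]
  rw [ENNReal.ofReal_mul hK0, ENNReal.ofReal_mul (hg0 v)] at h1
  calc pfN n g * (ENNReal.ofReal (bN n v w o) *
        ENNReal.ofReal (g (post v w o) * g (postStar v w o)))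
      ≤ pfN n g * (ENNReal.ofReal (bN n v w o) *
        (ENNReal.ofReal K * (ENNReal.ofReal (g v) * ENNReal.ofReal (g w)) +
          ENNReal.ofReal (2 / Real.log K) *
            dissDensity (g (post v w o) * g (postStar v w o)) (g v * g w))) := by (clear * - h1; gcongr)
    _ = _ := by ring

theorem b1_iUnion : ⋃ k : ℕ, Ioc (0 : ℝ) k = Ioi 0 := by
  ext t
  simp only [mem_iUnion, mem_Ioc, mem_Ioi]
  constructor
  · rintro ⟨k, h1, -⟩
    exact h1
  · intro h
    obtain ⟨k, hk⟩ := exists_nat_ge t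
    exact ⟨k, h, hk⟩

theorem b1_diss_le (h : ASeq N F0 F C) (n : ℕ) :
    ∫⁻ s in Ioi 0, dissN (N n) (F n s) ≤ C := by
  rw [← b1_iUnion, setLIntegral_iUnion_of_directed]
  · apply iSup_le
    intro k
    exact (le_add_self.trans ((h.apx n).entropy k (Nat.cast_nonneg k))).trans (h.ent n)
  · apply Monotone.directed_le
    intro k l hkl
    exact Ioc_subset_Ioc_right (Nat.cast_le.2 hkl)

theorem b1_meas_ePP (n : ℕ) {f : ℝ → T3 → V → ℝ}
    (hf : Measurable fun p : ℝ × T3 × V => f p.1 p.2.1 p.2.2) :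
    Measurable fun q : ℝ × T3 × V => b1_e n (f q.1 q.2.1) q.2.2 := by
  have h1 : Measurable fun q : (ℝ × T3) × V => f q.1.1 q.1.2 q.2 :=
    hf.comp (by (clear * -; fun_prop) : Measurable fun z : (ℝ × T3) × V => ((z.1.1, z.1.2, z.2) : ℝ × T3 × V))
  have h2 := b1_meas_e n (α := ℝ × T3) (f := fun z => f z.1 z.2) h1
  have h3 : Measurable fun q : ℝ × T3 × V => (((q.1, q.2.1), q.2.2) : (ℝ × T3) × V) := by fun_prop
  have h4 := h2.comp h3
  exact h4

theorem b1_e_int (h : ASeq N F0 F C) (n : ℕ) :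
    ∫⁻ q, b1_e (N n) (F n q.1 q.2.1) q.2.2 / ENNReal.ofReal (Maxw q.2.2) ∂PP ≤ 4 * C := by
  have me := b1_meas_ePP (N n) (h.apx n).meas
  have mM : Measurable fun q : ℝ × T3 × V => ENNReal.ofReal (Maxw q.2.2) :=
    (measurable_Maxw.comp measurable_snd.snd).ennreal_ofReal
  have mq : Measurable fun q : ℝ × T3 × V =>
      b1_e (N n) (F n q.1 q.2.1) q.2.2 / ENNReal.ofReal (Maxw q.2.2) := me.div mM
  rw [lintegral_PP mq]
  calc ∫⁻ t in Ioi 0, ENNReal.ofReal (Real.exp (-t)) *
      ∫⁻ p : T3 × V, ENNReal.ofReal (Maxw p.2) *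
        (b1_e (N n) (F n t p.1) p.2 / ENNReal.ofReal (Maxw p.2))
      ≤ ∫⁻ t in Ioi 0, 4 * dissN (N n) (F n t) := by
        apply setLIntegral_mono' measurableSet_Ioi
        intro t ht
        have h1 : ENNReal.ofReal (Real.exp (-t)) ≤ 1 := by
          rw [← ENNReal.ofReal_one]
          apply ENNReal.ofReal_le_ofReal
          rw [Real.exp_le_one_iff]
          linarith [mem_Ioi.1 ht]
        have h2 : ∫⁻ p : T3 × V, ENNReal.ofReal (Maxw p.2) *
            (b1_e (N n) (F n t p.1) p.2 / ENNReal.ofReal (Maxw p.2))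
            = 4 * dissN (N n) (F n t) := by
          have h3 : ∀ p : T3 × V, ENNReal.ofReal (Maxw p.2) *
              (b1_e (N n) (F n t p.1) p.2 / ENNReal.ofReal (Maxw p.2))
              = b1_e (N n) (F n t p.1) p.2 := by
            intro p
            exact ENNReal.mul_div_cancel (by simpa only [ne_eq, ENNReal.ofReal_eq_zero, not_le] using Maxw_pos p.2) ENNReal.ofReal_ne_top
          rw [lintegral_congr h3]
          have h4 : Measurable fun p : T3 × V => b1_e (N n) (F n t p.1) p.2 :=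
            b1_meas_e (N n) ((h.apx n).b1_meas_t t)
          rw [Measure.volume_eq_prod, lintegral_prod _ h4.aemeasurable]
          unfold dissN b1_e
          rw [← mul_assoc, one_div, ENNReal.mul_inv_cancel (by norm_num) (by norm_num), one_mul]
        rw [h2]
        exact mul_le_of_le_one_left zero_le h1
    _ = 4 * ∫⁻ t in Ioi 0, dissN (N n) (F n t) := lintegral_const_mul' _ _ (by norm_num)
    _ ≤ 4 * C := by
        gcongr
        exact b1_diss_le h n

theorem b1_exists_K (C : ℝ≥0) {ε : ℝ≥0∞} (hε : 0 < ε) :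
    ∃ K : ℝ, 2 ≤ K ∧ ENNReal.ofReal (2 / Real.log K) * (4 * C) ≤ ε := by
  by_cases ht : ε = ⊤
  · exact ⟨2, le_rfl, by rw [ht]; exact le_top⟩
  · have he : 0 < ε.toReal := ENNReal.toReal_pos hε.ne' ht
    have hC : (0 : ℝ) ≤ C := C.2
    have hq : 0 ≤ 8 * (C : ℝ) / ε.toReal := by positivity
    refine ⟨Real.exp (1 + 8 * C / ε.toReal), ?_, ?_⟩
    · have := Real.add_one_le_exp (1 + 8 * (C : ℝ) / ε.toReal)
      linarith
    · rw [Real.log_exp]
      have h1 : (4 * (C : ℝ≥0∞)) = ENNReal.ofReal (4 * (C : ℝ)) := by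
        rw [ENNReal.ofReal_mul (by norm_num)]
        simp
      have h2 : 0 < 1 + 8 * (C : ℝ) / ε.toReal := by (clear * - he; positivity)
      rw [h1, ← ENNReal.ofReal_mul (by positivity)]
      apply ENNReal.ofReal_le_of_le_toReal
      rw [div_mul_eq_mul_div, div_le_iff₀ h2]
      have h3 : ε.toReal * (1 + 8 * (C : ℝ) / ε.toReal) = ε.toReal + 8 * C := by
        field_simp
      rw [h3]
      linarith only [he]

theorem ASeq.ui_gain (h : ASeq N F0 F C) (j : ℕ) :
    UI PP fun n q => gainP (N n) (F n q.1 q.2.1) q.2.2 / ENNReal.ofReal (Maxw q.2.2) /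
      ENNReal.ofReal (1 + den (F n) q / ((j : ℝ) + 1)) := by
  refine b1_split fun ε hε => ?_
  obtain ⟨K, hK2, hK⟩ := b1_exists_K C hε
  refine ⟨fun n q => ENNReal.ofReal (K * ((j : ℝ) + 1)) * rateP (N n) (F n q.1 q.2.1) q.2.2,
    ?_, ?_, fun n q => ENNReal.ofReal (2 / Real.log K) *
      (b1_e (N n) (F n q.1 q.2.1) q.2.2 / ENNReal.ofReal (Maxw q.2.2)), ?_, ?_⟩
  · exact UI.const_mul h.ui_rate (K * ((j : ℝ) + 1)).toNNReal
  · intro n
    have h1 : Measurable fun q : (ℝ × T3) × V => F n q.1.1 q.1.2 q.2 :=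
      (h.apx n).meas.comp
        (by fun_prop : Measurable fun z : (ℝ × T3) × V => ((z.1.1, z.1.2, z.2) : ℝ × T3 × V))
    have h2 := measurable_rateP (N n) (α := ℝ × T3) (f := fun z => F n z.1 z.2) h1
    have h3 : Measurable fun q : ℝ × T3 × V => (((q.1, q.2.1), q.2.2) : (ℝ × T3) × V) := by
      (clear * -; fun_prop)
    have h4 := (h2.comp h3).const_mul (ENNReal.ofReal (K * ((j : ℝ) + 1)))
    exact h4
  · intro n
    refine ae_of_all _ fun q => ?_
    have hd : 0 ≤ den (F n) q := div_nonneg ((h.apx n).nonneg _ _ _) (Maxw_pos _).le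
    have hs := measurable_slice (h.apx n).meas q.1 q.2.1
    have hM := Maxw_pos q.2.2
    have hK0 : 0 ≤ K := by linarith only [hK2]
    have h1 := b1_gain_le (N n) hs ((h.apx n).nonneg q.1 q.2.1) hK2 q.2.2
    have h2 := b1_div_le (j := j) hd
    have h3 : ENNReal.ofReal (F n q.1 q.2.1 q.2.2) * (ENNReal.ofReal (Maxw q.2.2))⁻¹
        = ENNReal.ofReal (den (F n) q) := by
      unfold den
      rw [ENNReal.ofReal_div_of_pos hM, ENNReal.div_eq_inv_mul, mul_comm]
    have h4 : (ENNReal.ofReal (1 + den (F n) q / ((j : ℝ) + 1)))⁻¹ ≤ 1 := by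
      rw [ENNReal.inv_le_one]
      rw [← ENNReal.ofReal_one]
      apply ENNReal.ofReal_le_ofReal
      have : 0 ≤ den (F n) q / ((j : ℝ) + 1) := by (clear * - hd; positivity)
      linarith only [this]
    rw [ENNReal.ofReal_mul hK0]
    simp only [div_eq_mul_inv] at h2 ⊢
    calc gainP (N n) (F n q.1 q.2.1) q.2.2 * (ENNReal.ofReal (Maxw q.2.2))⁻¹ *
          (ENNReal.ofReal (1 + den (F n) q * ((j : ℝ) + 1)⁻¹))⁻¹
        ≤ (ENNReal.ofReal K * (ENNReal.ofReal (F n q.1 q.2.1 q.2.2) *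
            rateP (N n) (F n q.1 q.2.1) q.2.2)
          + ENNReal.ofReal (2 / Real.log K) * b1_e (N n) (F n q.1 q.2.1) q.2.2) *
          (ENNReal.ofReal (Maxw q.2.2))⁻¹ *
          (ENNReal.ofReal (1 + den (F n) q * ((j : ℝ) + 1)⁻¹))⁻¹ := by (clear * - h1; gcongr)
      _ = ENNReal.ofReal K * ((ENNReal.ofReal (F n q.1 q.2.1 q.2.2) *
            (ENNReal.ofReal (Maxw q.2.2))⁻¹) *
            (ENNReal.ofReal (1 + den (F n) q * ((j : ℝ) + 1)⁻¹))⁻¹) *
            rateP (N n) (F n q.1 q.2.1) q.2.2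
          + ENNReal.ofReal (2 / Real.log K) * (b1_e (N n) (F n q.1 q.2.1) q.2.2 *
            (ENNReal.ofReal (Maxw q.2.2))⁻¹) *
            (ENNReal.ofReal (1 + den (F n) q * ((j : ℝ) + 1)⁻¹))⁻¹ := by ring
      _ ≤ ENNReal.ofReal K * ENNReal.ofReal ((j : ℝ) + 1) * rateP (N n) (F n q.1 q.2.1) q.2.2
          + ENNReal.ofReal (2 / Real.log K) * (b1_e (N n) (F n q.1 q.2.1) q.2.2 *
            (ENNReal.ofReal (Maxw q.2.2))⁻¹) * 1 := by
          rw [h3]
          gcongr
          simpa only [div_eq_mul_inv] using h4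
      _ = _ := by
          rw [mul_one, div_eq_mul_inv]
  · intro n
    have me := b1_meas_ePP (N n) (h.apx n).meas
    have mM : Measurable fun q : ℝ × T3 × V => ENNReal.ofReal (Maxw q.2.2) :=
      (measurable_Maxw.comp measurable_snd.snd).ennreal_ofReal
    rw [lintegral_const_mul' _ _ ENNReal.ofReal_ne_top]
    exact (mul_le_mul_right (b1_e_int h n) _).trans hK

end Vale.Agent.P140.DL
end
end

section

open MeasureTheory Set Filter
open scoped ENNReal Topology NNReal

noncomputable section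

namespace Vale.Agent.P140.DL

/-- right-hand side of the equation for `ren j (F / M)`, along characteristics -/
def rhsJ (n j : ℕ) (F : ℝ → T3 → V → ℝ) (q : ℝ × T3 × V) : ℝ :=
  along (QN n F) q / Maxw q.2.2 / (1 + cden F q / ((j : ℝ) + 1)) ^ 2

theorem measurable_renE (j : ℕ) : Measurable (ren j) := by
  unfold ren
  fun_prop

theorem ren_nonnegE (j : ℕ) {z : ℝ} (hz : 0 ≤ z) : 0 ≤ ren j z := by
  unfold ren
  positivity

theorem ren_leE (j : ℕ) {z : ℝ} (hz : 0 ≤ z) : ren j z ≤ (j : ℝ) + 1 := by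
  unfold ren
  have hj : (0 : ℝ) < (j : ℝ) + 1 := by positivity
  rw [div_le_iff₀ (by positivity)]
  have : ((j : ℝ) + 1) * (z / ((j : ℝ) + 1)) = z := by field_simp
  linarith only [this]

theorem ren_le_selfE (j : ℕ) {z : ℝ} (hz : 0 ≤ z) : ren j z ≤ z := by
  unfold ren
  apply div_le_self hz
  have : 0 ≤ z / ((j : ℝ) + 1) := by positivity
  linarith

theorem sub_ren_leE (j : ℕ) {z : ℝ} (hz : 0 ≤ z) : z - ren j z ≤ z ^ 2 / ((j : ℝ) + 1) := by
  unfold ren
  have hj : (0 : ℝ) < (j : ℝ) + 1 := by positivity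
  have h1 : 0 ≤ z / ((j : ℝ) + 1) := by positivity
  have h2 : z - z / (1 + z / ((j : ℝ) + 1)) = z ^ 2 / ((j : ℝ) + 1) / (1 + z / ((j : ℝ) + 1)) := by
    field_simp
    ring
  rw [h2]
  apply div_le_self (by (clear * -; positivity))
  linarith only [h1]

theorem ren_hasDerivAtE (j : ℕ) {z : ℝ} (hz : 0 ≤ z) :
    HasDerivAt (ren j) (1 / (1 + z / ((j : ℝ) + 1)) ^ 2) z := by
  have hj : (0 : ℝ) < (j : ℝ) + 1 := by positivity
  have hne : 1 + z / ((j : ℝ) + 1) ≠ 0 := by (clear * - hz; positivity)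
  have h1 : HasDerivAt (fun z : ℝ => 1 + z / ((j : ℝ) + 1)) (1 / ((j : ℝ) + 1)) z :=
    ((hasDerivAt_id z).div_const _).const_add 1
  have h2 := (hasDerivAt_id z).div h1 hne
  refine h2.congr_deriv ?_
  simp only [id]
  field_simp
  ring

theorem ren_lipE (j : ℕ) {a b : ℝ} (ha : 0 ≤ a) (hb : 0 ≤ b) : |ren j a - ren j b| ≤ |a - b| := by
  unfold ren
  have hj : (0 : ℝ) < (j : ℝ) + 1 := by positivity
  have ha' : 0 ≤ a / ((j : ℝ) + 1) := by positivity
  have hb' : 0 ≤ b / ((j : ℝ) + 1) := by positivity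
  have h : a / (1 + a / ((j : ℝ) + 1)) - b / (1 + b / ((j : ℝ) + 1))
      = (a - b) / ((1 + a / ((j : ℝ) + 1)) * (1 + b / ((j : ℝ) + 1))) := by
    field_simp
    ring
  rw [h, abs_div]
  apply div_le_self (abs_nonneg _)
  have h1 : 1 ≤ (1 + a / ((j : ℝ) + 1)) * (1 + b / ((j : ℝ) + 1)) := by nlinarith only [ha', hb']
  rwa [abs_of_nonneg (by linarith only [h1])]

theorem ren_primitiveE {y : ℝ → ℝ} {b c : ℝ} (hb : 0 ≤ b) (hy : IntervalIntegrable y volume 0 b)
    (h0 : ∀ t ∈ Icc 0 b, 0 ≤ c + ∫ s in (0:ℝ)..t, y s) (j : ℕ) :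
    ren j (c + ∫ s in (0:ℝ)..b, y s) = ren j c
      + ∫ t in (0:ℝ)..b, y t / (1 + (c + ∫ s in (0:ℝ)..t, y s) / ((j : ℝ) + 1)) ^ 2 := by
  have hac := ac_primitive hy c
  have hu : uIcc 0 b = Icc 0 b := uIcc_of_le hb
  have hL : LipschitzOnWith 1 (ren j) ((fun t => c + ∫ s in (0:ℝ)..t, y s) '' uIcc 0 b) := by
    apply LipschitzOnWith.of_dist_le_mul
    rintro _ ⟨s, hs, rfl⟩ _ ⟨t, ht, rfl⟩
    rw [hu] at hs ht
    simp only [NNReal.coe_one, one_mul, Real.dist_eq]
    exact ren_lipE j (h0 s hs) (h0 t ht)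
  have hac2 := ac_comp hac hL
  have h := hac2.integral_deriv_eq_sub
  have h2 : ∫ x in (0:ℝ)..b, deriv (fun t => ren j (c + ∫ s in (0:ℝ)..t, y s)) x
      = ∫ t in (0:ℝ)..b, y t / (1 + (c + ∫ s in (0:ℝ)..t, y s) / ((j : ℝ) + 1)) ^ 2 := by
    apply intervalIntegral.integral_congr_ae
    filter_upwards [ae_hasDerivAt_primitive hy c] with t ht hmem
    have hm := uIoc_subset_uIcc hmem
    have h1 := ht hm
    rw [hu] at hm
    have h3 := (ren_hasDerivAtE j (h0 t hm)).comp t h1
    have h4 : (fun t => ren j (c + ∫ s in (0:ℝ)..t, y s)) =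
        ren j ∘ fun t => c + ∫ s in (0:ℝ)..t, y s := rfl
    rw [h4, h3.deriv]
    ring
  rw [h2] at h
  simp only [intervalIntegral.integral_same, add_zero] at h
  linarith only [h]

/-- equation for the renormalized density -/
theorem IsBM.ren_mild {n : ℕ} {F0 : T3 → V → ℝ} {F : ℝ → T3 → V → ℝ} (h : IsBM n F0 F) (j : ℕ)
    (p : T3 × V) {t : ℝ} (ht : 0 ≤ t) :
    ren j (cden F (t, p)) = ren j (den0 F0 p) + ∫ s in Ioc 0 t, rhsJ n j F (s, p) := by
  set y : ℝ → ℝ := fun s => along (QN n F) (s, p) / Maxw p.2 with hy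
  have hM := Maxw_pos p.2
  have hint : IntegrableOn y (Ioc 0 t) := (h.QN_integrable p t).div_const _
  have hii : IntervalIntegrable y volume 0 t := by
    rwa [intervalIntegrable_iff_integrableOn_Ioc_of_le ht]
  have hc : ∀ s, 0 ≤ s → cden F (s, p) = den0 F0 p + ∫ r in (0:ℝ)..s, y r := by
    intro s hs
    unfold cden den0
    simp only
    rw [h.mild p s hs, intervalIntegral.integral_of_le hs, hy, integral_div, add_div]
  have hnn : ∀ s, 0 ≤ cden F (s, p) := by
    intro s
    unfold cden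
    exact div_nonneg (h.nonneg _ _ _) hM.le
  have h1 := ren_primitiveE ht hii (c := den0 F0 p)
    (fun s hs => by rw [← hc s hs.1]; exact hnn s) j
  rw [← hc t ht] at h1
  rw [h1, intervalIntegral.integral_of_le ht]
  congr 1
  apply setIntegral_congr_fun measurableSet_Ioc
  intro s hs
  simp only
  rw [← hc s hs.1.le]
  rfl

variable {N : ℕ → ℕ} {F0 : ℕ → T3 → V → ℝ} {F : ℕ → ℝ → T3 → V → ℝ} {C : ℝ≥0}

theorem measurable_denE {G : ℝ → T3 → V → ℝ}
    (hG : Measurable fun p : ℝ × T3 × V => G p.1 p.2.1 p.2.2) : Measurable (den G) := by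
  unfold den
  exact hG.div (measurable_Maxw.comp measurable_snd.snd)

theorem measurable_cdenE {G : ℝ → T3 → V → ℝ}
    (hG : Measurable fun p : ℝ × T3 × V => G p.1 p.2.1 p.2.2) : Measurable (cden G) := by
  unfold cden
  exact (measurable_along hG).div (measurable_Maxw.comp measurable_snd.snd)

theorem ASeq.cden_nonneg' (h : ASeq N F0 F C) (n : ℕ) (q : ℝ × T3 × V) : 0 ≤ cden (F n) q := by
  unfold cden
  exact div_nonneg ((h.apx n).nonneg _ _ _) (Maxw_pos _).le

theorem ASeq.den0_nonneg' (h : ASeq N F0 F C) (n : ℕ) (t : ℝ) (p : T3 × V) :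
    0 ≤ den0 (F n t) p := by
  unfold den0
  exact div_nonneg ((h.apx n).nonneg _ _ _) (Maxw_pos _).le

theorem ASeq.meas_assoc (h : ASeq N F0 F C) (n : ℕ) :
    Measurable fun q : (ℝ × T3) × V => F n q.1.1 q.1.2 q.2 :=
  (h.apx n).meas.comp (by fun_prop : Measurable fun q : (ℝ × T3) × V => (q.1.1, q.1.2, q.2))

theorem ASeq.meas_rhsJ (h : ASeq N F0 F C) (j n : ℕ) : Measurable (rhsJ (N n) j (F n)) := by
  unfold rhsJ
  have h1 := (h.apx n).toIsBM.meas_QN
  have h2 := measurable_cdenE (h.apx n).meas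
  exact (h1.div (measurable_Maxw.comp measurable_snd.snd)).div
    (((h2.div_const _).const_add 1).pow_const 2)

theorem rhs_alg {g r : ℝ≥0∞} {d M : ℝ} (hM : 0 < M) (hd0 : 0 ≤ d) (j : ℕ) :
    ENNReal.ofReal |(g.toReal / M - d * r.toReal) / (1 + d / ((j : ℝ) + 1)) ^ 2| ≤
      g / ENNReal.ofReal M / ENNReal.ofReal (1 + d / ((j : ℝ) + 1)) +
      ENNReal.ofReal d * r / ENNReal.ofReal (1 + d / ((j : ℝ) + 1)) := by
  have hD : 1 ≤ 1 + d / ((j : ℝ) + 1) := by
    have : 0 ≤ d / ((j : ℝ) + 1) := by positivity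
    linarith
  generalize 1 + d / ((j : ℝ) + 1) = D at hD
  have hD0 : 0 < D := by linarith only [hD]
  have h4 : 0 ≤ g.toReal / M := div_nonneg ENNReal.toReal_nonneg hM.le
  have h5 : 0 ≤ d * r.toReal := mul_nonneg hd0 ENNReal.toReal_nonneg
  have e2 : |(g.toReal / M - d * r.toReal) / D ^ 2| ≤ g.toReal / M / D + d * r.toReal / D := by
    rw [abs_div, abs_of_nonneg (by positivity : (0:ℝ) ≤ D ^ 2), ← add_div]
    have h3 : |g.toReal / M - d * r.toReal| ≤ g.toReal / M + d * r.toReal := by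
      rw [abs_le]
      constructor <;> linarith only [h4, h5]
    calc |g.toReal / M - d * r.toReal| / D ^ 2
        ≤ (g.toReal / M + d * r.toReal) / D ^ 2 := div_le_div_of_nonneg_right h3 (by positivity)
      _ ≤ (g.toReal / M + d * r.toReal) / D := by
          apply div_le_div_of_nonneg_left (by positivity) hD0
          (by_contra nlg; linarith only [nlg, mul_pos (sub_pos.2 (not_le.1 nlg)) (sub_pos.2 (not_le.1 nlg)), mul_nonneg (sq_nonneg (D : ℝ)) (sub_nonneg.2 hD), mul_nonneg (sq_nonneg (D : ℝ)) (le_of_lt (sub_pos.2 (not_le.1 nlg)))])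
  refine (ENNReal.ofReal_le_ofReal e2).trans ?_
  rw [ENNReal.ofReal_add (by positivity) (by positivity), ENNReal.ofReal_div_of_pos hD0,
    ENNReal.ofReal_div_of_pos hD0, ENNReal.ofReal_div_of_pos hM, ENNReal.ofReal_mul hd0]
  exact add_le_add (ENNReal.div_le_div_right (ENNReal.div_le_div_right ENNReal.ofReal_toReal_le _) _)
    (ENNReal.div_le_div_right (mul_le_mul_right ENNReal.ofReal_toReal_le _) _)

theorem rhsJ_eq (n j : ℕ) (G : ℝ → T3 → V → ℝ) (q : ℝ × T3 × V) :
    rhsJ n j G q = ((gainP n (G (stFlow q).1 (stFlow q).2.1) (stFlow q).2.2).toReal /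
      Maxw (stFlow q).2.2 - den G (stFlow q) *
        (rateP n (G (stFlow q).1 (stFlow q).2.1) (stFlow q).2.2).toReal) /
        (1 + den G (stFlow q) / ((j : ℝ) + 1)) ^ 2 := by
  unfold rhsJ
  rw [cden_eq]
  unfold den along QN stFlow flow
  simp only
  congr 1
  ring

theorem rhsJ_le {n : ℕ} {G : ℝ → T3 → V → ℝ} (hG : ∀ t x v, 0 ≤ G t x v) (j : ℕ)
    (q : ℝ × T3 × V) : ENNReal.ofReal |rhsJ n j G q| ≤
      gainP n (G (stFlow q).1 (stFlow q).2.1) (stFlow q).2.2 /
        ENNReal.ofReal (Maxw (stFlow q).2.2) /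
        ENNReal.ofReal (1 + den G (stFlow q) / ((j : ℝ) + 1)) +
      ENNReal.ofReal (den G (stFlow q)) *
        rateP n (G (stFlow q).1 (stFlow q).2.1) (stFlow q).2.2 /
        ENNReal.ofReal (1 + den G (stFlow q) / ((j : ℝ) + 1)) := by
  rw [rhsJ_eq]
  exact rhs_alg (Maxw_pos _) (div_nonneg (hG _ _ _) (Maxw_pos _).le) j

theorem measurable_gainP_st (n : ℕ) {G : ℝ → T3 → V → ℝ}
    (h : Measurable fun q : (ℝ × T3) × V => G q.1.1 q.1.2 q.2) :
    Measurable fun q : ℝ × T3 × V => gainP n (G q.1 q.2.1) q.2.2 := by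
  have h1 : Measurable fun z : (ℝ × T3) × V => gainP n (G z.1.1 z.1.2) z.2 :=
    measurable_gainP n (f := fun z : ℝ × T3 => G z.1 z.2) h
  have mA : Measurable fun q : ℝ × T3 × V => ((q.1, q.2.1), q.2.2) := by fun_prop
  have h2 := h1.comp mA
  have h3 : ((fun z : (ℝ × T3) × V => gainP n (G z.1.1 z.1.2) z.2) ∘
      fun q : ℝ × T3 × V => ((q.1, q.2.1), q.2.2)) =
      fun q : ℝ × T3 × V => gainP n (G q.1 q.2.1) q.2.2 := by
    funext q
    simp only [Function.comp_apply]
  rw [h3] at h2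
  exact h2

theorem measurable_rateP_st (n : ℕ) {G : ℝ → T3 → V → ℝ}
    (h : Measurable fun q : (ℝ × T3) × V => G q.1.1 q.1.2 q.2) :
    Measurable fun q : ℝ × T3 × V => rateP n (G q.1 q.2.1) q.2.2 := by
  have h1 : Measurable fun z : (ℝ × T3) × V => rateP n (G z.1.1 z.1.2) z.2 :=
    measurable_rateP n (f := fun z : ℝ × T3 => G z.1 z.2) h
  have mA : Measurable fun q : ℝ × T3 × V => ((q.1, q.2.1), q.2.2) := by fun_prop
  have h2 := h1.comp mA
  have h3 : ((fun z : (ℝ × T3) × V => rateP n (G z.1.1 z.1.2) z.2) ∘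
      fun q : ℝ × T3 × V => ((q.1, q.2.1), q.2.2)) =
      fun q : ℝ × T3 × V => rateP n (G q.1 q.2.1) q.2.2 := by
    funext q
    simp only [Function.comp_apply]
  rw [h3] at h2
  exact h2

/-- the gain and loss terms of the renormalized equation -/
def gT (n j : ℕ) (G : ℝ → T3 → V → ℝ) (q : ℝ × T3 × V) : ℝ≥0∞ :=
  gainP n (G q.1 q.2.1) q.2.2 / ENNReal.ofReal (Maxw q.2.2) /
    ENNReal.ofReal (1 + den G q / ((j : ℝ) + 1))

def lT (n j : ℕ) (G : ℝ → T3 → V → ℝ) (q : ℝ × T3 × V) : ℝ≥0∞ :=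
  ENNReal.ofReal (den G q) * rateP n (G q.1 q.2.1) q.2.2 /
    ENNReal.ofReal (1 + den G q / ((j : ℝ) + 1))

theorem ASeq.ui_rhs (h : ASeq N F0 F C) (j : ℕ) :
    UI PP fun n q => ENNReal.ofReal |rhsJ (N n) j (F n) q| := by
  have mM : Measurable fun q : ℝ × T3 × V => ENNReal.ofReal (Maxw q.2.2) :=
    (measurable_Maxw.comp measurable_snd.snd).ennreal_ofReal
  have mD : ∀ n, Measurable fun q : ℝ × T3 × V =>
      ENNReal.ofReal (1 + den (F n) q / ((j : ℝ) + 1)) := fun n =>
    (((measurable_denE (h.apx n).meas).div_const _).const_add 1).ennreal_ofReal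
  have mG : ∀ n, Measurable fun q : ℝ × T3 × V => gainP (N n) (F n q.1 q.2.1) q.2.2 := fun n =>
    measurable_gainP_st (N n) (h.meas_assoc n)
  have mR : ∀ n, Measurable fun q : ℝ × T3 × V => rateP (N n) (F n q.1 q.2.1) q.2.2 := fun n =>
    measurable_rateP_st (N n) (h.meas_assoc n)
  have m1 : ∀ n, Measurable (gT (N n) j (F n)) := fun n => ((mG n).div mM).div (mD n)
  have m2 : ∀ n, Measurable (lT (N n) j (F n)) := fun n =>
    (((measurable_denE (h.apx n).meas).ennreal_ofReal).mul (mR n)).div (mD n)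
  have h1 : UI PP fun n q => gT (N n) j (F n) q + lT (N n) j (F n) q :=
    UI.add (g := fun n => gT (N n) j (F n)) (h := fun n => lT (N n) j (F n))
      (h.ui_gain j) (h.ui_loss j) m1
  have m3 : ∀ n, Measurable fun q => gT (N n) j (F n) q + lT (N n) j (F n) q :=
    fun n => (m1 n).add (m2 n)
  have h2 : UI PP fun n q => gT (N n) j (F n) (stFlow q) + lT (N n) j (F n) (stFlow q) :=
    UI.comp_mp h1 m3 measurePreserving_stFlow_PP
  exact UI.mono h2 fun n => Eventually.of_forall fun q => rhsJ_le (h.apx n).nonneg j q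

theorem sub_ren_le_tailE {z : ℝ} (hz : 0 ≤ z) (K : ℝ≥0) (j : ℕ) :
    ENNReal.ofReal |z - ren j z| ≤ ENNReal.ofReal (4 * (K : ℝ) ^ 2 / ((j : ℝ) + 1))
      + 2 * (ENNReal.ofReal z - K) := by
  have hj : (0 : ℝ) < (j : ℝ) + 1 := by positivity
  have hK : (0 : ℝ) ≤ K := K.2
  have h0 : 0 ≤ z - ren j z := sub_nonneg.mpr (ren_le_selfE j hz)
  rw [abs_of_nonneg h0]
  rcases le_total z (2 * K) with hle | hle
  · refine le_trans (ENNReal.ofReal_le_ofReal ?_) le_self_add
    refine (sub_ren_leE j hz).trans ?_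
    gcongr
    linarith only [mul_nonneg (sub_nonneg.2 hle) (sub_nonneg.2 hz), mul_nonneg (sub_nonneg.2 hle) (sub_nonneg.2 hle)]
  · refine le_trans ?_ le_add_self
    have e1 : ENNReal.ofReal z - (K : ℝ≥0∞) = ENNReal.ofReal (z - K) := by
      rw [ENNReal.ofReal_sub _ hK, ENNReal.ofReal_coe_nnreal]
    rw [e1, show (2 : ℝ≥0∞) = ENNReal.ofReal 2 by simp, ← ENNReal.ofReal_mul (by norm_num)]
    apply ENNReal.ofReal_le_ofReal
    have := ren_nonnegE j hz
    linarith only [hle, this]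

/-- `F / M - ren j (F / M)` is uniformly small -/
theorem ASeq.ren_close (h : ASeq N F0 F C) {ε : ℝ≥0∞} (hε : 0 < ε) : ∃ j0 : ℕ, ∀ j, j0 ≤ j →
    ∀ n t, 0 ≤ t → ∫⁻ p, ENNReal.ofReal |den0 (F n t) p - ren j (den0 (F n t) p)| ∂muM ≤ ε := by
  have hε2 : 0 < ε / 2 := ENNReal.half_pos hε.ne'
  have hε4 : 0 < ε / 2 / 2 := ENNReal.half_pos hε2.ne'
  obtain ⟨K, hK⟩ := h.ui_time (ε / 2 / 2) hε4
  have hlim : Tendsto (fun j : ℕ => ENNReal.ofReal (4 * (K : ℝ) ^ 2 / ((j : ℝ) + 1))) atTop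
      (𝓝 (ENNReal.ofReal 0)) := by
    apply ENNReal.tendsto_ofReal
    have h1 := (tendsto_one_div_add_atTop_nhds_zero_nat (𝕜 := ℝ)).const_mul (4 * (K : ℝ) ^ 2)
    rw [mul_zero] at h1
    refine h1.congr fun j => ?_
    ring
  rw [ENNReal.ofReal_zero] at hlim
  obtain ⟨j0, hj0⟩ := eventually_atTop.mp (hlim.eventually_le_const hε2)
  refine ⟨j0, fun j hj n t ht => ?_⟩
  have mh : Measurable fun p : T3 × V => ENNReal.ofReal (den0 (F n t) p) := by
    apply Measurable.ennreal_ofReal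
    unfold den0
    exact ((h.apx n).meas.comp (by fun_prop : Measurable fun p : T3 × V => (t, p.1, p.2))).div
      (measurable_Maxw.comp measurable_snd)
  calc ∫⁻ p, ENNReal.ofReal |den0 (F n t) p - ren j (den0 (F n t) p)| ∂muM
      ≤ ∫⁻ p, (ENNReal.ofReal (4 * (K : ℝ) ^ 2 / ((j : ℝ) + 1))
          + 2 * (ENNReal.ofReal (den0 (F n t) p) - K)) ∂muM :=
        lintegral_mono fun p => sub_ren_le_tailE (h.den0_nonneg' n t p) K j
    _ = ENNReal.ofReal (4 * (K : ℝ) ^ 2 / ((j : ℝ) + 1))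
          + 2 * ∫⁻ p, (ENNReal.ofReal (den0 (F n t) p) - K) ∂muM := by
        rw [lintegral_add_left measurable_const, lintegral_const, measure_univ, mul_one,
          lintegral_const_mul _ (mh.sub_const _)]
    _ ≤ ε / 2 + 2 * (ε / 2 / 2) := by
        gcongr
        · exact hj0 j hj
        · exact hK (n, ⟨t, ht⟩)
    _ = ε := by
        rw [two_mul, ENNReal.add_halves, ENNReal.add_halves]

/-- equicontinuity in time of the renormalized densities along characteristics -/
theorem ASeq.ren_equi (h : ASeq N F0 F C) (j : ℕ) (T : ℝ) {ε : ℝ≥0∞} (hε : 0 < ε) :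
    ∃ δ : ℝ, 0 < δ ∧ ∀ n s t, 0 ≤ s → s ≤ t → t ≤ T → t - s ≤ δ →
      ∫⁻ p, ENNReal.ofReal |ren j (cden (F n) (t, p)) - ren j (cden (F n) (s, p))| ∂muM ≤ ε := by
  by_cases htop : ε = ⊤
  · exact ⟨1, one_pos, fun n s t _ _ _ _ => by rw [htop]; exact le_top⟩
  have hε2 : 0 < ε / 2 := ENNReal.half_pos hε.ne'
  have hε2t : ε / 2 ≠ ⊤ := ENNReal.div_ne_top htop (by norm_num)
  set c : ℝ≥0∞ := ENNReal.ofReal (Real.exp T) with hc
  have hc0 : c ≠ 0 := by
    rw [hc]
    exact (ENNReal.ofReal_pos.mpr (Real.exp_pos T)).ne'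
  have hct : c ≠ ⊤ := ENNReal.ofReal_ne_top
  obtain ⟨K, hK⟩ := h.ui_rhs j (ε / 2 / c) (ENNReal.div_pos hε2.ne' hct)
  have hx : 0 < (ε / 2).toReal := ENNReal.toReal_pos hε2.ne' hε2t
  refine ⟨(ε / 2).toReal / (K + 1), by (clear * - hx; positivity), fun n s t hs hst htT hδ => ?_⟩
  have ht : 0 ≤ t := hs.trans hst
  have mr := h.meas_rhsJ j n
  have hsub : Ioc s t ⊆ Ioc 0 T := Ioc_subset_Ioc hs htT
  have e1 : ∀ p : T3 × V, ENNReal.ofReal |ren j (cden (F n) (t, p)) - ren j (cden (F n) (s, p))|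
      ≤ ∫⁻ r in Ioc s t, ENNReal.ofReal |rhsJ (N n) j (F n) (r, p)| := by
    intro p
    have hB := (h.apx n).toIsBM
    have hint : IntegrableOn (fun r => rhsJ (N n) j (F n) (r, p)) (Ioc 0 t) := by
      have h1 := (hB.QN_integrable p t).div_const (Maxw p.2)
      refine Integrable.mono h1 (mr.comp (by fun_prop : Measurable fun r : ℝ =>
        (r, p))).aestronglyMeasurable (Eventually.of_forall fun r => ?_)
      rw [Real.norm_eq_abs, Real.norm_eq_abs]
      unfold rhsJ
      rw [abs_div (along (QN (N n) (F n)) (r, p) / Maxw p.2)]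
      apply div_le_self (abs_nonneg _)
      rw [abs_of_nonneg (by (clear * -; positivity))]
      have : 0 ≤ cden (F n) (r, p) / ((j : ℝ) + 1) :=
        div_nonneg (h.cden_nonneg' n _) (by (clear * -; positivity))
      nlinarith only [this]
    rw [hB.ren_mild j p ht, hB.ren_mild j p hs, ← Ioc_union_Ioc_eq_Ioc hs hst,
      setIntegral_union (Ioc_disjoint_Ioc_of_le le_rfl) measurableSet_Ioc
        (hint.mono_set (Ioc_subset_Ioc_right hst)) (hint.mono_set (Ioc_subset_Ioc_left hs))]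
    have e3 : ren j (den0 (F0 n) p) + ((∫ r in Ioc 0 s, rhsJ (N n) j (F n) (r, p)) +
        ∫ r in Ioc s t, rhsJ (N n) j (F n) (r, p)) - (ren j (den0 (F0 n) p) +
        ∫ r in Ioc 0 s, rhsJ (N n) j (F n) (r, p)) = ∫ r in Ioc s t, rhsJ (N n) j (F n) (r, p) := by
      ring
    rw [e3, ← Real.norm_eq_abs, ofReal_norm]
    refine (enorm_integral_le_lintegral_enorm _).trans ?_
    apply lintegral_mono
    intro r
    simp only
    rw [← ofReal_norm, Real.norm_eq_abs]
  have mr2 : Measurable fun z : (T3 × V) × ℝ => ENNReal.ofReal |rhsJ (N n) j (F n) (z.2, z.1)| :=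
    (mr.comp (by fun_prop : Measurable fun z : (T3 × V) × ℝ => (z.2, z.1))).abs.ennreal_ofReal
  have mr3 : Measurable fun z : ℝ × T3 × V => ENNReal.ofReal |rhsJ (N n) j (F n) z| :=
    mr.abs.ennreal_ofReal
  calc ∫⁻ p, ENNReal.ofReal |ren j (cden (F n) (t, p)) - ren j (cden (F n) (s, p))| ∂muM
      ≤ ∫⁻ p, (∫⁻ r in Ioc s t, ENNReal.ofReal |rhsJ (N n) j (F n) (r, p)|) ∂muM :=
        lintegral_mono fun p => e1 p
    _ = ∫⁻ r in Ioc s t, ∫⁻ p, ENNReal.ofReal |rhsJ (N n) j (F n) (r, p)| ∂muM :=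
        lintegral_lintegral_swap mr2.aemeasurable
    _ ≤ ∫⁻ r in Ioc s t, ∫⁻ p, ((K : ℝ≥0∞) +
          (ENNReal.ofReal |rhsJ (N n) j (F n) (r, p)| - K)) ∂muM := by
        apply lintegral_mono
        intro r
        apply lintegral_mono
        intro p
        exact le_add_tsub
    _ = (K : ℝ≥0∞) * ENNReal.ofReal (t - s) +
          ∫⁻ r in Ioc s t, ∫⁻ p, (ENNReal.ofReal |rhsJ (N n) j (F n) (r, p)| - K) ∂muM := by
        rw [← Real.volume_Ioc, ← setLIntegral_const, ← lintegral_add_left measurable_const]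
        apply lintegral_congr
        intro r
        rw [lintegral_add_left measurable_const, lintegral_const, measure_univ, mul_one]
    _ ≤ (K : ℝ≥0∞) * ENNReal.ofReal (t - s) +
          ∫⁻ r in Ioc 0 T, ∫⁻ p, (ENNReal.ofReal |rhsJ (N n) j (F n) (r, p)| - K) ∂muM := by
        (clear * - hsub; gcongr)
    _ = (K : ℝ≥0∞) * ENNReal.ofReal (t - s) +
          ∫⁻ q, (ENNReal.ofReal |rhsJ (N n) j (F n) q| - K)
            ∂((volume : Measure ℝ).restrict (Ioc 0 T)).prod muM := by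
        rw [lintegral_prod _ (mr3.sub_const _).aemeasurable]
    _ ≤ (K : ℝ≥0∞) * ENNReal.ofReal (t - s) +
          ∫⁻ q, (ENNReal.ofReal |rhsJ (N n) j (F n) q| - K)
            ∂(ENNReal.ofReal (Real.exp T) • PP) := by
        gcongr
        exact restrict_prod_le_PP T
    _ = (K : ℝ≥0∞) * ENNReal.ofReal (t - s) +
          c * ∫⁻ q, (ENNReal.ofReal |rhsJ (N n) j (F n) q| - K) ∂PP := by
        rw [lintegral_smul_measure, smul_eq_mul]
    _ ≤ ε / 2 + c * (ε / 2 / c) := by
        gcongr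
        · have h5 : (K : ℝ≥0∞) = ENNReal.ofReal K := by rw [ENNReal.ofReal_coe_nnreal]
          rw [h5, ← ENNReal.ofReal_mul (NNReal.coe_nonneg K)]
          refine ENNReal.ofReal_le_of_le_toReal ?_
          have hK0 : (0 : ℝ) ≤ K := K.2
          calc (K : ℝ) * (t - s) ≤ K * ((ε / 2).toReal / (K + 1)) := by (clear * - hδ; gcongr)
            _ ≤ (K + 1) * ((ε / 2).toReal / (K + 1)) := by
                gcongr
                linarith only []
            _ = (ε / 2).toReal := by (clear * - hx; field_simp)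
        · exact hK n
    _ = ε := by
        rw [ENNReal.mul_div_cancel hc0 hct, ENNReal.add_halves]

theorem ASeq.meas_cden_slice (h : ASeq N F0 F C) (n : ℕ) (t : ℝ) :
    Measurable fun p : T3 × V => cden (F n) (t, p) :=
  (measurable_cdenE (h.apx n).meas).comp (by fun_prop : Measurable fun p : T3 × V => (t, p))

/-- equicontinuity in time along characteristics -/
theorem ASeq.equi (h : ASeq N F0 F C) (T : ℝ) {ε : ℝ≥0∞} (hε : 0 < ε) :
    ∃ δ : ℝ, 0 < δ ∧ ∀ n s t, 0 ≤ s → s ≤ t → t ≤ T → t - s ≤ δ →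
      ∫⁻ p, ENNReal.ofReal |cden (F n) (t, p) - cden (F n) (s, p)| ∂muM ≤ ε := by
  have hε2 : 0 < ε / 2 := ENNReal.half_pos hε.ne'
  have hε4 : 0 < ε / 2 / 2 := ENNReal.half_pos hε2.ne'
  obtain ⟨j, hj⟩ := h.ren_close hε4
  obtain ⟨δ, hδ, H⟩ := h.ren_equi j T hε2
  refine ⟨δ, hδ, fun n s t hs hst htT hd => ?_⟩
  have ht : 0 ≤ t := hs.trans hst
  have mc := fun r => h.meas_cden_slice n r
  have mrc : ∀ r, Measurable fun p : T3 × V => ren j (cden (F n) (r, p)) := fun r =>
    (measurable_renE j).comp (mc r)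
  have key : ∀ r, 0 ≤ r → ∫⁻ p, ENNReal.ofReal |cden (F n) (r, p) - ren j (cden (F n) (r, p))| ∂muM
      ≤ ε / 2 / 2 := by
    intro r hr
    have m0 : Measurable fun p : T3 × V => den0 (F n r) p := by
      unfold den0
      exact ((h.apx n).meas.comp (by fun_prop : Measurable fun p : T3 × V => (r, p.1, p.2))).div
        (measurable_Maxw.comp measurable_snd)
    have e1 := (measurePreserving_flow_muM r).lintegral_comp
      (f := fun p => ENNReal.ofReal |den0 (F n r) p - ren j (den0 (F n r) p)|)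
      (m0.sub ((measurable_renE j).comp m0)).abs.ennreal_ofReal
    simp only [cden_time]
    rw [e1]
    exact hj j le_rfl n r hr
  have a1 : Measurable fun p : T3 × V =>
      ENNReal.ofReal |ren j (cden (F n) (t, p)) - ren j (cden (F n) (s, p))| :=
    ((mrc t).sub (mrc s)).abs.ennreal_ofReal
  have a2 : Measurable fun p : T3 × V =>
      ENNReal.ofReal |cden (F n) (t, p) - ren j (cden (F n) (t, p))| :=
    ((mc t).sub (mrc t)).abs.ennreal_ofReal
  calc ∫⁻ p, ENNReal.ofReal |cden (F n) (t, p) - cden (F n) (s, p)| ∂muM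
      ≤ ∫⁻ p, (ENNReal.ofReal |ren j (cden (F n) (t, p)) - ren j (cden (F n) (s, p))|
          + (ENNReal.ofReal |cden (F n) (t, p) - ren j (cden (F n) (t, p))|
          + ENNReal.ofReal |cden (F n) (s, p) - ren j (cden (F n) (s, p))|)) ∂muM := by
        apply lintegral_mono
        intro p
        simp only
        rw [← ENNReal.ofReal_add (abs_nonneg _) (abs_nonneg _),
          ← ENNReal.ofReal_add (abs_nonneg _) (by (clear * -; positivity))]
        apply ENNReal.ofReal_le_ofReal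
        have h1 := abs_add_le (ren j (cden (F n) (t, p)) - ren j (cden (F n) (s, p)))
          ((cden (F n) (t, p) - ren j (cden (F n) (t, p)))
            + (ren j (cden (F n) (s, p)) - cden (F n) (s, p)))
        have h2 := abs_add_le (cden (F n) (t, p) - ren j (cden (F n) (t, p)))
            (ren j (cden (F n) (s, p)) - cden (F n) (s, p))
        rw [abs_sub_comm (ren j (cden (F n) (s, p))) (cden (F n) (s, p))] at h2
        have e : ren j (cden (F n) (t, p)) - ren j (cden (F n) (s, p))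
          + ((cden (F n) (t, p) - ren j (cden (F n) (t, p)))
            + (ren j (cden (F n) (s, p)) - cden (F n) (s, p)))
            = cden (F n) (t, p) - cden (F n) (s, p) := by ring
        rw [e] at h1
        linarith only [h1, h2]
    _ = (∫⁻ p, ENNReal.ofReal |ren j (cden (F n) (t, p)) - ren j (cden (F n) (s, p))| ∂muM)
          + ((∫⁻ p, ENNReal.ofReal |cden (F n) (t, p) - ren j (cden (F n) (t, p))| ∂muM)
          + ∫⁻ p, ENNReal.ofReal |cden (F n) (s, p) - ren j (cden (F n) (s, p))| ∂muM) := by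
        rw [lintegral_add_left a1, lintegral_add_left a2]
    _ ≤ ε / 2 + (ε / 2 / 2 + ε / 2 / 2) := by
        gcongr
        · exact H n s t hs hst htT hd
        · exact key t ht
        · exact key s hs
    _ = ε := by rw [ENNReal.add_halves, ENNReal.add_halves]

/-- the time average of a bounded function against a test function -/
theorem avg_close {R : ℝ × T3 × V → ℝ} (mR : Measurable R) {B : ℝ} (hB : ∀ q, |R q| ≤ B)
    {θ : T3 × V → ℝ} (mθ : Measurable θ) (bθ : ∀ p, |θ p| ≤ 1) {t h : ℝ} (ht : 0 ≤ t) (hh : 0 < h)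
    {η : ℝ} (hη : ∀ s ∈ Ioc t (t + h), ∫ p, |R (s, p) - R (t, p)| ∂muM ≤ η) :
    |(∫ p, R (t, p) * θ p ∂muM)
      - ∫ q, R q * ((Ioc t (t + h)).indicator (fun s => Real.exp s / h) q.1 * θ q.2) ∂PP| ≤ η := by
  set w : ℝ → ℝ := (Ioc t (t + h)).indicator (fun s => Real.exp s / h) with hw
  have mw : Measurable w := by
    apply Measurable.indicator _ measurableSet_Ioc
    fun_prop
  have w0 : ∀ s, 0 ≤ w s := fun s => indicator_nonneg (fun _ _ => by positivity) _
  have wB : ∀ s, |w s| ≤ Real.exp (t + h) / h := by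
    intro s
    rw [abs_of_nonneg (w0 s), hw]
    by_cases hs : s ∈ Ioc t (t + h)
    · rw [indicator_of_mem hs]
      have := Real.exp_le_exp.mpr hs.2
      (clear * - this hh; gcongr)
    · rw [indicator_of_notMem hs]
      positivity
  have B0 : 0 ≤ B := (abs_nonneg _).trans (hB (0, 0, 0))
  set a : ℝ → ℝ := fun s => ∫ p, R (s, p) * θ p ∂muM with ha
  have mRs : ∀ s, Measurable fun p : T3 × V => R (s, p) := fun s =>
    mR.comp (by fun_prop : Measurable fun p : T3 × V => (s, p))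
  have iR : ∀ s, Integrable (fun p : T3 × V => R (s, p) * θ p) muM := by
    intro s
    refine Integrable.of_bound ((mRs s).mul mθ).aestronglyMeasurable B (Eventually.of_forall ?_)
    intro p
    rw [Real.norm_eq_abs, abs_mul]
    nlinarith only [B0, hB (s, p), bθ p, abs_nonneg (θ p)]
  have mI : Measurable fun q : ℝ × T3 × V => R q * (w q.1 * θ q.2) :=
    mR.mul ((mw.comp measurable_fst).mul (mθ.comp measurable_snd))
  have iI : Integrable (fun q : ℝ × T3 × V => R q * (w q.1 * θ q.2)) PP := by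
    refine Integrable.of_bound mI.aestronglyMeasurable (B * (Real.exp (t + h) / h))
      (Eventually.of_forall ?_)
    intro q
    rw [Real.norm_eq_abs, abs_mul, abs_mul]
    have h1 : |w q.1| * |θ q.2| ≤ Real.exp (t + h) / h := by
      linarith only [mul_nonneg (sub_nonneg.2 (bθ q.2)) (sub_nonneg.2 (abs_nonneg (w q.1))), wB q.1]
    exact mul_le_mul (hB q) h1 (by (clear * -; positivity)) B0
  have e1 : ∫ q, R q * (w q.1 * θ q.2) ∂PP = ∫ s, w s * a s ∂nuE := by
    unfold PP at iI ⊢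
    rw [integral_prod _ iI]
    apply integral_congr_ae
    refine Eventually.of_forall fun s => ?_
    simp only [ha]
    rw [← integral_const_mul]
    apply integral_congr_ae
    refine Eventually.of_forall fun p => ?_
    simp only
    ring
  have e2 : ∫ s, w s ∂nuE = 1 := by
    rw [integral_nuE]
    have h2 : ∀ s, Real.exp (-s) * w s = (Ioc t (t + h)).indicator (fun _ => 1 / h) s := by
      intro s
      rw [hw]
      by_cases hs : s ∈ Ioc t (t + h)
      · rw [indicator_of_mem hs, indicator_of_mem hs, ← mul_div_assoc, ← Real.exp_add]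
        simp only [neg_add_cancel, Real.exp_zero, one_div]
      · rw [indicator_of_notMem hs, indicator_of_notMem hs, mul_zero]
    simp_rw [h2]
    have hsub : Ioc t (t + h) ⊆ Ioi 0 := fun s hs => lt_of_le_of_lt ht hs.1
    rw [integral_indicator measurableSet_Ioc, Measure.restrict_restrict measurableSet_Ioc,
      inter_eq_left.mpr hsub, integral_const]
    simp only [MeasurableSet.univ, measureReal_restrict_apply, univ_inter, Real.volume_real_Ioc, add_sub_cancel_left, hh.le, sup_of_le_left, one_div, smul_eq_mul, ne_eq, hh.ne', not_false_eq_true, mul_inv_cancel₀]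
  have iw : Integrable w nuE :=
    Integrable.of_bound mw.aestronglyMeasurable _ (Eventually.of_forall fun s => by
      rw [Real.norm_eq_abs]; exact wB s)
  have ma : Measurable a := by
    have h3 : StronglyMeasurable fun s => ∫ p, (fun z : ℝ × T3 × V => R z * θ z.2) (s, p) ∂muM :=
      (mR.mul (mθ.comp measurable_snd)).stronglyMeasurable.integral_prod_right'
    exact h3.measurable
  have ba : ∀ s, |a s| ≤ B := by
    intro s
    have h4 := norm_integral_le_of_norm_le_const (μ := muM) (f := fun p => R (s, p) * θ p) (C := B)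
      (Eventually.of_forall fun p => by
        rw [Real.norm_eq_abs, abs_mul]
        linarith only [mul_nonneg (sub_nonneg.2 (hB (s, p))) (sub_nonneg.2 (abs_nonneg (θ p))), mul_nonneg (sub_nonneg.2 B0) (sub_nonneg.2 (bθ p))])
    simpa only [ge_iff_le, Real.norm_eq_abs, probReal_univ, mul_one] using h4
  have iwa : Integrable (fun s => w s * a s) nuE := by
    refine Integrable.of_bound (mw.mul ma).aestronglyMeasurable (Real.exp (t + h) / h * B)
      (Eventually.of_forall fun s => ?_)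
    rw [Real.norm_eq_abs, abs_mul]
    exact mul_le_mul (wB s) (ba s) (abs_nonneg _) (by positivity)
  have e3 : (∫ p, R (t, p) * θ p ∂muM) - ∫ q, R q * (w q.1 * θ q.2) ∂PP
      = ∫ s, w s * (a t - a s) ∂nuE := by
    rw [e1]
    simp_rw [mul_sub]
    rw [integral_sub (iw.mul_const _) iwa, integral_mul_const, e2, one_mul]
  rw [e3]
  have hpt : ∀ s, |w s * (a t - a s)| ≤ w s * η := by
    intro s
    rw [abs_mul, abs_of_nonneg (w0 s)]
    by_cases hs : s ∈ Ioc t (t + h)
    · apply mul_le_mul_of_nonneg_left _ (w0 s)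
      simp only [ha]
      rw [← integral_sub (iR t) (iR s)]
      refine (abs_integral_le_integral_abs).trans (le_trans ?_ (hη s hs))
      have i1 : Integrable (fun p : T3 × V => R (s, p) - R (t, p)) muM := by
        refine Integrable.of_bound ((mRs s).sub (mRs t)).aestronglyMeasurable (2 * B)
          (Eventually.of_forall fun p => ?_)
        rw [Real.norm_eq_abs]
        have h5 := abs_sub (R (s, p)) (R (t, p))
        linarith only [h5, hB (s, p), hB (t, p)]
      refine integral_mono ((iR t).sub (iR s)).abs i1.abs fun p => ?_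
      simp only
      have h6 : R (t, p) * θ p - R (s, p) * θ p = (R (t, p) - R (s, p)) * θ p := by ring
      rw [h6, abs_mul, abs_sub_comm (R (t, p))]
      linarith only [mul_nonneg (sub_nonneg.2 (bθ p)) (sub_nonneg.2 (abs_nonneg (R (s, p) - R (t, p))))]
    · have : w s = 0 := by rw [hw, indicator_of_notMem hs]
      rw [this, zero_mul, zero_mul]
  calc |∫ s, w s * (a t - a s) ∂nuE| ≤ ∫ s, |w s * (a t - a s)| ∂nuE :=
        abs_integral_le_integral_abs
    _ ≤ ∫ s, w s * η ∂nuE := by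
        apply integral_mono_of_nonneg (Eventually.of_forall fun s => abs_nonneg _)
          (iw.mul_const _) (Eventually.of_forall hpt)
    _ = η := by rw [integral_mul_const, e2, one_mul]

theorem integral_comp_stFlow_PP (f : ℝ × T3 × V → ℝ) : ∫ q, f (stFlow q) ∂PP = ∫ q, f q ∂PP :=
  measurePreserving_stFlow_PP.integral_comp measurableEmbedding_stFlow f

/-- convergence at each time of the renormalized densities -/
theorem Lim1.time_conv {L : ℝ → T3 → V → ℝ} (h : Lim1 N F0 F C L) (j : ℕ) {t : ℝ} (ht : 0 ≤ t)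
    {θ : T3 × V → ℝ} (mθ : Measurable θ) (bθ : ∀ p, |θ p| ≤ 1) :
    ∃ l : ℝ, Tendsto (fun n => ∫ p, ren j (den0 (F n t) p) * θ p ∂muM) atTop (𝓝 l) := by
  have hA := h.toASeq
  set R : ℕ → ℝ × T3 × V → ℝ := fun n q => ren j (cden (F n) q) with hR
  have mR : ∀ n, Measurable (R n) := fun n => (measurable_renE j).comp (measurable_cdenE (hA.apx n).meas)
  have R0 : ∀ n q, 0 ≤ R n q := fun n q => ren_nonnegE j (hA.cden_nonneg' n q)
  have hB : ∀ n q, |R n q| ≤ (j : ℝ) + 1 := fun n q => by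
    rw [abs_of_nonneg (R0 n q)]
    exact ren_leE j (hA.cden_nonneg' n q)
  set θ' : T3 × V → ℝ := fun p => θ (flow t p) with hθ'
  have mθ' : Measurable θ' := mθ.comp (measurable_flow t)
  have bθ' : ∀ p, |θ' p| ≤ 1 := fun p => bθ _
  set a : ℕ → ℝ := fun n => ∫ p, R n (t, p) * θ' p ∂muM with ha
  have e0 : ∀ n, ∫ p, ren j (den0 (F n t) p) * θ p ∂muM = a n := by
    intro n
    have h1 := (measurePreserving_flow_muM t).integral_comp (measurableEmbedding_flow t)
      (fun p => ren j (den0 (F n t) p) * θ p)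
    rw [← h1]
    simp only [ha, hR, hθ', cden_time]
  simp_rw [e0]
  -- the averages converge
  have hb : ∀ k : ℝ, 0 < k → ∃ l, Tendsto (fun n => ∫ q, R n q *
      ((Ioc t (t + k)).indicator (fun s => Real.exp s / k) q.1 * θ' q.2) ∂PP) atTop (𝓝 l) := by
    intro k hk
    obtain ⟨U, mU, iU, hU⟩ := h.wren j
    set w : ℝ → ℝ := (Ioc t (t + k)).indicator (fun s => Real.exp s / k) with hw
    have mw : Measurable w := by
      apply Measurable.indicator _ measurableSet_Ioc
      fun_prop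
    have w0 : ∀ s, 0 ≤ w s := fun s => indicator_nonneg (fun _ _ => by positivity) _
    have wB : ∀ s, |w s| ≤ Real.exp (t + k) / k := by
      intro s
      rw [abs_of_nonneg (w0 s), hw]
      by_cases hs : s ∈ Ioc t (t + k)
      · rw [indicator_of_mem hs]
        have := Real.exp_le_exp.mpr hs.2
        (clear * - this hk; gcongr)
      · rw [indicator_of_notMem hs]
        (clear * - hk; positivity)
    set c : ℝ := Real.exp (t + k) / k with hc
    have hc0 : 0 < c := by positivity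
    set Θ : ℝ × T3 × V → ℝ := fun q => c⁻¹ * (w q.1 * θ' (flow (-q.1) q.2)) with hΘ
    have mf : Measurable fun q : ℝ × T3 × V => flow (-q.1) q.2 :=
      (measurable_flow_uncurry.comp (measurable_fst.neg.prodMk measurable_snd) :)
    have mΘ : Measurable Θ := ((mw.comp measurable_fst).mul (mθ'.comp mf)).const_mul _
    have bΘ : ∀ q, |Θ q| ≤ 1 := by
      intro q
      simp only [hΘ]
      rw [abs_mul, abs_mul, abs_of_pos (inv_pos.mpr hc0), inv_mul_le_iff₀ hc0, mul_one]
      linarith only [mul_nonneg (sub_nonneg.2 (wB q.1)) (sub_nonneg.2 (abs_nonneg (θ' (flow (-q.1) q.2)))), mul_nonneg (le_of_lt (sub_pos.2 hc0)) (sub_nonneg.2 (bθ' (flow (-q.1) q.2)))]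
    have h1 := (hU Θ mΘ bΘ).const_mul c
    refine ⟨_, h1.congr fun n => ?_⟩
    rw [← integral_comp_stFlow_PP, ← integral_const_mul]
    apply integral_congr_ae
    refine Eventually.of_forall fun q => ?_
    simp only [hΘ, hR]
    have e5 : flow (-(stFlow q).1) (stFlow q).2 = q.2 := flow_neg_flow _ _
    have e6 : (stFlow q).1 = q.1 := rfl
    rw [e5, e6, cden_eq]
    (clear * - hc0; field_simp)
  -- Cauchy
  have hcau : CauchySeq a := by
    rw [Metric.cauchySeq_iff']
    intro ε hε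
    obtain ⟨δ, hδ, H⟩ := hA.ren_equi j (t + 1) (ε := ENNReal.ofReal (ε / 4))
      (ENNReal.ofReal_pos.mpr (by linarith only [hε]))
    set k : ℝ := min δ 1 with hk
    have hk0 : 0 < k := lt_min hδ one_pos
    obtain ⟨l, hl⟩ := hb k hk0
    obtain ⟨n0, hn0⟩ := (Metric.tendsto_atTop.mp hl) (ε / 4) (by linarith)
    have hclose : ∀ n, |a n - ∫ q, R n q *
        ((Ioc t (t + k)).indicator (fun s => Real.exp s / k) q.1 * θ' q.2) ∂PP| ≤ ε / 4 := by
      intro n
      refine avg_close (mR n) (hB n) mθ' bθ' ht hk0 fun s hs => ?_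
      have h2 := H n t s ht hs.1.le (by linarith only [hs.2, min_le_right δ 1])
        (by linarith only [hs.2, min_le_left δ 1])
      have m1 : Measurable fun p : T3 × V => R n (s, p) - R n (t, p) :=
        ((mR n).comp (by fun_prop : Measurable fun p : T3 × V => (s, p))).sub
          ((mR n).comp (by fun_prop : Measurable fun p : T3 × V => (t, p)))
      rw [integral_eq_lintegral_of_nonneg_ae (Eventually.of_forall fun p => abs_nonneg _)
        m1.abs.aestronglyMeasurable]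
      refine ENNReal.toReal_le_of_le_ofReal (by linarith only [hε]) ?_
      exact h2
    refine ⟨n0, fun n hn => ?_⟩
    have h3 := hn0 n hn
    have h4 := hn0 n0 le_rfl
    have h5 := hclose n
    have h6 := hclose n0
    rw [Real.dist_eq] at h3 h4 ⊢
    rw [abs_lt] at h3 h4 ⊢
    rw [abs_le] at h5 h6
    constructor <;> linarith only [h3, h4, h5, h6]
  exact cauchySeq_tendsto_of_complete hcau

end Vale.Agent.P140.DL
end
end

section

open MeasureTheory Set Filter
open scoped ENNReal Topology NNReal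

noncomputable section

namespace Vale.Agent.P140.DL

variable {N : ℕ → ℕ} {F0n : ℕ → T3 → V → ℝ} {F : ℕ → ℝ → T3 → V → ℝ} {C : ℝ≥0}
  {L : ℝ → T3 → V → ℝ} {F0 : T3 → V → ℝ}

/-! auxiliary facts -/

theorem s1_measurable_den {G : ℝ → T3 → V → ℝ}
    (hG : Measurable fun p : ℝ × T3 × V => G p.1 p.2.1 p.2.2) : Measurable (den G) :=
  hG.div (measurable_Maxw.comp measurable_snd.snd)

theorem s1_measurable_cden {G : ℝ → T3 → V → ℝ}
    (hG : Measurable fun p : ℝ × T3 × V => G p.1 p.2.1 p.2.2) : Measurable (cden G) :=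
  (measurable_along hG).div (measurable_Maxw.comp measurable_snd.snd)

theorem s1_cden_nonneg {G : ℝ → T3 → V → ℝ} (hG : ∀ t x v, 0 ≤ G t x v) (q : ℝ × T3 × V) :
    0 ≤ cden G q := div_nonneg (hG _ _ _) (Maxw_pos _).le

theorem s1_measurable_slice {G : ℝ → T3 → V → ℝ}
    (hG : Measurable fun p : ℝ × T3 × V => G p.1 p.2.1 p.2.2) (t : ℝ) :
    Measurable fun p : T3 × V => G t p.1 p.2 := hG.comp (measurable_const.prodMk measurable_id)

/-- the mild solution is continuous along characteristics -/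
theorem IsMildC.continuousOn (h : IsMildC F0 L) :
    ∀ᵐ p : T3 × V, ContinuousOn (fun t => along L (t, p)) (Ici 0) := by
  filter_upwards [h.gain_fin, h.loss_fin, h.mild] with p hg hl hm
  have mg : Measurable fun s : ℝ => gainA L (s, p) :=
    (measurable_gainA h.measurable).comp (measurable_id.prodMk measurable_const)
  have ml : Measurable fun s : ℝ => lossA L (s, p) :=
    (measurable_lossA h.measurable).comp (measurable_id.prodMk measurable_const)
  have hint : ∀ T : ℝ, IntegrableOn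
      (fun s => (gainA L (s, p)).toReal - (lossA L (s, p)).toReal) (Ioc 0 T) := fun T =>
    (integrable_toReal_of_lintegral_ne_top mg.aemeasurable (hg T).ne).sub
      (integrable_toReal_of_lintegral_ne_top ml.aemeasurable (hl T).ne)
  intro t ht
  have h1 : ContinuousOn (fun x => ∫ s in Ioc 0 x,
      ((gainA L (s, p)).toReal - (lossA L (s, p)).toReal)) (Icc 0 (t + 1)) := by
    apply intervalIntegral.continuousOn_primitive
    rw [integrableOn_Icc_iff_integrableOn_Ioc]
    exact hint (t + 1)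
  have h2 : ContinuousWithinAt (fun x => ∫ s in Ioc 0 x,
      ((gainA L (s, p)).toReal - (lossA L (s, p)).toReal)) (Ici 0) t := by
    have h3 := h1 t ⟨ht, by linarith only []⟩
    refine h3.mono_of_mem_nhdsWithin ?_
    rw [mem_nhdsWithin]
    exact ⟨Iio (t + 1), isOpen_Iio, by simp only [mem_Iio, lt_add_iff_pos_right, zero_lt_one], fun x hx => ⟨hx.2, le_of_lt hx.1⟩⟩
  have h4 : ContinuousWithinAt (fun x => F0 p.1 p.2 + ∫ s in Ioc 0 x,
      ((gainA L (s, p)).toReal - (lossA L (s, p)).toReal)) (Ici 0) t :=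
    continuousWithinAt_const.add h2
  exact h4.congr (fun x hx => hm x hx) (hm t ht)

/-- test function of a time box -/
def s1Box (a b : ℝ) (θ : T3 × V → ℝ) (q : ℝ × T3 × V) : ℝ :=
  (Ioc a b).indicator Real.exp q.1 * θ q.2

theorem s1_measurable_box (a b : ℝ) {θ : T3 × V → ℝ} (mθ : Measurable θ) :
    Measurable (s1Box a b θ) :=
  ((Real.measurable_exp.indicator measurableSet_Ioc).comp measurable_fst).mul
    (mθ.comp measurable_snd)

theorem s1_box_le (a b : ℝ) {θ : T3 × V → ℝ} {B : ℝ} (bθ : ∀ p, |θ p| ≤ B) (q : ℝ × T3 × V) :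
    |s1Box a b θ q| ≤ Real.exp b * B := by
  unfold s1Box
  rw [abs_mul]
  have hB : 0 ≤ B := (abs_nonneg _).trans (bθ q.2)
  refine mul_le_mul ?_ (bθ _) (abs_nonneg _) (Real.exp_pos _).le
  by_cases h : q.1 ∈ Ioc a b
  · rw [indicator_of_mem h, abs_of_pos (Real.exp_pos _)]
    exact Real.exp_le_exp.mpr h.2
  · rw [indicator_of_notMem h, abs_zero]
    exact (Real.exp_pos _).le

theorem s1_integrable_box {G : ℝ × T3 × V → ℝ} (iG : Integrable G PP) (a b : ℝ)
    {θ : T3 × V → ℝ} (mθ : Measurable θ) {B : ℝ} (bθ : ∀ p, |θ p| ≤ B) :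
    Integrable (fun q => G q * s1Box a b θ q) PP := by
  have := iG.bdd_mul (c := Real.exp b * B) (s1_measurable_box a b mθ).aestronglyMeasurable
    (Eventually.of_forall fun q => by rw [Real.norm_eq_abs]; exact s1_box_le a b bθ q)
  exact this.congr (Eventually.of_forall fun q => mul_comm _ _)

theorem s1_inter {a b : ℝ} (ha : 0 ≤ a) : Ioc a b ∩ Ioi 0 = Ioc a b :=
  inter_eq_left.mpr fun _ ht => lt_of_le_of_lt ha ht.1

theorem s1_inner_box (G : ℝ × T3 × V → ℝ) {a b : ℝ} (ha : 0 ≤ a) (θ : T3 × V → ℝ) (p : T3 × V) :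
    ∫ t, G (t, p) * s1Box a b θ (t, p) ∂nuE = (∫ t in Ioc a b, G (t, p)) * θ p := by
  rw [integral_nuE, ← integral_mul_const]
  have h1 : ∀ t, Real.exp (-t) * (G (t, p) * s1Box a b θ (t, p)) =
      (Ioc a b).indicator (fun t => G (t, p) * θ p) t := by
    intro t
    unfold s1Box
    by_cases h : t ∈ Ioc a b
    · rw [indicator_of_mem h, indicator_of_mem h]
      have : Real.exp (-t) * Real.exp t = 1 := by rw [← Real.exp_add]; simp
      calc Real.exp (-t) * (G (t, p) * (Real.exp t * θ p)) =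
          (Real.exp (-t) * Real.exp t) * (G (t, p) * θ p) := by ring
        _ = _ := by rw [this, one_mul]
    · rw [indicator_of_notMem h, indicator_of_notMem h]
      ring
  rw [integral_congr_ae (Eventually.of_forall h1)]
  rw [integral_indicator measurableSet_Ioc, Measure.restrict_restrict measurableSet_Ioc,
    s1_inter ha]

theorem s1_integral_box {G : ℝ × T3 × V → ℝ} (iG : Integrable G PP) {a b : ℝ} (ha : 0 ≤ a)
    {θ : T3 × V → ℝ} (mθ : Measurable θ) {B : ℝ} (bθ : ∀ p, |θ p| ≤ B) :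
    ∫ q, G q * s1Box a b θ q ∂PP = ∫ p, (∫ t in Ioc a b, G (t, p)) * θ p ∂muM := by
  have h := s1_integrable_box iG a b mθ bθ
  unfold PP at h ⊢
  rw [integral_prod_symm _ h]
  exact integral_congr_ae (Eventually.of_forall fun p => s1_inner_box G ha θ p)

/-- time averages over boxes are integrable -/
theorem s1_integrable_avg {G : ℝ × T3 × V → ℝ} (iG : Integrable G PP) {a : ℝ} (ha : 0 ≤ a)
    (b : ℝ) : Integrable (fun p => ∫ t in Ioc a b, G (t, p)) muM := by
  have h := s1_integrable_box iG a b (θ := fun _ => 1) measurable_const (B := 1) (by simp)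
  unfold PP at h
  have h2 := h.integral_prod_right
  refine h2.congr (Eventually.of_forall fun p => ?_)
  simp only
  rw [s1_inner_box G ha, mul_one]

/-- almost every characteristic is integrable on bounded intervals -/
theorem s1_ae_integrableOn {G : ℝ × T3 × V → ℝ} (iG : Integrable G PP) {a : ℝ} (ha : 0 ≤ a)
    (b : ℝ) : ∀ᵐ p ∂muM, IntegrableOn (fun t => G (t, p)) (Ioc a b) := by
  have h := s1_integrable_box iG a b (θ := fun _ => 1) measurable_const (B := 1) (by simp only [abs_one, Std.le_refl, implies_true])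
  unfold PP at h
  filter_upwards [h.prod_left_ae] with p hp
  have h3 : Integrable (fun t => G (t, p) * s1Box a b (fun _ => 1) (t, p))
      ((volume.restrict (Ioi (0 : ℝ))).withDensity fun t => ENNReal.ofReal (Real.exp (-t))) := hp
  rw [integrable_withDensity_iff_integrable_smul' (by fun_prop)
    (Eventually.of_forall fun t => ENNReal.ofReal_lt_top)] at h3
  have h4 : Integrable ((Ioc a b).indicator fun t => G (t, p)) (volume.restrict (Ioi (0 : ℝ))) := by
    refine h3.congr (Eventually.of_forall fun t => ?_)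
    simp only [smul_eq_mul]
    rw [ENNReal.toReal_ofReal (Real.exp_pos _).le]
    unfold s1Box
    by_cases ht : t ∈ Ioc a b
    · rw [indicator_of_mem ht, indicator_of_mem ht]
      have : Real.exp (-t) * Real.exp t = 1 := by rw [← Real.exp_add]; simp
      calc Real.exp (-t) * (G (t, p) * (Real.exp t * 1)) =
          (Real.exp (-t) * Real.exp t) * (G (t, p)) := by ring
        _ = _ := by rw [this, one_mul]
    · rw [indicator_of_notMem ht, indicator_of_notMem ht]
      ring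
  rw [integrable_indicator_iff measurableSet_Ioc, IntegrableOn,
    Measure.restrict_restrict measurableSet_Ioc, s1_inter ha] at h4
  exact h4

theorem s1_wcden {g : ℕ → ℝ → T3 → V → ℝ} {G : ℝ → T3 → V → ℝ}
    (h : WConv PP (fun n => den (g n)) (den G)) : WConv PP (fun n => cden (g n)) (cden G) := by
  have h1 := h.comp_equiv stFlowEquiv (ν := PP) measurePreserving_stFlow_PP
  exact h1

theorem s1_integrable_cden {G : ℝ → T3 → V → ℝ} (h : Integrable (den G) PP) :
    Integrable (cden G) PP :=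
  (measurePreserving_stFlow_PP.integrable_comp_emb measurableEmbedding_stFlow).mpr h

/-- weak convergence of the time averages -/
theorem s1_wavg {g : ℕ → ℝ × T3 × V → ℝ} {G : ℝ × T3 × V → ℝ} (h : WConv PP g G)
    (ig : ∀ n, Integrable (g n) PP) (iG : Integrable G PP) {a : ℝ} (ha : 0 ≤ a) (b : ℝ) :
    WConv muM (fun n p => ∫ t in Ioc a b, g n (t, p)) (fun p => ∫ t in Ioc a b, G (t, p)) := by
  intro θ mθ bθ
  have h1 := h.test (s1_measurable_box a b mθ) (s1_box_le a b bθ)
  rw [s1_integral_box iG ha mθ bθ] at h1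
  refine h1.congr fun n => ?_
  rw [s1_integral_box (ig n) ha mθ bθ]


theorem s1_liminf_le {u : ℕ → ℝ≥0∞} {c : ℝ≥0∞} (h : ∀ n, u n ≤ c) : liminf u atTop ≤ c :=
  liminf_le_of_frequently_le' (Frequently.of_forall h)

/-- averages of a continuous function -/
theorem s1_avg_tendsto {f : ℝ → ℝ} (hf : ContinuousOn f (Ici 0)) {t : ℝ} (ht : 0 ≤ t) :
    Tendsto (fun k : ℕ => ((k : ℝ) + 1) * ∫ r in Ioc t (t + 1 / ((k : ℝ) + 1)), f r) atTop
      (𝓝 (f t)) := by
  rw [Metric.tendsto_atTop]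
  intro ε hε
  have h1 := hf t ht
  rw [Metric.continuousWithinAt_iff] at h1
  obtain ⟨δ, hδ, h2⟩ := h1 (ε / 2) (half_pos hε)
  obtain ⟨K, hK⟩ := exists_nat_one_div_lt hδ
  refine ⟨K, fun k hk => ?_⟩
  have hk0 : (0 : ℝ) < (k : ℝ) + 1 := by positivity
  have hk1 : 1 / ((k : ℝ) + 1) < δ := lt_of_le_of_lt (by
    apply one_div_le_one_div_of_le (by (clear * -; positivity))
    have : (K : ℝ) ≤ k := by exact_mod_cast hk
    linarith only [this]) hK
  have hint : IntegrableOn f (Ioc t (t + 1 / ((k : ℝ) + 1))) := by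
    apply IntegrableOn.mono_set _ Ioc_subset_Icc_self
    apply ContinuousOn.integrableOn_Icc
    exact hf.mono fun x hx => ht.trans hx.1
  have hvol : (volume (Ioc t (t + 1 / ((k : ℝ) + 1)))).toReal = 1 / ((k : ℝ) + 1) := by
    rw [Real.volume_Ioc, add_sub_cancel_left, ENNReal.toReal_ofReal (by (clear * -; positivity))]
  have h3 : ((k : ℝ) + 1) * ∫ r in Ioc t (t + 1 / ((k : ℝ) + 1)), f r - f t =
      (((k : ℝ) + 1) * ∫ r in Ioc t (t + 1 / ((k : ℝ) + 1)), f r) - f t := by
    rw [integral_sub hint (integrable_const _), setIntegral_const, measureReal_def, hvol]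
    simp only [smul_eq_mul]
    (clear * -; field_simp)
  rw [Real.dist_eq, ← h3, abs_mul, abs_of_pos hk0]
  have h4 : ‖∫ r in Ioc t (t + 1 / ((k : ℝ) + 1)), (f r - f t)‖ ≤
      (ε / 2) * (volume.real (Ioc t (t + 1 / ((k : ℝ) + 1)))) := by
    apply norm_setIntegral_le_of_norm_le_const (by rw [Real.volume_Ioc]; exact ENNReal.ofReal_lt_top)
    intro x hx
    have h5 := h2 (ht.trans hx.1.le) (by
      rw [Real.dist_eq, abs_of_nonneg (by linarith only [hx.1])]
      linarith only [hk1, hx.2])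
    rw [Real.dist_eq] at h5
    exact h5.le
  rw [measureReal_def, hvol, Real.norm_eq_abs] at h4
  calc ((k : ℝ) + 1) * |∫ r in Ioc t (t + 1 / ((k : ℝ) + 1)), (f r - f t)|
      ≤ ((k : ℝ) + 1) * ((ε / 2) * (1 / ((k : ℝ) + 1))) := mul_le_mul_of_nonneg_left h4 hk0.le
    _ = ε / 2 := by (clear * - hε; field_simp)
    _ < ε := half_lt_self hε

/-- Minkowski for averages -/
theorem s1_avg_le {D : ℝ → T3 × V → ℝ} (mD : Measurable fun q : ℝ × T3 × V => D q.1 q.2)
    {w : T3 × V → ℝ≥0∞} (mw : Measurable w) (k : ℕ) {a : ℝ} {ε : ℝ≥0∞}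
    (h : ∀ r ∈ Ioc a (a + 1 / ((k : ℝ) + 1)), ∫⁻ p, w p * ENNReal.ofReal |D r p| ∂muM ≤ ε) :
    ∫⁻ p, w p * ENNReal.ofReal |((k : ℝ) + 1) * ∫ r in Ioc a (a + 1 / ((k : ℝ) + 1)), D r p| ∂muM
      ≤ ε := by
  have hk0 : (0 : ℝ) < (k : ℝ) + 1 := by (clear * -; positivity)
  have mDp : ∀ p, Measurable fun r => ENNReal.ofReal |D r p| := fun p =>
    ((mD.comp (measurable_id.prodMk measurable_const)).abs).ennreal_ofReal
  have h1 : ∀ p, w p * ENNReal.ofReal
      |((k : ℝ) + 1) * ∫ r in Ioc a (a + 1 / ((k : ℝ) + 1)), D r p| ≤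
      ENNReal.ofReal ((k : ℝ) + 1) *
        ∫⁻ r in Ioc a (a + 1 / ((k : ℝ) + 1)), w p * ENNReal.ofReal |D r p| := by
    intro p
    rw [abs_mul, abs_of_pos hk0, ENNReal.ofReal_mul hk0.le, lintegral_const_mul _ (mDp p),
      mul_left_comm]
    refine mul_le_mul_right (mul_le_mul_right ?_ _) _
    have := enorm_integral_le_lintegral_enorm (μ := volume.restrict (Ioc a (a + 1 / ((k : ℝ) + 1))))
      (f := fun r => D r p)
    simp only [Real.enorm_eq_ofReal_abs] at this
    exact this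
  calc ∫⁻ p, w p * ENNReal.ofReal
        |((k : ℝ) + 1) * ∫ r in Ioc a (a + 1 / ((k : ℝ) + 1)), D r p| ∂muM
      ≤ ∫⁻ p, (ENNReal.ofReal ((k : ℝ) + 1) *
        ∫⁻ r in Ioc a (a + 1 / ((k : ℝ) + 1)), w p * ENNReal.ofReal |D r p|) ∂muM :=
        lintegral_mono h1
    _ = ENNReal.ofReal ((k : ℝ) + 1) *
        ∫⁻ p, (∫⁻ r in Ioc a (a + 1 / ((k : ℝ) + 1)), w p * ENNReal.ofReal |D r p|) ∂muM :=
        lintegral_const_mul' _ _ ENNReal.ofReal_ne_top
    _ = ENNReal.ofReal ((k : ℝ) + 1) *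
        ∫⁻ r in Ioc a (a + 1 / ((k : ℝ) + 1)), (∫⁻ p, w p * ENNReal.ofReal |D r p| ∂muM) := by
        congr 1
        apply lintegral_lintegral_swap
        apply Measurable.aemeasurable
        have : Measurable fun q : (T3 × V) × ℝ => D q.2 q.1 := mD.comp measurable_swap
        exact (mw.comp measurable_fst).mul (this.abs).ennreal_ofReal
    _ ≤ ENNReal.ofReal ((k : ℝ) + 1) * ∫⁻ _ in Ioc a (a + 1 / ((k : ℝ) + 1)), ε :=
        mul_le_mul_right (setLIntegral_mono measurable_const h) _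
    _ = ε := by
        rw [setLIntegral_const, Real.volume_Ioc, add_sub_cancel_left]
        rw [mul_left_comm, ← ENNReal.ofReal_mul hk0.le, mul_one_div_cancel hk0.ne']
        simp

theorem s1_avg_le1 {D : ℝ → T3 × V → ℝ} (mD : Measurable fun q : ℝ × T3 × V => D q.1 q.2)
    (k : ℕ) {a : ℝ} {ε : ℝ≥0∞}
    (h : ∀ r ∈ Ioc a (a + 1 / ((k : ℝ) + 1)), ∫⁻ p, ENNReal.ofReal |D r p| ∂muM ≤ ε) :
    ∫⁻ p, ENNReal.ofReal |((k : ℝ) + 1) * ∫ r in Ioc a (a + 1 / ((k : ℝ) + 1)), D r p| ∂muM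
      ≤ ε := by
  have := s1_avg_le mD (w := fun _ => 1) measurable_const k (a := a) (ε := ε)
    (by simpa only [one_mul] using h)
  simpa only [one_mul] using this

/-- translation of a set integral -/
theorem s1_shift (f : ℝ → ℝ) (d : ℝ) {a h : ℝ} (hh : 0 ≤ h) :
    ∫ r in Ioc (d + a) (d + a + h), f r = ∫ r in Ioc a (a + h), f (d + r) := by
  rw [← intervalIntegral.integral_of_le (by linarith), ← intervalIntegral.integral_of_le
    (by linarith only [hh]), intervalIntegral.integral_comp_add_left, add_assoc]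

theorem s1_shift_int {f : ℝ → ℝ} {d : ℝ} {a h : ℝ} (hh : 0 ≤ h)
    (hf : IntegrableOn f (Ioc (d + a) (d + a + h))) :
    IntegrableOn (fun r => f (d + r)) (Ioc a (a + h)) := by
  have h1 : IntervalIntegrable f volume (d + a) (d + a + h) := by
    rw [intervalIntegrable_iff_integrableOn_Ioc_of_le (by linarith only [hh])]
    exact hf
  have h2 := h1.comp_add_left d
  rw [add_sub_cancel_left, show d + a + h - d = a + h by ring,
    intervalIntegrable_iff_integrableOn_Ioc_of_le (by linarith only [hh])] at h2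
  exact h2

theorem s1_measurable_avg {G : ℝ × T3 × V → ℝ} (mG : Measurable G) (a b : ℝ) :
    Measurable fun p => ∫ t in Ioc a b, G (t, p) := by
  have h : StronglyMeasurable fun q : (T3 × V) × ℝ => G (q.2, q.1) :=
    (mG.comp measurable_swap).stronglyMeasurable
  exact (h.integral_prod_right (ν := volume.restrict (Ioc a b))).measurable

/-- averages and slices -/
theorem s1_avg_close {G : ℝ × T3 × V → ℝ} (mG : Measurable G) (iG : Integrable G PP) (k : ℕ)
    {t : ℝ} (ht : 0 ≤ t) {ε : ℝ≥0∞}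
    (h : ∀ r ∈ Ioc t (t + 1 / ((k : ℝ) + 1)), ∫⁻ p, ENNReal.ofReal |G (r, p) - G (t, p)| ∂muM ≤ ε) :
    ∫⁻ p, ENNReal.ofReal |((k : ℝ) + 1) * (∫ r in Ioc t (t + 1 / ((k : ℝ) + 1)), G (r, p))
      - G (t, p)| ∂muM ≤ ε := by
  have hk0 : (0 : ℝ) < (k : ℝ) + 1 := by (clear * -; positivity)
  have mD : Measurable fun q : ℝ × T3 × V => G (q.1, q.2) - G (t, q.2) :=
    mG.sub (mG.comp (measurable_const.prodMk measurable_snd))
  refine le_trans (le_of_eq (lintegral_congr_ae ?_)) (s1_avg_le1 mD k h)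
  filter_upwards [s1_ae_integrableOn iG ht (t + 1 / ((k : ℝ) + 1))] with p hp
  have hvol : (volume (Ioc t (t + 1 / ((k : ℝ) + 1)))).toReal = 1 / ((k : ℝ) + 1) := by
    rw [Real.volume_Ioc, add_sub_cancel_left, ENNReal.toReal_ofReal (by positivity)]
  rw [integral_sub hp (integrable_const _), setIntegral_const, measureReal_def, hvol]
  simp only [smul_eq_mul]
  congr 2
  (clear * -; field_simp)

/-- differences of averages -/
theorem s1_avg_diff {G : ℝ × T3 × V → ℝ} (mG : Measurable G) (iG : Integrable G PP) (k : ℕ)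
    {s t : ℝ} (hs : 0 ≤ s) (hst : s ≤ t) {ε : ℝ≥0∞}
    (h : ∀ r ∈ Ioc s (s + 1 / ((k : ℝ) + 1)),
      ∫⁻ p, ENNReal.ofReal |G (t - s + r, p) - G (r, p)| ∂muM ≤ ε) :
    ∫⁻ p, ENNReal.ofReal |((k : ℝ) + 1) * (∫ r in Ioc t (t + 1 / ((k : ℝ) + 1)), G (r, p))
      - ((k : ℝ) + 1) * (∫ r in Ioc s (s + 1 / ((k : ℝ) + 1)), G (r, p))| ∂muM ≤ ε := by
  have hk0 : (0 : ℝ) < (k : ℝ) + 1 := by positivity
  have hk1 : (0 : ℝ) ≤ 1 / ((k : ℝ) + 1) := by positivity
  have mD : Measurable fun q : ℝ × T3 × V => G (t - s + q.1, q.2) - G (q.1, q.2) :=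
    (mG.comp ((measurable_const.add measurable_fst).prodMk measurable_snd)).sub mG
  refine le_trans (le_of_eq (lintegral_congr_ae ?_)) (s1_avg_le1 mD k h)
  filter_upwards [s1_ae_integrableOn iG hs (s + 1 / ((k : ℝ) + 1)),
    s1_ae_integrableOn iG (hs.trans hst) (t + 1 / ((k : ℝ) + 1))] with p hp hp'
  have e1 : t - s + s = t := by ring
  have h1 : ∫ r in Ioc t (t + 1 / ((k : ℝ) + 1)), G (r, p) =
      ∫ r in Ioc s (s + 1 / ((k : ℝ) + 1)), G (t - s + r, p) := by
    have := s1_shift (fun r => G (r, p)) (t - s) (a := s) hk1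
    rw [e1] at this
    exact this
  have h2 : IntegrableOn (fun r => G (t - s + r, p)) (Ioc s (s + 1 / ((k : ℝ) + 1))) :=
    s1_shift_int (f := fun r => G (r, p)) (d := t - s) hk1 (by rw [e1]; exact hp')
  rw [h1, integral_sub h2 hp, mul_sub]


/-! the approximating sequence -/

theorem s1_integrable_den_F (h : ASeq N F0n F C) (n : ℕ) : Integrable (den (F n)) PP := by
  obtain ⟨K, hK⟩ := h.ui_den.lintegral_le
  have m := s1_measurable_den (h.apx n).meas
  refine ⟨m.aestronglyMeasurable, ?_⟩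
  have h0 : 0 ≤ᵐ[PP] den (F n) := Eventually.of_forall fun q =>
    div_nonneg ((h.apx n).nonneg _ _ _) (Maxw_pos _).le
  rw [hasFiniteIntegral_iff_ofReal h0]
  exact lt_of_le_of_lt (hK n) ENNReal.coe_lt_top

theorem s1_integrable_cden_F (h : ASeq N F0n F C) (n : ℕ) : Integrable (cden (F n)) PP :=
  s1_integrable_cden (s1_integrable_den_F h n)

theorem s1_wInt_cden {G : ℝ → T3 → V → ℝ}
    (hG : Measurable fun p : ℝ × T3 × V => G p.1 p.2.1 p.2.2) (t : ℝ) :
    ∫⁻ p, psi2 p.2 * ENNReal.ofReal (cden G (t, p)) ∂muM = wInt psi2 (G t) := by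
  rw [← lintegral_den0 (s1_measurable_slice hG t) measurable_psi2]
  have m : Measurable fun p : T3 × V => psi2 p.2 * ENNReal.ofReal (den0 (G t) p) :=
    (measurable_psi2.comp measurable_snd).mul
      ((s1_measurable_slice hG t).div (measurable_Maxw.comp measurable_snd)).ennreal_ofReal
  rw [← (measurePreserving_flow_muM t).lintegral_comp m]
  rfl

/-- the limit along almost every characteristic -/
theorem s1_lim (h : Lim2 N F0n F C F0 L) {t : ℝ} (ht : 0 ≤ t) : ∀ᵐ p ∂muM,
    Tendsto (fun k : ℕ => ((k : ℝ) + 1) * ∫ r in Ioc t (t + 1 / ((k : ℝ) + 1)), cden L (r, p))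
      atTop (𝓝 (cden L (t, p))) := by
  filter_upwards [ae_muM.mpr h.mildc.continuousOn] with p hp
  have hc : ContinuousOn (fun r => cden L (r, p)) (Ici 0) := hp.div_const (Maxw p.2)
  exact s1_avg_tendsto hc ht

/-- mass and second moment at each time -/
theorem Lim2.wInt_le (h : Lim2 N F0n F C F0 L) {t : ℝ} (ht : 0 ≤ t) :
    wInt psi2 (L t) ≤ C := by
  have mL := s1_measurable_cden h.meas
  have iL : Integrable (cden L) PP := s1_integrable_cden h.int
  have mw : Measurable fun p : T3 × V => psi2 p.2 := measurable_psi2.comp measurable_snd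
  have hk : ∀ k : ℕ, ∫⁻ p, psi2 p.2 * ENNReal.ofReal (((k : ℝ) + 1) *
      ∫ r in Ioc t (t + 1 / ((k : ℝ) + 1)), cden L (r, p)) ∂muM ≤ C := by
    intro k
    have hk0 : (0 : ℝ) < (k : ℝ) + 1 := by (clear * -; positivity)
    have hw := (s1_wavg (s1_wcden h.wden) (s1_integrable_cden_F h.toASeq) iL ht
      (t + 1 / ((k : ℝ) + 1))).const_mul ((k : ℝ) + 1)
    have h1 := hw.lintegral_weight_le
      (fun n => (s1_integrable_avg (s1_integrable_cden_F h.toASeq n) ht _).const_mul _)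
      (fun n p => mul_nonneg hk0.le (integral_nonneg fun r =>
        s1_cden_nonneg (h.apx n).nonneg _))
      ((s1_integrable_avg iL ht _).const_mul _)
      (Eventually.of_forall fun p => mul_nonneg hk0.le (integral_nonneg fun r =>
        s1_cden_nonneg h.nonneg _)) mw (fun p => psi2_ne_top _)
    refine h1.trans (s1_liminf_le fun n => ?_)
    have h2 := s1_avg_le (D := fun r p => cden (F n) (r, p))
      (s1_measurable_cden (h.apx n).meas) mw k (a := t) (ε := C) (fun r hr => by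
        have h3 := s1_wInt_cden (h.apx n).meas r
        simp only [abs_of_nonneg (s1_cden_nonneg (h.apx n).nonneg _)]
        rw [h3, (h.apx n).energy r (ht.trans hr.1.le)]
        exact h.mom n)
    refine le_trans (lintegral_mono fun p => ?_) h2
    exact mul_le_mul_right (ENNReal.ofReal_le_ofReal (le_abs_self _)) _
  rw [← s1_wInt_cden h.meas t]
  have mk : ∀ k : ℕ, Measurable fun p : T3 × V => psi2 p.2 * ENNReal.ofReal (((k : ℝ) + 1) *
      ∫ r in Ioc t (t + 1 / ((k : ℝ) + 1)), cden L (r, p)) := fun k =>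
    mw.mul ((s1_measurable_avg mL _ _).const_mul _).ennreal_ofReal
  calc ∫⁻ p, psi2 p.2 * ENNReal.ofReal (cden L (t, p)) ∂muM
      = ∫⁻ p, liminf (fun k : ℕ => psi2 p.2 * ENNReal.ofReal (((k : ℝ) + 1) *
        ∫ r in Ioc t (t + 1 / ((k : ℝ) + 1)), cden L (r, p))) atTop ∂muM := by
        apply lintegral_congr_ae
        filter_upwards [s1_lim h ht] with p hp
        refine (Tendsto.liminf_eq ?_).symm
        exact ENNReal.Tendsto.const_mul (ENNReal.tendsto_ofReal hp) (Or.inr (psi2_ne_top _))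
    _ ≤ liminf (fun k : ℕ => ∫⁻ p, psi2 p.2 * ENNReal.ofReal (((k : ℝ) + 1) *
        ∫ r in Ioc t (t + 1 / ((k : ℝ) + 1)), cden L (r, p)) ∂muM) atTop :=
        lintegral_liminf_le mk
    _ ≤ C := s1_liminf_le hk

theorem Lim2.integrable (h : Lim2 N F0n F C F0 L) {t : ℝ} (ht : 0 ≤ t) :
    Integrable fun p : T3 × V => L t p.1 p.2 := by
  refine ⟨(s1_measurable_slice h.meas t).aestronglyMeasurable, ?_⟩
  rw [hasFiniteIntegral_iff_ofReal (Eventually.of_forall fun p => h.nonneg _ _ _)]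
  refine lt_of_le_of_lt ?_ (lt_of_le_of_lt (h.wInt_le ht) ENNReal.coe_lt_top)
  unfold wInt
  refine lintegral_mono fun p => ?_
  calc ENNReal.ofReal (L t p.1 p.2) = psi0 p.2 * ENNReal.ofReal (L t p.1 p.2) := by
        simp [psi0]
    _ ≤ _ := mul_le_mul_left (psi0_le_psi2 _) _

/-- equicontinuity of the limit along characteristics -/
theorem Lim2.equi (h : Lim2 N F0n F C F0 L) (T : ℝ) {ε : ℝ≥0∞} (hε : 0 < ε) :
    ∃ δ : ℝ, 0 < δ ∧ ∀ s t, 0 ≤ s → s ≤ t → t ≤ T → t - s ≤ δ →
      ∫⁻ p, ENNReal.ofReal |cden L (t, p) - cden L (s, p)| ∂muM ≤ ε := by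
  obtain ⟨δ, hδ, hF⟩ := h.toASeq.equi (T + 1) hε
  refine ⟨δ, hδ, fun s t hs hst htT hts => ?_⟩
  have ht : 0 ≤ t := hs.trans hst
  have mL := s1_measurable_cden h.meas
  have iL : Integrable (cden L) PP := s1_integrable_cden h.int
  have hk : ∀ k : ℕ, ∫⁻ p, ENNReal.ofReal
      |((k : ℝ) + 1) * (∫ r in Ioc t (t + 1 / ((k : ℝ) + 1)), cden L (r, p))
        - ((k : ℝ) + 1) * (∫ r in Ioc s (s + 1 / ((k : ℝ) + 1)), cden L (r, p))| ∂muM ≤ ε := by
    intro k
    have hk0 : (0 : ℝ) < (k : ℝ) + 1 := by (clear * -; positivity)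
    have hk1 : 1 / ((k : ℝ) + 1) ≤ 1 := by
      rw [div_le_one hk0]
      have : (0 : ℝ) ≤ k := by (clear * -; positivity)
      linarith only []
    have hwt := (s1_wavg (s1_wcden h.wden) (s1_integrable_cden_F h.toASeq) iL ht
      (t + 1 / ((k : ℝ) + 1))).const_mul ((k : ℝ) + 1)
    have hws := (s1_wavg (s1_wcden h.wden) (s1_integrable_cden_F h.toASeq) iL hs
      (s + 1 / ((k : ℝ) + 1))).const_mul ((k : ℝ) + 1)
    have it := fun n => (s1_integrable_avg (s1_integrable_cden_F h.toASeq n) ht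
      (t + 1 / ((k : ℝ) + 1))).const_mul ((k : ℝ) + 1)
    have is := fun n => (s1_integrable_avg (s1_integrable_cden_F h.toASeq n) hs
      (s + 1 / ((k : ℝ) + 1))).const_mul ((k : ℝ) + 1)
    have iLt := (s1_integrable_avg iL ht (t + 1 / ((k : ℝ) + 1))).const_mul ((k : ℝ) + 1)
    have iLs := (s1_integrable_avg iL hs (s + 1 / ((k : ℝ) + 1))).const_mul ((k : ℝ) + 1)
    have h1 := (hwt.sub hws it is iLt iLs).lintegral_le (fun n => (it n).sub (is n))
      (((s1_measurable_avg mL _ _).const_mul _).sub ((s1_measurable_avg mL _ _).const_mul _))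
      (iLt.sub iLs)
    refine h1.trans (s1_liminf_le fun n => ?_)
    refine s1_avg_diff (s1_measurable_cden (h.apx n).meas) (s1_integrable_cden_F h.toASeq n) k
      hs hst (fun r hr => ?_)
    exact hF n r (t - s + r) (hs.trans hr.1.le) (by linarith only [hst]) (by linarith only [htT, hk1, hr.2]) (by linarith only [hts])
  have mk : ∀ k : ℕ, Measurable fun p : T3 × V => ENNReal.ofReal
      |((k : ℝ) + 1) * (∫ r in Ioc t (t + 1 / ((k : ℝ) + 1)), cden L (r, p))
        - ((k : ℝ) + 1) * (∫ r in Ioc s (s + 1 / ((k : ℝ) + 1)), cden L (r, p))| := fun k =>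
    (((s1_measurable_avg mL _ _).const_mul _).sub
      ((s1_measurable_avg mL _ _).const_mul _)).abs.ennreal_ofReal
  calc ∫⁻ p, ENNReal.ofReal |cden L (t, p) - cden L (s, p)| ∂muM
      = ∫⁻ p, liminf (fun k : ℕ => ENNReal.ofReal
      |((k : ℝ) + 1) * (∫ r in Ioc t (t + 1 / ((k : ℝ) + 1)), cden L (r, p))
        - ((k : ℝ) + 1) * (∫ r in Ioc s (s + 1 / ((k : ℝ) + 1)), cden L (r, p))|) atTop ∂muM := by
        apply lintegral_congr_ae
        filter_upwards [s1_lim h ht, s1_lim h hs] with p hp hp'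
        exact (Tendsto.liminf_eq (ENNReal.tendsto_ofReal (hp.sub hp').abs)).symm
    _ ≤ liminf (fun k : ℕ => ∫⁻ p, ENNReal.ofReal
      |((k : ℝ) + 1) * (∫ r in Ioc t (t + 1 / ((k : ℝ) + 1)), cden L (r, p))
        - ((k : ℝ) + 1) * (∫ r in Ioc s (s + 1 / ((k : ℝ) + 1)), cden L (r, p))| ∂muM) atTop :=
        lintegral_liminf_le mk
    _ ≤ ε := s1_liminf_le hk


theorem s1_continuous_flow : Continuous fun q : ℝ × T3 × V => flow q.1 q.2 := by
  unfold flow
  exact (continuous_snd.fst.add (continuous_toTorus.comp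
    (continuous_fst.smul continuous_snd.snd))).prodMk continuous_snd.snd

theorem s1_flow_zero (p : T3 × V) : flow 0 p = p := by
  unfold flow
  rw [zero_smul, toTorus_zero, add_zero]

theorem s1_flow_add (s t : ℝ) (p : T3 × V) : flow s (flow t p) = flow (s + t) p := by
  unfold flow
  ext1
  · simp only
    rw [add_smul, toTorus_add, add_assoc, add_comm (toTorus (t • p.2))]
  · rfl

/-- the free flow is strongly continuous on integrable functions -/
theorem s1_flow_cont {g : T3 × V → ℝ} (ig : Integrable g) :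
    Tendsto (fun s : ℝ => ∫ p : T3 × V, |g (flow s p) - g p|) (𝓝 0) (𝓝 0) := by
  rw [Metric.tendsto_nhds]
  intro ε hε
  have hreg : (volume : Measure (T3 × V)).Regular :=
    Measure.Regular.of_sigmaCompactSpace_of_isLocallyFiniteMeasure _
  obtain ⟨g', hc, hg', cont, ig'⟩ := ig.exists_hasCompactSupport_integral_sub_le
    (ε := ε / 4) (by positivity)
  obtain ⟨M, hM⟩ := hc.exists_bound_of_continuous cont
  obtain ⟨R, hR⟩ : ∃ R : ℝ, ∀ p : T3 × V, R < ‖p.2‖ → g' p = 0 := by
    obtain ⟨R, hR⟩ := (hc.isCompact.image continuous_snd).isBounded.exists_norm_le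
    refine ⟨R, fun p hp => ?_⟩
    by_contra h
    exact absurd (hR p.2 ⟨p, subset_tsupport _ h, rfl⟩) (not_le.mpr hp)
  have mflow : ∀ s, Measurable fun p : T3 × V => g' (flow s p) := fun s =>
    cont.measurable.comp (measurable_flow s)
  have hlim : Tendsto (fun s : ℝ => ∫ p : T3 × V, |g' (flow s p) - g' p|) (𝓝 0)
      (𝓝 (∫ p : T3 × V, |g' p - g' p|)) := by
    apply tendsto_integral_filter_of_dominated_convergence
      ((univ ×ˢ Metric.closedBall (0 : V) R : Set (T3 × V)).indicator fun _ => M + M)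
    · exact Eventually.of_forall fun s => ((mflow s).sub cont.measurable).abs.aestronglyMeasurable
    · refine Eventually.of_forall fun s => Eventually.of_forall fun p => ?_
      rw [Real.norm_eq_abs, abs_abs]
      by_cases hp : ‖p.2‖ ≤ R
      · rw [indicator_of_mem (by simpa only [mem_prod, mem_univ, Metric.mem_closedBall, dist_zero_right, true_and] using hp)]
        refine (abs_sub _ _).trans (add_le_add ?_ ?_)
        · have := hM (flow s p)
          rwa [Real.norm_eq_abs] at this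
        · have := hM p
          rwa [Real.norm_eq_abs] at this
      · rw [indicator_of_notMem (by simpa only [mem_prod, mem_univ, Metric.mem_closedBall, dist_zero_right, true_and, not_le] using hp), hR p (not_le.mp hp),
          hR (flow s p) (not_le.mp hp), sub_zero, abs_zero]
    · rw [integrable_indicator_iff (MeasurableSet.univ.prod measurableSet_closedBall)]
      have hfin : (volume : Measure (T3 × V)) (univ ×ˢ Metric.closedBall (0 : V) R) ≠ ⊤ := by
        rw [Measure.volume_eq_prod, Measure.prod_prod]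
        exact ENNReal.mul_ne_top (measure_ne_top _ _) measure_closedBall_lt_top.ne
      exact integrableOn_const hfin
    · refine Eventually.of_forall fun p => ?_
      have h1 : Tendsto (fun s : ℝ => flow s p) (𝓝 0) (𝓝 (flow 0 p)) :=
        ((s1_continuous_flow.comp (continuous_id.prodMk continuous_const)).tendsto 0)
      rw [s1_flow_zero] at h1
      exact (((cont.tendsto p).comp h1).sub tendsto_const_nhds).abs
  simp only [sub_self, abs_zero, integral_zero] at hlim
  rw [Metric.tendsto_nhds] at hlim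
  filter_upwards [hlim (ε / 4) (by positivity)] with s hs
  rw [Real.dist_eq, sub_zero, abs_of_nonneg (integral_nonneg fun _ => abs_nonneg _)] at hs ⊢
  have i1 : Integrable fun p : T3 × V => g (flow s p) :=
    ((measurePreserving_flow s).integrable_comp_emb (measurableEmbedding_flow s)).mpr ig
  have i2 : Integrable fun p : T3 × V => g' (flow s p) :=
    ((measurePreserving_flow s).integrable_comp_emb (measurableEmbedding_flow s)).mpr ig'
  have e1 : ∫ p : T3 × V, |g (flow s p) - g' (flow s p)| = ∫ p : T3 × V, ‖g p - g' p‖ :=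
    (measurePreserving_flow s).integral_comp (measurableEmbedding_flow s) fun p => ‖g p - g' p‖
  have j1 : Integrable fun p : T3 × V => |g (flow s p) - g' (flow s p)| := (i1.sub i2).abs
  have j2 : Integrable fun p : T3 × V => |g' (flow s p) - g' p| := (i2.sub ig').abs
  have j3 : Integrable fun p : T3 × V => ‖g p - g' p‖ := (ig.sub ig').norm
  have j12 : Integrable fun p : T3 × V =>
      |g (flow s p) - g' (flow s p)| + |g' (flow s p) - g' p| := j1.add j2
  have j123 : Integrable fun p : T3 × V =>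
      |g (flow s p) - g' (flow s p)| + |g' (flow s p) - g' p| + ‖g p - g' p‖ := j12.add j3
  have j0 : Integrable fun p : T3 × V => |g (flow s p) - g p| := (i1.sub ig).abs
  have hpt : ∀ p : T3 × V, |g (flow s p) - g p| ≤
      |g (flow s p) - g' (flow s p)| + |g' (flow s p) - g' p| + ‖g p - g' p‖ := by
    intro p
    rw [Real.norm_eq_abs, abs_sub_comm (g p)]
    calc |g (flow s p) - g p| = |(g (flow s p) - g' (flow s p)) + (g' (flow s p) - g' p)
          + (g' p - g p)| := by ring_nf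
      _ ≤ _ := (abs_add_le _ _).trans (add_le_add_left (abs_add_le _ _) _)
  have h1 := integral_mono j0 j123 hpt
  rw [integral_add j12 j3, integral_add j1 j2, e1] at h1
  linarith only [h1, hs, hg', hε]

theorem s1_pair (G : ℝ → T3 → V → ℝ) (t s : ℝ) (θ : T3 × V → ℝ) :
    ∫ p, cden G (t, p) * θ (flow s p) ∂muM =
      ∫ p : T3 × V, G t (flow (t - s) p).1 (flow (t - s) p).2 * θ p := by
  have h1 := (measurePreserving_flow_muM s).integral_comp (measurableEmbedding_flow s)
    fun p => den0 (fun x v => G t (flow (t - s) (x, v)).1 (flow (t - s) (x, v)).2) p * θ p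
  have h2 := integral_den0 (fun x v => G t (flow (t - s) (x, v)).1 (flow (t - s) (x, v)).2) θ
  rw [h2] at h1
  rw [← h1]
  refine integral_congr_ae (Eventually.of_forall fun p => ?_)
  simp only
  congr 1
  have h3 : flow (t - s) (flow s p) = flow t p := by
    rw [s1_flow_add, sub_add_cancel]
  rw [cden_time]
  unfold den0
  change _ = G t (flow (t - s) (flow s p)).1 (flow (t - s) (flow s p)).2 / Maxw (flow s p).2
  rw [h3]
  rfl

theorem s1_integrable_slice (h : Lim2 N F0n F C F0 L) {t : ℝ} (ht : 0 ≤ t) :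
    Integrable (fun p => cden L (t, p)) muM := by
  have h1 := (integrable_den0 (s1_measurable_slice h.meas t)).mpr (h.integrable ht)
  exact ((measurePreserving_flow_muM t).integrable_comp_emb (measurableEmbedding_flow t)).mpr h1

theorem s1_abs_le {f g θ : T3 × V → ℝ} (hf : Integrable f muM) (hg : Integrable g muM)
    (mθ : Measurable θ) {B : ℝ} (bθ : ∀ p, |θ p| ≤ B) :
    |∫ p, f p * θ p ∂muM - ∫ p, g p * θ p ∂muM| ≤ B * ∫ p, |f p - g p| ∂muM := by
  have i1 : Integrable (fun p => f p * θ p) muM := hf.mul_bdd (c := B) mθ.aestronglyMeasurable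
    (Eventually.of_forall fun p => by rw [Real.norm_eq_abs]; exact bθ p)
  have i2 : Integrable (fun p => g p * θ p) muM := hg.mul_bdd (c := B) mθ.aestronglyMeasurable
    (Eventually.of_forall fun p => by rw [Real.norm_eq_abs]; exact bθ p)
  rw [← integral_sub i1 i2, ← integral_const_mul]
  refine (abs_integral_le_integral_abs).trans (integral_mono (i1.sub i2).abs
    (((hf.sub hg).abs).const_mul B) fun p => ?_)
  simp only
  rw [← sub_mul, abs_mul, mul_comm]
  exact mul_le_mul_of_nonneg_right (bθ p) (abs_nonneg _)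

theorem s1_lint_to_int {f : T3 × V → ℝ} (hf : Integrable f muM) {ε : ℝ} (hε : 0 ≤ ε)
    (h : ∫⁻ p, ENNReal.ofReal |f p| ∂muM ≤ ENNReal.ofReal ε) : ∫ p, |f p| ∂muM ≤ ε := by
  rw [integral_eq_lintegral_of_nonneg_ae (Eventually.of_forall fun _ => abs_nonneg _)
    hf.abs.aestronglyMeasurable]
  exact ENNReal.toReal_le_of_le_ofReal hε h

theorem Lim2.weak_cont (h : Lim2 N F0n F C F0 L) (θ : T3 × V → ℝ) (mθ : Measurable θ)
    (bθ : ∃ B, ∀ p, |θ p| ≤ B) :
    ContinuousOn (fun t => ∫ p : T3 × V, L t p.1 p.2 * θ p) (Ici 0) := by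
  obtain ⟨B, hB⟩ := bθ
  have hB0 : 0 ≤ B := (abs_nonneg _).trans (hB (0, 0))
  intro t0 ht0
  have ht0' : (0 : ℝ) ≤ t0 := ht0
  rw [ContinuousWithinAt, Metric.tendsto_nhds]
  intro ε hε
  have hη : 0 < ε / (4 * (B + 1)) := by (clear * - hε hB0; positivity)
  obtain ⟨δ, hδ, hE⟩ := h.equi (t0 + 1) (ε := ENNReal.ofReal (ε / (4 * (B + 1))))
    (ENNReal.ofReal_pos.mpr hη)
  have hfl := s1_flow_cont (h.integrable ht0')
  rw [Metric.tendsto_nhds] at hfl
  have h1 : Tendsto (fun t : ℝ => t0 - t) (𝓝[Ici 0] t0) (𝓝 0) := by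
    have : Tendsto (fun t : ℝ => t0 - t) (𝓝 t0) (𝓝 (t0 - t0)) :=
      (continuous_const.sub continuous_id).tendsto t0
    rw [sub_self] at this
    exact this.mono_left nhdsWithin_le_nhds
  have h2 : ∀ᶠ t in 𝓝[Ici 0] t0, dist t t0 < min δ 1 :=
    nhdsWithin_le_nhds (Metric.ball_mem_nhds t0 (lt_min hδ one_pos))
  filter_upwards [h1.eventually (hfl (ε / (4 * (B + 1))) hη), h2, self_mem_nhdsWithin]
    with t hfl1 hd ht
  have ht' : (0 : ℝ) ≤ t := ht
  rw [Real.dist_eq, sub_zero, abs_of_nonneg (integral_nonneg fun _ => abs_nonneg _)] at hfl1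
  rw [Real.dist_eq] at hd ⊢
  have hd1 : |t - t0| < δ := lt_of_lt_of_le hd (min_le_left _ _)
  have hd2 : |t - t0| < 1 := lt_of_lt_of_le hd (min_le_right _ _)
  -- rewrite
  have e1 : ∫ p : T3 × V, L t p.1 p.2 * θ p = ∫ p, cden L (t, p) * θ (flow t p) ∂muM := by
    rw [s1_pair, sub_self]
    simp only [s1_flow_zero]
  have e2 : ∫ p : T3 × V, L t0 (flow (t0 - t) p).1 (flow (t0 - t) p).2 * θ p =
      ∫ p, cden L (t0, p) * θ (flow t p) ∂muM := (s1_pair L t0 t θ).symm
  have b1 : |∫ p, cden L (t, p) * θ (flow t p) ∂muM - ∫ p, cden L (t0, p) * θ (flow t p) ∂muM|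
      ≤ B * ∫ p, |cden L (t, p) - cden L (t0, p)| ∂muM :=
    s1_abs_le (s1_integrable_slice h ht') (s1_integrable_slice h ht0')
      (θ := fun p => θ (flow t p)) (mθ.comp (measurable_flow t)) (fun p => hB _)
  have b2 : ∫ p, |cden L (t, p) - cden L (t0, p)| ∂muM ≤ ε / (4 * (B + 1)) := by
    refine s1_lint_to_int (f := fun p => cden L (t, p) - cden L (t0, p))
      ((s1_integrable_slice h ht').sub (s1_integrable_slice h ht0')) hη.le ?_
    rcases le_total t0 t with hle | hle
    · rw [abs_of_nonneg (by linarith only [hle])] at hd1 hd2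
      exact hE t0 t ht0' hle (by linarith only [hd2]) hd1.le
    · rw [abs_of_nonpos (by linarith only [hle])] at hd1 hd2
      have := hE t t0 ht' hle (by linarith only []) (by linarith only [hd1])
      refine le_trans (le_of_eq ?_) this
      refine lintegral_congr fun p => ?_
      rw [abs_sub_comm]
  have i0 : Integrable fun p : T3 × V => L t0 p.1 p.2 := h.integrable ht0'
  have i1 : Integrable fun p : T3 × V => L t0 (flow (t0 - t) p).1 (flow (t0 - t) p).2 :=
    ((measurePreserving_flow (t0 - t)).integrable_comp_emb (measurableEmbedding_flow _)).mpr i0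
  have bθ' : ∀ᵐ p : T3 × V, ‖θ p‖ ≤ B :=
    Eventually.of_forall fun p => by rw [Real.norm_eq_abs]; exact hB p
  have j0 : Integrable fun p : T3 × V => L t0 p.1 p.2 * θ p :=
    i0.mul_bdd (c := B) mθ.aestronglyMeasurable bθ'
  have j1 : Integrable fun p : T3 × V => L t0 (flow (t0 - t) p).1 (flow (t0 - t) p).2 * θ p :=
    i1.mul_bdd (c := B) mθ.aestronglyMeasurable bθ'
  have b3 : |(∫ p : T3 × V, L t0 (flow (t0 - t) p).1 (flow (t0 - t) p).2 * θ p)
      - ∫ p : T3 × V, L t0 p.1 p.2 * θ p| ≤ B * (ε / (4 * (B + 1))) := by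
    rw [← integral_sub j1 j0]
    refine (abs_integral_le_integral_abs).trans ?_
    calc ∫ p : T3 × V, |L t0 (flow (t0 - t) p).1 (flow (t0 - t) p).2 * θ p
          - L t0 p.1 p.2 * θ p|
        ≤ ∫ p : T3 × V, B * |L t0 (flow (t0 - t) p).1 (flow (t0 - t) p).2 - L t0 p.1 p.2| := by
          refine integral_mono (j1.sub j0).abs ((i1.sub i0).abs.const_mul B) fun p => ?_
          simp only
          rw [← sub_mul, abs_mul, mul_comm]
          exact mul_le_mul_of_nonneg_right (hB p) (abs_nonneg _)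
      _ = B * ∫ p : T3 × V, |L t0 (flow (t0 - t) p).1 (flow (t0 - t) p).2 - L t0 p.1 p.2| :=
          integral_const_mul _ _
      _ ≤ B * (ε / (4 * (B + 1))) := mul_le_mul_of_nonneg_left hfl1.le hB0
  have hB1 : B * (ε / (4 * (B + 1))) ≤ ε / 4 := by
    rw [mul_div_assoc', div_le_div_iff₀ (by positivity) (by positivity)]
    linarith only [hε]
  have b4 : B * ∫ p, |cden L (t, p) - cden L (t0, p)| ∂muM ≤ ε / 4 :=
    (mul_le_mul_of_nonneg_left b2 hB0).trans hB1
  rw [e2] at b3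
  rw [e1]
  calc |∫ p, cden L (t, p) * θ (flow t p) ∂muM - ∫ p : T3 × V, L t0 p.1 p.2 * θ p|
      = |(∫ p, cden L (t, p) * θ (flow t p) ∂muM - ∫ p, cden L (t0, p) * θ (flow t p) ∂muM)
        + (∫ p, cden L (t0, p) * θ (flow t p) ∂muM - ∫ p : T3 × V, L t0 p.1 p.2 * θ p)| := by
        ring_nf
    _ ≤ _ := abs_add_le _ _
    _ < ε := by linarith only [hε, b1, b3, hB1, b4]

/-- weak convergence at every time -/
theorem Lim2.wtime (h : Lim2 N F0n F C F0 L) {t : ℝ} (ht : 0 ≤ t) :
    WConv muM (fun n => den0 (F n t)) (den0 (L t)) := by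
  intro θ mθ bθ
  have mL := s1_measurable_cden h.meas
  have iL : Integrable (cden L) PP := s1_integrable_cden h.int
  have eF : ∀ n, ∫ p, den0 (F n t) p * θ p ∂muM = ∫ p, cden (F n) (t, p) * θ (flow t p) ∂muM :=
    fun n => ((measurePreserving_flow_muM t).integral_comp (measurableEmbedding_flow t)
      fun p => den0 (F n t) p * θ p).symm
  have eL : ∫ p, den0 (L t) p * θ p ∂muM = ∫ p, cden L (t, p) * θ (flow t p) ∂muM :=
    ((measurePreserving_flow_muM t).integral_comp (measurableEmbedding_flow t)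
      fun p => den0 (L t) p * θ p).symm
  rw [eL]
  simp only [eF]
  have mθ' : Measurable fun p => θ (flow t p) := mθ.comp (measurable_flow t)
  have bθ' : ∀ p, |θ (flow t p)| ≤ 1 := fun p => bθ _
  have iF : ∀ n, Integrable (fun p => cden (F n) (t, p)) muM := by
    intro n
    have h0 : Integrable fun p : T3 × V => F n t p.1 p.2 := by
      refine ⟨(s1_measurable_slice (h.apx n).meas t).aestronglyMeasurable, ?_⟩
      have hnn : 0 ≤ᵐ[volume] fun p : T3 × V => F n t p.1 p.2 :=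
        Eventually.of_forall fun p => (h.apx n).nonneg _ _ _
      rw [hasFiniteIntegral_iff_ofReal hnn]
      have h2 : wInt psi2 (F n t) ≤ C := by
        rw [(h.apx n).energy t ht]
        exact h.mom n
      refine lt_of_le_of_lt ?_ (lt_of_le_of_lt h2 ENNReal.coe_lt_top)
      unfold wInt
      refine lintegral_mono fun p => ?_
      calc ENNReal.ofReal (F n t p.1 p.2) = psi0 p.2 * ENNReal.ofReal (F n t p.1 p.2) := by
            simp [psi0]
        _ ≤ _ := mul_le_mul_left (psi0_le_psi2 _) _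
    have h1 := (integrable_den0 (s1_measurable_slice (h.apx n).meas t)).mpr h0
    exact ((measurePreserving_flow_muM t).integrable_comp_emb (measurableEmbedding_flow t)).mpr h1
  have iLt := s1_integrable_slice h ht
  rw [Metric.tendsto_atTop]
  intro ε hε
  have hη : 0 < ε / 4 := by positivity
  obtain ⟨δ, hδ, hE⟩ := h.equi (t + 1) (ε := ENNReal.ofReal (ε / 4)) (ENNReal.ofReal_pos.mpr hη)
  obtain ⟨δ', hδ', hE'⟩ := h.toASeq.equi (t + 1) (ε := ENNReal.ofReal (ε / 4))
    (ENNReal.ofReal_pos.mpr hη)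
  obtain ⟨k, hk⟩ := exists_nat_one_div_lt (lt_min hδ hδ')
  have hk0 : (0 : ℝ) < (k : ℝ) + 1 := by (clear * -; positivity)
  have hk1 : 1 / ((k : ℝ) + 1) ≤ 1 := by
    rw [div_le_one hk0]
    have : (0 : ℝ) ≤ k := by (clear * -; positivity)
    linarith only []
  have hkδ : 1 / ((k : ℝ) + 1) < δ := lt_of_lt_of_le hk (min_le_left _ _)
  have hkδ' : 1 / ((k : ℝ) + 1) < δ' := lt_of_lt_of_le hk (min_le_right _ _)
  -- the averages converge
  have hw := ((s1_wavg (s1_wcden h.wden) (s1_integrable_cden_F h.toASeq) iL ht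
    (t + 1 / ((k : ℝ) + 1))).const_mul ((k : ℝ) + 1)) _ mθ' bθ'
  rw [Metric.tendsto_atTop] at hw
  obtain ⟨n0, hn0⟩ := hw (ε / 4) hη
  refine ⟨n0, fun n hn => ?_⟩
  have h1 := hn0 n hn
  have iA : Integrable (fun p => ((k : ℝ) + 1) *
      ∫ r in Ioc t (t + 1 / ((k : ℝ) + 1)), cden L (r, p)) muM :=
    (s1_integrable_avg iL ht _).const_mul _
  have iAn : Integrable (fun p => ((k : ℝ) + 1) *
      ∫ r in Ioc t (t + 1 / ((k : ℝ) + 1)), cden (F n) (r, p)) muM :=
    (s1_integrable_avg (s1_integrable_cden_F h.toASeq n) ht _).const_mul _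
  have h2 : |∫ p, (((k : ℝ) + 1) * ∫ r in Ioc t (t + 1 / ((k : ℝ) + 1)), cden L (r, p))
      * θ (flow t p) ∂muM - ∫ p, cden L (t, p) * θ (flow t p) ∂muM| ≤ ε / 4 := by
    refine (s1_abs_le iA iLt mθ' bθ').trans ?_
    rw [one_mul]
    refine s1_lint_to_int (f := fun p => ((k : ℝ) + 1) *
      (∫ r in Ioc t (t + 1 / ((k : ℝ) + 1)), cden L (r, p)) - cden L (t, p))
      (iA.sub iLt) hη.le ?_
    refine s1_avg_close mL iL k ht fun r hr => ?_
    exact hE t r ht hr.1.le (by linarith only [hk1, hr.2]) (by linarith only [hkδ, hr.2])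
  have h3 : |∫ p, (((k : ℝ) + 1) * ∫ r in Ioc t (t + 1 / ((k : ℝ) + 1)), cden (F n) (r, p))
      * θ (flow t p) ∂muM - ∫ p, cden (F n) (t, p) * θ (flow t p) ∂muM| ≤ ε / 4 := by
    refine (s1_abs_le iAn (iF n) mθ' bθ').trans ?_
    rw [one_mul]
    refine s1_lint_to_int (f := fun p => ((k : ℝ) + 1) *
      (∫ r in Ioc t (t + 1 / ((k : ℝ) + 1)), cden (F n) (r, p)) - cden (F n) (t, p))
      (iAn.sub (iF n)) hη.le ?_
    refine s1_avg_close (s1_measurable_cden (h.apx n).meas) (s1_integrable_cden_F h.toASeq n)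
      k ht fun r hr => ?_
    exact hE' n t r ht hr.1.le (by linarith only [hk1, hr.2]) (by linarith only [hkδ', hr.2])
  rw [Real.dist_eq] at h1 ⊢
  rw [abs_le] at h2 h3
  rw [abs_lt] at h1 ⊢
  constructor
  · linarith only [h1, h2, h3]
  · linarith only [h1, h2, h3]

end Vale.Agent.P140.DL
end
end

section

open MeasureTheory Set Filter
open scoped ENNReal Topology NNReal

noncomputable section

namespace Vale.Agent.P140.DL

namespace V3

attribute [local irreducible] cut rst Maxw toTorus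

theorem meas_shift (t : ℝ) (x : T3) : Measurable fun q : V × ℝ => (q.2, x - toTorus (t • q.1), q.1) := by
  refine measurable_snd.prodMk (Measurable.prodMk ?_ measurable_fst)
  exact measurable_const.sub (measurable_toTorus.comp (measurable_fst.const_smul t))

theorem meas_cut_shift {K : ℝ} {r : ℝ → T3 → V → ℝ}
    (mr : Measurable fun q : ℝ × T3 × V => r q.1 q.2.1 q.2.2) (t : ℝ) (x : T3) :
    Measurable fun q : V × ℝ => cut K r q.2 (x - toTorus (t • q.1)) q.1 :=
  (measurable_cut K mr).comp (meas_shift t x)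

theorem meas_rst_shift {K : ℝ} {r : ℝ → T3 → V → ℝ}
    (mr : Measurable fun q : ℝ × T3 × V => r q.1 q.2.1 q.2.2) (t : ℝ) (x : T3) :
    Measurable fun q : V × ℝ => rst K r q.2 (x - toTorus (t • q.1)) q.1 :=
  (measurable_rst K mr).comp (meas_shift t x)

theorem integrable_prod_cut {t : ℝ} {ψ : V → ℝ} (mψ : Measurable ψ)
    (bψ : ∀ v, |ψ v| ≤ 1) {K : ℝ≥0} {r : ℝ → T3 → V → ℝ}
    (mr : Measurable fun q : ℝ × T3 × V => r q.1 q.2.1 q.2.2) (x : T3) :
    Integrable (fun q : V × ℝ => cut K r q.2 (x - toTorus (t • q.1)) q.1 * ψ q.1)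
      ((volume : Measure V).prod ((volume : Measure ℝ).restrict (Ioc 0 t))) := by
  have h1 : Integrable (fun q : V × ℝ => (K : ℝ) * Maxw q.1)
      ((volume : Measure V).prod ((volume : Measure ℝ).restrict (Ioc 0 t))) :=
    (integrable_Maxw.const_mul (K : ℝ)).comp_fst _
  have h2 : Measurable fun q : V × ℝ => cut K r q.2 (x - toTorus (t • q.1)) q.1 * ψ q.1 :=
    (meas_cut_shift mr t x).mul (mψ.comp measurable_fst)
  refine h1.mono' h2.aestronglyMeasurable (Eventually.of_forall fun q => ?_)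
  rw [Real.norm_eq_abs, abs_mul]
  calc |cut K r q.2 (x - toTorus (t • q.1)) q.1| * |ψ q.1|
      ≤ K * Maxw q.1 * 1 := mul_le_mul (abs_cut_le K.coe_nonneg _ _ _ _) (bψ _) (abs_nonneg _)
        (mul_nonneg K.coe_nonneg (Maxw_pos _).le)
    _ = _ := mul_one _

theorem integrable_avg_cut {t : ℝ} {ψ : V → ℝ} (mψ : Measurable ψ)
    (bψ : ∀ v, |ψ v| ≤ 1) {K : ℝ≥0} {r : ℝ → T3 → V → ℝ}
    (mr : Measurable fun q : ℝ × T3 × V => r q.1 q.2.1 q.2.2) (x : T3) :
    Integrable (fun s => freeAvg ψ (cut K r s) t x) ((volume : Measure ℝ).restrict (Ioc 0 t)) :=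
  (integrable_prod_cut (t := t) mψ bψ (K := K) mr x).integral_prod_right

/-- decomposition of the average -/
theorem avg_split {T t : ℝ} (ht : t ∈ Ioc 0 T) {ψ : V → ℝ} (mψ : Measurable ψ)
    (bψ : ∀ v, |ψ v| ≤ 1) {C : ℝ} {K : ℝ≥0} {u0 : T3 → V → ℝ} {u r : ℝ → T3 → V → ℝ}
    (mu0 : Measurable fun p : T3 × V => u0 p.1 p.2)
    (mr : Measurable fun q : ℝ × T3 × V => r q.1 q.2.1 q.2.2)
    (b0 : ∀ x v, |u0 x v| ≤ C * Maxw v)
    (heq : ∀ᵐ p : T3 × V, u t p.1 p.2 = u0 p.1 p.2 + ∫ s in Ioc 0 t, r s p.1 p.2)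
    (hfin : ∫⁻ p : T3 × V, ∫⁻ s in Ioc 0 T, ENNReal.ofReal |rst K r s p.1 p.2| < ⊤) :
    ∀ᵐ x : T3, ∃ R : ℝ, ENNReal.ofReal |R| ≤ bet T K r t x ∧
      freeAvg ψ (u t) t x =
        freeAvg ψ u0 t x + (∫ s in Ioc 0 t, freeAvg ψ (cut K r s) t x) + R := by
  have e1 : ∀ᵐ x : T3, ∀ᵐ v : V, u t (x - toTorus (t • v)) v =
      u0 (x - toTorus (t • v)) v + ∫ s in Ioc 0 t, r s (x - toTorus (t • v)) v := by
    have h1 := (measurePreserving_flow (-t)).quasiMeasurePreserving.ae heq
    rw [Measure.volume_eq_prod] at h1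
    have h2 := Measure.ae_ae_of_ae_prod h1
    simpa only [flow_neg_eq] using h2
  have e2 : ∀ᵐ x : T3, bet T K r t x < ⊤ := by
    have h3 := lintegral_bet T K t mr
    exact ae_lt_top (measurable_bet' T K mr t) (ne_of_lt (lt_of_eq_of_lt h3 hfin))
  filter_upwards [e1, e2] with x h1 h2
  have my : Measurable fun v : V => x - toTorus (t • v) :=
    measurable_const.sub (measurable_toTorus.comp (measurable_id.const_smul t))
  have mR := meas_rst_shift (K := K) mr t x
  have mC := meas_cut_shift (K := K) mr t x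
  have h3 : ∀ᵐ v : V, ∫⁻ s in Ioc 0 T, ENNReal.ofReal |rst K r s (x - toTorus (t • v)) v| < ⊤ :=
    ae_lt_top (Measurable.lintegral_prod_right' (f := fun q : V × ℝ =>
      ENNReal.ofReal |rst K r q.2 (x - toTorus (t • q.1)) q.1|) mR.abs.ennreal_ofReal) h2.ne
  have hb : ∀ v, ENNReal.ofReal |∫ s in Ioc 0 t, rst K r s (x - toTorus (t • v)) v| ≤
      ∫⁻ s in Ioc 0 T, ENNReal.ofReal |rst K r s (x - toTorus (t • v)) v| := by
    intro v
    rw [← Real.enorm_eq_ofReal_abs]
    refine (enorm_integral_le_lintegral_enorm _).trans ?_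
    simp only [Real.enorm_eq_ofReal_abs]
    exact lintegral_mono_set (Ioc_subset_Ioc_right ht.2)
  have hpc := integrable_prod_cut (t := t) mψ bψ (K := K) mr x
  have h4 : ∀ᵐ v : V, u t (x - toTorus (t • v)) v * ψ v = u0 (x - toTorus (t • v)) v * ψ v +
      (∫ s in Ioc 0 t, cut K r s (x - toTorus (t • v)) v * ψ v) +
      (∫ s in Ioc 0 t, rst K r s (x - toTorus (t • v)) v) * ψ v := by
    filter_upwards [h1, h3] with v h5 h6
    have i1 : Integrable (fun s => cut K r s (x - toTorus (t • v)) v)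
        ((volume : Measure ℝ).restrict (Ioc 0 t)) :=
      Integrable.mono' (integrable_const ((K : ℝ) * Maxw v))
        (mC.comp measurable_prodMk_left).aestronglyMeasurable
        (Eventually.of_forall fun s => abs_cut_le K.coe_nonneg _ _ _ _)
    have i2 : Integrable (fun s => rst K r s (x - toTorus (t • v)) v)
        ((volume : Measure ℝ).restrict (Ioc 0 t)) := by
      refine ⟨(mR.comp measurable_prodMk_left).aestronglyMeasurable, ?_⟩
      rw [hasFiniteIntegral_iff_enorm]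
      simp only [Real.enorm_eq_ofReal_abs]
      exact (lintegral_mono_set (Ioc_subset_Ioc_right ht.2)).trans_lt h6
    have h7 : ∫ s in Ioc 0 t, r s (x - toTorus (t • v)) v =
        (∫ s in Ioc 0 t, cut K r s (x - toTorus (t • v)) v) +
        ∫ s in Ioc 0 t, rst K r s (x - toTorus (t • v)) v := by
      rw [← integral_add i1 i2]
      refine integral_congr_ae (Eventually.of_forall fun s => ?_)
      exact (cut_add_rst K r s _ v).symm
    rw [h5, h7, integral_mul_const]
    ring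
  have iu : Integrable fun v : V => u0 (x - toTorus (t • v)) v * ψ v := by
    refine (integrable_Maxw.const_mul C).mono' ?_ (Eventually.of_forall fun v => ?_)
    · exact ((mu0.comp (my.prodMk measurable_id)).mul mψ).aestronglyMeasurable
    · rw [Real.norm_eq_abs, abs_mul]
      calc |u0 (x - toTorus (t • v)) v| * |ψ v| ≤ |u0 (x - toTorus (t • v)) v| * 1 :=
            mul_le_mul_of_nonneg_left (bψ v) (abs_nonneg _)
        _ ≤ _ := by rw [mul_one]; exact b0 _ _
  have ib : Integrable fun v : V =>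
      (∫ s in Ioc 0 t, rst K r s (x - toTorus (t • v)) v) * ψ v := by
    refine ⟨?_, ?_⟩
    · exact (mR.stronglyMeasurable.integral_prod_right'.measurable.mul mψ).aestronglyMeasurable
    · rw [hasFiniteIntegral_iff_enorm]
      refine lt_of_le_of_lt (lintegral_mono fun v => ?_) h2
      rw [Real.enorm_eq_ofReal_abs, abs_mul]
      refine le_trans (ENNReal.ofReal_le_ofReal ?_) (hb v)
      calc |∫ s in Ioc 0 t, rst K r s (x - toTorus (t • v)) v| * |ψ v|
          ≤ |∫ s in Ioc 0 t, rst K r s (x - toTorus (t • v)) v| * 1 :=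
            mul_le_mul_of_nonneg_left (bψ v) (abs_nonneg _)
        _ = _ := mul_one _
  refine ⟨∫ v : V, (∫ s in Ioc 0 t, rst K r s (x - toTorus (t • v)) v) * ψ v, ?_, ?_⟩
  · rw [← Real.enorm_eq_ofReal_abs]
    refine (enorm_integral_le_lintegral_enorm _).trans (lintegral_mono fun v => ?_)
    rw [Real.enorm_eq_ofReal_abs, abs_mul]
    refine le_trans (ENNReal.ofReal_le_ofReal ?_) (hb v)
    calc |∫ s in Ioc 0 t, rst K r s (x - toTorus (t • v)) v| * |ψ v|
        ≤ |∫ s in Ioc 0 t, rst K r s (x - toTorus (t • v)) v| * 1 :=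
          mul_le_mul_of_nonneg_left (bψ v) (abs_nonneg _)
      _ = _ := mul_one _
  · have ia : Integrable fun v : V =>
        ∫ s in Ioc 0 t, cut K r s (x - toTorus (t • v)) v * ψ v := hpc.integral_prod_left
    have iua : Integrable fun v : V => u0 (x - toTorus (t • v)) v * ψ v +
        ∫ s in Ioc 0 t, cut K r s (x - toTorus (t • v)) v * ψ v := iu.add ia
    have h8 : freeAvg ψ (u t) t x = ∫ v : V, u t (x - toTorus (t • v)) v * ψ v := rfl
    rw [h8, integral_congr_ae h4, integral_add iua ib, integral_add iu ia]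
    congr 2
    exact integral_integral_swap hpc

/-- pointwise bound of the translated difference -/
theorem avg_diff {T t : ℝ} (ht : t ∈ Ioc 0 T) {ψ : V → ℝ} (mψ : Measurable ψ)
    (bψ : ∀ v, |ψ v| ≤ 1) {C : ℝ} {K : ℝ≥0} {u0 : T3 → V → ℝ} {u r : ℝ → T3 → V → ℝ}
    (mu0 : Measurable fun p : T3 × V => u0 p.1 p.2)
    (mr : Measurable fun q : ℝ × T3 × V => r q.1 q.2.1 q.2.2)
    (b0 : ∀ x v, |u0 x v| ≤ C * Maxw v)
    (heq : ∀ᵐ p : T3 × V, u t p.1 p.2 = u0 p.1 p.2 + ∫ s in Ioc 0 t, r s p.1 p.2)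
    (hfin : ∫⁻ p : T3 × V, ∫⁻ s in Ioc 0 T, ENNReal.ofReal |rst K r s p.1 p.2| < ⊤) (z : T3) :
    ∀ᵐ x : T3, ENNReal.ofReal |freeAvg ψ (u t) t (x + z) - freeAvg ψ (u t) t x| ≤
      ENNReal.ofReal |freeAvg ψ u0 t (x + z) - freeAvg ψ u0 t x| +
      ((∫⁻ s in Ioc 0 T, ENNReal.ofReal
        |freeAvg ψ (cut K r s) t (x + z) - freeAvg ψ (cut K r s) t x|) +
      (bet T K r t (x + z) + bet T K r t x)) := by
  have h := avg_split ht mψ bψ mu0 mr b0 heq hfin
  have h' := (measurePreserving_add_right (volume : Measure T3) z).quasiMeasurePreserving.ae h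
  filter_upwards [h, h'] with x h1 h2
  obtain ⟨R1, hR1, e1⟩ := h1
  obtain ⟨R2, hR2, e2⟩ := h2
  have e3 : (∫ s in Ioc 0 t, freeAvg ψ (cut K r s) t (x + z)) -
      ∫ s in Ioc 0 t, freeAvg ψ (cut K r s) t x =
      ∫ s in Ioc 0 t, (freeAvg ψ (cut K r s) t (x + z) - freeAvg ψ (cut K r s) t x) :=
    (integral_sub (integrable_avg_cut mψ bψ mr _) (integrable_avg_cut mψ bψ mr _)).symm
  have e4 : ENNReal.ofReal |∫ s in Ioc 0 t,
      (freeAvg ψ (cut K r s) t (x + z) - freeAvg ψ (cut K r s) t x)| ≤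
      ∫⁻ s in Ioc 0 T, ENNReal.ofReal
        |freeAvg ψ (cut K r s) t (x + z) - freeAvg ψ (cut K r s) t x| := by
    rw [← Real.enorm_eq_ofReal_abs]
    refine (enorm_integral_le_lintegral_enorm _).trans ?_
    simp only [Real.enorm_eq_ofReal_abs]
    exact lintegral_mono_set (Ioc_subset_Ioc_right ht.2)
  have e5 : freeAvg ψ (u t) t (x + z) - freeAvg ψ (u t) t x =
      (freeAvg ψ u0 t (x + z) - freeAvg ψ u0 t x) +
      ((∫ s in Ioc 0 t, (freeAvg ψ (cut K r s) t (x + z) - freeAvg ψ (cut K r s) t x)) +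
      (R2 - R1)) := by
    rw [← e3, e1, e2]
    ring
  rw [e5]
  refine (ENNReal.ofReal_le_ofReal (abs_add_le _ _)).trans (ENNReal.ofReal_add_le.trans ?_)
  refine add_le_add le_rfl ?_
  refine (ENNReal.ofReal_le_ofReal (abs_add_le _ _)).trans (ENNReal.ofReal_add_le.trans ?_)
  refine add_le_add e4 ?_
  refine (ENNReal.ofReal_le_ofReal (abs_sub _ _)).trans (ENNReal.ofReal_add_le.trans ?_)
  exact add_le_add hR2 hR1

theorem integ3 {T : ℝ} {z : T3} {G1 G2 B : ℝ → T3 → ℝ≥0∞}
    (m1 : Measurable fun q : ℝ × T3 => G1 q.1 q.2) (m2 : Measurable fun q : ℝ × T3 => G2 q.1 q.2)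
    (mb : Measurable fun q : ℝ × T3 => B q.1 q.2) :
    ∫⁻ t in Ioc 0 T, ∫⁻ x : T3, (G1 t x + (G2 t x + (B t (x + z) + B t x))) =
      (∫⁻ t in Ioc 0 T, ∫⁻ x : T3, G1 t x) + ((∫⁻ t in Ioc 0 T, ∫⁻ x : T3, G2 t x) +
        ((∫⁻ t in Ioc 0 T, ∫⁻ x : T3, B t x) + ∫⁻ t in Ioc 0 T, ∫⁻ x : T3, B t x)) := by
  have h : ∀ t, ∫⁻ x : T3, (G1 t x + (G2 t x + (B t (x + z) + B t x))) =
      (∫⁻ x : T3, G1 t x) + ((∫⁻ x : T3, G2 t x) + ((∫⁻ x : T3, B t x) + ∫⁻ x : T3, B t x)) := by
    intro t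
    have m1t : Measurable fun x => G1 t x := m1.comp measurable_prodMk_left
    have m2t : Measurable fun x => G2 t x := m2.comp measurable_prodMk_left
    have mbt : Measurable fun x => B t x := mb.comp measurable_prodMk_left
    rw [lintegral_add_left m1t, lintegral_add_left m2t, lintegral_add_right _ mbt,
      lintegral_add_right_eq_self (μ := (volume : Measure T3)) (fun x => B t x) z]
  have a1 : Measurable fun t => ∫⁻ x : T3, G1 t x := m1.lintegral_prod_right'
  have a2 : Measurable fun t => ∫⁻ x : T3, G2 t x := m2.lintegral_prod_right'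
  have a3 : Measurable fun t => ∫⁻ x : T3, B t x := mb.lintegral_prod_right'
  simp only [h]
  rw [lintegral_add_left a1, lintegral_add_left a2, lintegral_add_left a3]

theorem swap3 {T : ℝ} {G : ℝ → ℝ → T3 → ℝ≥0∞}
    (m : Measurable fun q : ℝ × ℝ × T3 => G q.1 q.2.1 q.2.2) :
    ∫⁻ t in Ioc 0 T, ∫⁻ x : T3, ∫⁻ s in Ioc 0 T, G s t x =
      ∫⁻ s in Ioc 0 T, ∫⁻ t in Ioc 0 T, ∫⁻ x : T3, G s t x := by
  have h : ∀ t, ∫⁻ x : T3, ∫⁻ s in Ioc 0 T, G s t x = ∫⁻ s in Ioc 0 T, ∫⁻ x : T3, G s t x := by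
    intro t
    have m1 : Measurable fun q : T3 × ℝ => (q.2, t, q.1) :=
      measurable_snd.prodMk (measurable_const.prodMk measurable_fst)
    exact lintegral_lintegral_swap (m.comp m1).aemeasurable
  simp only [h]
  have m2 : Measurable fun q : (ℝ × ℝ) × T3 => (q.1.2, q.1.1, q.2) :=
    (measurable_snd.comp measurable_fst).prodMk
      ((measurable_fst.comp measurable_fst).prodMk measurable_snd)
  have m3 : Measurable fun q : (ℝ × ℝ) × T3 => G q.1.2 q.1.1 q.2 := m.comp m2
  have m4 : Measurable fun q : ℝ × ℝ => ∫⁻ x : T3, G q.2 q.1 x := m3.lintegral_prod_right'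
  exact lintegral_lintegral_swap m4.aemeasurable

end V3

attribute [local irreducible] V3.cut V3.rst V3.bet freeAvg

open V3 in
/-- uniform translation modulus of velocity averages, for transport equations with uniformly
integrable right-hand side -/
theorem avg_transl {ι : Type*} {T : ℝ} (hT : 0 < T) {ψ : V → ℝ} (mψ : Measurable ψ)
    (bψ : ∀ v, |ψ v| ≤ 1) {C : ℝ} {u0 : ι → T3 → V → ℝ} {u r : ι → ℝ → T3 → V → ℝ}
    (mu0 : ∀ i, Measurable fun p : T3 × V => u0 i p.1 p.2)
    (mu : ∀ i, Measurable fun q : ℝ × T3 × V => u i q.1 q.2.1 q.2.2)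
    (mr : ∀ i, Measurable fun q : ℝ × T3 × V => r i q.1 q.2.1 q.2.2)
    (b0 : ∀ i x v, |u0 i x v| ≤ C * Maxw v)
    (hui : UI (((volume : Measure ℝ).restrict (Ioc 0 T)).prod muM) fun i q =>
      ENNReal.ofReal (|r i q.1 q.2.1 q.2.2| / Maxw q.2.2))
    (heq : ∀ i, ∀ᵐ p : T3 × V, ∀ t ∈ Ioc 0 T,
      u i t p.1 p.2 = u0 i p.1 p.2 + ∫ s in Ioc 0 t, r i s p.1 p.2)
    {ε : ℝ≥0∞} (hε : 0 < ε) :
    ∃ O ∈ 𝓝 (0 : T3), ∀ i, ∀ z ∈ O, ∫⁻ t in Ioc 0 T, ∫⁻ x : T3,
      ENNReal.ofReal |freeAvg ψ (u i t) t (x + z) - freeAvg ψ (u i t) t x| ≤ ε := by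
  obtain ⟨η, hη, hηε⟩ : ∃ η : ℝ, 0 < η ∧ ENNReal.ofReal η ≤ ε := by
    rcases eq_or_ne ε ⊤ with h | h
    · exact ⟨1, one_pos, h ▸ le_top⟩
    · exact ⟨ε.toReal, ENNReal.toReal_pos hε.ne' h, (ENNReal.ofReal_toReal h).le⟩
  obtain ⟨K, hK⟩ := hui (ENNReal.ofReal (η / (4 * (T + 1)))) (ENNReal.ofReal_pos.2 (by (clear * - hη hT; positivity)))
  have hcM : ∫⁻ p : T3 × V, ENNReal.ofReal (Maxw p.2) ≠ ⊤ := lintegral_Maxw_ne_top
  obtain ⟨cM, hcMe⟩ : ∃ c : ℝ≥0∞, c = ∫⁻ p : T3 × V, ENNReal.ofReal (Maxw p.2) := ⟨_, rfl⟩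
  rw [← hcMe] at hcM
  obtain ⟨δ, hδ, hδη⟩ : ∃ δ : ℝ, 0 < δ ∧ δ * T * (1 + T) ≤ η / 4 := by
    refine ⟨η / (4 * (1 + T) ^ 2), by positivity, ?_⟩
    have h1 : η / (4 * (1 + T) ^ 2) * T * (1 + T) = η / 4 * (T / (1 + T)) := by
      field_simp
    rw [h1]
    have h2 : T / (1 + T) ≤ 1 := by
      rw [div_le_one (by positivity)]
      (clear * -; linarith)
    calc η / 4 * (T / (1 + T)) ≤ η / 4 * 1 := mul_le_mul_of_nonneg_left h2 (by (clear * - hη; positivity))
      _ = _ := mul_one _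
  obtain ⟨A, hA⟩ : ∃ A : ℝ≥0∞, A = ENNReal.ofReal (1 / δ) *
      (ENNReal.ofReal (Real.exp (Real.pi * T ^ 2)) *
        ((ENNReal.ofReal (C ^ 2) + ENNReal.ofReal ((K : ℝ) ^ 2) * ENNReal.ofReal T) * cM)) :=
    ⟨_, rfl⟩
  have hA' : A ≠ ⊤ := by
    rw [hA]
    finiteness
  have hlim : Tendsto (fun z => A * modT z) (𝓝 0) (𝓝 0) := by
    have := ENNReal.Tendsto.const_mul (a := A) modT_tendsto (Or.inr hA')
    simpa only [mul_zero] using this
  refine ⟨{z | A * modT z ≤ ENNReal.ofReal (η / 4)}, hlim.eventually_le_const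
    (ENNReal.ofReal_pos.2 (by positivity)), ?_⟩
  intro i z hz
  have hr2 : ∫⁻ p : T3 × V, ∫⁻ s in Ioc 0 T, ENNReal.ofReal |rst K (r i) s p.1 p.2| ≤
      ENNReal.ofReal (η / (4 * (T + 1))) := (lintegral_rst_le (mr i)).trans (hK i)
  have hfin := hr2.trans_lt ENNReal.ofReal_lt_top
  have m0 : Measurable fun q : ℝ × T3 => ENNReal.ofReal
      |freeAvg ψ (u0 i) q.1 (q.2 + z) - freeAvg ψ (u0 i) q.1 q.2| := by
    have h := meas_avg3 mψ (w := fun _ => u0 i) ((mu0 i).comp measurable_snd)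
    refine Measurable.ennreal_ofReal (Measurable.abs (Measurable.sub ?_ ?_))
    · exact h.comp (Measurable.prodMk measurable_const (Measurable.prodMk measurable_fst
        (measurable_snd.add_const z)) : Measurable fun q : ℝ × T3 => ((0 : ℝ), q.1, q.2 + z))
    · exact h.comp (Measurable.prodMk measurable_const (Measurable.prodMk measurable_fst
        measurable_snd) : Measurable fun q : ℝ × T3 => ((0 : ℝ), q.1, q.2))
  have m3 : Measurable fun q : ℝ × ℝ × T3 => ENNReal.ofReal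
      |freeAvg ψ (cut K (r i) q.1) q.2.1 (q.2.2 + z) -
        freeAvg ψ (cut K (r i) q.1) q.2.1 q.2.2| := by
    have h := meas_avg3 mψ (measurable_cut K (mr i))
    refine Measurable.ennreal_ofReal (Measurable.abs (Measurable.sub ?_ h))
    exact h.comp (Measurable.prodMk measurable_fst (Measurable.prodMk
      (measurable_fst.comp measurable_snd) ((measurable_snd.comp measurable_snd).add_const z)) :
      Measurable fun q : ℝ × ℝ × T3 => (q.1, q.2.1, q.2.2 + z))
  have mb := measurable_bet T K (mr i)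
  have m3' : Measurable fun q : (ℝ × T3) × ℝ => ENNReal.ofReal
      |freeAvg ψ (cut K (r i) q.2) q.1.1 (q.1.2 + z) -
        freeAvg ψ (cut K (r i) q.2) q.1.1 q.1.2| :=
    (m3.comp (Measurable.prodMk measurable_snd measurable_fst) :)
  have m2 : Measurable fun q : ℝ × T3 => ∫⁻ s in Ioc 0 T, ENNReal.ofReal
      |freeAvg ψ (cut K (r i) s) q.1 (q.2 + z) - freeAvg ψ (cut K (r i) s) q.1 q.2| :=
    Measurable.lintegral_prod_right' m3'
  -- integration of the pointwise bound
  have h1 : ∫⁻ t in Ioc 0 T, ∫⁻ x : T3,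
      ENNReal.ofReal |freeAvg ψ (u i t) t (x + z) - freeAvg ψ (u i t) t x| ≤
      (∫⁻ t in Ioc 0 T, ∫⁻ x : T3,
        ENNReal.ofReal |freeAvg ψ (u0 i) t (x + z) - freeAvg ψ (u0 i) t x|) +
      ((∫⁻ t in Ioc 0 T, ∫⁻ x : T3, ∫⁻ s in Ioc 0 T, ENNReal.ofReal
        |freeAvg ψ (cut K (r i) s) t (x + z) - freeAvg ψ (cut K (r i) s) t x|) +
      ((∫⁻ t in Ioc 0 T, ∫⁻ x : T3, bet T K (r i) t x) +
        ∫⁻ t in Ioc 0 T, ∫⁻ x : T3, bet T K (r i) t x)) := by
    calc _ ≤ ∫⁻ t in Ioc 0 T, ∫⁻ x : T3,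
          (ENNReal.ofReal |freeAvg ψ (u0 i) t (x + z) - freeAvg ψ (u0 i) t x| +
          ((∫⁻ s in Ioc 0 T, ENNReal.ofReal
            |freeAvg ψ (cut K (r i) s) t (x + z) - freeAvg ψ (cut K (r i) s) t x|) +
          (bet T K (r i) t (x + z) + bet T K (r i) t x))) :=
          setLIntegral_mono' measurableSet_Ioc fun t ht => lintegral_mono_ae
            (avg_diff ht mψ bψ (mu0 i) (mr i) (b0 i) ((heq i).mono fun p hp => hp t ht) hfin z)
      _ = _ := integ3 m0 m2 mb
  -- the three terms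
  have h2 := avg_l1 hT mψ bψ (mu0 i) (b0 i) z hδ
  have h3 : ∫⁻ t in Ioc 0 T, ∫⁻ x : T3, ∫⁻ s in Ioc 0 T, ENNReal.ofReal
        |freeAvg ψ (cut K (r i) s) t (x + z) - freeAvg ψ (cut K (r i) s) t x| ≤
      (ENNReal.ofReal (δ * T) + ENNReal.ofReal (1 / δ) *
        (modT z * ENNReal.ofReal (Real.exp (Real.pi * T ^ 2)) *
          (ENNReal.ofReal ((K : ℝ) ^ 2) * ∫⁻ p : T3 × V, ENNReal.ofReal (Maxw p.2)))) *
        ENNReal.ofReal T := by
    calc _ = ∫⁻ s in Ioc 0 T, ∫⁻ t in Ioc 0 T, ∫⁻ x : T3, ENNReal.ofReal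
          |freeAvg ψ (cut K (r i) s) t (x + z) - freeAvg ψ (cut K (r i) s) t x| := swap3 m3
      _ ≤ ∫⁻ s in Ioc 0 T, (ENNReal.ofReal (δ * T) + ENNReal.ofReal (1 / δ) *
            (modT z * ENNReal.ofReal (Real.exp (Real.pi * T ^ 2)) *
              (ENNReal.ofReal ((K : ℝ) ^ 2) * ∫⁻ p : T3 × V, ENNReal.ofReal (Maxw p.2)))) := by
          refine lintegral_mono fun s => ?_
          exact avg_l1 hT mψ bψ ((measurable_cut K (mr i)).comp (measurable_prodMk_left (x := s)))
            (abs_cut_le K.coe_nonneg (r i) s) z hδ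
      _ = _ := by
          rw [setLIntegral_const, Real.volume_Ioc, sub_zero]
  have h4 : ∫⁻ t in Ioc 0 T, ∫⁻ x : T3, bet T K (r i) t x ≤ ENNReal.ofReal (η / 4) := by
    calc _ ≤ ∫⁻ t in Ioc 0 T, ENNReal.ofReal (η / (4 * (T + 1))) := by
          refine lintegral_mono fun t => ?_
          rw [lintegral_bet T K t (mr i)]
          exact hr2
      _ = ENNReal.ofReal (η / (4 * (T + 1)) * T) := by
          rw [setLIntegral_const, Real.volume_Ioc, sub_zero, ENNReal.ofReal_mul (by positivity)]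
      _ ≤ _ := by
          apply ENNReal.ofReal_le_ofReal
          have e1 : η / (4 * (T + 1)) * T = η / 4 * (T / (T + 1)) := by field_simp
          have e2 : T / (T + 1) ≤ 1 := by
            rw [div_le_one (by positivity)]
            linarith only []
          rw [e1]
          calc η / 4 * (T / (T + 1)) ≤ η / 4 * 1 := mul_le_mul_of_nonneg_left e2 (by positivity)
            _ = _ := mul_one _
  rw [← hcMe] at h2 h3
  have h5 : (ENNReal.ofReal (δ * T) + ENNReal.ofReal (1 / δ) *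
        (modT z * ENNReal.ofReal (Real.exp (Real.pi * T ^ 2)) * (ENNReal.ofReal (C ^ 2) * cM))) +
      (ENNReal.ofReal (δ * T) + ENNReal.ofReal (1 / δ) *
        (modT z * ENNReal.ofReal (Real.exp (Real.pi * T ^ 2)) *
          (ENNReal.ofReal ((K : ℝ) ^ 2) * cM))) * ENNReal.ofReal T =
      ENNReal.ofReal (δ * T) * (1 + ENNReal.ofReal T) + A * modT z := by
    rw [hA]
    ring
  have h6 : ENNReal.ofReal (δ * T) * (1 + ENNReal.ofReal T) ≤ ENNReal.ofReal (η / 4) := by
    rw [← ENNReal.ofReal_one, ← ENNReal.ofReal_add zero_le_one hT.le,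
      ← ENNReal.ofReal_mul (by (clear * - hδ hT; positivity))]
    exact ENNReal.ofReal_le_ofReal hδη
  calc _ ≤ _ := h1
    _ ≤ (ENNReal.ofReal (δ * T) + ENNReal.ofReal (1 / δ) *
        (modT z * ENNReal.ofReal (Real.exp (Real.pi * T ^ 2)) * (ENNReal.ofReal (C ^ 2) * cM))) +
      ((ENNReal.ofReal (δ * T) + ENNReal.ofReal (1 / δ) *
        (modT z * ENNReal.ofReal (Real.exp (Real.pi * T ^ 2)) *
          (ENNReal.ofReal ((K : ℝ) ^ 2) * cM))) * ENNReal.ofReal T +
        (ENNReal.ofReal (η / 4) + ENNReal.ofReal (η / 4))) :=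
        add_le_add h2 (add_le_add h3 (add_le_add h4 h4))
    _ = (ENNReal.ofReal (δ * T) * (1 + ENNReal.ofReal T) + A * modT z) +
        (ENNReal.ofReal (η / 4) + ENNReal.ofReal (η / 4)) := by
        rw [← h5]
        ring
    _ ≤ (ENNReal.ofReal (η / 4) + ENNReal.ofReal (η / 4)) +
        (ENNReal.ofReal (η / 4) + ENNReal.ofReal (η / 4)) :=
        add_le_add (add_le_add h6 hz) le_rfl
    _ = ENNReal.ofReal η := by
        rw [← ENNReal.ofReal_add (by positivity) (by positivity),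
          ← ENNReal.ofReal_add (by positivity) (by positivity)]
        congr 1
        ring
    _ ≤ ε := hηε

end Vale.Agent.P140.DL
end
end

section

open MeasureTheory Set Filter
open scoped ENNReal Topology NNReal

noncomputable section

namespace Vale.Agent.P140.DL

theorem ren_nonneg_v5 (j : ℕ) {z : ℝ} (hz : 0 ≤ z) : 0 ≤ ren j z := by
  unfold ren
  positivity

theorem ren_le_v5 (j : ℕ) {z : ℝ} (hz : 0 ≤ z) : ren j z ≤ (j : ℝ) + 1 := by
  unfold ren
  have hj : (0 : ℝ) < (j : ℝ) + 1 := by positivity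
  rw [div_le_iff₀ (by positivity)]
  have : ((j : ℝ) + 1) * (1 + z / ((j : ℝ) + 1)) = (j : ℝ) + 1 + z := by
    field_simp
  rw [this]
  linarith only []

theorem ren_le_self_v5 (j : ℕ) {z : ℝ} (hz : 0 ≤ z) : ren j z ≤ z := by
  unfold ren
  have hj : (0 : ℝ) < (j : ℝ) + 1 := by (clear * -; positivity)
  apply div_le_self hz
  have : 0 ≤ z / ((j : ℝ) + 1) := by positivity
  linarith

theorem measurable_ren_v5 (j : ℕ) : Measurable (ren j) := by
  unfold ren
  (clear * -; fun_prop)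

/-- velocity average -/
def av5 (ψ : V → ℝ) (f : T3 → V → ℝ) (x : T3) : ℝ := ∫ v, den0 f (x, v) * ψ v ∂mV

/-- velocity average of the renormalized density -/
def avR5 (j : ℕ) (ψ : V → ℝ) (f : T3 → V → ℝ) (x : T3) : ℝ :=
  ∫ v, ren j (den0 f (x, v)) * ψ v ∂mV

theorem av5_eq (ψ : V → ℝ) (f : T3 → V → ℝ) (x : T3) : av5 ψ f x = ∫ v, f x v * ψ v := by
  unfold av5 den0
  rw [integral_mV]
  congr 1
  ext v
  have := (Maxw_pos v).ne'
  field_simp

theorem freeAvg_ren_v5 (j : ℕ) (ψ : V → ℝ) (F : ℝ → T3 → V → ℝ) (t : ℝ) (x : T3) :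
    freeAvg ψ (fun x v => Maxw v * ren j (cden F (t, (x, v)))) t x = avR5 j ψ (F t) x := by
  unfold freeAvg avR5
  rw [integral_mV]
  congr 1
  ext v
  simp only [cden, along, sub_add_cancel, den0]
  ring

theorem measurable_den0_v5 {f : T3 → V → ℝ} (hf : Measurable fun p : T3 × V => f p.1 p.2) :
    Measurable (den0 f) := by
  unfold den0
  exact hf.div (measurable_Maxw.comp measurable_snd)

theorem measurable_den_v5 {F : ℝ → T3 → V → ℝ}
    (hF : Measurable fun q : ℝ × T3 × V => F q.1 q.2.1 q.2.2) : Measurable (den F) := by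
  unfold den
  exact hF.div (measurable_Maxw.comp measurable_snd.snd)

theorem measurable_slice_v5 {F : ℝ → T3 → V → ℝ}
    (hF : Measurable fun q : ℝ × T3 × V => F q.1 q.2.1 q.2.2) (t : ℝ) :
    Measurable fun p : T3 × V => F t p.1 p.2 :=
  hF.comp (measurable_const.prodMk measurable_id)

theorem measurable_av5 {F : ℝ → T3 → V → ℝ}
    (hF : Measurable fun q : ℝ × T3 × V => F q.1 q.2.1 q.2.2) {ψ : V → ℝ} (mψ : Measurable ψ) :
    Measurable fun z : ℝ × T3 => av5 ψ (F z.1) z.2 := by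
  unfold av5
  have h1 : Measurable fun q : (ℝ × T3) × V => den0 (F q.1.1) (q.1.2, q.2) * ψ q.2 := by
    have h2 : Measurable fun q : (ℝ × T3) × V => F q.1.1 q.1.2 q.2 :=
      hF.comp (by fun_prop : Measurable fun q : (ℝ × T3) × V => ((q.1.1, q.1.2, q.2) : ℝ × T3 × V))
    exact (h2.div (measurable_Maxw.comp measurable_snd)).mul (mψ.comp measurable_snd)
  exact (h1.stronglyMeasurable.integral_prod_right' (ν := mV)).measurable

theorem measurable_avR5 (j : ℕ) {F : ℝ → T3 → V → ℝ}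
    (hF : Measurable fun q : ℝ × T3 × V => F q.1 q.2.1 q.2.2) {ψ : V → ℝ} (mψ : Measurable ψ) :
    Measurable fun z : ℝ × T3 => avR5 j ψ (F z.1) z.2 := by
  unfold avR5
  have h1 : Measurable fun q : (ℝ × T3) × V => ren j (den0 (F q.1.1) (q.1.2, q.2)) * ψ q.2 := by
    have h2 : Measurable fun q : (ℝ × T3) × V => F q.1.1 q.1.2 q.2 :=
      hF.comp (by fun_prop : Measurable fun q : (ℝ × T3) × V => ((q.1.1, q.1.2, q.2) : ℝ × T3 × V))
    exact ((measurable_ren_v5 j).comp (h2.div (measurable_Maxw.comp measurable_snd))).mul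
      (mψ.comp measurable_snd)
  exact (h1.stronglyMeasurable.integral_prod_right' (ν := mV)).measurable

theorem abs_avR5_le (j : ℕ) {f : T3 → V → ℝ} (f0 : ∀ x v, 0 ≤ f x v) {ψ : V → ℝ}
    (bψ : ∀ v, |ψ v| ≤ 1) (x : T3) : |avR5 j ψ f x| ≤ (j : ℝ) + 1 := by
  unfold avR5
  have h := norm_integral_le_of_norm_le_const (μ := mV) (C := (j : ℝ) + 1)
    (f := fun v => ren j (den0 f (x, v)) * ψ v) (Eventually.of_forall fun v => by
      have h0 : 0 ≤ den0 f (x, v) := div_nonneg (f0 x v) (Maxw_pos v).le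
      rw [Real.norm_eq_abs, abs_mul, abs_of_nonneg (ren_nonneg_v5 j h0)]
      calc ren j (den0 f (x, v)) * |ψ v| ≤ ((j : ℝ) + 1) * 1 := by
            apply mul_le_mul (ren_le_v5 j h0) (bψ v) (abs_nonneg _) (by (clear * -; positivity))
        _ = (j : ℝ) + 1 := mul_one _)
  simpa only [ge_iff_le, Real.norm_eq_abs, probReal_univ, mul_one] using h

theorem ofReal_abs_integral_le_v5 {α : Type*} [MeasurableSpace α] {μ : Measure α} (f : α → ℝ) :
    ENNReal.ofReal |∫ a, f a ∂μ| ≤ ∫⁻ a, ENNReal.ofReal |f a| ∂μ := by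
  have h := enorm_integral_le_lintegral_enorm (μ := μ) f
  simpa only [ge_iff_le, Real.enorm_eq_ofReal_abs] using h

theorem av5_sub_avR5_le (j : ℕ) {f : T3 → V → ℝ} (mf : Measurable fun p : T3 × V => f p.1 p.2)
    (f0 : ∀ x v, 0 ≤ f x v) (hi : Integrable (den0 f) muM) {ψ : V → ℝ} (mψ : Measurable ψ)
    (bψ : ∀ v, |ψ v| ≤ 1) :
    ∫⁻ x, ENNReal.ofReal |av5 ψ f x - avR5 j ψ f x|
      ≤ ∫⁻ p, ENNReal.ofReal |den0 f p - ren j (den0 f p)| ∂muM := by
  have md := measurable_den0_v5 mf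
  have mr : Measurable fun p => ren j (den0 f p) := (measurable_ren_v5 j).comp md
  have hae : ∀ᵐ x : T3, Integrable (fun v => den0 f (x, v)) mV := by
    have hi' : Integrable (den0 f) ((volume : Measure T3).prod mV) := hi
    exact hi'.prod_right_ae
  have e : ∫⁻ p, ENNReal.ofReal |den0 f p - ren j (den0 f p)| ∂muM
      = ∫⁻ x, ∫⁻ v, ENNReal.ofReal |den0 f (x, v) - ren j (den0 f (x, v))| ∂mV := by
    unfold muM
    have m1 : Measurable fun p => ENNReal.ofReal |den0 f p - ren j (den0 f p)| :=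
      (md.sub mr).abs.ennreal_ofReal
    rw [lintegral_prod _ m1.aemeasurable]
  rw [e]
  apply lintegral_mono_ae
  filter_upwards [hae] with x hx
  have hx1 : Integrable (fun v => den0 f (x, v) * ψ v) mV := by
    refine hx.mul_bdd (c := 1) mψ.aestronglyMeasurable (Eventually.of_forall fun v => ?_)
    simpa only [Real.norm_eq_abs] using bψ v
  have hx2 : Integrable (fun v => ren j (den0 f (x, v)) * ψ v) mV := by
    have m1 : Measurable fun v => ren j (den0 f (x, v)) :=
      mr.comp (by fun_prop : Measurable fun v : V => ((x, v) : T3 × V))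
    have h1 : Integrable (fun v => ren j (den0 f (x, v))) mV := by
      refine hx.mono' m1.aestronglyMeasurable (Eventually.of_forall fun v => ?_)
      have h0 : 0 ≤ den0 f (x, v) := div_nonneg (f0 x v) (Maxw_pos v).le
      rw [Real.norm_eq_abs, abs_of_nonneg (ren_nonneg_v5 j h0)]
      exact ren_le_self_v5 j h0
    refine h1.mul_bdd (c := 1) mψ.aestronglyMeasurable (Eventually.of_forall fun v => ?_)
    simpa only [Real.norm_eq_abs] using bψ v
  unfold av5 avR5
  rw [← integral_sub hx1 hx2]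
  refine (ofReal_abs_integral_le_v5 _).trans (lintegral_mono fun v => ?_)
  apply ENNReal.ofReal_le_ofReal
  rw [← sub_mul, abs_mul]
  exact mul_le_of_le_one_right (abs_nonneg _) (bψ v)

theorem av5_le {f : T3 → V → ℝ} (mf : Measurable fun p : T3 × V => f p.1 p.2)
    (f0 : ∀ x v, 0 ≤ f x v) {ψ : V → ℝ} (bψ : ∀ v, |ψ v| ≤ 1) :
    ∫⁻ x, ENNReal.ofReal |av5 ψ f x| ≤ wInt psi0 f := by
  have md := measurable_den0_v5 mf
  rw [← lintegral_den0 mf measurable_psi0]
  simp only [psi0, one_mul]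
  unfold muM
  rw [lintegral_prod _ (md.ennreal_ofReal.aemeasurable)]
  apply lintegral_mono
  intro x
  unfold av5
  refine (ofReal_abs_integral_le_v5 _).trans (lintegral_mono fun v => ?_)
  apply ENNReal.ofReal_le_ofReal
  have h0 : 0 ≤ den0 f (x, v) := div_nonneg (f0 x v) (Maxw_pos v).le
  rw [abs_mul, abs_of_nonneg h0]
  exact mul_le_of_le_one_right h0 (bψ v)

variable {N : ℕ → ℕ} {F0 : ℕ → T3 → V → ℝ} {F : ℕ → ℝ → T3 → V → ℝ} {C : ℝ≥0}
  {L : ℝ → T3 → V → ℝ}

theorem ASeq.mass_le_v5 (h : ASeq N F0 F C) (n : ℕ) {t : ℝ} (ht : 0 ≤ t) :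
    wInt psi0 (F n t) ≤ C := by
  rw [(h.apx n).mass t ht]
  refine le_trans ?_ (h.mom n)
  unfold wInt
  exact lintegral_mono fun p => mul_le_mul' (psi0_le_psi2 p.2) le_rfl

theorem ASeq.integrable_den0_v5 (h : ASeq N F0 F C) (n : ℕ) {t : ℝ} (ht : 0 ≤ t) :
    Integrable (den0 (F n t)) muM := by
  have mf := measurable_slice_v5 (h.apx n).meas t
  refine ⟨(measurable_den0_v5 mf).aestronglyMeasurable, ?_⟩
  have h1 := lintegral_den0 mf measurable_psi0
  have h2 := h.mass_le_v5 n ht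
  rw [← h1] at h2
  simp only [psi0, one_mul] at h2
  have : ∫⁻ p, ‖den0 (F n t) p‖ₑ ∂muM = ∫⁻ p, ENNReal.ofReal (den0 (F n t) p) ∂muM := by
    congr 1
    ext p
    exact Real.enorm_eq_ofReal (div_nonneg ((h.apx n).nonneg _ _ _) (Maxw_pos _).le)
  unfold HasFiniteIntegral
  rw [this]
  exact lt_of_le_of_lt h2 ENNReal.coe_lt_top

/-- renormalized averages are Cauchy on bounded time intervals -/
theorem Lim1.avR_cauchy (h : Lim1 N F0 F C L) {ψ : V → ℝ} (mψ : Measurable ψ)
    (bψ : ∀ v, |ψ v| ≤ 1) (j : ℕ) {T : ℝ} (hT : 0 < T) {ε : ℝ≥0∞} (hε : 0 < ε) :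
    ∃ n0 : ℕ, ∀ n m, n0 ≤ n → n0 ≤ m → ∫⁻ t in Ioc 0 T, ∫⁻ x : T3,
      ENNReal.ofReal |avR5 j ψ (F n t) x - avR5 j ψ (F m t) x| ≤ ε := by
  have hA := h.toASeq
  refine avg_compact (B := (j : ℝ) + 1) (ρ := fun n t x => avR5 j ψ (F n t) x)
    (fun n => measurable_avR5 j (h.apx n).meas mψ)
    (fun n t x => abs_avR5_le j ((h.apx n).nonneg t) bψ x) ?_ ?_ hε
  · intro ε' hε'
    have mcd : ∀ n, Measurable (cden (F n)) := by
      intro n
      unfold cden
      exact (measurable_along (h.apx n).meas).div (measurable_Maxw.comp measurable_snd.snd)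
    have mrhs : ∀ n, Measurable (rhsJ (N n) j (F n)) := by
      intro n
      have m1 : Measurable (along (QN (N n) (F n))) := (h.apx n).toIsBM.meas_QN
      unfold rhsJ
      exact (m1.div (measurable_Maxw.comp measurable_snd.snd)).div
        ((measurable_const.add ((mcd n).div_const _)).pow_const 2)
    have hui : UI (((volume : Measure ℝ).restrict (Ioc 0 T)).prod muM) fun (n : ℕ) q =>
        ENNReal.ofReal (|Maxw q.2.2 * rhsJ (N n) j (F n) q| / Maxw q.2.2) := by
      have h1 := (hA.ui_rhs j).of_le_smul (Real.toNNReal (Real.exp T)) (restrict_prod_le_PP T)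
      refine h1.mono fun n => Eventually.of_forall fun q => ?_
      rw [abs_mul, abs_of_pos (Maxw_pos _), mul_div_cancel_left₀ _ (Maxw_pos _).ne']
    have key := avg_transl (ι := ℕ) hT mψ bψ (C := (j : ℝ) + 1)
      (u0 := fun n x v => Maxw v * ren j (den0 (F0 n) (x, v)))
      (u := fun n t x v => Maxw v * ren j (cden (F n) (t, (x, v))))
      (r := fun n t x v => Maxw v * rhsJ (N n) j (F n) (t, (x, v)))
      (fun n => (measurable_Maxw.comp measurable_snd).mul
        ((measurable_ren_v5 j).comp (measurable_den0_v5 (h.apx n).meas0)))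
      (fun n => (measurable_Maxw.comp measurable_snd.snd).mul
        ((measurable_ren_v5 j).comp (mcd n)))
      (fun n => (measurable_Maxw.comp measurable_snd.snd).mul (mrhs n))
      (fun n x v => by
        have h0 : 0 ≤ den0 (F0 n) (x, v) := div_nonneg ((h.apx n).nonneg0 x v) (Maxw_pos v).le
        rw [abs_of_nonneg (mul_nonneg (Maxw_pos v).le (ren_nonneg_v5 j h0)), mul_comm]
        exact mul_le_mul_of_nonneg_right (ren_le_v5 j h0) (Maxw_pos v).le)
      hui
      (fun n => Eventually.of_forall fun p t ht => by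
        have h1 := (h.apx n).toIsBM.ren_mild j p ht.1.le
        rw [integral_const_mul, ← mul_add]
        exact congrArg _ h1) hε'
    simpa only [freeAvg_ren_v5] using key
  · intro t ht θ mθ bθ
    have hθ : Measurable fun p : T3 × V => θ p.1 * ψ p.2 :=
      (mθ.comp measurable_fst).mul (mψ.comp measurable_snd)
    obtain ⟨l, hl⟩ := h.time_conv j ht.1.le hθ (fun p => by
      rw [abs_mul]
      exact mul_le_one₀ (bθ _) (abs_nonneg _) (bψ _))
    refine ⟨l, hl.congr fun n => ?_⟩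
    have mf := measurable_slice_v5 (h.apx n).meas t
    have mr : Measurable fun p => ren j (den0 (F n t) p) :=
      (measurable_ren_v5 j).comp (measurable_den0_v5 mf)
    have hint : Integrable (fun p => ren j (den0 (F n t) p) * (θ p.1 * ψ p.2))
        ((volume : Measure T3).prod mV) := by
      refine Integrable.of_bound (mr.mul hθ).aestronglyMeasurable ((j : ℝ) + 1)
        (Eventually.of_forall fun p => ?_)
      have h0 : 0 ≤ den0 (F n t) p := div_nonneg ((h.apx n).nonneg _ _ _) (Maxw_pos _).le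
      rw [Real.norm_eq_abs, abs_mul, abs_mul, abs_of_nonneg (ren_nonneg_v5 j h0)]
      calc ren j (den0 (F n t) p) * (|θ p.1| * |ψ p.2|) ≤ ((j : ℝ) + 1) * 1 :=
            mul_le_mul (ren_le_v5 j h0) (mul_le_one₀ (bθ _) (abs_nonneg _) (bψ _))
              (by (clear * -; positivity)) (by (clear * -; positivity))
        _ = (j : ℝ) + 1 := mul_one _
    unfold muM
    rw [integral_prod _ hint]
    congr 1
    ext x
    unfold avR5
    rw [← integral_mul_const]
    congr 1
    ext v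
    ring

/-- averages of the limit are weak limits -/
theorem Lim1.av_wconv (h : Lim1 N F0 F C L) {ψ : V → ℝ} (mψ : Measurable ψ)
    (bψ : ∀ v, |ψ v| ≤ 1) : Integrable (fun z : ℝ × T3 => av5 ψ (L z.1) z.2) zet ∧
    (∀ n, Integrable (fun z : ℝ × T3 => av5 ψ (F n z.1) z.2) zet) ∧
    WConv zet (fun n z => av5 ψ (F n z.1) z.2) fun z => av5 ψ (L z.1) z.2 := by
  have hA := h.toASeq
  set e : ((ℝ × T3) × V) ≃ᵐ (ℝ × T3 × V) := MeasurableEquiv.prodAssoc with he
  have hmp : MeasurePreserving e (zet.prod mV) PP :=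
    MeasurePreserving.symm e.symm measurePreserving_assoc_PP
  have hF : ∀ n, Integrable (den (F n)) PP := by
    intro n
    obtain ⟨C', hC'⟩ := hA.ui_den.lintegral_le
    refine ⟨(measurable_den_v5 (h.apx n).meas).aestronglyMeasurable, ?_⟩
    have : ∫⁻ q, ‖den (F n) q‖ₑ ∂PP = ∫⁻ q, ENNReal.ofReal (den (F n) q) ∂PP := by
      congr 1
      ext q
      exact Real.enorm_eq_ofReal (div_nonneg ((h.apx n).nonneg _ _ _) (Maxw_pos _).le)
    unfold HasFiniteIntegral
    rw [this]
    exact lt_of_le_of_lt (hC' n) ENNReal.coe_lt_top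
  have mψ' : Measurable fun q : ℝ × T3 × V => ψ q.2.2 := mψ.comp measurable_snd.snd
  have gen : ∀ G : ℝ × T3 × V → ℝ, Integrable G PP →
      Integrable (fun b : (ℝ × T3) × V => G (e b) * ψ (e b).2.2) (zet.prod mV) := by
    intro G hG
    have h1 : Integrable (fun q => G q * ψ q.2.2) PP := by
      refine hG.mul_bdd (c := 1) mψ'.aestronglyMeasurable (Eventually.of_forall fun v => ?_)
      simpa only [Real.norm_eq_abs] using bψ _
    exact hmp.integrable_comp_of_integrable h1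
  refine ⟨(gen _ h.int).integral_prod_left, fun n => (gen _ (hF n)).integral_prod_left, ?_⟩
  have w1 := (h.wden.mul_fixed mψ' (C := 1) fun q => bψ _).comp_equiv e hmp
  exact w1.marginal (fun n => gen _ (hF n)) (gen _ h.int)

/-- velocity averages converge strongly -/
theorem Lim1.avg (h : Lim1 N F0 F C L) {ψ : V → ℝ} (mψ : Measurable ψ) (bψ : ∀ v, |ψ v| ≤ 1) :
    SConv zet (fun n z => ∫ v, F n z.1 z.2 v * ψ v) fun z => ∫ v, L z.1 z.2 v * ψ v := by
  simp only [← av5_eq]
  have hA := h.toASeq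
  obtain ⟨iL, iF, hw⟩ := h.av_wconv mψ bψ
  have mF : ∀ n, Measurable fun z : ℝ × T3 => av5 ψ (F n z.1) z.2 :=
    fun n => measurable_av5 (h.apx n).meas mψ
  have mL : Measurable fun z : ℝ × T3 => av5 ψ (L z.1) z.2 := measurable_av5 h.meas mψ
  -- tail and main part
  have main : ∀ ε : ℝ≥0, 0 < ε → ∃ n0 : ℕ, ∀ n m, n0 ≤ n → n0 ≤ m →
      ∫⁻ z, ENNReal.ofReal |av5 ψ (F n z.1) z.2 - av5 ψ (F m z.1) z.2| ∂zet ≤ ε := by
    intro ε hε
    have hεr : (0 : ℝ) < ε := by exact_mod_cast hε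
    obtain ⟨T, hT, hTe⟩ : ∃ T : ℝ, 0 < T ∧ 2 * (C : ℝ) * Real.exp (-T) < ε / 2 := by
      have h1 := Real.tendsto_exp_neg_atTop_nhds_zero.const_mul (2 * (C : ℝ))
      rw [mul_zero] at h1
      obtain ⟨T, h2, h3⟩ := ((h1.eventually_lt_const (half_pos hεr)).and
        (eventually_gt_atTop (0 : ℝ))).exists
      exact ⟨T, h3, h2⟩
    set ε1 : ℝ := ε / (8 * T) with hε1
    have hε1p : 0 < ε1 := by (clear * - hε hT; positivity)
    obtain ⟨j, hj⟩ := hA.ren_close (ENNReal.ofReal_pos.2 hε1p)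
    obtain ⟨n0, hn0⟩ := h.avR_cauchy mψ bψ j hT
      (ENNReal.ofReal_pos.2 (show 0 < (ε : ℝ) / 4 by positivity))
    refine ⟨n0, fun n m hn hm => ?_⟩
    have mD : Measurable fun z : ℝ × T3 =>
        ENNReal.ofReal |av5 ψ (F n z.1) z.2 - av5 ψ (F m z.1) z.2| :=
      ((mF n).sub (mF m)).abs.ennreal_ofReal
    have mH : Measurable fun t : ℝ =>
        ∫⁻ x : T3, ENNReal.ofReal |av5 ψ (F n t) x - av5 ψ (F m t) x| := mD.lintegral_prod_right'
    have mslice : ∀ k : ℕ, ∀ t : ℝ, Measurable fun x : T3 => av5 ψ (F k t) x := fun k t =>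
      (mF k).comp (measurable_const.prodMk measurable_id)
    have msliceR : ∀ k : ℕ, ∀ t : ℝ, Measurable fun x : T3 => avR5 j ψ (F k t) x := fun k t =>
      ((measurable_avR5 j (h.apx k).meas mψ).comp (measurable_const.prodMk measurable_id) :)
    have e1 : ∫⁻ z, ENNReal.ofReal |av5 ψ (F n z.1) z.2 - av5 ψ (F m z.1) z.2| ∂zet
        = ∫⁻ t in Ioi 0, ENNReal.ofReal (Real.exp (-t)) *
          ∫⁻ x : T3, ENNReal.ofReal |av5 ψ (F n t) x - av5 ψ (F m t) x| := by
      unfold zet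
      rw [lintegral_prod _ mD.aemeasurable, lintegral_nuE mH]
    have b1 : ∀ t : ℝ, 0 ≤ t → ∫⁻ x : T3, ENNReal.ofReal |av5 ψ (F n t) x - av5 ψ (F m t) x|
        ≤ 2 * C := by
      intro t ht
      calc ∫⁻ x : T3, ENNReal.ofReal |av5 ψ (F n t) x - av5 ψ (F m t) x|
          ≤ ∫⁻ x : T3, (ENNReal.ofReal |av5 ψ (F n t) x| + ENNReal.ofReal |av5 ψ (F m t) x|) := by
            apply lintegral_mono
            intro x
            dsimp only
            rw [← ENNReal.ofReal_add (abs_nonneg _) (abs_nonneg _)]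
            exact ENNReal.ofReal_le_ofReal (abs_sub _ _)
        _ = (∫⁻ x : T3, ENNReal.ofReal |av5 ψ (F n t) x|)
            + ∫⁻ x : T3, ENNReal.ofReal |av5 ψ (F m t) x| :=
            lintegral_add_left (mslice n t).abs.ennreal_ofReal _
        _ ≤ C + C := add_le_add
            ((av5_le (measurable_slice_v5 (h.apx n).meas t) ((h.apx n).nonneg t) bψ).trans
              (hA.mass_le_v5 n ht))
            ((av5_le (measurable_slice_v5 (h.apx m).meas t) ((h.apx m).nonneg t) bψ).trans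
              (hA.mass_le_v5 m ht))
        _ = 2 * C := (two_mul _).symm
    have b2 : ∀ t : ℝ, 0 ≤ t → ∫⁻ x : T3, ENNReal.ofReal |av5 ψ (F n t) x - av5 ψ (F m t) x|
        ≤ ENNReal.ofReal (2 * ε1) +
          ∫⁻ x : T3, ENNReal.ofReal |avR5 j ψ (F n t) x - avR5 j ψ (F m t) x| := by
      intro t ht
      have c1 : ∀ k : ℕ, ∫⁻ x, ENNReal.ofReal |av5 ψ (F k t) x - avR5 j ψ (F k t) x|
          ≤ ENNReal.ofReal ε1 := fun k =>
        (av5_sub_avR5_le j (measurable_slice_v5 (h.apx k).meas t) ((h.apx k).nonneg t)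
          (hA.integrable_den0_v5 k ht) mψ bψ).trans (hj j le_rfl k t ht)
      have d1 : Measurable fun x : T3 =>
          ENNReal.ofReal |avR5 j ψ (F n t) x - avR5 j ψ (F m t) x| :=
        ((msliceR n t).sub (msliceR m t)).abs.ennreal_ofReal
      have d2 : Measurable fun x : T3 =>
          ENNReal.ofReal |av5 ψ (F m t) x - avR5 j ψ (F m t) x| :=
        ((mslice m t).sub (msliceR m t)).abs.ennreal_ofReal
      calc ∫⁻ x : T3, ENNReal.ofReal |av5 ψ (F n t) x - av5 ψ (F m t) x|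
          ≤ ∫⁻ x : T3, ((ENNReal.ofReal |av5 ψ (F n t) x - avR5 j ψ (F n t) x|
            + ENNReal.ofReal |av5 ψ (F m t) x - avR5 j ψ (F m t) x|)
            + ENNReal.ofReal |avR5 j ψ (F n t) x - avR5 j ψ (F m t) x|) := by
            apply lintegral_mono
            intro x
            dsimp only
            rw [← ENNReal.ofReal_add (abs_nonneg _) (abs_nonneg _),
              ← ENNReal.ofReal_add (by (clear * -; positivity)) (abs_nonneg _)]
            apply ENNReal.ofReal_le_ofReal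
            have t1 := abs_sub_le (av5 ψ (F n t) x) (avR5 j ψ (F n t) x) (av5 ψ (F m t) x)
            have t2 := abs_sub_le (avR5 j ψ (F n t) x) (avR5 j ψ (F m t) x) (av5 ψ (F m t) x)
            have t3 := abs_sub_comm (avR5 j ψ (F m t) x) (av5 ψ (F m t) x)
            linarith only [t1, t2, t3]
        _ = ((∫⁻ x : T3, ENNReal.ofReal |av5 ψ (F n t) x - avR5 j ψ (F n t) x|)
            + ∫⁻ x : T3, ENNReal.ofReal |av5 ψ (F m t) x - avR5 j ψ (F m t) x|)
            + ∫⁻ x : T3, ENNReal.ofReal |avR5 j ψ (F n t) x - avR5 j ψ (F m t) x| := by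
            rw [lintegral_add_right _ d1, lintegral_add_right _ d2]
        _ ≤ (ENNReal.ofReal ε1 + ENNReal.ofReal ε1)
            + ∫⁻ x : T3, ENNReal.ofReal |avR5 j ψ (F n t) x - avR5 j ψ (F m t) x| := by
            gcongr
            · exact c1 n
            · exact c1 m
        _ = _ := by rw [← ENNReal.ofReal_add hε1p.le hε1p.le, ← two_mul]
    rw [e1, ← Ioc_union_Ioi_eq_Ioi hT.le]
    refine (lintegral_union_le _ _ _).trans ?_
    have p1 : ∫⁻ t in Ioc 0 T, ENNReal.ofReal (Real.exp (-t)) *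
          ∫⁻ x : T3, ENNReal.ofReal |av5 ψ (F n t) x - av5 ψ (F m t) x| ≤ ENNReal.ofReal (ε / 2) := by
      calc ∫⁻ t in Ioc 0 T, ENNReal.ofReal (Real.exp (-t)) *
            ∫⁻ x : T3, ENNReal.ofReal |av5 ψ (F n t) x - av5 ψ (F m t) x|
          ≤ ∫⁻ t in Ioc 0 T, (ENNReal.ofReal (2 * ε1) +
          ∫⁻ x : T3, ENNReal.ofReal |avR5 j ψ (F n t) x - avR5 j ψ (F m t) x|) := by
            apply setLIntegral_mono' measurableSet_Ioc
            intro t ht
            refine le_trans ?_ (b2 t ht.1.le)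
            refine mul_le_of_le_one_left' ?_
            rw [← ENNReal.ofReal_one]
            exact ENNReal.ofReal_le_ofReal (Real.exp_le_one_iff.2 (by linarith only [ht.1]))
        _ = ENNReal.ofReal (2 * ε1) * ENNReal.ofReal T + ∫⁻ t in Ioc 0 T,
          ∫⁻ x : T3, ENNReal.ofReal |avR5 j ψ (F n t) x - avR5 j ψ (F m t) x| := by
            rw [lintegral_add_left measurable_const, setLIntegral_const, Real.volume_Ioc, sub_zero]
        _ ≤ ENNReal.ofReal (2 * ε1) * ENNReal.ofReal T + ENNReal.ofReal (ε / 4) :=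
            add_le_add le_rfl (hn0 n m hn hm)
        _ = ENNReal.ofReal (ε / 2) := by
            rw [← ENNReal.ofReal_mul (by (clear * - hε hT; positivity)), ← ENNReal.ofReal_add (by positivity)
              (by positivity)]
            congr 1
            rw [hε1]
            field_simp
            ring
    have p2 : ∫⁻ t in Ioi T, ENNReal.ofReal (Real.exp (-t)) *
          ∫⁻ x : T3, ENNReal.ofReal |av5 ψ (F n t) x - av5 ψ (F m t) x| ≤ ENNReal.ofReal (ε / 2) := by
      calc ∫⁻ t in Ioi T, ENNReal.ofReal (Real.exp (-t)) *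
            ∫⁻ x : T3, ENNReal.ofReal |av5 ψ (F n t) x - av5 ψ (F m t) x|
          ≤ ∫⁻ t in Ioi T, ENNReal.ofReal (Real.exp (-t)) * (2 * C) := by
            apply setLIntegral_mono' measurableSet_Ioi
            intro t ht
            exact mul_le_mul' le_rfl (b1 t (hT.trans ht).le)
        _ = ENNReal.ofReal (Real.exp (-T)) * (2 * C) := by
            rw [lintegral_mul_const _ (by fun_prop),
              ← ofReal_integral_eq_lintegral_ofReal (integrableOn_exp_neg_Ioi T)
                (Eventually.of_forall fun t => (Real.exp_pos _).le), integral_exp_neg_Ioi]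
        _ = ENNReal.ofReal (2 * C * Real.exp (-T)) := by
            rw [mul_comm (2 * (C : ℝ)) _, ENNReal.ofReal_mul (Real.exp_pos _).le,
              ENNReal.ofReal_mul (by norm_num)]
            simp
        _ ≤ _ := ENNReal.ofReal_le_ofReal hTe.le
    calc _ ≤ ENNReal.ofReal (ε / 2) + ENNReal.ofReal (ε / 2) := add_le_add p1 p2
      _ = ε := by
        rw [← ENNReal.ofReal_add (by (clear * - hε; positivity)) (by positivity), add_halves]
        simp
  unfold SConv
  rw [ENNReal.tendsto_nhds_zero]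
  intro ε hε
  obtain ⟨ε', hε', hlt⟩ := ENNReal.lt_iff_exists_nnreal_btwn.1 hε
  have hε'' : 0 < ε' := by exact_mod_cast hε'
  obtain ⟨n0, hn0⟩ := main ε' hε''
  filter_upwards [eventually_ge_atTop n0] with m hm
  have w2 : WConv zet (fun n z => av5 ψ (F n z.1) z.2 - av5 ψ (F m z.1) z.2)
      fun z => av5 ψ (L z.1) z.2 - av5 ψ (F m z.1) z.2 :=
    hw.sub (fun θ _ _ => tendsto_const_nhds) iF (fun _ => iF m) iL (iF m)
  have h3 := w2.lintegral_le (fun n => (iF n).sub (iF m)) (mL.sub (mF m)) (iL.sub (iF m))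
  have h4 : ∫⁻ z, ENNReal.ofReal |av5 ψ (L z.1) z.2 - av5 ψ (F m z.1) z.2| ∂zet ≤ ε' := by
    refine h3.trans ?_
    refine (liminf_le_liminf (v := fun _ => (ε' : ℝ≥0∞)) ?_).trans (by simp)
    filter_upwards [eventually_ge_atTop n0] with n hn
    exact hn0 n m hn hm
  have h5 : ∫⁻ z, ENNReal.ofReal |av5 ψ (F m z.1) z.2 - av5 ψ (L z.1) z.2| ∂zet ≤ ε' := by
    simpa only [abs_sub_comm] using h4
  exact h5.trans hlt.le

end Vale.Agent.P140.DL
end
end
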