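import Vale.Agent.P140.MathlibUsed
import Vale.Agent.P140.Bd3.B5
import Vale.Agent.P140.Bd3.B1
import Vale.Agent.P140.Bd3.B10
import Vale.Agent.P140.Bd3.B9
import Vale.Agent.P140.Bd3.B7

set_option linter.all false

attribute [local instance 5000] Vale.Agent.P140.Sc.a01 Vale.Agent.P140.Sc.a02 Vale.Agent.P140.Sc.a03 Vale.Agent.P140.Sc.a04 Vale.Agent.P140.Sc.a05 Vale.Agent.P140.Sc.a06 Vale.Agent.P140.Sc.a07 Vale.Agent.P140.Sc.a08 Vale.Agent.P140.Sc.a09 Vale.Agent.P140.Sc.a10 Vale.Agent.P140.Sc.a11 Vale.Agent.P140.Sc.a12 Vale.Agent.P140.Sc.a13 Vale.Agent.P140.Sc.a14 Vale.Agent.P140.Sc.a15 Vale.Agent.P140.Sc.a16 Vale.Agent.P140.Sc.a17 Vale.Agent.P140.Sc.a18 Vale.Agent.P140.Sc.a19 Vale.Agent.P140.Sc.a20 Vale.Agent.P140.Sc.a21 Vale.Agent.P140.Sc.a22 Vale.Agent.P140.Sc.a23 Vale.Agent.P140.Sc.a24 Vale.Agent.P140.Sc.a25 Vale.Agent.P140.Sc.a26 Vale.Agent.P140.Sc.a27 Vale.Agent.P140.Sc.a28 Vale.Agent.P140.Sc.a29 Vale.Agent.P140.Sc.a30 Vale.Agent.P140.Sc.a31 Vale.Agent.P140.Sc.a32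 Vale.Agent.P140.Sc.a33 Vale.Agent.P140.Sc.r01 Vale.Agent.P140.Sc.r02 Vale.Agent.P140.Sc.r03 Vale.Agent.P140.Sc.r04 Vale.Agent.P140.Sc.r05 Vale.Agent.P140.Sc.r06 Vale.Agent.P140.Sc.r07 Vale.Agent.P140.Sc.r08 Vale.Agent.P140.Sc.r09 Vale.Agent.P140.Sc.r10 Vale.Agent.P140.Sc.r11 Vale.Agent.P140.Sc.r12 Vale.Agent.P140.Sc.r13 Vale.Agent.P140.Sc.r14 Vale.Agent.P140.Sc.r15 Vale.Agent.P140.Sc.r16 Vale.Agent.P140.Sc.r17 Vale.Agent.P140.Sc.r18 Vale.Agent.P140.Sc.a34 Vale.Agent.P140.Sc.a35 Vale.Agent.P140.Sc.a36 Vale.Agent.P140.Sc.a37 Vale.Agent.P140.Sc.a38 Vale.Agent.P140.Sc.a39 Vale.Agent.P140.Sc.a40 Vale.Agent.P140.Sc.a42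

section

/-!
P140-NU, module E: the law of a newborn velocity.
-/

open MeasureTheory Set Filter
open scoped ENNReal Topology

noncomputable section

namespace Vale.Agent.P140.NU.E

theorem inner_post_sub (v u e : V) (ω : S2) :
    inner ℝ (post v u ω - u) e = inner ℝ e (post v u ω) - inner ℝ e u := by
  rw [inner_sub_left, real_inner_comm, real_inner_comm u e]

/-- the radial relative velocity of a newborn is rarely small -/
theorem sphere_band (v u : V) {e : V} (he : ‖e‖ = 1) {x : ℝ} (hx : 0 ≤ x) :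
    ∫⁻ ω, ENNReal.ofReal |relA v u ω| *
      (Iio x).indicator (fun _ => (1 : ℝ≥0∞)) |inner ℝ (post v u ω - u) e| ∂surf ≤
      ENNReal.ofReal (4 * Real.pi * x) := by
  set c : ℝ := inner ℝ e u with hc
  set F : ℝ → ℝ≥0∞ := fun y => (Iio x).indicator (fun _ => (1 : ℝ≥0∞)) |y - c| with hF
  have mF : Measurable F := by
    have h1 : Measurable ((Iio x).indicator (fun _ : ℝ => (1 : ℝ≥0∞))) :=
      measurable_const.indicator measurableSet_Iio
    exact h1.comp (by fun_prop)
  have h := post_inner_law v u he mF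
  have e1 : ∀ ω : S2, F (inner ℝ e (post v u ω)) =
      (Iio x).indicator (fun _ => (1 : ℝ≥0∞)) |inner ℝ (post v u ω - u) e| := by
    intro ω
    rw [inner_post_sub]
  simp only [e1] at h
  rw [h]
  have hpi := Real.pi_pos
  rcases (norm_nonneg (v - u)).eq_or_lt with h0 | h0
  · rw [← h0]; simp only [mul_zero, ENNReal.ofReal_zero, zero_div, zero_mul, add_zero, lintegral_const, MeasurableSet.univ, Measure.restrict_apply, univ_inter, Real.volume_Icc, sub_neg_eq_add, zero_le]
  -- the set of good `y` is an interval of length `4x/m`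
  set m := ‖v - u‖ with hm
  set A : ℝ := inner ℝ e (v + u) / 2 - c with hA
  have e2 : ∫⁻ y in Icc (-1 : ℝ) 1, F (inner ℝ e (v + u) / 2 + m / 2 * y) ≤
      ENNReal.ofReal (4 * x / m) := by
    calc ∫⁻ y in Icc (-1 : ℝ) 1, F (inner ℝ e (v + u) / 2 + m / 2 * y)
        ≤ ∫⁻ y : ℝ, F (inner ℝ e (v + u) / 2 + m / 2 * y) := setLIntegral_le_lintegral _ _
      _ ≤ ∫⁻ y : ℝ, (Ioo (2 / m * (-x - A)) (2 / m * (x - A))).indicator
            (fun _ => (1 : ℝ≥0∞)) y := by
          apply lintegral_mono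
          intro y
          show F _ ≤ _
          rw [hF]
          simp only
          by_cases hy : |inner ℝ e (v + u) / 2 + m / 2 * y - c| < x
          · rw [indicator_of_mem (show _ ∈ Iio x from hy), indicator_of_mem]
            rw [abs_lt] at hy
            have e3 : inner ℝ e (v + u) / 2 + m / 2 * y - c = A + m / 2 * y := by rw [hA]; ring
            rw [e3] at hy
            have e4 : 2 / m * (m / 2 * y) = y := by (clear * - h0; field_simp)
            constructor
            · calc 2 / m * (-x - A) < 2 / m * (m / 2 * y) := by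
                    apply mul_lt_mul_of_pos_left _ (by (clear * - h0; positivity))
                    linarith only [hy]
                _ = y := e4
            · calc y = 2 / m * (m / 2 * y) := e4.symm
                _ < 2 / m * (x - A) := by
                    apply mul_lt_mul_of_pos_left _ (by (clear * - h0; positivity))
                    linarith only [hy]
          · rw [indicator_of_notMem (show _ ∉ Iio x from hy)]
            exact bot_le
      _ = ENNReal.ofReal (4 * x / m) := by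
          rw [lintegral_indicator_const measurableSet_Ioo, one_mul, Real.volume_Ioo]
          congr 1
          ring
  calc ENNReal.ofReal (Real.pi * m) * ∫⁻ y in Icc (-1 : ℝ) 1,
        F (inner ℝ e (v + u) / 2 + m / 2 * y)
      ≤ ENNReal.ofReal (Real.pi * m) * ENNReal.ofReal (4 * x / m) := by (clear * - e2; gcongr)
    _ = ENNReal.ofReal (4 * Real.pi * x) := by
        rw [← ENNReal.ofReal_mul (by (clear * - h0; positivity))]
        congr 1
        (clear * - h0; field_simp)

/-- lower bound for the outgoing fraction -/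
theorem sphere_cap (v u : V) {e : V} (he : ‖e‖ = 1) {x : ℝ} (hx : 0 ≤ x) :
    ENNReal.ofReal (Real.pi * (‖v - u‖ + inner ℝ (v - u) e - 2 * x)) ≤
    ∫⁻ ω, ENNReal.ofReal |relA v u ω| *
      (Ici x).indicator (fun _ => (1 : ℝ≥0∞)) (inner ℝ (post v u ω - u) e) ∂surf := by
  set c : ℝ := inner ℝ e u with hc
  set F : ℝ → ℝ≥0∞ := fun y => (Ici x).indicator (fun _ => (1 : ℝ≥0∞)) (y - c) with hF
  have mF : Measurable F := by
    have h1 : Measurable ((Ici x).indicator (fun _ : ℝ => (1 : ℝ≥0∞))) :=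
      measurable_const.indicator measurableSet_Ici
    exact h1.comp (by fun_prop)
  have h := post_inner_law v u he mF
  have e1 : ∀ ω : S2, F (inner ℝ e (post v u ω)) =
      (Ici x).indicator (fun _ => (1 : ℝ≥0∞)) (inner ℝ (post v u ω - u) e) := by
    intro ω
    rw [inner_post_sub]
  simp only [e1] at h
  rw [h]
  have hpi := Real.pi_pos
  have hin : inner ℝ (v - u) e ≤ ‖v - u‖ := by
    have := real_inner_le_norm (v - u) e
    rwa [he, mul_one] at this
  rcases (norm_nonneg (v - u)).eq_or_lt with h0 | h0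
  · rw [← h0] at hin ⊢
    have : ENNReal.ofReal (Real.pi * (0 + inner ℝ (v - u) e - 2 * x)) = 0 := by
      apply ENNReal.ofReal_of_nonpos
      linarith only [mul_nonneg (le_of_lt (sub_pos.2 hpi)) (sub_nonneg.2 hin), mul_nonneg (sub_nonneg.2 hx) (le_of_lt (sub_pos.2 hpi))]
    rw [this]; exact bot_le
  set m := ‖v - u‖ with hm
  -- center
  have hA : inner ℝ e (v + u) / 2 - c = inner ℝ (v - u) e / 2 := by
    rw [hc, inner_add_right, real_inner_comm e (v - u), inner_sub_right]
    ring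
  set I : ℝ := inner ℝ (v - u) e with hI
  have hIm : -m ≤ I := by
    have := neg_le_of_abs_le (abs_real_inner_le_norm (v - u) e)
    rw [he, mul_one] at this
    exact this
  set y0 : ℝ := 2 / m * (x - I / 2) with hy0
  have e2 : ENNReal.ofReal (1 - y0) ≤
      ∫⁻ y in Icc (-1 : ℝ) 1, F (inner ℝ e (v + u) / 2 + m / 2 * y) := by
    have hy1 : -1 ≤ y0 := by
      rw [hy0, div_mul_eq_mul_div, le_div_iff₀ h0]
      linarith only [hx, hin]
    calc ENNReal.ofReal (1 - y0) = ∫⁻ y : ℝ, (Icc y0 1).indicator (fun _ => (1 : ℝ≥0∞)) y := by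
          rw [lintegral_indicator_const measurableSet_Icc, one_mul, Real.volume_Icc]
      _ ≤ ∫⁻ y : ℝ, (Icc (-1 : ℝ) 1).indicator
            (fun y => F (inner ℝ e (v + u) / 2 + m / 2 * y)) y := by
          apply lintegral_mono
          intro y
          by_cases hy : y ∈ Icc y0 1
          · have hy' : y ∈ Icc (-1 : ℝ) 1 := ⟨hy1.trans hy.1, hy.2⟩
            show (Icc y0 1).indicator (fun _ => (1 : ℝ≥0∞)) y ≤
              (Icc (-1 : ℝ) 1).indicator (fun y => F (inner ℝ e (v + u) / 2 + m / 2 * y)) y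
            rw [indicator_of_mem hy, indicator_of_mem hy', hF]
            simp only
            rw [indicator_of_mem]
            show x ≤ inner ℝ e (v + u) / 2 + m / 2 * y - c
            have e3 : inner ℝ e (v + u) / 2 + m / 2 * y - c = I / 2 + m / 2 * y := by
              rw [← hA]; ring
            rw [e3]
            have e4 : m / 2 * y0 = x - I / 2 := by rw [hy0]; (clear * - h0; field_simp)
            have e5 : m / 2 * y0 ≤ m / 2 * y := by
              apply mul_le_mul_of_nonneg_left hy.1 (by (clear * - h0; positivity))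
            linarith only [e5, e4]
          · show (Icc y0 1).indicator (fun _ => (1 : ℝ≥0∞)) y ≤ _
            rw [indicator_of_notMem hy]
            exact bot_le
      _ = _ := by rw [lintegral_indicator measurableSet_Icc]
  calc ENNReal.ofReal (Real.pi * (m + I - 2 * x))
      = ENNReal.ofReal (Real.pi * m) * ENNReal.ofReal (1 - y0) := by
        rw [← ENNReal.ofReal_mul (by (clear * - h0; positivity))]
        congr 1
        rw [hy0]
        field_simp
        ring
    _ ≤ _ := by (clear * - e2; gcongr)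

/-- a newborn is rarely faster than `G` -/
theorem sphere_speed (v u : V) {G : ℝ} (hu : ‖u‖ ≤ 2) (hG : 10 ≤ G) (hv : ‖v‖ ≤ G) :
    ∫⁻ ω, ENNReal.ofReal |relA v u ω| *
      (Ioi (G ^ 2)).indicator (fun _ => (1 : ℝ≥0∞)) (‖post v u ω‖ ^ 2) ∂surf ≤
      ENNReal.ofReal (2 * Real.pi * ‖v - u‖ * (8 / (G - 3) ^ 2)) := by
  set F : ℝ → ℝ≥0∞ := (Ioi (G ^ 2)).indicator (fun _ => (1 : ℝ≥0∞)) with hF
  have mF : Measurable F := measurable_const.indicator measurableSet_Ioi
  rw [post_energy_law v u mF]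
  have hpi := Real.pi_pos
  have hG3 : 0 < G - 3 := by linarith only [hG]
  have hmn : (0 : ℝ) ≤ Real.pi * ‖v - u‖ := by (clear * -; positivity)
  have e1 : ∫⁻ x in Icc (-1 : ℝ) 1,
      F ((‖v‖ ^ 2 + ‖u‖ ^ 2) / 2 + ‖v - u‖ * ‖v + u‖ / 2 * x) ≤
      ENNReal.ofReal (16 / (G - 3) ^ 2) := by
    by_cases h1 : ‖v‖ ≤ G - 1
    · -- impossible to exceed `G`
      have hz : ∀ x ∈ Icc (-1 : ℝ) 1,
          F ((‖v‖ ^ 2 + ‖u‖ ^ 2) / 2 + ‖v - u‖ * ‖v + u‖ / 2 * x) = 0 := by
        intro x hx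
        rw [hF, indicator_of_notMem]
        intro hmem
        have hmem' : G ^ 2 < (‖v‖ ^ 2 + ‖u‖ ^ 2) / 2 + ‖v - u‖ * ‖v + u‖ / 2 * x := hmem
        have h2 : ‖v - u‖ * ‖v + u‖ ≤ ‖v‖ ^ 2 + ‖u‖ ^ 2 := by
          have h3 := norm_sub_sq_real v u
          have h4 := norm_add_sq_real v u
          linarith only [sq_nonneg (‖v - u‖ - ‖v + u‖), h4, h3]
        have h5 : ‖v - u‖ * ‖v + u‖ / 2 * x ≤ ‖v - u‖ * ‖v + u‖ / 2 * 1 := by
          apply mul_le_mul_of_nonneg_left hx.2 (by (clear * -; positivity))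
        have h6 : ‖u‖ ^ 2 ≤ 4 := by nlinarith only [hu, norm_nonneg u]
        have h7 : ‖v‖ ^ 2 ≤ (G - 1) ^ 2 := by (clear * - h1; gcongr)
        linarith
      rw [setLIntegral_congr_fun (g := fun _ => (0 : ℝ≥0∞)) measurableSet_Icc hz]
      simp only [lintegral_const, MeasurableSet.univ, Measure.restrict_apply, univ_inter, Real.volume_Icc, sub_neg_eq_add, zero_mul, zero_le]
    · push Not at h1
      set D : ℝ := ‖v - u‖ * ‖v + u‖ with hD
      have hD1 : (G - 3) ^ 2 ≤ D := by
        have h2 : G - 3 ≤ ‖v - u‖ := by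
          have := norm_sub_norm_le v u
          linarith only [hu, h1, this]
        have h3 : G - 3 ≤ ‖v + u‖ := by
          have := norm_sub_norm_le v (-u)
          rw [norm_neg, sub_neg_eq_add] at this
          linarith only [hu, h1, this]
        rw [hD, sq]
        (clear * - h2 h3 hG3; gcongr)
      have hD0 : 0 < D := lt_of_lt_of_le (by (clear * - hG3; positivity)) hD1
      have hE : D ≤ ‖v‖ ^ 2 + ‖u‖ ^ 2 := by
        have h3 := norm_sub_sq_real v u
        have h4 := norm_add_sq_real v u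
        linarith only [sq_nonneg (‖v - u‖ - ‖v + u‖), h4, h3]
      set E : ℝ := ‖v‖ ^ 2 + ‖u‖ ^ 2 with hEdef
      have hE4 : E ≤ G ^ 2 + 4 := by
        have h6 : ‖u‖ ^ 2 ≤ 4 := by nlinarith only [hu, norm_nonneg u]
        have h7 : ‖v‖ ^ 2 ≤ G ^ 2 := by (clear * - hv; gcongr)
        linarith only [h6, h7]
      calc ∫⁻ x in Icc (-1 : ℝ) 1, F (E / 2 + D / 2 * x)
          ≤ ∫⁻ x : ℝ, (Ioc (1 - 8 / D) 1).indicator (fun _ => (1 : ℝ≥0∞)) x := by
            rw [← lintegral_indicator measurableSet_Icc]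
            apply lintegral_mono
            intro x
            show (Icc (-1 : ℝ) 1).indicator (fun x => F (E / 2 + D / 2 * x)) x ≤
              (Ioc (1 - 8 / D) 1).indicator (fun _ => (1 : ℝ≥0∞)) x
            by_cases hx : x ∈ Icc (-1 : ℝ) 1
            · rw [indicator_of_mem hx, hF]
              by_cases hx2 : G ^ 2 < E / 2 + D / 2 * x
              · rw [indicator_of_mem (show _ ∈ Ioi (G ^ 2) from hx2), indicator_of_mem]
                refine ⟨?_, hx.2⟩
                rw [sub_lt_iff_lt_add, ← sub_lt_iff_lt_add', lt_div_iff₀ hD0]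
                linarith only [hx2, hE4, hE]
              · rw [indicator_of_notMem (show _ ∉ Ioi (G ^ 2) from hx2)]
                exact bot_le
            · rw [indicator_of_notMem hx]
              exact bot_le
        _ = ENNReal.ofReal (8 / D) := by
            rw [lintegral_indicator_const measurableSet_Ioc, one_mul, Real.volume_Ioc]
            congr 1
            ring
        _ ≤ ENNReal.ofReal (16 / (G - 3) ^ 2) := by
            apply ENNReal.ofReal_le_ofReal
            calc 8 / D ≤ 8 / (G - 3) ^ 2 := by (clear * - hG3 hD1; gcongr)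
              _ ≤ 16 / (G - 3) ^ 2 := by gcongr; norm_num
  calc ENNReal.ofReal (Real.pi * ‖v - u‖) * ∫⁻ x in Icc (-1 : ℝ) 1,
        F ((‖v‖ ^ 2 + ‖u‖ ^ 2) / 2 + ‖v - u‖ * ‖v + u‖ / 2 * x)
      ≤ ENNReal.ofReal (Real.pi * ‖v - u‖) * ENNReal.ofReal (16 / (G - 3) ^ 2) := by gcongr
    _ = _ := by
        rw [← ENNReal.ofReal_mul hmn]
        congr 1
        ring

end Vale.Agent.P140.NU.E
end
end

section

/-!
P140-NU, module J: integral of `exp(-r/T)`.
-/

open MeasureTheory Set Filter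
open scoped ENNReal Topology

noncomputable section

namespace Vale.Agent.P140.NU.J

theorem expRR_half {T : ℝ} (hT : 0 < T) {b : ℝ} :
    ∫ a in (0 : ℝ)..b, Real.exp (-(a / (2 * T))) = 2 * T * (1 - Real.exp (-(b / (2 * T)))) := by
  have h : ∀ x ∈ uIcc (0 : ℝ) b, HasDerivAt (fun y : ℝ => -(2 * T) * Real.exp (-(y / (2 * T))))
      (Real.exp (-(x / (2 * T)))) x := by
    intro x _
    have h1 : HasDerivAt (fun y : ℝ => -(y / (2 * T))) (-(1 / (2 * T))) x :=
      ((hasDerivAt_id x).div_const (2 * T)).neg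
    have h2 := (h1.exp).const_mul (-(2 * T))
    refine h2.congr_deriv ?_
    field_simp
  rw [intervalIntegral.integral_eq_sub_of_hasDerivAt h
    ((by fun_prop : Continuous fun a : ℝ => Real.exp (-(a / (2 * T)))).intervalIntegrable _ _)]
  simp only [zero_div, neg_zero, Real.exp_zero]
  ring

theorem expRR_circle {T : ℝ} (hT : 0 < T) :
    ∫ y : UnitAddCircle, Real.exp (-(‖y‖ / (2 * T))) ≤ 4 * T := by
  have h0 := UnitAddCircle.intervalIntegral_preimage (-(1 / 2) : ℝ)
    (fun y : UnitAddCircle => Real.exp (-(‖y‖ / (2 * T))))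
  rw [← h0]
  have e1 : (-(1 / 2) : ℝ) + 1 = 1 / 2 := by norm_num
  rw [e1]
  have e2 : ∫ a in (-(1 / 2) : ℝ)..(1 / 2), Real.exp (-(‖((a : ℝ) : UnitAddCircle)‖ / (2 * T)))
      = ∫ a in (-(1 / 2) : ℝ)..(1 / 2), Real.exp (-(|a| / (2 * T))) := by
    apply intervalIntegral.integral_congr
    intro a ha
    rw [uIcc_of_le (by norm_num)] at ha
    have : ‖((a : ℝ) : UnitAddCircle)‖ = |a| := by
      rw [AddCircle.norm_coe_eq_abs_iff (1 : ℝ) one_ne_zero, abs_one, abs_le]
      exact ⟨by linarith only [ha.1], by linarith only [ha.2]⟩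
    simp only [this]
  rw [e2]
  have hc : Continuous fun a : ℝ => Real.exp (-(|a| / (2 * T))) := by fun_prop
  rw [← intervalIntegral.integral_add_adjacent_intervals (b := 0)
    (hc.intervalIntegrable _ _) (hc.intervalIntegrable _ _)]
  have e3 : ∫ a in (0 : ℝ)..(1 / 2), Real.exp (-(|a| / (2 * T)))
      = ∫ a in (0 : ℝ)..(1 / 2), Real.exp (-(a / (2 * T))) := by
    apply intervalIntegral.integral_congr
    intro a ha
    rw [uIcc_of_le (by norm_num)] at ha
    simp only [abs_of_nonneg ha.1]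
  have e4 : ∫ a in (-(1 / 2) : ℝ)..0, Real.exp (-(|a| / (2 * T)))
      = ∫ a in (0 : ℝ)..(1 / 2), Real.exp (-(|a| / (2 * T))) := by
    have := intervalIntegral.integral_comp_neg (a := (0 : ℝ)) (b := 1 / 2)
      (fun a : ℝ => Real.exp (-(|a| / (2 * T))))
    simp only [abs_neg, neg_zero] at this
    exact this.symm
  rw [e4, e3, expRR_half hT]
  have := Real.exp_pos (-(1 / 2 / (2 * T)))
  nlinarith only [hT, this]

/-- `∫ exp(-r/T) dx ≤ 16 T²`: `r ≥ (|x₀| + |x₁|)/2`, product of two integrals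
`∫_{-1/2}^{1/2} exp(-|a|/(2T)) da ≤ 4 T` -/
theorem lint_exp_rr {T : ℝ} (hT : 0 < T) :
    ∫⁻ x : T3, ENNReal.ofReal (Real.exp (-(rr x / T))) ≤ ENNReal.ofReal (16 * T ^ 2) := by
  set g : Fin 3 → UnitAddCircle → ℝ :=
    ![fun y => Real.exp (-(‖y‖ / (2 * T))), fun y => Real.exp (-(‖y‖ / (2 * T))), fun _ => 1]
    with hg
  have hgc : ∀ i, Continuous (g i) := by
    intro i
    fin_cases i
    · show Continuous fun y : UnitAddCircle => Real.exp (-(‖y‖ / (2 * T)))
      fun_prop
    · show Continuous fun y : UnitAddCircle => Real.exp (-(‖y‖ / (2 * T)))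
      (clear * -; fun_prop)
    · show Continuous fun _ : UnitAddCircle => (1 : ℝ)
      fun_prop
  have hgp : ∀ i y, 0 ≤ g i y := by
    intro i y
    fin_cases i
    · exact (Real.exp_pos _).le
    · exact (Real.exp_pos _).le
    · exact zero_le_one
  have hle : ∀ x : T3, Real.exp (-(rr x / T)) ≤ ∏ i, g i (x i) := by
    intro x
    have e : ∏ i, g i (x i) = Real.exp (-(‖x 0‖ / (2 * T))) * Real.exp (-(‖x 1‖ / (2 * T))) := by
      rw [Fin.prod_univ_three]
      show Real.exp (-(‖x 0‖ / (2 * T))) * Real.exp (-(‖x 1‖ / (2 * T))) * 1 = _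
      rw [mul_one]
    rw [e, ← Real.exp_add]
    apply Real.exp_le_exp.2
    have hr : (‖x 0‖ + ‖x 1‖) / 2 ≤ rr x := by
      unfold rr
      apply Real.le_sqrt_of_sq_le
      nlinarith only []
    have h1 : (‖x 0‖ + ‖x 1‖) / 2 / T ≤ rr x / T := by (clear * - hr hT; gcongr)
    have h2 : (‖x 0‖ + ‖x 1‖) / 2 / T = ‖x 0‖ / (2 * T) + ‖x 1‖ / (2 * T) := by
      (clear * - hT; field_simp)
    linarith only [h2, h1]
  have hpc : Continuous fun x : T3 => ∏ i, g i (x i) :=
    continuous_finsetProd _ fun i _ => (hgc i).comp (continuous_apply i)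
  calc ∫⁻ x : T3, ENNReal.ofReal (Real.exp (-(rr x / T)))
      ≤ ∫⁻ x : T3, ENNReal.ofReal (∏ i, g i (x i)) :=
        lintegral_mono fun x => ENNReal.ofReal_le_ofReal (hle x)
    _ = ENNReal.ofReal (∫ x : T3, ∏ i, g i (x i)) := by
        rw [ofReal_integral_eq_lintegral_ofReal]
        · exact hpc.integrable_of_hasCompactSupport (HasCompactSupport.of_compactSpace _)
        · exact Eventually.of_forall fun x => Finset.prod_nonneg fun i _ => hgp i _
    _ ≤ ENNReal.ofReal (16 * T ^ 2) := by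
        apply ENNReal.ofReal_le_ofReal
        have := integral_fintype_prod_volume_eq_prod (𝕜 := ℝ) g
        have h3 : ∫ x : T3, ∏ i, g i (x i) = ∏ i, ∫ y, g i y := this
        rw [h3, Fin.prod_univ_three]
        have h0 : ∫ y, g 0 y = ∫ y : UnitAddCircle, Real.exp (-(‖y‖ / (2 * T))) := rfl
        have h1 : ∫ y, g 1 y = ∫ y : UnitAddCircle, Real.exp (-(‖y‖ / (2 * T))) := rfl
        have h2 : ∫ y, g 2 y = 1 := by
          show ∫ y : UnitAddCircle, (1 : ℝ) = 1
          rw [integral_const, measureReal_def, UnitAddCircle.measure_univ]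
          simp
        rw [h0, h1, h2, mul_one]
        have h4 := expRR_circle hT
        have h5 : 0 ≤ ∫ y : UnitAddCircle, Real.exp (-(‖y‖ / (2 * T))) :=
          integral_nonneg fun y => (Real.exp_pos _).le
        nlinarith only [h4, h5]

end Vale.Agent.P140.NU.J
end
end

section

open MeasureTheory Set Filter
open scoped ENNReal Topology NNReal

noncomputable section

namespace Vale.Agent.P140.DL

theorem tendsto_of_lintegral {α : Type*} [MeasurableSpace α] {ν : Measure α} {G : α → ℝ}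
    {H : ℕ → α → ℝ} (mG : Measurable G) (mH : ∀ j, Measurable (H j))
    (hle : ∀ j, ∀ᵐ q ∂ν, H j q ≤ G q ∧ H j q ≤ H (j + 1) q)
    (hlim : Tendsto (fun j => ∫⁻ q, ENNReal.ofReal (G q - H j q) ∂ν) atTop (𝓝 0)) :
    ∀ᵐ q ∂ν, Tendsto (fun j => H j q) atTop (𝓝 (G q)) := by
  have h0 : ∫⁻ q, ⨅ j, ENNReal.ofReal (G q - H j q) ∂ν = 0 :=
    le_antisymm (ge_of_tendsto' hlim fun j => lintegral_mono fun q => iInf_le _ j) bot_le
  have h1 : (fun q => ⨅ j, ENNReal.ofReal (G q - H j q)) =ᵐ[ν] 0 :=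
    (lintegral_eq_zero_iff (Measurable.iInf fun j => (mG.sub (mH j)).ennreal_ofReal)).1 h0
  filter_upwards [h1, ae_all_iff.2 hle] with q h2 h3
  have ha : Antitone fun j => ENNReal.ofReal (G q - H j q) :=
    antitone_nat_of_succ_le fun j => ENNReal.ofReal_le_ofReal (by linarith only [(h3 j).2])
  have hb : Tendsto (fun j => ENNReal.ofReal (G q - H j q)) atTop (𝓝 0) := by
    have := tendsto_atTop_iInf ha
    rwa [show (⨅ j, ENNReal.ofReal (G q - H j q)) = 0 from h2] at this
  have hc : Tendsto (fun j => (ENNReal.ofReal (G q - H j q)).toReal) atTop (𝓝 0) := by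
    have := (ENNReal.tendsto_toReal ENNReal.zero_ne_top).comp hb
    rwa [ENNReal.toReal_zero] at this
  have hd : Tendsto (fun j => G q - H j q) atTop (𝓝 0) :=
    hc.congr fun j => ENNReal.toReal_ofReal (by linarith only [(h3 j).1])
  have := (tendsto_const_nhds (x := G q)).sub hd
  simpa only [sub_sub_cancel, sub_zero] using this

theorem exists_gt_of_ae {P : ℝ → Prop} (h : ∀ᵐ t ∂(volume.restrict (Ioi (0 : ℝ))), P t) (T : ℝ) :
    ∃ t, T < t ∧ 0 < t ∧ P t := by
  have h1 : ∀ᵐ t ∂(volume.restrict (Ioi (max T 0))), P t :=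
    ae_restrict_of_ae_restrict_of_subset (Ioi_subset_Ioi (le_max_right _ _)) h
  have h2 : (ae ((volume : Measure ℝ).restrict (Ioi (max T 0)))).NeBot := by
    rw [ae_neBot, Ne, Measure.restrict_eq_zero]
    simp only [Real.volume_Ioi, ENNReal.top_ne_zero, not_false_eq_true]
  obtain ⟨t, ht⟩ := (h1.and (ae_restrict_mem measurableSet_Ioi)).exists
  exact ⟨t, lt_of_le_of_lt (le_max_left _ _) ht.2, lt_of_le_of_lt (le_max_right _ _) ht.2, ht.1⟩

theorem intOn_of_lintegral {f : ℝ → ℝ} (mf : Measurable f) (pf : ∀ t, 0 ≤ f t) {T : ℝ}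
    (h : ∫⁻ s in Ioc 0 T, ENNReal.ofReal (f s) < ⊤) : IntegrableOn f (Ioc 0 T) := by
  refine ⟨mf.aestronglyMeasurable, ?_⟩
  rw [hasFiniteIntegral_iff_ofReal (ae_of_all _ pf)]
  exact h

theorem intOn_of_le {f g : ℝ → ℝ} (mf : Measurable f) (pf : ∀ t, 0 ≤ f t) {S : Set ℝ}
    (ig : IntegrableOn g S) (h : ∀ᵐ t ∂(volume.restrict S), f t ≤ g t) : IntegrableOn f S := by
  refine Integrable.mono' ig mf.aestronglyMeasurable ?_
  filter_upwards [h] with t ht
  rwa [Real.norm_eq_abs, abs_of_nonneg (pf t)]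

/-- the limit equation along one characteristic -/
theorem path_eq {G A B : ℝ → ℝ} {U H Q : ℕ → ℝ → ℝ} {G0 : ℝ}
    (mG : Measurable G) (mA : Measurable A) (mB : Measurable B)
    (mH : ∀ j, Measurable (H j)) (mQ : ∀ j, Measurable (Q j))
    (pG0 : 0 ≤ G0) (pG : ∀ t, 0 ≤ G t) (pA : ∀ t, 0 ≤ A t) (pB : ∀ t, 0 ≤ B t)
    (pU : ∀ j t, 0 ≤ U j t) (pH : ∀ j t, 0 ≤ H j t) (pQ : ∀ j t, 0 ≤ Q j t)
    (bU : ∀ j t, U j t ≤ (j : ℝ) + 1)
    (iA : ∀ T : ℝ, ∫⁻ s in Ioc 0 T, ENNReal.ofReal (A s) < ⊤)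
    (hle : ∀ j, ∀ᵐ t ∂(volume.restrict (Ioi (0 : ℝ))), H j t ≤ U j t ∧ U j t ≤ G t ∧ Q j t ≤ B t)
    (hlim : ∀ᵐ t ∂(volume.restrict (Ioi (0 : ℝ))), Tendsto (fun j => H j t) atTop (𝓝 (G t)))
    (heq : ∀ j, ∀ᵐ t ∂(volume.restrict (Ioi (0 : ℝ))),
      U j t = ren j G0 + ∫ s in Ioc 0 t, (Q j s - A s * H j s))
    (hsup : ∀ᵐ t ∂(volume.restrict (Ioi (0 : ℝ))),
      ENNReal.ofReal (G0 * Real.exp (-∫ s in Ioc 0 t, A s))
        + ∫⁻ s in Ioc 0 t, ENNReal.ofReal (B s * Real.exp (-∫ r in Ioc s t, A r))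
      ≤ ENNReal.ofReal (G t)) :
    (∀ T : ℝ, ∫⁻ s in Ioc 0 T, ENNReal.ofReal (B s) < ⊤) ∧
    (∀ T : ℝ, ∫⁻ s in Ioc 0 T, ENNReal.ofReal (A s * G s) < ⊤) ∧
    ∀ᵐ t ∂(volume.restrict (Ioi (0 : ℝ))), G t = G0 + ∫ s in Ioc 0 t, (B s - A s * G s) := by
  have jA : ∀ T : ℝ, IntegrableOn A (Ioc 0 T) := fun T => intOn_of_lintegral mA pA (iA T)
  have hsubI : ∀ T : ℝ, Ioc 0 T ⊆ Ioi (0 : ℝ) := fun T x hx => hx.1
  -- the primitive of `A`
  have hmonoA : Monotone fun t : ℝ => ∫ s in Ioc 0 t, A s := by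
    intro s t hst
    exact setIntegral_mono_set (jA t) (ae_of_all _ pA)
      (Ioc_subset_Ioc_right hst).eventuallyLE
  have hA0 : ∀ t : ℝ, 0 ≤ ∫ s in Ioc 0 t, A s := fun t =>
    setIntegral_nonneg measurableSet_Ioc fun s _ => pA s
  have hAst : ∀ {s t : ℝ}, 0 ≤ s → s ≤ t →
      ∫ r in Ioc s t, A r = (∫ r in Ioc 0 t, A r) - ∫ r in Ioc 0 s, A r := by
    intro s t hs hst
    have := setIntegral_union (μ := volume) (f := A) (s := Ioc 0 s) (t := Ioc s t)
      (by rw [disjoint_left]; intro x hx hy; exact absurd hx.2 (not_le.2 hy.1)) measurableSet_Ioc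
      (jA s) ((jA t).mono_set (Ioc_subset_Ioc_left hs))
    rw [Ioc_union_Ioc_eq_Ioc hs hst] at this
    linarith only [this]
  -- integrability of `B`
  have iB : ∀ T : ℝ, ∫⁻ s in Ioc 0 T, ENNReal.ofReal (B s) < ⊤ := by
    intro T
    obtain ⟨t, hTt, ht0, ht⟩ := exists_gt_of_ae hsup T
    have h1 : ∫⁻ s in Ioc 0 t, ENNReal.ofReal (B s * Real.exp (-∫ r in Ioc s t, A r)) < ⊤ :=
      lt_of_le_of_lt (le_trans le_add_self ht) ENNReal.ofReal_lt_top
    set c : ℝ := Real.exp (-∫ r in Ioc 0 t, A r) with hc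
    have hc0 : 0 < c := Real.exp_pos _
    have h2 : ENNReal.ofReal c * ∫⁻ s in Ioc 0 t, ENNReal.ofReal (B s) < ⊤ := by
      rw [← lintegral_const_mul _ mB.ennreal_ofReal]
      refine lt_of_le_of_lt (setLIntegral_mono' measurableSet_Ioc fun s hs => ?_) h1
      rw [← ENNReal.ofReal_mul hc0.le, mul_comm]
      apply ENNReal.ofReal_le_ofReal
      apply mul_le_mul_of_nonneg_left _ (pB s)
      rw [hc, hAst hs.1.le hs.2]
      apply Real.exp_le_exp.2
      have := hA0 s
      linarith only [this]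
    have h3 : ∫⁻ s in Ioc 0 t, ENNReal.ofReal (B s) < ⊤ := by
      rcases ENNReal.mul_lt_top_iff.1 h2 with h | h | h
      · exact h.2
      · exact absurd h (by simpa only [ENNReal.ofReal_eq_zero, not_le] using hc0)
      · rw [h]; exact ENNReal.zero_lt_top
    exact lt_of_le_of_lt (lintegral_mono_set (Ioc_subset_Ioc_right hTt.le)) h3
  have jB : ∀ T : ℝ, IntegrableOn B (Ioc 0 T) := fun T => intOn_of_lintegral mB pB (iB T)
  have jQ : ∀ j (T : ℝ), IntegrableOn (Q j) (Ioc 0 T) := fun j T =>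
    intOn_of_le (mQ j) (pQ j) (jB T) (ae_restrict_of_ae_restrict_of_subset (hsubI T)
      ((hle j).mono fun t ht => ht.2.2))
  have jAH : ∀ j (T : ℝ), IntegrableOn (fun s => A s * H j s) (Ioc 0 T) := fun j T =>
    intOn_of_le (mA.mul (mH j)) (fun t => mul_nonneg (pA t) (pH j t))
      ((jA T).mul_const ((j : ℝ) + 1)) (ae_restrict_of_ae_restrict_of_subset (hsubI T)
      ((hle j).mono fun t ht => mul_le_mul_of_nonneg_left (ht.1.trans (bU j t)) (pA t)))
  have hren : ∀ j, ren j G0 ≤ G0 := by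
    intro j
    unfold ren
    apply div_le_self pG0
    have : 0 ≤ G0 / ((j : ℝ) + 1) := by (clear * - pG0; positivity)
    linarith
  have hQB : ∀ j (T : ℝ), ∫ s in Ioc 0 T, Q j s ≤ ∫ s in Ioc 0 T, B s := fun j T =>
    setIntegral_mono_ae_restrict (jQ j T) (jB T) (ae_restrict_of_ae_restrict_of_subset (hsubI T)
      ((hle j).mono fun t ht => ht.2.2))
  -- the key inequality
  have hkey : ∀ᵐ t ∂(volume.restrict (Ioi (0 : ℝ))), ∀ j,
      U j t ≤ G0 + (∫ s in Ioc 0 t, B s) - ∫ s in Ioc 0 t, A s * H j s := by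
    refine ae_all_iff.2 fun j => ?_
    filter_upwards [heq j] with t ht
    rw [ht, integral_sub (jQ j t) (jAH j t)]
    linarith only [hren j, hQB j t]
  -- integrability of `A G`
  have iAG : ∀ T : ℝ, ∫⁻ s in Ioc 0 T, ENNReal.ofReal (A s * G s) < ⊤ := by
    intro T
    obtain ⟨t, hTt, ht0, ht⟩ := exists_gt_of_ae hkey T
    have h1 : ∀ j, ∫⁻ s in Ioc 0 t, ENNReal.ofReal (A s * H j s)
        ≤ ENNReal.ofReal (G0 + ∫ s in Ioc 0 t, B s) := by
      intro j
      rw [← ofReal_integral_eq_lintegral_ofReal (jAH j t)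
        (ae_of_all _ fun s => mul_nonneg (pA s) (pH j s))]
      apply ENNReal.ofReal_le_ofReal
      linarith only [ht j, pU j t]
    have h2 : ∫⁻ s in Ioc 0 t, ENNReal.ofReal (A s * G s)
        ≤ ∫⁻ s in Ioc 0 t, liminf (fun j => ENNReal.ofReal (A s * H j s)) atTop := by
      apply lintegral_mono_ae
      filter_upwards [ae_restrict_of_ae_restrict_of_subset (hsubI t) hlim] with s hs
      have : Tendsto (fun j => ENNReal.ofReal (A s * H j s)) atTop
          (𝓝 (ENNReal.ofReal (A s * G s))) :=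
        (ENNReal.continuous_ofReal.tendsto _).comp (hs.const_mul (A s))
      rw [this.liminf_eq]
    have h3 : ∫⁻ s in Ioc 0 t, ENNReal.ofReal (A s * G s)
        ≤ ENNReal.ofReal (G0 + ∫ s in Ioc 0 t, B s) := by
      refine h2.trans ((lintegral_liminf_le fun j => (mA.mul (mH j)).ennreal_ofReal).trans ?_)
      exact liminf_le_of_le (by isBoundedDefault) fun b hb => by
        obtain ⟨j, hj⟩ := hb.exists
        exact hj.trans (h1 j)
    exact lt_of_le_of_lt (lintegral_mono_set (Ioc_subset_Ioc_right hTt.le))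
      (lt_of_le_of_lt h3 ENNReal.ofReal_lt_top)
  have jAG : ∀ T : ℝ, IntegrableOn (fun s => A s * G s) (Ioc 0 T) := fun T =>
    intOn_of_lintegral (mA.mul mG) (fun t => mul_nonneg (pA t) (pG t)) (iAG T)
  -- subsolution
  have hsub : ∀ᵐ t ∂(volume.restrict (Ioi (0 : ℝ))),
      G t ≤ G0 + (∫ s in Ioc 0 t, B s) - ∫ s in Ioc 0 t, A s * G s := by
    filter_upwards [hkey, hlim, ae_all_iff.2 hle] with t h1 h2 h3
    have hU : Tendsto (fun j => U j t) atTop (𝓝 (G t)) :=
      tendsto_of_tendsto_of_tendsto_of_le_of_le h2 tendsto_const_nhds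
        (fun j => (h3 j).1) fun j => (h3 j).2.1
    have hD : Tendsto (fun j => ∫ s in Ioc 0 t, A s * H j s) atTop
        (𝓝 (∫ s in Ioc 0 t, A s * G s)) := by
      apply tendsto_integral_of_dominated_convergence (fun s => A s * G s)
        (fun j => (mA.mul (mH j)).aestronglyMeasurable) (jAG t)
      · intro j
        filter_upwards [ae_restrict_of_ae_restrict_of_subset (hsubI t) (hle j)] with s hs
        show ‖A s * H j s‖ ≤ A s * G s
        rw [Real.norm_eq_abs, abs_of_nonneg (mul_nonneg (pA s) (pH j s))]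
        exact mul_le_mul_of_nonneg_left (hs.1.trans hs.2.1) (pA s)
      · filter_upwards [ae_restrict_of_ae_restrict_of_subset (hsubI t) hlim] with s hs
        exact hs.const_mul (A s)
    exact le_of_tendsto_of_tendsto' hU (tendsto_const_nhds.sub hD) h1
  -- exponential solution
  set Gt : ℝ → ℝ := fun t => G0 * Real.exp (-∫ s in Ioc 0 t, A s)
      + ∫ s in Ioc 0 t, B s * Real.exp (-∫ r in Ioc s t, A r) with hGt
  have hmE : Measurable fun s : ℝ => Real.exp (∫ r in Ioc 0 s, A r) :=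
    Real.measurable_exp.comp hmonoA.measurable
  have hBE : ∀ t : ℝ, IntegrableOn (fun s => B s * Real.exp (∫ r in Ioc 0 s, A r)) (Ioc 0 t) := by
    intro t
    refine intOn_of_le (mB.mul hmE) (fun s => mul_nonneg (pB s) (Real.exp_pos _).le)
      ((jB t).mul_const (Real.exp (∫ r in Ioc 0 t, A r))) ?_
    filter_upwards [ae_restrict_mem measurableSet_Ioc] with s hs
    exact mul_le_mul_of_nonneg_left (Real.exp_le_exp.2 (hmonoA hs.2)) (pB s)
  have hGt' : ∀ t : ℝ, 0 ≤ t → Gt t = Real.exp (-∫ s in Ioc 0 t, A s) *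
      (G0 + ∫ s in Ioc 0 t, B s * Real.exp (∫ r in Ioc 0 s, A r)) := by
    intro t ht
    simp only [hGt]
    rw [mul_add, mul_comm G0, ← integral_const_mul]
    congr 1
    apply setIntegral_congr_fun measurableSet_Ioc
    intro s hs
    simp only
    rw [hAst hs.1.le hs.2, show -((∫ r in Ioc 0 t, A r) - ∫ r in Ioc 0 s, A r)
      = (-∫ r in Ioc 0 t, A r) + ∫ r in Ioc 0 s, A r by ring, Real.exp_add]
    ring
  have hGt0 : ∀ t : ℝ, 0 ≤ Gt t := by
    intro t
    apply add_nonneg (mul_nonneg pG0 (Real.exp_pos _).le)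
    exact setIntegral_nonneg measurableSet_Ioc fun s _ => mul_nonneg (pB s) (Real.exp_pos _).le
  have hle2 : ∀ᵐ t ∂(volume.restrict (Ioi (0 : ℝ))), Gt t ≤ G t := by
    filter_upwards [hsup, ae_restrict_mem measurableSet_Ioi] with t ht ht0
    have ht0' : (0 : ℝ) < t := ht0
    have hi : IntegrableOn (fun s => B s * Real.exp (-∫ r in Ioc s t, A r)) (Ioc 0 t) := by
      refine ((hBE t).const_mul (Real.exp (-∫ r in Ioc 0 t, A r))).congr ?_
      filter_upwards [ae_restrict_mem measurableSet_Ioc] with s hs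
      rw [hAst hs.1.le hs.2, show -((∫ r in Ioc 0 t, A r) - ∫ r in Ioc 0 s, A r)
        = (-∫ r in Ioc 0 t, A r) + ∫ r in Ioc 0 s, A r by ring, Real.exp_add]
      ring
    rw [← ofReal_integral_eq_lintegral_ofReal hi
      (ae_of_all _ fun s => mul_nonneg (pB s) (Real.exp_pos _).le),
      ← ENNReal.ofReal_add (mul_nonneg pG0 (Real.exp_pos _).le)
      (setIntegral_nonneg measurableSet_Ioc fun s _ => mul_nonneg (pB s) (Real.exp_pos _).le)] at ht
    exact (ENNReal.ofReal_le_ofReal_iff (pG t)).1 ht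
  have hmGt : Measurable fun t : ℝ => Real.exp (-∫ s in Ioc 0 t, A s) *
      (G0 + ∫ s in Ioc 0 t, B s * Real.exp (∫ r in Ioc 0 s, A r)) := by
    apply Measurable.mul
    · exact Real.measurable_exp.comp hmonoA.measurable.neg
    · apply Measurable.const_add
      apply Monotone.measurable
      intro s t hst
      exact setIntegral_mono_set (hBE t)
        (ae_of_all _ fun s => mul_nonneg (pB s) (Real.exp_pos _).le)
        (Ioc_subset_Ioc_right hst).eventuallyLE
  have jAGt : ∀ T : ℝ, IntegrableOn (fun s => A s * Gt s) (Ioc 0 T) := by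
    intro T
    have h1 : IntegrableOn (fun s => A s * (Real.exp (-∫ r in Ioc 0 s, A r) *
      (G0 + ∫ u in Ioc 0 s, B u * Real.exp (∫ r in Ioc 0 u, A r)))) (Ioc 0 T) := by
      refine Integrable.mono' (jAG T) (mA.mul hmGt).aestronglyMeasurable ?_
      filter_upwards [ae_restrict_of_ae_restrict_of_subset (hsubI T) hle2,
        ae_restrict_mem measurableSet_Ioc] with s hs hs2
      rw [← hGt' s hs2.1.le, Real.norm_eq_abs, abs_of_nonneg (mul_nonneg (pA s) (hGt0 s))]
      exact mul_le_mul_of_nonneg_left hs (pA s)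
    refine h1.congr ?_
    filter_upwards [ae_restrict_mem measurableSet_Ioc] with s hs
    rw [← hGt' s hs.1.le]
  refine ⟨iB, iAG, ?_⟩
  have hfin : ∀ n : ℕ, ∀ᵐ t ∂(volume.restrict (Ioc (0 : ℝ) n)),
      G t = G0 + ∫ s in Ioc 0 t, (B s - A s * G s) := by
    intro n
    have h1 := plain_of_exp (f := Gt) (b := B) (a := A) (f0 := G0) (T := n) (Nat.cast_nonneg n)
      (jB n) (jA n) (jAGt n) (ae_of_all _ fun t => rfl)
    filter_upwards [h1, ae_restrict_of_ae_restrict_of_subset (hsubI n) hle2,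
      ae_restrict_of_ae_restrict_of_subset (hsubI n) hsub,
      ae_restrict_mem measurableSet_Ioc] with t h2 h3 h4 ht
    rw [integral_sub (jB t) (jAGt t)] at h2
    have h5 : ∫ s in Ioc 0 t, A s * Gt s ≤ ∫ s in Ioc 0 t, A s * G s :=
      setIntegral_mono_ae_restrict (jAGt t) (jAG t)
        (ae_restrict_of_ae_restrict_of_subset (hsubI t)
          (hle2.mono fun s hs => mul_le_mul_of_nonneg_left hs (pA s)))
    have h6 : G t = Gt t := by linarith
    have h7 : ∫ s in Ioc 0 t, A s * Gt s = ∫ s in Ioc 0 t, A s * G s := by linarith only [h2, h3, h4, h5]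
    rw [integral_sub (jB t) (jAG t), h6, h2, h7]
  have hU : Ioi (0 : ℝ) = ⋃ n : ℕ, Ioc (0 : ℝ) n := by
    ext x
    simp only [mem_Ioi, mem_iUnion, mem_Ioc]
    constructor
    · intro hx
      obtain ⟨n, hn⟩ := exists_nat_ge x
      exact ⟨n, hx, hn⟩
    · rintro ⟨n, hn, _⟩
      exact hn
  rw [hU, ae_restrict_iUnion_iff]
  exact hfin

end Vale.Agent.P140.DL
end
end

section

open MeasureTheory Set Filter
open scoped ENNReal Topology NNReal

noncomputable section

namespace Vale.Agent.P140.DL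

variable {n : ℕ} {F0 : T3 → V → ℝ} {F : ℝ → T3 → V → ℝ}

theorem lintegral_tripleA4 {f : V × V × S2 → ℝ≥0∞} (hf : Measurable f) :
    ∫⁻ q, f q ∂((volume : Measure V).prod ((volume : Measure V).prod surf))
      = ∫⁻ v, ∫⁻ w, ∫⁻ o, f (v, w, o) ∂surf := by
  rw [lintegral_prod _ hf.aemeasurable]
  apply lintegral_congr
  intro v
  have h1 : Measurable fun z : V × S2 => f (v, z) := hf.comp (by fun_prop)
  rw [lintegral_prod _ h1.aemeasurable]

/-- swap of the two particles on the triple product -/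
def swapA4 (q : V × V × S2) : V × V × S2 := (q.2.1, q.1, q.2.2)

/-- the collision map on the triple product -/
def collA4 (q : V × V × S2) : V × V × S2 :=
  (post q.1 q.2.1 q.2.2, postStar q.1 q.2.1 q.2.2, q.2.2)

theorem measurable_swapA4 : Measurable swapA4 := by
  unfold swapA4
  fun_prop

theorem measurable_collA4 : Measurable collA4 :=
  measurable_post.prodMk (measurable_postStar.prodMk (measurable_snd.comp measurable_snd))

theorem measurePreserving_swapA4 : MeasurePreserving swapA4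
    ((volume : Measure V).prod ((volume : Measure V).prod surf))
    ((volume : Measure V).prod ((volume : Measure V).prod surf)) := by
  refine ⟨measurable_swapA4, ?_⟩
  apply Measure.ext_of_lintegral
  intro f hf
  have h1 := lintegral_tripleA4 (f := fun q => f (swapA4 q)) (hf.comp measurable_swapA4)
  rw [lintegral_map hf measurable_swapA4, h1, lintegral_tripleA4 hf]
  exact lintegral_swap hf

theorem measurePreserving_collA4 : MeasurePreserving collA4
    ((volume : Measure V).prod ((volume : Measure V).prod surf))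
    ((volume : Measure V).prod ((volume : Measure V).prod surf)) := by
  refine ⟨measurable_collA4, ?_⟩
  apply Measure.ext_of_lintegral
  intro f hf
  have h1 := lintegral_tripleA4 (f := fun q => f (collA4 q)) (hf.comp measurable_collA4)
  rw [lintegral_map hf measurable_collA4, h1, lintegral_tripleA4 hf]
  exact lintegral_coll hf

theorem integral_compA4 {T : V × V × S2 → V × V × S2} (hT : MeasurePreserving T
    ((volume : Measure V).prod ((volume : Measure V).prod surf))
    ((volume : Measure V).prod ((volume : Measure V).prod surf))) {f : V × V × S2 → ℝ}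
    (hf : Measurable f) :
    ∫ q, f (T q) ∂((volume : Measure V).prod ((volume : Measure V).prod surf))
      = ∫ q, f q ∂((volume : Measure V).prod ((volume : Measure V).prod surf)) := by
  have h := integral_map (μ := (volume : Measure V).prod ((volume : Measure V).prod surf))
    hT.measurable.aemeasurable (f := f) hf.aestronglyMeasurable
  rw [hT.map_eq] at h
  exact h.symm

theorem integrable_bN_mulA4 (n : ℕ) {h : V × V × S2 → ℝ} (hm : Measurable h) {C : ℝ}
    (hC : ∀ q : V × V × S2, bN n q.1 q.2.1 q.2.2 ≠ 0 → |h q| ≤ C) :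
    Integrable (fun q : V × V × S2 => bN n q.1 q.2.1 q.2.2 * h q)
      ((volume : Measure V).prod ((volume : Measure V).prod surf)) := by
  set S : Set (V × V × S2) :=
    Metric.closedBall 0 (n : ℝ) ×ˢ (Metric.closedBall 0 (n : ℝ) ×ˢ univ) with hS
  have hfin : ((volume : Measure V).prod ((volume : Measure V).prod surf)) S ≠ ⊤ := by
    rw [hS, Measure.prod_prod, Measure.prod_prod]
    exact (ENNReal.mul_lt_top measure_closedBall_lt_top
      (ENNReal.mul_lt_top measure_closedBall_lt_top (measure_lt_top _ _))).ne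
  have h1 : IntegrableOn (fun q : V × V × S2 => bN n q.1 q.2.1 q.2.2 * h q) S
      ((volume : Measure V).prod ((volume : Measure V).prod surf)) := by
    refine Measure.integrableOn_of_bounded (M := 2 * n * |C|) hfin
      ((measurable_bN n).mul hm).aestronglyMeasurable (Eventually.of_forall fun q => ?_)
    rw [Real.norm_eq_abs, abs_mul, abs_of_nonneg (bN_nonneg _ _ _ _)]
    by_cases hb : bN n q.1 q.2.1 q.2.2 = 0
    · rw [hb, zero_mul]
      (clear * -; positivity)
    · exact mul_le_mul (bN_le_two _ _ _ _) ((hC q hb).trans (le_abs_self C)) (abs_nonneg _)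
        (by (clear * -; positivity))
  refine (integrableOn_iff_integrable_of_support_subset fun q hq => ?_).mp h1
  have hb : bN n q.1 q.2.1 q.2.2 ≠ 0 := by
    intro h0
    apply hq
    simp only [h0, zero_mul]
  have hb' := bN_ne_zero hb
  rw [hS]
  exact ⟨mem_closedBall_zero_iff.mpr hb'.1, mem_closedBall_zero_iff.mpr hb'.2.1, mem_univ _⟩

theorem measurable_bN_sliceA4 (n : ℕ) (v : V) : Measurable fun z : V × S2 => bN n v z.1 z.2 := by
  have h1 : Measurable fun z : V × S2 => ((v, z) : V × V × S2) := measurable_prodMk_left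
  have h2 := (measurable_bN n).comp h1
  exact h2

theorem integrable_bN_sliceA4 (n : ℕ) (v : V) {h : V × S2 → ℝ} (hm : Measurable h) {C : ℝ}
    (hC : ∀ z : V × S2, bN n v z.1 z.2 ≠ 0 → |h z| ≤ C) :
    Integrable (fun z : V × S2 => bN n v z.1 z.2 * h z)
      ((volume : Measure V).prod surf) := by
  set S : Set (V × S2) := Metric.closedBall 0 (n : ℝ) ×ˢ univ with hS
  have hfin : ((volume : Measure V).prod surf) S ≠ ⊤ := by
    rw [hS, Measure.prod_prod]
    exact (ENNReal.mul_lt_top measure_closedBall_lt_top (measure_lt_top _ _)).ne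
  have hbm := measurable_bN_sliceA4 n v
  have h1 : IntegrableOn (fun z : V × S2 => bN n v z.1 z.2 * h z) S
      ((volume : Measure V).prod surf) := by
    refine Measure.integrableOn_of_bounded (M := 2 * n * |C|) hfin
      (hbm.mul hm).aestronglyMeasurable (Eventually.of_forall fun q => ?_)
    rw [Real.norm_eq_abs, abs_mul, abs_of_nonneg (bN_nonneg _ _ _ _)]
    by_cases hb : bN n v q.1 q.2 = 0
    · rw [hb, zero_mul]
      (clear * -; positivity)
    · exact mul_le_mul (bN_le_two _ _ _ _) ((hC q hb).trans (le_abs_self C)) (abs_nonneg _)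
        (by (clear * -; positivity))
  refine (integrableOn_iff_integrable_of_support_subset fun q hq => ?_).mp h1
  have hb : bN n v q.1 q.2 ≠ 0 := by
    intro h0
    apply hq
    simp only [h0, zero_mul]
  have hb' := bN_ne_zero hb
  rw [hS]
  exact ⟨mem_closedBall_zero_iff.mpr hb'.2.1, mem_univ _⟩

theorem toReal_sliceA4 (n : ℕ) (v : V) {h : V × S2 → ℝ} (hm : Measurable h) (h0 : ∀ z, 0 ≤ h z) :
    (∫⁻ w : V, ∫⁻ o : S2, ENNReal.ofReal (bN n v w o * h (w, o)) ∂surf).toReal
      = ∫ z, bN n v z.1 z.2 * h z ∂((volume : Measure V).prod surf) := by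
  have hbm := measurable_bN_sliceA4 n v
  rw [integral_eq_lintegral_of_nonneg_ae
    (Eventually.of_forall fun z => mul_nonneg (bN_nonneg _ _ _ _) (h0 z))
    (hbm.mul hm).aestronglyMeasurable,
    lintegral_prod (fun z : V × S2 => ENNReal.ofReal (bN n v z.1 z.2 * h z))
      (hbm.mul hm).ennreal_ofReal.aemeasurable]

/-- weak form of the truncated collision operator -/
theorem weak_form (n : ℕ) {g : V → ℝ} (hg : Measurable g) (g0 : ∀ v, 0 ≤ g v) {B : ℝ}
    (hB : ∀ v, ‖v‖ ≤ n → g v ≤ B) {φ : V → ℝ} (hφ : Measurable φ) {C : ℝ}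
    (bφ : ∀ v, ‖v‖ ≤ n → |φ v| ≤ C) :
    ∫ v in Metric.closedBall 0 (n : ℝ), φ v * ((gainP n g v).toReal - g v * (rateP n g v).toReal)
      = (pfN n g).toReal * ((1 / 4) * ∫ q : V × V × S2, bN n q.1 q.2.1 q.2.2 *
        (g (post q.1 q.2.1 q.2.2) * g (postStar q.1 q.2.1 q.2.2) - g q.1 * g q.2.1) *
        (φ q.1 + φ q.2.1 - φ (post q.1 q.2.1 q.2.2) - φ (postStar q.1 q.2.1 q.2.2))
        ∂((volume : Measure V).prod ((volume : Measure V).prod surf))) := by
  have hB0 : 0 ≤ B := (g0 0).trans (hB 0 (by simp only [norm_zero, Nat.cast_nonneg]))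
  have hC0 : 0 ≤ C := (abs_nonneg (φ 0)).trans (bφ 0 (by simp only [norm_zero, Nat.cast_nonneg]))
  have hgb : ∀ v, ‖v‖ ≤ n → |g v| ≤ B := fun v hv => by
    rw [abs_of_nonneg (g0 v)]
    exact hB v hv
  -- measurability
  have m1 : Measurable fun q : V × V × S2 => g (post q.1 q.2.1 q.2.2) := hg.comp measurable_post
  have m2 : Measurable fun q : V × V × S2 => g (postStar q.1 q.2.1 q.2.2) :=
    hg.comp measurable_postStar
  have m3 : Measurable fun q : V × V × S2 => g q.1 := hg.comp measurable_fst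
  have m4 : Measurable fun q : V × V × S2 => g q.2.1 :=
    hg.comp (measurable_fst.comp measurable_snd)
  have p1 : Measurable fun q : V × V × S2 => φ (post q.1 q.2.1 q.2.2) := hφ.comp measurable_post
  have p2 : Measurable fun q : V × V × S2 => φ (postStar q.1 q.2.1 q.2.2) :=
    hφ.comp measurable_postStar
  have p3 : Measurable fun q : V × V × S2 => φ q.1 := hφ.comp measurable_fst
  have p4 : Measurable fun q : V × V × S2 => φ q.2.1 :=
    hφ.comp (measurable_fst.comp measurable_snd)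
  set X : V × V × S2 → ℝ := fun q =>
    g (post q.1 q.2.1 q.2.2) * g (postStar q.1 q.2.1 q.2.2) - g q.1 * g q.2.1 with hX
  have mX : Measurable X := (m1.mul m2).sub (m3.mul m4)
  have bX : ∀ q : V × V × S2, bN n q.1 q.2.1 q.2.2 ≠ 0 → |X q| ≤ B * B + B * B := by
    intro q hq
    obtain ⟨h1, h2, h3, h4⟩ := bN_ne_zero hq
    refine (abs_sub _ _).trans ?_
    rw [abs_mul, abs_mul]
    exact add_le_add (mul_le_mul (hgb _ h3) (hgb _ h4) (abs_nonneg _) hB0)
      (mul_le_mul (hgb _ h1) (hgb _ h2) (abs_nonneg _) hB0)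
  have gen : ∀ a : V × V × S2 → ℝ, Measurable a →
      (∀ q : V × V × S2, bN n q.1 q.2.1 q.2.2 ≠ 0 → |a q| ≤ C) →
      Integrable (fun q : V × V × S2 => bN n q.1 q.2.1 q.2.2 * (X q * a q))
        ((volume : Measure V).prod ((volume : Measure V).prod surf)) := by
    intro a ha hab
    refine integrable_bN_mulA4 n (mX.mul ha) (C := (B * B + B * B) * C) fun q hq => ?_
    show |X q * a q| ≤ _
    rw [abs_mul]
    exact mul_le_mul (bX q hq) (hab q hq) (abs_nonneg _) (by (clear * - hB0; positivity))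
  have i1 := gen _ p3 fun q hq => bφ _ (bN_ne_zero hq).1
  have i2 := gen _ p4 fun q hq => bφ _ (bN_ne_zero hq).2.1
  have i3 := gen _ p1 fun q hq => bφ _ (bN_ne_zero hq).2.2.1
  have i4 := gen _ p2 fun q hq => bφ _ (bN_ne_zero hq).2.2.2
  have mb := measurable_bN n
  -- symmetries
  have e12 : ∫ q : V × V × S2, bN n q.1 q.2.1 q.2.2 * (X q * φ q.2.1)
        ∂((volume : Measure V).prod ((volume : Measure V).prod surf))
      = ∫ q : V × V × S2, bN n q.1 q.2.1 q.2.2 * (X q * φ q.1)
        ∂((volume : Measure V).prod ((volume : Measure V).prod surf)) := by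
    rw [← integral_compA4 measurePreserving_swapA4
      (f := fun q => bN n q.1 q.2.1 q.2.2 * (X q * φ q.1)) (mb.mul (mX.mul p3))]
    refine integral_congr_ae (Eventually.of_forall fun q => ?_)
    simp only [hX, swapA4]
    rw [post_swap q.1 q.2.1 q.2.2, postStar_swap q.1 q.2.1 q.2.2, bN_swap n q.1 q.2.1 q.2.2]
    ring
  have e13 : ∫ q : V × V × S2, bN n q.1 q.2.1 q.2.2 * (X q * φ (post q.1 q.2.1 q.2.2))
        ∂((volume : Measure V).prod ((volume : Measure V).prod surf))
      = - ∫ q : V × V × S2, bN n q.1 q.2.1 q.2.2 * (X q * φ q.1)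
        ∂((volume : Measure V).prod ((volume : Measure V).prod surf)) := by
    rw [← integral_compA4 measurePreserving_collA4
      (f := fun q => bN n q.1 q.2.1 q.2.2 * (X q * φ q.1)) (mb.mul (mX.mul p3)), ← integral_neg]
    refine integral_congr_ae (Eventually.of_forall fun q => ?_)
    simp only [collA4, hX, bN_post, post_post, postStar_post]
    ring
  have e24 : ∫ q : V × V × S2, bN n q.1 q.2.1 q.2.2 * (X q * φ (postStar q.1 q.2.1 q.2.2))
        ∂((volume : Measure V).prod ((volume : Measure V).prod surf))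
      = - ∫ q : V × V × S2, bN n q.1 q.2.1 q.2.2 * (X q * φ q.2.1)
        ∂((volume : Measure V).prod ((volume : Measure V).prod surf)) := by
    rw [← integral_compA4 measurePreserving_collA4
      (f := fun q => bN n q.1 q.2.1 q.2.2 * (X q * φ q.2.1)) (mb.mul (mX.mul p4)), ← integral_neg]
    refine integral_congr_ae (Eventually.of_forall fun q => ?_)
    simp only [collA4, hX, bN_post, post_post, postStar_post]
    ring
  have hR : ∫ q : V × V × S2, bN n q.1 q.2.1 q.2.2 *
        (g (post q.1 q.2.1 q.2.2) * g (postStar q.1 q.2.1 q.2.2) - g q.1 * g q.2.1) *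
        (φ q.1 + φ q.2.1 - φ (post q.1 q.2.1 q.2.2) - φ (postStar q.1 q.2.1 q.2.2))
        ∂((volume : Measure V).prod ((volume : Measure V).prod surf))
      = 4 * ∫ q : V × V × S2, bN n q.1 q.2.1 q.2.2 * (X q * φ q.1)
        ∂((volume : Measure V).prod ((volume : Measure V).prod surf)) := by
    have hsplit : ∀ q : V × V × S2, bN n q.1 q.2.1 q.2.2 *
        (g (post q.1 q.2.1 q.2.2) * g (postStar q.1 q.2.1 q.2.2) - g q.1 * g q.2.1) *
        (φ q.1 + φ q.2.1 - φ (post q.1 q.2.1 q.2.2) - φ (postStar q.1 q.2.1 q.2.2))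
        = bN n q.1 q.2.1 q.2.2 * (X q * φ q.1) + bN n q.1 q.2.1 q.2.2 * (X q * φ q.2.1)
          - bN n q.1 q.2.1 q.2.2 * (X q * φ (post q.1 q.2.1 q.2.2))
          - bN n q.1 q.2.1 q.2.2 * (X q * φ (postStar q.1 q.2.1 q.2.2)) := by
      intro q
      simp only [hX]
      ring
    have i12 : Integrable (fun q : V × V × S2 => bN n q.1 q.2.1 q.2.2 * (X q * φ q.1)
        + bN n q.1 q.2.1 q.2.2 * (X q * φ q.2.1))
        ((volume : Measure V).prod ((volume : Measure V).prod surf)) := i1.add i2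
    have i123 : Integrable (fun q : V × V × S2 => bN n q.1 q.2.1 q.2.2 * (X q * φ q.1)
        + bN n q.1 q.2.1 q.2.2 * (X q * φ q.2.1)
        - bN n q.1 q.2.1 q.2.2 * (X q * φ (post q.1 q.2.1 q.2.2)))
        ((volume : Measure V).prod ((volume : Measure V).prod surf)) := i12.sub i3
    rw [integral_congr_ae (Eventually.of_forall hsplit), integral_sub i123 i4,
      integral_sub i12 i3, integral_add i1 i2, e13, e24, e12]
    ring
  rw [hR]
  -- pointwise in v
  have hpt : ∀ v : V, φ v * ((gainP n g v).toReal - g v * (rateP n g v).toReal)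
      = (pfN n g).toReal * ∫ z : V × S2, bN n v z.1 z.2 * (X (v, z) * φ v)
        ∂((volume : Measure V).prod surf) := by
    intro v
    have mv : Measurable fun z : V × S2 => ((v, z) : V × V × S2) := by fun_prop
    have hgain : (gainN n g v).toReal = ∫ z : V × S2, bN n v z.1 z.2 *
        (g (post v z.1 z.2) * g (postStar v z.1 z.2)) ∂((volume : Measure V).prod surf) :=
      toReal_sliceA4 n v (h := fun z => g (post v z.1 z.2) * g (postStar v z.1 z.2))
        ((m1.mul m2).comp mv) fun z => mul_nonneg (g0 _) (g0 _)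
    have hrate : (rateN n g v).toReal = ∫ z : V × S2, bN n v z.1 z.2 * g z.1
        ∂((volume : Measure V).prod surf) :=
      toReal_sliceA4 n v (h := fun z => g z.1) (m4.comp mv) fun z => g0 _
    have j1 : Integrable (fun z : V × S2 => bN n v z.1 z.2 *
        (g (post v z.1 z.2) * g (postStar v z.1 z.2))) ((volume : Measure V).prod surf) :=
      integrable_bN_sliceA4 n v (h := fun z => g (post v z.1 z.2) * g (postStar v z.1 z.2))
        ((m1.mul m2).comp mv) (C := B * B) fun z hz => by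
        obtain ⟨h1, h2, h3, h4⟩ := bN_ne_zero hz
        rw [abs_mul]
        exact mul_le_mul (hgb _ h3) (hgb _ h4) (abs_nonneg _) hB0
    have j2 : Integrable (fun z : V × S2 => bN n v z.1 z.2 * g z.1)
        ((volume : Measure V).prod surf) :=
      integrable_bN_sliceA4 n v (h := fun z => g z.1) (m4.comp mv) (C := B) fun z hz =>
        hgb _ (bN_ne_zero hz).2.1
    unfold gainP rateP
    rw [ENNReal.toReal_mul, ENNReal.toReal_mul, hgain, hrate]
    have hs : ∀ z : V × S2, bN n v z.1 z.2 * (X (v, z) * φ v)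
        = φ v * (bN n v z.1 z.2 * (g (post v z.1 z.2) * g (postStar v z.1 z.2)))
          - (φ v * g v) * (bN n v z.1 z.2 * g z.1) := by
      intro z
      simp only [hX]
      ring
    rw [integral_congr_ae (Eventually.of_forall hs),
      integral_sub (j1.const_mul _) (j2.const_mul _), integral_const_mul, integral_const_mul]
    ring
  rw [integral_congr_ae (Eventually.of_forall hpt), integral_const_mul,
    setIntegral_eq_integral_of_forall_compl_eq_zero (fun v hv => by
      have hv' : (n : ℝ) < ‖v‖ := by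
        by_contra hcon
        exact hv (mem_closedBall_zero_iff.mpr (not_lt.mp hcon))
      simp only [bN_eq_zero hv', zero_mul, integral_zero])]
  rw [← integral_prod (fun q : V × V × S2 => bN n q.1 q.2.1 q.2.2 * (X q * φ q.1)) i1]
  ring

/-- conservation laws, pointwise in time and position -/
theorem coll_cons (n : ℕ) {g : V → ℝ} (hg : Measurable g) (g0 : ∀ v, 0 ≤ g v) {B : ℝ}
    (hB : ∀ v, ‖v‖ ≤ n → g v ≤ B) {φ : V → ℝ} (hφ : Measurable φ) {C : ℝ}
    (bφ : ∀ v, ‖v‖ ≤ n → |φ v| ≤ C)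
    (inv : ∀ v w o, φ (post v w o) + φ (postStar v w o) = φ v + φ w) :
    ∫ v in Metric.closedBall 0 (n : ℝ),
      φ v * ((gainP n g v).toReal - g v * (rateP n g v).toReal) = 0 := by
  rw [weak_form n hg g0 hB hφ bφ]
  have h0 : ∀ q : V × V × S2, bN n q.1 q.2.1 q.2.2 *
        (g (post q.1 q.2.1 q.2.2) * g (postStar q.1 q.2.1 q.2.2) - g q.1 * g q.2.1) *
        (φ q.1 + φ q.2.1 - φ (post q.1 q.2.1 q.2.2) - φ (postStar q.1 q.2.1 q.2.2)) = 0 := by
    intro q
    have h := inv q.1 q.2.1 q.2.2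
    rw [show φ q.1 + φ q.2.1 - φ (post q.1 q.2.1 q.2.2) - φ (postStar q.1 q.2.1 q.2.2) = 0 by
      linarith only [h], mul_zero]
  rw [integral_congr_ae (Eventually.of_forall h0), integral_zero]
  ring

theorem IsBM.meas_sliceA4 (h : IsBM n F0 F) (t : ℝ) : Measurable fun p : T3 × V => F t p.1 p.2 :=
  h.meas.comp (by fun_prop : Measurable fun p : T3 × V => (t, p))

theorem flow_preimageA4 (t : ℝ) (s : Set V) :
    flow t ⁻¹' (univ ×ˢ s) = (univ ×ˢ s : Set (T3 × V)) := by
  ext p
  simp only [mem_preimage, flow, mem_prod, mem_univ, true_and]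

theorem mp_flow_slowA4 (t : ℝ) {s : Set V} (hs : MeasurableSet s) :
    MeasurePreserving (flow t) ((volume : Measure (T3 × V)).restrict (univ ×ˢ s))
      ((volume : Measure (T3 × V)).restrict (univ ×ˢ s)) := by
  have h := (measurePreserving_flow t).restrict_preimage (MeasurableSet.univ.prod hs)
  rwa [flow_preimageA4] at h

theorem integral_flow_slowA4 (t : ℝ) {s : Set V} (hs : MeasurableSet s) (f : T3 × V → ℝ) :
    ∫ p in univ ×ˢ s, f (flow t p) = ∫ p in univ ×ˢ s, f p :=
  (mp_flow_slowA4 t hs).integral_comp (measurableEmbedding_flow t) f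

theorem lintegral_flow_slowA4 (t : ℝ) {s : Set V} (hs : MeasurableSet s) (f : T3 × V → ℝ≥0∞) :
    ∫⁻ p in univ ×ˢ s, f (flow t p) = ∫⁻ p in univ ×ˢ s, f p :=
  (mp_flow_slowA4 t hs).lintegral_comp_emb (measurableEmbedding_flow t) f

theorem volume_slow_lt_topA4 (n : ℕ) :
    (volume : Measure (T3 × V)) (univ ×ˢ Metric.closedBall 0 (n : ℝ)) < ⊤ := by
  rw [Measure.volume_eq_prod, Measure.prod_prod]
  exact ENNReal.mul_lt_top (measure_lt_top _ _) measure_closedBall_lt_top

theorem meas_slowA4 (n : ℕ) :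
    MeasurableSet (univ ×ˢ Metric.closedBall 0 (n : ℝ) : Set (T3 × V)) :=
  MeasurableSet.univ.prod Metric.isClosed_closedBall.measurableSet

/-- conservation of `∫ φ(v) F` for the slow particles -/
theorem IsBM.cons_ball (h : IsBM n F0 F) {φ : V → ℝ} (hφ : Measurable φ) {C : ℝ}
    (bφ : ∀ v, ‖v‖ ≤ n → |φ v| ≤ C)
    (inv : ∀ v w o, φ (post v w o) + φ (postStar v w o) = φ v + φ w) {t : ℝ} (ht : 0 ≤ t) :
    ∫ p : T3 × V in univ ×ˢ Metric.closedBall 0 (n : ℝ), φ p.2 * F t p.1 p.2
      = ∫ p : T3 × V in univ ×ˢ Metric.closedBall 0 (n : ℝ), φ p.2 * F0 p.1 p.2 := by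
  have hball : MeasurableSet (Metric.closedBall (0 : V) (n : ℝ)) :=
    Metric.isClosed_closedBall.measurableSet
  obtain ⟨B, hB⟩ := h.bdd t
  obtain ⟨D, hD⟩ := h.QN_bdd t
  have hC0 : 0 ≤ C := (abs_nonneg (φ 0)).trans (bφ 0 (by simp only [norm_zero, Nat.cast_nonneg]))
  have hφ2 : Measurable fun p : T3 × V => φ p.2 := hφ.comp measurable_snd
  have : IsFiniteMeasure ((volume : Measure (T3 × V)).restrict
      (univ ×ˢ Metric.closedBall 0 (n : ℝ))) :=
    ⟨by rw [Measure.restrict_apply_univ]; exact volume_slow_lt_topA4 n⟩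
  have hslow : ∀ᵐ p ∂((volume : Measure (T3 × V)).restrict
      (univ ×ˢ Metric.closedBall 0 (n : ℝ))), ‖p.2‖ ≤ n := by
    filter_upwards [ae_restrict_mem (meas_slowA4 n)] with p hp
    exact mem_closedBall_zero_iff.mp hp.2
  have e1 : ∫ p : T3 × V in univ ×ˢ Metric.closedBall 0 (n : ℝ), φ p.2 * F t p.1 p.2
      = ∫ p : T3 × V in univ ×ˢ Metric.closedBall 0 (n : ℝ),
        (φ p.2 * F0 p.1 p.2 + ∫ s in Ioc 0 t, φ p.2 * along (QN n F) (s, p)) := by
    rw [← integral_flow_slowA4 t hball]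
    refine integral_congr_ae (Eventually.of_forall fun p => ?_)
    have hm := h.mild p t ht
    show φ p.2 * along F (t, p)
      = φ p.2 * F0 p.1 p.2 + ∫ s in Ioc 0 t, φ p.2 * along (QN n F) (s, p)
    rw [hm, integral_const_mul]
    ring
  have iF0 : Integrable (fun p : T3 × V => φ p.2 * F0 p.1 p.2) ((volume : Measure (T3 × V)).restrict
      (univ ×ˢ Metric.closedBall 0 (n : ℝ))) := by
    refine Integrable.of_bound (hφ2.mul h.meas0).aestronglyMeasurable (C * B) ?_
    filter_upwards [hslow] with p hp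
    have hF0 : F0 p.1 p.2 ≤ B := by
      rw [← h.initial]
      exact hB 0 ⟨le_rfl, ht⟩ _ _ hp
    rw [norm_mul, Real.norm_eq_abs, Real.norm_eq_abs, abs_of_nonneg (h.nonneg0 _ _)]
    exact mul_le_mul (bφ _ hp) hF0 (h.nonneg0 _ _) hC0
  have iQ : Integrable (Function.uncurry fun (p : T3 × V) (s : ℝ) =>
      φ p.2 * along (QN n F) (s, p)) (((volume : Measure (T3 × V)).restrict
      (univ ×ˢ Metric.closedBall 0 (n : ℝ))).prod (volume.restrict (Ioc 0 t))) := by
    have mQ : Measurable fun z : (T3 × V) × ℝ => φ z.1.2 * along (QN n F) (z.2, z.1) :=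
      (hφ.comp (by fun_prop)).mul (h.meas_QN.comp (by fun_prop))
    refine Integrable.of_bound (C := C * D) mQ.aestronglyMeasurable ?_
    have h1 : ∀ᵐ z ∂(((volume : Measure (T3 × V)).restrict
        (univ ×ˢ Metric.closedBall 0 (n : ℝ))).prod (volume.restrict (Ioc 0 t))),
        ‖z.1.2‖ ≤ n ∧ z.2 ∈ Ioc 0 t := by
      rw [Measure.prod_restrict]
      filter_upwards [ae_restrict_mem ((meas_slowA4 n).prod measurableSet_Ioc)] with z hz
      exact ⟨mem_closedBall_zero_iff.mp hz.1.2, hz.2⟩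
    filter_upwards [h1] with z hz
    show ‖φ z.1.2 * along (QN n F) (z.2, z.1)‖ ≤ C * D
    rw [norm_mul, Real.norm_eq_abs, Real.norm_eq_abs]
    refine mul_le_mul (bφ _ hz.1) ?_ (abs_nonneg _) hC0
    exact (hD z.2 ⟨hz.2.1.le, hz.2.2⟩ _ _).2.2.1
  have e2 : ∫ p : T3 × V in univ ×ˢ Metric.closedBall 0 (n : ℝ),
      ∫ s in Ioc 0 t, φ p.2 * along (QN n F) (s, p) = 0 := by
    rw [integral_integral_swap iQ]
    have hz : ∀ᵐ s ∂(volume.restrict (Ioc 0 t)), ∫ p : T3 × V in
        univ ×ˢ Metric.closedBall 0 (n : ℝ), φ p.2 * along (QN n F) (s, p) = 0 := by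
      filter_upwards [ae_restrict_mem measurableSet_Ioc] with s hs
      have hs' : s ∈ Icc 0 t := ⟨hs.1.le, hs.2⟩
      have h3 : ∫ p : T3 × V in univ ×ˢ Metric.closedBall 0 (n : ℝ),
          φ p.2 * along (QN n F) (s, p)
          = ∫ p : T3 × V in univ ×ˢ Metric.closedBall 0 (n : ℝ),
            φ p.2 * QN n F s p.1 p.2 :=
        integral_flow_slowA4 s hball (fun p => φ p.2 * QN n F s p.1 p.2)
      rw [h3]
      have mQs : Measurable fun p : T3 × V => QN n F s p.1 p.2 := by
        have mf : Measurable fun q : T3 × V => F s q.1 q.2 := h.meas_sliceA4 s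
        exact (measurable_gainP n mf).ennreal_toReal.sub
          (mf.mul (measurable_rateP n mf).ennreal_toReal)
      have iQs : Integrable (fun p : T3 × V => φ p.2 * QN n F s p.1 p.2)
          ((volume : Measure T3).prod
            ((volume : Measure V).restrict (Metric.closedBall 0 (n : ℝ)))) := by
        have hr : (volume : Measure T3).prod
            ((volume : Measure V).restrict (Metric.closedBall 0 (n : ℝ)))
            = (volume : Measure (T3 × V)).restrict (univ ×ˢ Metric.closedBall 0 (n : ℝ)) := by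
          rw [Measure.volume_eq_prod, ← Measure.prod_restrict, Measure.restrict_univ]
        rw [hr]
        refine Integrable.of_bound (C := C * D) (hφ2.mul mQs).aestronglyMeasurable ?_
        filter_upwards [hslow] with p hp
        rw [norm_mul, Real.norm_eq_abs, Real.norm_eq_abs]
        exact mul_le_mul (bφ _ hp) (hD s hs' _ _).2.2.1 (abs_nonneg _) hC0
      rw [Measure.volume_eq_prod, ← Measure.prod_restrict, Measure.restrict_univ,
        integral_prod _ iQs]
      have hx : ∀ x : T3, ∫ v in Metric.closedBall 0 (n : ℝ), φ v * QN n F s x v = 0 := fun x =>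
        coll_cons n (measurable_slice h.meas s x) (h.nonneg s x) (hB s hs' x) hφ bφ inv
      simp only [hx, integral_zero]
    rw [integral_congr_ae hz, integral_zero]
  have iP : Integrable (fun p : T3 × V => ∫ s in Ioc 0 t, φ p.2 * along (QN n F) (s, p))
      ((volume : Measure (T3 × V)).restrict (univ ×ˢ Metric.closedBall 0 (n : ℝ))) :=
    iQ.integral_prod_left
  rw [e1, integral_add iF0 iP, e2, add_zero]

/-- the fast particles are transported -/
theorem IsBM.fast_lintegralA4 (h : IsBM n F0 F) (ψ : V → ℝ≥0∞) {t : ℝ} (ht : 0 ≤ t) :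
    ∫⁻ p : T3 × V in univ ×ˢ (Metric.closedBall 0 (n : ℝ))ᶜ, ψ p.2 * ENNReal.ofReal (F t p.1 p.2)
      = ∫⁻ p : T3 × V in univ ×ˢ (Metric.closedBall 0 (n : ℝ))ᶜ,
        ψ p.2 * ENNReal.ofReal (F0 p.1 p.2) := by
  have hball : MeasurableSet (Metric.closedBall (0 : V) (n : ℝ))ᶜ :=
    Metric.isClosed_closedBall.measurableSet.compl
  rw [← lintegral_flow_slowA4 t hball]
  refine setLIntegral_congr_fun (MeasurableSet.univ.prod hball) fun p hp => ?_
  have hp' : (n : ℝ) < ‖p.2‖ := by
    by_contra hcon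
    exact hp.2 (mem_closedBall_zero_iff.mpr (not_lt.mp hcon))
  show ψ p.2 * ENNReal.ofReal (along F (t, p)) = _
  rw [h.eq_of_lt hp' ht]

theorem slow_complA4 (n : ℕ) : (univ ×ˢ Metric.closedBall 0 (n : ℝ) : Set (T3 × V))ᶜ
    = univ ×ˢ (Metric.closedBall 0 (n : ℝ))ᶜ := by
  ext p
  simp only [mem_compl_iff, mem_prod, mem_univ, Metric.mem_closedBall, dist_zero_right, true_and, not_le]

/-- conservation of nonnegative collision invariants -/
theorem IsBM.wInt_eq (h : IsBM n F0 F) {ψ : V → ℝ} (hψ : Measurable ψ) (ψ0 : ∀ v, 0 ≤ ψ v) {C : ℝ}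
    (bψ : ∀ v, ‖v‖ ≤ n → |ψ v| ≤ C)
    (inv : ∀ v w o, ψ (post v w o) + ψ (postStar v w o) = ψ v + ψ w) {t : ℝ} (ht : 0 ≤ t) :
    wInt (fun v => ENNReal.ofReal (ψ v)) (F t) = wInt (fun v => ENNReal.ofReal (ψ v)) F0 := by
  have hC0 : 0 ≤ C := (abs_nonneg (ψ 0)).trans (bψ 0 (by simp only [norm_zero, Nat.cast_nonneg]))
  have hψ2 : Measurable fun p : T3 × V => ψ p.2 := hψ.comp measurable_snd
  have : IsFiniteMeasure ((volume : Measure (T3 × V)).restrict
      (univ ×ˢ Metric.closedBall 0 (n : ℝ))) :=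
    ⟨by rw [Measure.restrict_apply_univ]; exact volume_slow_lt_topA4 n⟩
  obtain ⟨B, hB⟩ := h.bdd t
  have key : ∀ G : T3 → V → ℝ, (Measurable fun p : T3 × V => G p.1 p.2) → (∀ x v, 0 ≤ G x v) →
      (∀ x v, ‖v‖ ≤ n → G x v ≤ B) →
      ∫⁻ p : T3 × V in univ ×ˢ Metric.closedBall 0 (n : ℝ),
        ENNReal.ofReal (ψ p.2) * ENNReal.ofReal (G p.1 p.2)
      = ENNReal.ofReal (∫ p : T3 × V in univ ×ˢ Metric.closedBall 0 (n : ℝ),
        ψ p.2 * G p.1 p.2) := by
    intro G mG G0 hG
    rw [ofReal_integral_eq_lintegral_ofReal]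
    · refine lintegral_congr fun p => ?_
      rw [ENNReal.ofReal_mul (ψ0 _)]
    · refine Integrable.of_bound (C := C * B) (hψ2.mul mG).aestronglyMeasurable ?_
      filter_upwards [ae_restrict_mem (meas_slowA4 n)] with p hp
      have hp' : ‖p.2‖ ≤ n := mem_closedBall_zero_iff.mp hp.2
      rw [norm_mul, Real.norm_eq_abs, Real.norm_eq_abs, abs_of_nonneg (G0 _ _)]
      exact mul_le_mul (bψ _ hp') (hG _ _ hp') (G0 _ _) hC0
    · exact Eventually.of_forall fun p => mul_nonneg (ψ0 _) (G0 _ _)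
  have hfast := h.fast_lintegralA4 (fun v => ENNReal.ofReal (ψ v)) ht
  have hslow : ∫⁻ p : T3 × V in univ ×ˢ Metric.closedBall 0 (n : ℝ),
        ENNReal.ofReal (ψ p.2) * ENNReal.ofReal (F t p.1 p.2)
      = ∫⁻ p : T3 × V in univ ×ˢ Metric.closedBall 0 (n : ℝ),
        ENNReal.ofReal (ψ p.2) * ENNReal.ofReal (F0 p.1 p.2) := by
    rw [key (F t) (h.meas_sliceA4 t) (h.nonneg t) (hB t ⟨ht, le_rfl⟩),
      key F0 h.meas0 h.nonneg0 (fun x v hv => by
        rw [← h.initial]
        exact hB 0 ⟨le_rfl, ht⟩ _ _ hv),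
      h.cons_ball hψ bψ inv ht]
  have hsplit : ∀ G : T3 → V → ℝ, wInt (fun v => ENNReal.ofReal (ψ v)) G
      = (∫⁻ p : T3 × V in univ ×ˢ Metric.closedBall 0 (n : ℝ),
          ENNReal.ofReal (ψ p.2) * ENNReal.ofReal (G p.1 p.2))
        + ∫⁻ p : T3 × V in univ ×ˢ (Metric.closedBall 0 (n : ℝ))ᶜ,
          ENNReal.ofReal (ψ p.2) * ENNReal.ofReal (G p.1 p.2) := by
    intro G
    unfold wInt
    rw [← lintegral_add_compl _ (meas_slowA4 n), slow_complA4]
  rw [hsplit, hsplit, hslow, hfast]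

theorem IsBM.mass (h : IsBM n F0 F) {t : ℝ} (ht : 0 ≤ t) : wInt psi0 (F t) = wInt psi0 F0 := by
  have h1 := h.wInt_eq (ψ := fun _ => 1) measurable_const (fun _ => zero_le_one) (C := 1)
    (fun _ _ => by simp) (fun _ _ _ => rfl) ht
  have h2 : (fun _ : V => ENNReal.ofReal 1) = psi0 := by
    funext v
    simp [psi0]
  rw [h2] at h1
  exact h1

theorem IsBM.energy (h : IsBM n F0 F) {t : ℝ} (ht : 0 ≤ t) : wInt psi2 (F t) = wInt psi2 F0 := by
  refine h.wInt_eq (ψ := fun v => 1 + ‖v‖ ^ 2) (by fun_prop) (fun v => by positivity)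
    (C := 1 + (n : ℝ) ^ 2) (fun v hv => ?_) (fun v w o => ?_) ht
  · rw [abs_of_nonneg (by positivity)]
    gcongr
  · have := energy_post v w o
    linarith

/-- integrability of the momentum density -/
theorem integrable_momentumA4 {G : T3 → V → ℝ} (mG : Measurable fun p : T3 × V => G p.1 p.2)
    (G0 : ∀ x v, 0 ≤ G x v) (hG : wInt psi2 G < ⊤) :
    Integrable fun p : T3 × V => G p.1 p.2 • p.2 := by
  refine ⟨(mG.smul measurable_snd).aestronglyMeasurable, ?_⟩
  refine lt_of_le_of_lt (lintegral_mono fun p => ?_) hG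
  rw [← ofReal_norm, norm_smul, Real.norm_eq_abs, abs_of_nonneg (G0 _ _), mul_comm,
    ENNReal.ofReal_mul (norm_nonneg _)]
  exact mul_le_mul_left (norm_le_psi2 p.2) _

theorem IsBM.momentum (h : IsBM n F0 F) (hm : wInt psi2 F0 < ⊤) {t : ℝ} (ht : 0 ≤ t) :
    ∫ p : T3 × V, F t p.1 p.2 • p.2 = ∫ p : T3 × V, F0 p.1 p.2 • p.2 := by
  have hball : MeasurableSet (Metric.closedBall (0 : V) (n : ℝ))ᶜ :=
    Metric.isClosed_closedBall.measurableSet.compl
  have i1 := integrable_momentumA4 (h.meas_sliceA4 t) (h.nonneg t) ((h.energy ht).symm ▸ hm)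
  have i0 := integrable_momentumA4 h.meas0 h.nonneg0 hm
  refine ext_inner_left ℝ fun c => ?_
  rw [← integral_inner i1, ← integral_inner i0]
  have j1 : Integrable fun p : T3 × V => inner ℝ c (F t p.1 p.2 • p.2) := i1.const_inner c
  have j0 : Integrable fun p : T3 × V => inner ℝ c (F0 p.1 p.2 • p.2) := i0.const_inner c
  have hs : ∀ (G : T3 → V → ℝ) (p : T3 × V), inner ℝ c (G p.1 p.2 • p.2)
      = inner ℝ c p.2 * G p.1 p.2 := by
    intro G p
    rw [inner_smul_right, mul_comm]
  rw [← integral_add_compl (meas_slowA4 n) j1, ← integral_add_compl (meas_slowA4 n) j0, slow_complA4]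
  simp only [hs]
  congr 1
  · refine h.cons_ball (φ := fun v => inner ℝ c v) (by (clear * -; fun_prop)) (C := ‖c‖ * n)
      (fun v hv => ?_) (fun v w o => ?_) ht
    · exact (abs_real_inner_le_norm _ _).trans (mul_le_mul_of_nonneg_left hv (norm_nonneg _))
    · rw [← inner_add_right, ← inner_add_right, momentum_post]
  · rw [← integral_flow_slowA4 t hball]
    refine setIntegral_congr_fun (MeasurableSet.univ.prod hball) fun p hp => ?_
    have hp' : (n : ℝ) < ‖p.2‖ := by
      by_contra hcon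
      exact hp.2 (mem_closedBall_zero_iff.mpr (not_lt.mp hcon))
    show inner ℝ c p.2 * along F (t, p) = _
    rw [h.eq_of_lt hp' ht]

end Vale.Agent.P140.DL
end
end

section

open MeasureTheory Set Filter
open scoped ENNReal Topology NNReal

noncomputable section

namespace Vale.Agent.P140

theorem isOpenQuotientMap_toTorus : IsOpenQuotientMap toTorus := by
  have h : IsOpenQuotientMap (fun (x : Fin 3 → ℝ) (i : Fin 3) => ((x i : ℝ) : UnitAddCircle)) :=
    IsOpenQuotientMap.piMap fun _ => QuotientAddGroup.isOpenQuotientMap_mk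
  have h2 : IsOpenQuotientMap (EuclideanSpace.equiv (Fin 3) ℝ) :=
    (EuclideanSpace.equiv (Fin 3) ℝ).toHomeomorph.isOpenQuotientMap
  exact h.comp h2

theorem exists_lift (x : T3) : ∃ y : V, toTorus y = x ∧ ‖y‖ ≤ 2 := by
  obtain ⟨z, rfl⟩ := surjective_toTorus x
  refine ⟨WithLp.toLp 2 fun i => Int.fract (z i), ?_, ?_⟩
  · ext i
    show ((Int.fract (z i) : ℝ) : UnitAddCircle) = ((z i : ℝ) : UnitAddCircle)
    have h1 : ((⌊z i⌋ : ℝ) : UnitAddCircle) = 0 := by
      rw [AddCircle.coe_eq_zero_iff]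
      exact ⟨⌊z i⌋, by simp only [zsmul_eq_mul, mul_one]⟩
    rw [Int.fract, AddCircle.coe_sub, h1, sub_zero]
  · rw [EuclideanSpace.norm_eq]
    apply Real.sqrt_le_iff.mpr
    refine ⟨by norm_num, ?_⟩
    have h1 : ∀ i : Fin 3, ‖Int.fract (z i)‖ ^ 2 ≤ 1 := by
      intro i
      rw [Real.norm_of_nonneg (Int.fract_nonneg _)]
      have h2 := Int.fract_nonneg (z i)
      have h3 := (Int.fract_lt_one (z i)).le
      linarith [mul_nonneg (sub_nonneg.2 h3) (sub_nonneg.2 h3), mul_nonneg (sub_nonneg.2 h2) (sub_nonneg.2 h3)]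
    rw [Fin.sum_univ_three]
    have := h1 0
    have := h1 1
    have := h1 2
    simp only [PiLp.toLp_apply] at *
    linarith

section

variable {φ : ℝ → T3 → ℝ}

theorem IsTestX.continuous (h : IsTestX φ) : Continuous fun q : ℝ × T3 => φ q.1 q.2 := by
  have hq : IsOpenQuotientMap (Prod.map (id : ℝ → ℝ) toTorus) :=
    IsOpenQuotientMap.id.prodMap isOpenQuotientMap_toTorus
  rw [hq.isQuotientMap.continuous_iff]
  exact h.smooth.continuous

theorem IsTestX.hasDerivAt_lift (h : IsTestX φ) (t : ℝ) (y v : V) :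
    HasDerivAt (fun s : ℝ => φ s (toTorus (y + s • v)))
      (fderiv ℝ (fun p : ℝ × V => φ p.1 (toTorus p.2)) (t, y + t • v) (1, v)) t := by
  have h1 : HasDerivAt (fun s : ℝ => ((s, y + s • v) : ℝ × V)) (1, v) t := by
    apply HasDerivAt.prodMk (hasDerivAt_id t)
    have := ((hasDerivAt_id t).smul_const v).const_add y
    simpa using this
  have h2 : HasFDerivAt (fun p : ℝ × V => φ p.1 (toTorus p.2))
      (fderiv ℝ (fun p : ℝ × V => φ p.1 (toTorus p.2)) (t, y + t • v)) (t, y + t • v) :=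
    (h.smooth.differentiable (by simp)).differentiableAt.hasFDerivAt
  exact h2.comp_hasDerivAt t h1

theorem IsTestX.transport_eq (h : IsTestX φ) (t : ℝ) (y v : V) :
    transport φ t (toTorus y) v
      = fderiv ℝ (fun p : ℝ × V => φ p.1 (toTorus p.2)) (t, y) (1, v) := by
  unfold transport
  have h1 := h.hasDerivAt_lift t (y - t • v) v
  rw [sub_add_cancel] at h1
  have h2 : HasDerivAt (fun s : ℝ => φ (t + s) (toTorus (y - t • v + (t + s) • v)))
      (fderiv ℝ (fun p : ℝ × V => φ p.1 (toTorus p.2)) (t, y) (1, v)) 0 := by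
    have h3 : HasDerivAt (fun s : ℝ => φ s (toTorus (y - t • v + s • v)))
      (fderiv ℝ (fun p : ℝ × V => φ p.1 (toTorus p.2)) (t, y) (1, v)) (t + 0) := by
      rwa [add_zero]
    exact h3.comp_const_add t 0
  rw [← h2.deriv]
  congr 1
  funext s
  rw [← toTorus_add]
  congr 2
  rw [add_smul]
  abel

/-- derivative along free flow -/
theorem IsTestX.hasDerivAt_line (h : IsTestX φ) (x : T3) (v : V) (t : ℝ) :
    HasDerivAt (fun s : ℝ => φ s (x + toTorus (s • v)))
      (transport φ t (x + toTorus (t • v)) v) t := by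
  obtain ⟨y, rfl⟩ := surjective_toTorus x
  rw [← toTorus_add, h.transport_eq]
  simp_rw [← toTorus_add]
  exact h.hasDerivAt_lift t y v

theorem IsTestX.contDiff_line (h : IsTestX φ) (x : T3) (v : V) :
    ContDiff ℝ (⊤ : ℕ∞) (fun s : ℝ => φ s (x + toTorus (s • v))) := by
  obtain ⟨y, rfl⟩ := surjective_toTorus x
  simp_rw [← toTorus_add]
  exact h.smooth.comp (contDiff_id.prodMk (contDiff_const.add (contDiff_id.smul contDiff_const)))

theorem IsTestX.continuous_transport (h : IsTestX φ) :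
    Continuous fun q : ℝ × T3 × V => transport φ q.1 q.2.1 q.2.2 := by
  have hq : IsOpenQuotientMap (Prod.map (id : ℝ → ℝ) (Prod.map toTorus (id : V → V))) :=
    IsOpenQuotientMap.id.prodMap (isOpenQuotientMap_toTorus.prodMap IsOpenQuotientMap.id)
  rw [hq.isQuotientMap.continuous_iff]
  have h1 : ((fun q : ℝ × T3 × V => transport φ q.1 q.2.1 q.2.2) ∘
      Prod.map (id : ℝ → ℝ) (Prod.map toTorus (id : V → V)))
      = fun q : ℝ × V × V => fderiv ℝ (fun p : ℝ × V => φ p.1 (toTorus p.2)) (q.1, q.2.1)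
        (1, q.2.2) := by
    funext q
    exact h.transport_eq q.1 q.2.1 q.2.2
  rw [h1]
  apply Continuous.clm_apply
  · exact (h.smooth.continuous_fderiv (by simp)).comp (by fun_prop)
  · fun_prop

theorem IsTestX.measurable_transport (h : IsTestX φ) :
    Measurable fun q : ℝ × T3 × V => transport φ q.1 q.2.1 q.2.2 :=
  h.continuous_transport.measurable

theorem transport_eq_zero {R : ℝ} (hR : ∀ t x, R < |t| → φ t x = 0) {t : ℝ} (ht : R < |t|)
    (x : T3) (v : V) : transport φ t x v = 0 := by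
  unfold transport
  have h1 : (fun s : ℝ => φ (t + s) (x + toTorus (s • v))) =ᶠ[𝓝 0] fun _ => 0 := by
    have h2 : ∀ᶠ s : ℝ in 𝓝 0, R < |t + s| := by
      have h3 : ContinuousAt (fun s : ℝ => |t + s|) 0 := by (clear * -; fun_prop)
      apply h3.eventually_const_lt
      simpa using ht
    filter_upwards [h2] with s hs
    exact hR _ _ hs
  rw [h1.deriv_eq, deriv_const]

theorem IsTestX.exists_time (h : IsTestX φ) : ∃ T : ℝ, 0 < T ∧ (∀ t x, T ≤ |t| → φ t x = 0) ∧
    ∀ t x v, T ≤ |t| → transport φ t x v = 0 := by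
  obtain ⟨R, hR⟩ := h.compact
  have h1 : R < |R| + 1 := by
    have := le_abs_self R
    linarith
  refine ⟨|R| + 1, by positivity, fun t x ht => hR t x (h1.trans_le ht), fun t x v ht =>
    transport_eq_zero hR (h1.trans_le ht) x v⟩

theorem IsTestX.bounded (h : IsTestX φ) : ∃ C : ℝ, 0 ≤ C ∧ ∀ t x, |φ t x| ≤ C := by
  obtain ⟨T, hT, h0, -⟩ := h.exists_time
  obtain ⟨C, hC⟩ := (isCompact_Icc (a := -T) (b := T)).prod (isCompact_closedBall (0 : V) 2)
    |>.exists_bound_of_continuousOn h.smooth.continuous.continuousOn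
  refine ⟨|C|, abs_nonneg _, fun t x => ?_⟩
  rcases le_total T |t| with ht | ht
  · rw [h0 t x ht, abs_zero]
    exact abs_nonneg _
  · obtain ⟨y, rfl, hy⟩ := exists_lift x
    have h1 := hC (t, y) ⟨abs_le.mp ht, by simpa only [Metric.mem_closedBall, dist_zero_right] using hy⟩
    exact h1.trans (le_abs_self C)

theorem IsTestX.transport_bound (h : IsTestX φ) :
    ∃ C : ℝ, 0 ≤ C ∧ ∀ t x v, |transport φ t x v| ≤ C * (1 + ‖v‖) := by
  obtain ⟨T, hT, -, h0⟩ := h.exists_time
  obtain ⟨C, hC⟩ := (isCompact_Icc (a := -T) (b := T)).prod (isCompact_closedBall (0 : V) 2)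
    |>.exists_bound_of_continuousOn (h.smooth.continuous_fderiv (by simp)).continuousOn
  refine ⟨|C|, abs_nonneg _, fun t x v => ?_⟩
  have hv := norm_nonneg v
  rcases le_total T |t| with ht | ht
  · rw [h0 t x v ht, abs_zero]
    positivity
  · obtain ⟨y, rfl, hy⟩ := exists_lift x
    have h1 := hC (t, y) ⟨abs_le.mp ht, by simpa only [Metric.mem_closedBall, dist_zero_right] using hy⟩
    rw [h.transport_eq]
    have h2 : ‖((1 : ℝ), v)‖ ≤ 1 + ‖v‖ := by
      rw [Prod.norm_def]
      apply max_le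
      · simp only [norm_one, le_add_iff_nonneg_right, norm_nonneg]
      · simp only [le_add_iff_nonneg_left, zero_le_one]
    calc |fderiv ℝ (fun p : ℝ × V => φ p.1 (toTorus p.2)) (t, y) (1, v)|
        ≤ ‖fderiv ℝ (fun p : ℝ × V => φ p.1 (toTorus p.2)) (t, y)‖ * ‖((1 : ℝ), v)‖ :=
          (fderiv ℝ (fun p : ℝ × V => φ p.1 (toTorus p.2)) (t, y)).le_opNorm _
      _ ≤ |C| * (1 + ‖v‖) := by
          apply mul_le_mul (h1.trans (le_abs_self C)) h2 (norm_nonneg _) (abs_nonneg _)

end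

end Vale.Agent.P140
end
end

section

open MeasureTheory Set Filter
open scoped ENNReal Topology NNReal

noncomputable section

namespace Vale.Agent.P140.DL

variable {n : ℕ} {F0 : T3 → V → ℝ} {F : ℝ → T3 → V → ℝ}

theorem a5_QN_eq_zero (F : ℝ → T3 → V → ℝ) (t : ℝ) (x : T3) {v : V} (hv : (n : ℝ) < ‖v‖) :
    QN n F t x v = 0 := by
  unfold QN gainP rateP
  rw [gainN_eq_zero hv, rateN_eq_zero hv]
  simp

theorem measurable_QN {F : ℝ → T3 → V → ℝ} (n : ℕ)
    (hF : Measurable fun p : ℝ × T3 × V => F p.1 p.2.1 p.2.2) :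
    Measurable fun q : ℝ × T3 × V => QN n F q.1 q.2.1 q.2.2 := by
  have h0 : Measurable fun q : (ℝ × T3) × V => F q.1.1 q.1.2 q.2 :=
    hF.comp (measurable_fst.fst.prodMk (measurable_fst.snd.prodMk measurable_snd))
  have hg : Measurable fun q : (ℝ × T3) × V => gainP n (F q.1.1 q.1.2) q.2 :=
    measurable_gainP (α := ℝ × T3) (f := fun a => F a.1 a.2) n h0
  have hr : Measurable fun q : (ℝ × T3) × V => rateP n (F q.1.1 q.1.2) q.2 :=
    measurable_rateP (α := ℝ × T3) (f := fun a => F a.1 a.2) n h0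
  have hc : Measurable fun q : ℝ × T3 × V => (((q.1, q.2.1), q.2.2) : (ℝ × T3) × V) := by fun_prop
  have hg2 := hg.comp hc
  have hr2 := hr.comp hc
  have e1 : ((fun q : (ℝ × T3) × V => gainP n (F q.1.1 q.1.2) q.2) ∘
      fun q : ℝ × T3 × V => (((q.1, q.2.1), q.2.2) : (ℝ × T3) × V))
      = fun q : ℝ × T3 × V => gainP n (F q.1 q.2.1) q.2.2 := by
    funext p
    rfl
  have e2 : ((fun q : (ℝ × T3) × V => rateP n (F q.1.1 q.1.2) q.2) ∘
      fun q : ℝ × T3 × V => (((q.1, q.2.1), q.2.2) : (ℝ × T3) × V))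
      = fun q : ℝ × T3 × V => rateP n (F q.1 q.2.1) q.2.2 := by
    funext p
    rfl
  rw [e1] at hg2
  rw [e2] at hr2
  unfold QN
  exact hg2.ennreal_toReal.sub (hF.mul hr2.ennreal_toReal)

theorem IsBM.integral_QN (h : IsBM n F0 F) {t : ℝ} (ht : 0 ≤ t) (x : T3) :
    ∫ v : V, QN n F t x v = 0 := by
  obtain ⟨B, hB⟩ := h.bdd t
  have h1 := coll_cons n (measurable_slice h.meas t x) (h.nonneg t x)
    (fun v hv => hB t ⟨ht, le_rfl⟩ x v hv) (φ := fun _ => 1) measurable_const (C := 1)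
    (fun _ _ => by simp only [abs_one, Std.le_refl]) (fun _ _ _ => rfl)
  rw [← h1, setIntegral_eq_integral_of_forall_compl_eq_zero]
  · simp only [one_mul]
    rfl
  · intro v hv
    have hv2 : (n : ℝ) < ‖v‖ := by simpa only [Metric.mem_closedBall, dist_zero_right, not_le] using hv
    have h2 := a5_QN_eq_zero (n := n) F t x hv2
    rw [one_mul]
    exact h2

/-- integration by parts on one line -/
theorem IsBM.line_identity (h : IsBM n F0 F) {φ : ℝ → T3 → ℝ} (hφ : IsTestX φ) {T : ℝ}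
    (hT : 0 < T) (h0 : ∀ t x, T ≤ |t| → φ t x = 0) (p : T3 × V) :
    ∫ t in Ioc 0 T, along F (t, p) * transport φ t (p.1 + toTorus (t • p.2)) p.2
      = -(∫ t in Ioc 0 T, along (QN n F) (t, p) * φ t (p.1 + toTorus (t • p.2)))
        - F0 p.1 p.2 * φ 0 p.1 := by
  have hr : IntervalIntegrable (fun s => along (QN n F) (s, p)) volume 0 T :=
    (intervalIntegrable_iff_integrableOn_Ioc_of_le hT.le).mpr (h.QN_integrable p T)
  have h1 := ibp_primitive (r := fun s => along (QN n F) (s, p))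
    (z := fun s => φ s (p.1 + toTorus (s • p.2)))
    (θ := fun s => transport φ s (p.1 + toTorus (s • p.2)) p.2) hT.le hr
    ((hφ.contDiff_line p.1 p.2).of_le (by simp only [WithTop.one_le_coe, le_top])).contDiffOn
    (fun t _ => hφ.hasDerivAt_line p.1 p.2 t)
    (h0 T _ (le_abs_self T)) (F0 p.1 p.2)
  rw [intervalIntegral.integral_of_le hT.le, intervalIntegral.integral_of_le hT.le] at h1
  simp only [zero_smul, toTorus_zero, add_zero] at h1
  have h2 : ∫ t in Ioc 0 T, along F (t, p) * transport φ t (p.1 + toTorus (t • p.2)) p.2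
      = ∫ t in Ioc 0 T, transport φ t (p.1 + toTorus (t • p.2)) p.2
        * (F0 p.1 p.2 + ∫ s in (0:ℝ)..t, along (QN n F) (s, p)) := by
    apply setIntegral_congr_fun measurableSet_Ioc
    intro t ht
    simp only
    rw [h.mild p t ht.1.le, intervalIntegral.integral_of_le ht.1.le, mul_comm]
  rw [h2]
  linarith only [h1]

theorem IsBM.integrable_psi2 (h : IsBM n F0 F) (hm : wInt psi2 F0 < ⊤) (T : ℝ) {C : ℝ}
    {g : ℝ × T3 × V → ℝ} (mg : Measurable g)
    (hg : ∀ q, |g q| ≤ C * (1 + ‖q.2.2‖)) :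
    Integrable (fun q : ℝ × T3 × V => F q.1 q.2.1 q.2.2 * g q)
      ((volume.restrict (Ioc 0 T)).prod volume) := by
  have hC : 0 ≤ C := by
    have h1 := (abs_nonneg _).trans (hg (0, 0, 0))
    simpa only [ge_iff_le, norm_zero, add_zero, mul_one] using h1
  refine ⟨(h.meas.mul mg).aestronglyMeasurable, ?_⟩
  unfold HasFiniteIntegral
  have h1 : ∀ q : ℝ × T3 × V, ‖F q.1 q.2.1 q.2.2 * g q‖ₑ
      ≤ ENNReal.ofReal (2 * C) * (psi2 q.2.2 * ENNReal.ofReal (F q.1 q.2.1 q.2.2)) := by
    intro q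
    have hF := h.nonneg q.1 q.2.1 q.2.2
    rw [← ofReal_norm, norm_mul, Real.norm_of_nonneg hF, Real.norm_eq_abs]
    unfold psi2
    rw [← ENNReal.ofReal_mul (by (clear * -; positivity)), ← ENNReal.ofReal_mul (by positivity)]
    apply ENNReal.ofReal_le_ofReal
    have h2 : C * (1 + ‖q.2.2‖) ≤ 2 * C * (1 + ‖q.2.2‖ ^ 2) := by
      have := norm_nonneg q.2.2
      nlinarith only [hC, mul_nonneg hC (sq_nonneg ‖q.2.2‖)]
    calc F q.1 q.2.1 q.2.2 * |g q| ≤ F q.1 q.2.1 q.2.2 * (2 * C * (1 + ‖q.2.2‖ ^ 2)) :=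
          mul_le_mul_of_nonneg_left ((hg q).trans h2) hF
      _ = 2 * C * ((1 + ‖q.2.2‖ ^ 2) * F q.1 q.2.1 q.2.2) := by ring
  have mF : Measurable fun q : ℝ × T3 × V =>
      psi2 q.2.2 * ENNReal.ofReal (F q.1 q.2.1 q.2.2) :=
    (measurable_psi2.comp measurable_snd.snd).mul h.meas.ennreal_ofReal
  calc ∫⁻ q : ℝ × T3 × V, ‖F q.1 q.2.1 q.2.2 * g q‖ₑ ∂((volume.restrict (Ioc 0 T)).prod volume)
      ≤ ∫⁻ q : ℝ × T3 × V, ENNReal.ofReal (2 * C) *
          (psi2 q.2.2 * ENNReal.ofReal (F q.1 q.2.1 q.2.2))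
          ∂((volume.restrict (Ioc 0 T)).prod volume) := lintegral_mono h1
    _ = ENNReal.ofReal (2 * C) * ∫⁻ t in Ioc 0 T, wInt psi2 (F t) := by
        rw [lintegral_const_mul _ mF, lintegral_prod _ mF.aemeasurable]
        rfl
    _ = ENNReal.ofReal (2 * C) * ∫⁻ t in Ioc 0 T, wInt psi2 F0 := by
        congr 1
        apply setLIntegral_congr_fun measurableSet_Ioc
        intro t ht
        exact h.energy ht.1.le
    _ < ⊤ := by
        rw [setLIntegral_const, Real.volume_Ioc]
        exact ENNReal.mul_lt_top ENNReal.ofReal_lt_top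
          (ENNReal.mul_lt_top hm ENNReal.ofReal_lt_top)

theorem IsBM.integrable_QN (h : IsBM n F0 F) (T : ℝ) {C : ℝ}
    {g : ℝ × T3 × V → ℝ} (mg : Measurable g) (hg : ∀ q, |g q| ≤ C) :
    Integrable (fun q : ℝ × T3 × V => QN n F q.1 q.2.1 q.2.2 * g q)
      ((volume.restrict (Ioc 0 T)).prod volume) := by
  obtain ⟨B, hB⟩ := h.QN_bdd T
  have hC : 0 ≤ C := (abs_nonneg _).trans (hg (0, 0, 0))
  have mQ := measurable_QN n h.meas
  have hfin : ((volume.restrict (Ioc 0 T)).prod (volume : Measure (T3 × V)))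
      ((univ : Set ℝ) ×ˢ ((univ : Set T3) ×ˢ Metric.closedBall (0 : V) n)) < ⊤ := by
    rw [Measure.prod_prod, Measure.volume_eq_prod, Measure.prod_prod]
    apply ENNReal.mul_lt_top
    · rw [Measure.restrict_apply_univ, Real.volume_Ioc]
      exact ENNReal.ofReal_lt_top
    · apply ENNReal.mul_lt_top
      · exact measure_lt_top _ _
      · exact measure_closedBall_lt_top
  have hms : MeasurableSet ((univ : Set ℝ) ×ˢ ((univ : Set T3) ×ˢ Metric.closedBall (0 : V) n)) :=
    MeasurableSet.univ.prod (MeasurableSet.univ.prod Metric.isClosed_closedBall.measurableSet)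
  have hi : Integrable (((univ : Set ℝ) ×ˢ ((univ : Set T3) ×ˢ
      Metric.closedBall (0 : V) n)).indicator fun _ => B * C)
      ((volume.restrict (Ioc 0 T)).prod (volume : Measure (T3 × V))) := by
    rw [integrable_indicator_iff hms]
    exact integrableOn_const hfin.ne
  refine hi.mono' (mQ.mul mg).aestronglyMeasurable ?_
  have h5 : ∀ᵐ q ∂((volume.restrict (Ioc 0 T)).prod (volume : Measure (T3 × V))),
      q.1 ∈ Ioc 0 T :=
    Measure.ae_prod_iff_ae_ae (p := fun q : ℝ × T3 × V => q.1 ∈ Ioc 0 T)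
      (measurable_fst measurableSet_Ioc) |>.mpr
      ((ae_restrict_mem measurableSet_Ioc).mono fun t ht => Eventually.of_forall fun _ => ht)
  filter_upwards [h5] with q hq
  by_cases hv : (n : ℝ) < ‖q.2.2‖
  · rw [a5_QN_eq_zero F q.1 q.2.1 hv, zero_mul, norm_zero]
    apply indicator_nonneg
    intro _ _
    have := (hB q.1 ⟨hq.1.le, hq.2⟩ 0 0).2.2.1
    exact mul_nonneg ((abs_nonneg _).trans this) hC
  · rw [indicator_of_mem]
    · rw [norm_mul, Real.norm_eq_abs, Real.norm_eq_abs]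
      have h1 := (hB q.1 ⟨hq.1.le, hq.2⟩ q.2.1 q.2.2).2.2.1
      exact mul_le_mul h1 (hg q) (abs_nonneg _) ((abs_nonneg _).trans h1)
    · refine ⟨mem_univ _, mem_univ _, ?_⟩
      simpa only [Metric.mem_closedBall, dist_zero_right] using not_lt.mp hv

/-- local conservation of mass -/
theorem IsBM.massloc (h : IsBM n F0 F) (hm : wInt psi2 F0 < ⊤) {φ : ℝ → T3 → ℝ} (hφ : IsTestX φ) :
    (∫ p : ℝ × T3 × V in Ioi 0 ×ˢ univ, F p.1 p.2.1 p.2.2 * transport φ p.1 p.2.1 p.2.2)
      + ∫ p : T3 × V, F0 p.1 p.2 * φ 0 p.1 = 0 := by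
  obtain ⟨T, hT, h0, h0'⟩ := hφ.exists_time
  obtain ⟨C, hC, hCb⟩ := hφ.transport_bound
  obtain ⟨C1, hC1, hC1b⟩ := hφ.bounded
  -- restriction to bounded times
  have e1 : ∫ p : ℝ × T3 × V in Ioi 0 ×ˢ univ,
      F p.1 p.2.1 p.2.2 * transport φ p.1 p.2.1 p.2.2
      = ∫ q : ℝ × T3 × V, F q.1 q.2.1 q.2.2 * transport φ q.1 q.2.1 q.2.2
        ∂((volume.restrict (Ioc 0 T)).prod volume) := by
    rw [← restrict_prod_univ]
    apply setIntegral_eq_of_subset_of_forall_sdiff_eq_zero
      (measurableSet_Ioi.prod MeasurableSet.univ)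
    · exact Set.prod_mono Ioc_subset_Ioi_self (Subset.refl _)
    · intro p hp
      have h2 : T ≤ |p.1| := by
        by_contra hlt
        apply hp.2
        have h3 := (not_le.mp hlt)
        rw [abs_of_pos hp.1.1] at h3
        exact ⟨⟨hp.1.1, h3.le⟩, mem_univ _⟩
      rw [h0' _ _ _ h2, mul_zero]
  have i1 : Integrable (fun q : ℝ × T3 × V => F q.1 q.2.1 q.2.2 * transport φ q.1 q.2.1 q.2.2)
      ((volume.restrict (Ioc 0 T)).prod volume) :=
    h.integrable_psi2 hm T hφ.measurable_transport fun q => hCb _ _ _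
  have mφ : Measurable fun q : ℝ × T3 × V => φ q.1 q.2.1 :=
    hφ.continuous.measurable.comp (by fun_prop : Measurable fun q : ℝ × T3 × V => (q.1, q.2.1))
  have i2 : Integrable (fun q : ℝ × T3 × V => QN n F q.1 q.2.1 q.2.2 * φ q.1 q.2.1)
      ((volume.restrict (Ioc 0 T)).prod volume) :=
    h.integrable_QN T mφ fun q => hC1b _ _
  -- free streaming
  have mp := measurePreserving_stFlow (volume.restrict (Ioc 0 T))
  have e2 : ∫ q : ℝ × T3 × V, F q.1 q.2.1 q.2.2 * transport φ q.1 q.2.1 q.2.2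
        ∂((volume.restrict (Ioc 0 T)).prod volume)
      = ∫ q : ℝ × T3 × V, along F q * transport φ q.1 (q.2.1 + toTorus (q.1 • q.2.2)) q.2.2
        ∂((volume.restrict (Ioc 0 T)).prod volume) :=
    (mp.integral_comp measurableEmbedding_stFlow
      (fun q : ℝ × T3 × V => F q.1 q.2.1 q.2.2 * transport φ q.1 q.2.1 q.2.2)).symm
  have e3 : ∫ q : ℝ × T3 × V, QN n F q.1 q.2.1 q.2.2 * φ q.1 q.2.1
        ∂((volume.restrict (Ioc 0 T)).prod volume)
      = ∫ q : ℝ × T3 × V, along (QN n F) q * φ q.1 (q.2.1 + toTorus (q.1 • q.2.2))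
        ∂((volume.restrict (Ioc 0 T)).prod volume) :=
    (mp.integral_comp measurableEmbedding_stFlow
      (fun q : ℝ × T3 × V => QN n F q.1 q.2.1 q.2.2 * φ q.1 q.2.1)).symm
  have i1' : Integrable (fun q : ℝ × T3 × V => along F q *
      transport φ q.1 (q.2.1 + toTorus (q.1 • q.2.2)) q.2.2)
      ((volume.restrict (Ioc 0 T)).prod volume) :=
    (mp.integrable_comp_emb measurableEmbedding_stFlow).mpr i1
  have i2' : Integrable (fun q : ℝ × T3 × V => along (QN n F) q *
      φ q.1 (q.2.1 + toTorus (q.1 • q.2.2)))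
      ((volume.restrict (Ioc 0 T)).prod volume) :=
    (mp.integrable_comp_emb measurableEmbedding_stFlow).mpr i2
  have i3 : Integrable fun p : T3 × V => F0 p.1 p.2 * φ 0 p.1 := by
    have hF0 : Integrable fun p : T3 × V => F0 p.1 p.2 := by
      refine ⟨h.meas0.aestronglyMeasurable, ?_⟩
      unfold HasFiniteIntegral
      refine lt_of_le_of_lt (lintegral_mono fun p => ?_) hm
      rw [← ofReal_norm, Real.norm_of_nonneg (h.nonneg0 _ _)]
      have h1 := psi0_le_psi2 p.2
      unfold psi0 at h1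
      calc ENNReal.ofReal (F0 p.1 p.2) = 1 * ENNReal.ofReal (F0 p.1 p.2) := (one_mul _).symm
        _ ≤ _ := by (clear * - h1; gcongr)
    refine hF0.mul_bdd (c := C1) ?_ (Eventually.of_forall fun p => hC1b 0 p.1)
    exact ((hφ.continuous.measurable.comp
      (by fun_prop : Measurable fun p : T3 × V => ((0 : ℝ), p.1)))).aestronglyMeasurable
  -- the collision term vanishes
  have e4 : ∫ q : ℝ × T3 × V, QN n F q.1 q.2.1 q.2.2 * φ q.1 q.2.1
        ∂((volume.restrict (Ioc 0 T)).prod volume) = 0 := by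
    rw [integral_prod _ i2]
    apply setIntegral_eq_zero_of_forall_eq_zero
    intro t ht
    simp only
    by_cases hi : Integrable (fun p : T3 × V => QN n F t p.1 p.2 * φ t p.1)
    · rw [Measure.volume_eq_prod, integral_prod _ (by rwa [← Measure.volume_eq_prod])]
      apply integral_eq_zero_of_ae
      apply Eventually.of_forall
      intro x
      simp only
      rw [integral_mul_const, h.integral_QN ht.1.le, zero_mul]
      rfl
    · exact integral_undef hi
  rw [e1, e2, integral_prod_symm _ i1']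
  have e5 : ∫ p : T3 × V, ∫ t in Ioc 0 T, along F (t, p) *
        transport φ t (p.1 + toTorus (t • p.2)) p.2
      = ∫ p : T3 × V, (-(∫ t in Ioc 0 T, along (QN n F) (t, p) *
          φ t (p.1 + toTorus (t • p.2))) - F0 p.1 p.2 * φ 0 p.1) := by
    congr 1
    funext p
    exact h.line_identity hφ hT h0 p
  have i4 : Integrable fun p : T3 × V => ∫ t in Ioc 0 T, along (QN n F) (t, p) *
      φ t (p.1 + toTorus (t • p.2)) := i2'.integral_prod_right
  have i5 : Integrable fun p : T3 × V => -∫ t in Ioc 0 T, along (QN n F) (t, p) *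
      φ t (p.1 + toTorus (t • p.2)) := i4.neg
  rw [e5, integral_sub i5 i3, integral_neg, ← integral_prod_symm _ i2', ← e3, e4]
  ring

end Vale.Agent.P140.DL
end
end

section

open MeasureTheory Set Filter
open scoped ENNReal Topology NNReal

noncomputable section

namespace Vale.Agent.P140.DL

theorem hE_nonneg6 {y : ℝ} (hy : 0 ≤ y) : 0 ≤ hE y := by
  unfold hE
  rcases hy.eq_or_lt with h | h
  · rw [← h]
    simp only [Real.log_zero, mul_zero, sub_self, zero_add, zero_le_one]
  · have h1 := Real.one_sub_inv_le_log_of_pos h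
    have h2 : y * (1 - y⁻¹) ≤ y * Real.log y := mul_le_mul_of_nonneg_left h1 hy
    have h3 : y * (1 - y⁻¹) = y - 1 := by
      field_simp
    linarith

theorem hE_le {y C : ℝ} (hy : 0 ≤ y) (hC : y ≤ C) : hE y ≤ C ^ 2 + 1 := by
  unfold hE
  have h1 : y * Real.log y ≤ y * y := by
    rcases hy.eq_or_lt with h | h
    · rw [← h]
      simp
    · have h2 := Real.log_le_sub_one_of_pos h
      exact mul_le_mul_of_nonneg_left (by linarith only [h2]) hy
  linarith only [mul_nonneg (sub_nonneg.2 hC) (sub_nonneg.2 hC), mul_nonneg (sub_nonneg.2 hy) (sub_nonneg.2 hC), h1, hy]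

theorem continuous_hE : Continuous hE := by
  unfold hE
  exact (Real.continuous_mul_log.sub continuous_id).add continuous_const

theorem hasDerivAt_hE {y : ℝ} (hy : y ≠ 0) : HasDerivAt hE (Real.log y) y := by
  have h := ((Real.hasDerivAt_mul_log hy).sub (hasDerivAt_id y)).add_const (1 : ℝ)
  exact h.congr_deriv (by ring)

theorem hasDerivAt_eps {m e z : ℝ} (hm : 0 < m) (he : 0 < e) (hz : 0 ≤ z) :
    HasDerivAt (fun z => m * hE (z / m + e)) (Real.log (z / m + e)) z := by
  have h0 : z / m + e ≠ 0 := by positivity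
  have h1 : HasDerivAt (fun z : ℝ => z / m + e) (1 / m) z :=
    ((hasDerivAt_id z).div_const m).add_const e
  have h2 := ((hasDerivAt_hE h0).comp z h1).const_mul m
  refine h2.congr_deriv ?_
  rw [mul_comm (Real.log _), ← mul_assoc, mul_one_div_cancel hm.ne', one_mul]

/-- chain rule for the regularized entropy density along a primitive -/
theorem chain_eps {m e : ℝ} (hm : 0 < m) (he : 0 < e) {q a : ℝ → ℝ} {c t : ℝ} (ht : 0 ≤ t)
    (hq : IntervalIntegrable q volume 0 t) (ha : ∀ s ∈ Icc 0 t, a s = c + ∫ r in (0 : ℝ)..s, q r)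
    (a0 : ∀ s ∈ Icc 0 t, 0 ≤ a s) :
    m * hE (a t / m + e) = m * hE (c / m + e)
      + ∫ s in (0 : ℝ)..t, Real.log (a s / m + e) * q s := by
  have hu : uIcc 0 t = Icc 0 t := uIcc_of_le ht
  have hac := ac_primitive hq c
  have hcont := hac.continuousOn
  have himg : ∀ s ∈ Icc 0 t, 0 ≤ c + ∫ r in (0 : ℝ)..s, q r := fun s hs => by
    rw [← ha s hs]; exact a0 s hs
  obtain ⟨K, hK⟩ : ∃ K : ℝ≥0, LipschitzOnWith K (fun z => m * hE (z / m + e))
      ((fun t => c + ∫ s in (0 : ℝ)..t, q s) '' uIcc 0 t) := by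
    have hcomp : IsCompact ((fun t => c + ∫ s in (0 : ℝ)..t, q s) '' uIcc 0 t) :=
      isCompact_uIcc.image_of_continuousOn hcont
    obtain ⟨R, hR⟩ := hcomp.isBounded.subset_closedBall 0
    have hcd : ContDiffOn ℝ 1 (fun z => m * hE (z / m + e)) (Icc 0 R) := by
      have h1 : ContDiffOn ℝ 1 (fun z : ℝ => z / m + e) (Icc 0 R) := by fun_prop
      have h2 : ContDiffOn ℝ 1 (fun z : ℝ => Real.log (z / m + e)) (Icc 0 R) := by
        apply h1.log
        intro z hz
        have := hz.1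
        (clear * - this hm he; positivity)
      unfold hE
      exact contDiffOn_const.mul (((h1.mul h2).sub h1).add contDiffOn_const)
    obtain ⟨K, hK⟩ := hcd.exists_lipschitzOnWith (by decide) (convex_Icc 0 R) isCompact_Icc
    refine ⟨K, hK.mono ?_⟩
    intro y hy
    have h3 := hR hy
    rw [mem_closedBall_zero_iff, Real.norm_eq_abs] at h3
    obtain ⟨s, hs, rfl⟩ := hy
    rw [hu] at hs
    exact ⟨himg s hs, (le_abs_self _).trans h3⟩
  have hac2 := ac_comp hac hK
  have h := hac2.integral_deriv_eq_sub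
  have h2 : ∫ x in (0 : ℝ)..t, deriv (fun t => m * hE ((c + ∫ s in (0 : ℝ)..t, q s) / m + e)) x
      = ∫ s in (0 : ℝ)..t, Real.log (a s / m + e) * q s := by
    apply intervalIntegral.integral_congr_ae
    filter_upwards [ae_hasDerivAt_primitive hq c] with s hs hmem
    have hmem' : s ∈ Icc 0 t := by
      rw [← hu]; exact uIoc_subset_uIcc hmem
    have h3 := hs (uIoc_subset_uIcc hmem)
    have h4 := (hasDerivAt_eps hm he (himg s hmem')).comp s h3
    rw [ha s hmem']
    exact h4.deriv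
  rw [h2] at h
  simp only [intervalIntegral.integral_same, add_zero] at h
  rw [ha t (right_mem_Icc.mpr ht)]
  linarith only [h]

/-- lower bound of the regularized dissipation -/
theorem J_ge {a b a' b' m e C : ℝ} (hm : 0 ≤ m) (hm1 : m ≤ 1) (he : 0 < e) (he1 : e ≤ 1)
    (ha : 0 ≤ a) (hb : 0 ≤ b) (ha' : 0 ≤ a') (hb' : 0 ≤ b')
    (haC : a ≤ C) (hbC : b ≤ C) (haC' : a' ≤ C) (hbC' : b' ≤ C) :
    -(4 * C * e * (Real.log (C + 1) - Real.log e)) ≤
      (m * (a' * b') - m * (a * b)) * (Real.log (a' + e) + Real.log (b' + e)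
        - Real.log (a + e) - Real.log (b + e)) := by
  have hC : 0 ≤ C := ha.trans haC
  set Λ := Real.log (C + 1) - Real.log e with hΛ
  have hlog : ∀ y, 0 ≤ y → y ≤ C → Real.log e ≤ Real.log (y + e) ∧ Real.log (y + e) ≤ Real.log (C + 1) := by
    intro y h1 h2
    exact ⟨Real.log_le_log he (by linarith only [h1]), Real.log_le_log (by positivity) (by linarith only [he1, h2])⟩
  have l1 := hlog a ha haC
  have l2 := hlog b hb hbC
  have l3 := hlog a' ha' haC'
  have l4 := hlog b' hb' hbC'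
  set L := Real.log (a' + e) + Real.log (b' + e) - Real.log (a + e) - Real.log (b + e) with hL
  have hLabs : |L| ≤ 2 * Λ := by
    rw [abs_le]
    constructor <;> linarith only [l1, l2, l3, l4]
  have hΛ0 : 0 ≤ Λ := by linarith only [l1]
  have hmono : 0 ≤ ((a' + e) * (b' + e) - (a + e) * (b + e)) * L := by
    have hL2 : L = Real.log ((a' + e) * (b' + e)) - Real.log ((a + e) * (b + e)) := by
      rw [Real.log_mul (by (clear * - ha' he; positivity)) (by positivity), Real.log_mul (by positivity) (by positivity)]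
      ring
    rw [hL2]
    rcases le_total ((a + e) * (b + e)) ((a' + e) * (b' + e)) with h | h
    · apply mul_nonneg (by linarith only [h])
      have := Real.log_le_log (by (clear * - ha he hb; positivity)) h
      linarith only [this]
    · apply mul_nonneg_of_nonpos_of_nonpos (by linarith only [h])
      have := Real.log_le_log (by (clear * - ha' he hb'; positivity)) h
      linarith only [this]
  have h5 : (a' * b' - a * b) * L = ((a' + e) * (b' + e) - (a + e) * (b + e)) * L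
      - e * ((a' + b' - a - b) * L) := by ring
  have h6 : (a' + b' - a - b) * L ≤ 4 * C * Λ := by
    calc (a' + b' - a - b) * L ≤ |(a' + b' - a - b) * L| := le_abs_self _
      _ = |a' + b' - a - b| * |L| := abs_mul _ _
      _ ≤ (2 * C) * (2 * Λ) := by
          apply mul_le_mul _ hLabs (abs_nonneg _) (by linarith only [ha, haC])
          rw [abs_le]
          constructor <;> linarith only [ha', hb', haC, hbC, ha, hb, haC', hbC']
      _ = 4 * C * Λ := by ring
  have h7 : -(4 * C * e * Λ) ≤ (a' * b' - a * b) * L := by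
    rw [h5]
    linarith only [mul_nonneg (le_of_lt (sub_pos.2 he)) (sub_nonneg.2 h6), hmono]
  have h8 : (m * (a' * b') - m * (a * b)) * L = m * ((a' * b' - a * b) * L) := by ring
  rw [h8]
  have h9 : 0 ≤ 4 * C * e * Λ := by (clear * - hC he hΛ0; positivity)
  (clear * - hm h7 hm1 h9; linarith only [mul_nonneg (sub_nonneg.2 hm1) (sub_nonneg.2 h9), mul_nonneg (sub_nonneg.2 hm) (sub_nonneg.2 h7)])

theorem tendsto_kappa (C : ℝ) : Tendsto (fun k : ℕ => 4 * C * (1 / ((k : ℝ) + 1)) *
    (Real.log (C + 1) - Real.log (1 / ((k : ℝ) + 1)))) atTop (𝓝 0) := by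
  have h1 : Tendsto (fun k : ℕ => 1 / ((k : ℝ) + 1)) atTop (𝓝 0) :=
    tendsto_one_div_add_atTop_nhds_zero_nat
  have h2 : Continuous fun e : ℝ => 4 * C * (e * Real.log (C + 1) - e * Real.log e) :=
    continuous_const.mul ((continuous_id.mul continuous_const).sub Real.continuous_mul_log)
  have h3 := (h2.tendsto 0).comp h1
  simp only [zero_mul, sub_zero, mul_zero] at h3
  refine h3.congr fun k => ?_
  simp only [Function.comp]
  ring

/-- the degenerate case -/
theorem tendsto_deg {a b a' b' m : ℝ} (hm : 0 < m) (ha : 0 < a) (hb : 0 < b) (ha' : 0 ≤ a')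
    (hb' : 0 ≤ b') (h0 : a' * b' = 0) {e : ℕ → ℝ} (he : ∀ k, 0 < e k)
    (het : Tendsto e atTop (𝓝 0)) :
    Tendsto (fun k => (m * (a' * b') - m * (a * b)) * (Real.log (a' + e k) + Real.log (b' + e k)
        - Real.log (a + e k) - Real.log (b + e k))) atTop atTop := by
  have hnhds : Tendsto e atTop (𝓝[>] 0) :=
    tendsto_nhdsWithin_iff.mpr ⟨het, Eventually.of_forall he⟩
  have hlog0 : Tendsto (fun k => Real.log (e k)) atTop atBot :=
    Real.tendsto_log_nhdsGT_zero.comp hnhds
  have hcont : ∀ y : ℝ, 0 < y → Tendsto (fun k => Real.log (y + e k)) atTop (𝓝 (Real.log y)) := by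
    intro y hy
    have h1 : Tendsto (fun k => y + e k) atTop (𝓝 y) := by
      simpa only [add_zero] using (tendsto_const_nhds (x := y)).add het
    exact (Real.continuousAt_log hy.ne').tendsto.comp h1
  have hcase : ∀ y : ℝ, 0 ≤ y → (Tendsto (fun k => Real.log (y + e k)) atTop atBot) ∨
      ∃ l, Tendsto (fun k => Real.log (y + e k)) atTop (𝓝 l) := by
    intro y hy
    rcases hy.eq_or_lt with h | h
    · left
      rw [← h]
      simpa using hlog0
    · exact Or.inr ⟨_, hcont y h⟩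
  have hsum : Tendsto (fun k => Real.log (a' + e k) + Real.log (b' + e k)) atTop atBot := by
    rcases mul_eq_zero.mp h0 with h | h
    · rw [h]
      simp only [zero_add]
      rcases hcase b' hb' with h1 | ⟨l, h1⟩
      · exact hlog0.atBot_add_atBot h1
      · exact hlog0.atBot_add h1
    · rw [h]
      simp only [zero_add]
      rcases hcase a' ha' with h1 | ⟨l, h1⟩
      · exact h1.atBot_add_atBot hlog0
      · exact h1.add_atBot hlog0
  have hsum2 : Tendsto (fun k => Real.log (a' + e k) + Real.log (b' + e k)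
      + (- Real.log (a + e k) - Real.log (b + e k))) atTop atBot :=
    hsum.atBot_add ((hcont a ha).neg.sub (hcont b hb))
  have hneg : m * (a' * b') - m * (a * b) < 0 := by
    rw [h0]
    have : 0 < m * (a * b) := by positivity
    linarith only [this]
  have h3 := hsum2.const_mul_atBot_of_neg hneg
  refine h3.congr fun k => ?_
  ring

theorem diss_le_liminf {a b a' b' m : ℝ} (hm : 0 < m) (ha : 0 ≤ a) (hb : 0 ≤ b) (ha' : 0 ≤ a')
    (hb' : 0 ≤ b') {e : ℕ → ℝ} (he : ∀ k, 0 < e k) (het : Tendsto e atTop (𝓝 0)) :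
    dissDensity (m * (a' * b')) (m * (a * b)) ≤
      liminf (fun k => ENNReal.ofReal ((m * (a' * b') - m * (a * b)) *
        (Real.log (a' + e k) + Real.log (b' + e k)
        - Real.log (a + e k) - Real.log (b + e k)))) atTop := by
  have hX : 0 ≤ a' * b' := mul_nonneg ha' hb'
  have hY : 0 ≤ a * b := mul_nonneg ha hb
  rcases hX.eq_or_lt with hX0 | hX0 <;> rcases hY.eq_or_lt with hY0 | hY0
  · rw [← hX0, ← hY0]
    simp [dissDensity]
  · have ha0 : 0 < a := lt_of_le_of_ne ha (fun h => by rw [← h] at hY0; simp at hY0)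
    have hb0 : 0 < b := lt_of_le_of_ne hb (fun h => by rw [← h] at hY0; simp at hY0)
    have h1 := ENNReal.tendsto_ofReal_nhds_top.mpr (tendsto_deg hm ha0 hb0 ha' hb' hX0.symm he het)
    rw [h1.liminf_eq]
    exact le_top
  · have ha0 : 0 < a' := lt_of_le_of_ne ha' (fun h => by rw [← h] at hX0; simp at hX0)
    have hb0 : 0 < b' := lt_of_le_of_ne hb' (fun h => by rw [← h] at hX0; simp at hX0)
    have h2 := tendsto_deg hm ha0 hb0 ha hb hY0.symm he het
    have h3 : Tendsto (fun k => (m * (a' * b') - m * (a * b)) * (Real.log (a' + e k)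
        + Real.log (b' + e k) - Real.log (a + e k) - Real.log (b + e k))) atTop atTop := by
      refine h2.congr fun k => ?_
      ring
    have h1 := ENNReal.tendsto_ofReal_nhds_top.mpr h3
    rw [h1.liminf_eq]
    exact le_top
  · have hpa : 0 < a := lt_of_le_of_ne ha (fun h => by rw [← h] at hY0; simp at hY0)
    have hpb : 0 < b := lt_of_le_of_ne hb (fun h => by rw [← h] at hY0; simp at hY0)
    have hpa' : 0 < a' := lt_of_le_of_ne ha' (fun h => by rw [← h] at hX0; simp at hX0)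
    have hpb' : 0 < b' := lt_of_le_of_ne hb' (fun h => by rw [← h] at hX0; simp at hX0)
    have hcont : ∀ y : ℝ, 0 < y → Tendsto (fun k => Real.log (y + e k)) atTop (𝓝 (Real.log y)) := by
      intro y hy
      have h1 : Tendsto (fun k => y + e k) atTop (𝓝 y) := by
        simpa only [add_zero] using (tendsto_const_nhds (x := y)).add het
      exact (Real.continuousAt_log hy.ne').tendsto.comp h1
    have hlim := (((hcont a' hpa').add (hcont b' hpb')).sub (hcont a hpa)).sub (hcont b hpb)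
    have hlim2 := ENNReal.tendsto_ofReal (hlim.const_mul (m * (a' * b') - m * (a * b)))
    rw [hlim2.liminf_eq]
    unfold dissDensity
    rw [if_pos ⟨by (clear * - hm hpa' hpb'; positivity), by (clear * - hm hpa hpb; positivity)⟩]
    apply le_of_eq
    congr 2
    rw [Real.log_div (by positivity) (by positivity), Real.log_mul (by positivity) (by (clear * - hpa' hpb'; positivity)),
      Real.log_mul (by positivity) (by (clear * - hpb'; positivity)), Real.log_mul (by positivity) (by (clear * - hpa hpb; positivity)),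
      Real.log_mul (by positivity) (by positivity)]
    ring

end Vale.Agent.P140.DL
end
end

section

open MeasureTheory Set Filter
open scoped ENNReal Topology NNReal

noncomputable section

namespace Vale.Agent.P140.DL

variable {n : ℕ} {F0 : T3 → V → ℝ} {F : ℝ → T3 → V → ℝ}

/-- lower bound of the Maxwellian on the ball of radius `n` -/
def cN (n : ℕ) : ℝ := (2 * Real.pi) ^ (-(3 / 2) : ℝ) * Real.exp (-((n : ℝ) ^ 2 / 2))

theorem cN_pos (n : ℕ) : 0 < cN n := by
  unfold cN
  positivity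

theorem cN_le {v : V} (hv : ‖v‖ ≤ n) : cN n ≤ Maxw v := by
  unfold cN Maxw
  gcongr

theorem Maxw_le_one (v : V) : Maxw v ≤ 1 := by
  unfold Maxw
  have h1 : (2 * Real.pi) ^ (-(3 / 2) : ℝ) ≤ 1 := by
    apply Real.rpow_le_one_of_one_le_of_nonpos
    · have := Real.pi_gt_three
      linarith
    · norm_num
  have h2 : Real.exp (-(‖v‖ ^ 2 / 2)) ≤ 1 := by
    apply Real.exp_le_one_iff.mpr
    have := sq_nonneg ‖v‖
    linarith only [this]
  calc _ ≤ (1 : ℝ) * 1 := mul_le_mul h1 h2 (Real.exp_pos _).le zero_le_one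
    _ = 1 := one_mul 1

theorem div_Maxw_le {g B : ℝ} {v : V} (hv : ‖v‖ ≤ n) (hg : 0 ≤ g) (hB : g ≤ B) :
    g / Maxw v ≤ B / cN n := by
  have h1 := cN_pos n
  have h2 := cN_le hv
  exact div_le_div₀ (hg.trans hB) hB h1 h2

/-- the slow part of phase space -/
def slow (n : ℕ) : Set (T3 × V) := univ ×ˢ Metric.closedBall 0 (n : ℝ)

theorem measurableSet_slow (n : ℕ) : MeasurableSet (slow n) :=
  MeasurableSet.univ.prod Metric.isClosed_closedBall.measurableSet

theorem mem_slow {p : T3 × V} : p ∈ slow n ↔ ‖p.2‖ ≤ n := by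
  simp only [slow, mem_prod, mem_univ, Metric.mem_closedBall, dist_zero_right, true_and]

theorem volume_slow (n : ℕ) : (volume : Measure (T3 × V)) (slow n) ≠ ⊤ := by
  have h : IsCompact (slow n) := isCompact_univ.prod (isCompact_closedBall 0 _)
  exact h.measure_lt_top.ne

instance (n : ℕ) : IsFiniteMeasure ((volume : Measure (T3 × V)).restrict (slow n)) :=
  ⟨by rw [Measure.restrict_apply_univ]; exact (volume_slow n).lt_top⟩

theorem flow_slow (t : ℝ) : flow t ⁻¹' slow n = slow n := by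
  ext p
  simp only [mem_preimage, mem_slow]
  rfl

theorem setIntegral_flow (t : ℝ) (f : T3 × V → ℝ) :
    ∫ p in slow n, f (flow t p) = ∫ p in slow n, f p := by
  have h := (measurePreserving_flow t).setIntegral_preimage_emb (measurableEmbedding_flow t) f
    (slow n)
  rwa [flow_slow] at h

/-- regularized entropy of the slow particles -/
def EntE (n : ℕ) (e : ℝ) (f : T3 → V → ℝ) : ℝ :=
  ∫ p in slow n, Maxw p.2 * hE (f p.1 p.2 / Maxw p.2 + e)

theorem EntE_zero (f : T3 → V → ℝ) :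
    EntE n 0 f = ∫ p in slow n, entD (f p.1 p.2) (Maxw p.2) := by
  unfold EntE
  apply integral_congr_ae
  apply Eventually.of_forall
  intro p
  have h := Maxw_pos p.2
  simp only [add_zero]
  unfold hE entD
  field_simp

theorem meas_eps {f : T3 → V → ℝ} (hf : Measurable fun p : T3 × V => f p.1 p.2) (e : ℝ) :
    Measurable fun p : T3 × V => Maxw p.2 * hE (f p.1 p.2 / Maxw p.2 + e) := by
  have h1 : Measurable fun p : T3 × V => Maxw p.2 := measurable_Maxw.comp measurable_snd
  exact h1.mul (continuous_hE.measurable.comp ((hf.div h1).add_const e))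

theorem eps_bound {g B e : ℝ} {v : V} (hv : ‖v‖ ≤ n) (hg : 0 ≤ g) (hB : g ≤ B) (he : 0 ≤ e)
    (he1 : e ≤ 1) : |Maxw v * hE (g / Maxw v + e)| ≤ (B / cN n + 1) ^ 2 + 1 := by
  have h1 := Maxw_pos v
  have h2 := Maxw_le_one v
  have h3 := div_Maxw_le hv hg hB
  have h4 : 0 ≤ g / Maxw v + e := by positivity
  have h5 := hE_nonneg6 h4
  have h6 := hE_le h4 (C := B / cN n + 1) (by linarith only [he1, h3])
  rw [abs_of_nonneg (mul_nonneg h1.le h5)]
  calc Maxw v * hE (g / Maxw v + e) ≤ 1 * hE (g / Maxw v + e) := by gcongr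
    _ ≤ _ := by rw [one_mul]; exact h6

theorem tendsto_EntE {f : T3 → V → ℝ} (hf : Measurable fun p : T3 × V => f p.1 p.2)
    (f0 : ∀ x v, 0 ≤ f x v) {B : ℝ} (hB : ∀ x v, ‖v‖ ≤ n → f x v ≤ B) {e : ℕ → ℝ}
    (he : ∀ k, 0 < e k) (he1 : ∀ k, e k ≤ 1) (het : Tendsto e atTop (𝓝 0)) :
    Tendsto (fun k => EntE n (e k) f) atTop (𝓝 (EntE n 0 f)) := by
  unfold EntE
  apply tendsto_integral_of_dominated_convergence fun _ => (B / cN n + 1) ^ 2 + 1
  · intro k
    exact (meas_eps hf _).aestronglyMeasurable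
  · exact integrable_const _
  · intro k
    filter_upwards [ae_restrict_mem (measurableSet_slow n)] with p hp
    exact eps_bound (mem_slow.mp hp) (f0 _ _) (hB _ _ (mem_slow.mp hp)) (he k).le (he1 k)
  · apply Eventually.of_forall
    intro p
    apply Tendsto.const_mul
    apply (continuous_hE.tendsto _).comp
    exact tendsto_const_nhds.add het

/-- logarithmic test function -/
def lgE (e : ℝ) (g : V → ℝ) (v : V) : ℝ := Real.log (g v / Maxw v + e)

theorem abs_lgE_le {g : V → ℝ} {B e : ℝ} {v : V} (hv : ‖v‖ ≤ n) (hg : 0 ≤ g v) (hB : g v ≤ B)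
    (he : 0 < e) (he1 : e ≤ 1) :
    |lgE e g v| ≤ Real.log (B / cN n + 1) - Real.log e := by
  have h1 := Maxw_pos v
  have h3 := div_Maxw_le hv hg hB
  have h4 : 0 ≤ g v / Maxw v := by positivity
  have h5 : Real.log e ≤ lgE e g v := Real.log_le_log he (by linarith only [h4])
  have h6 : lgE e g v ≤ Real.log (B / cN n + 1) := Real.log_le_log (by positivity) (by linarith only [he1, h3])
  have h7 : Real.log e ≤ 0 := Real.log_nonpos he.le he1
  have h8 : 0 ≤ Real.log (B / cN n + 1) := Real.log_nonneg (by linarith)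
  rw [abs_le]
  constructor <;> linarith only [h5, h8, h6, h7]

theorem meas_lgE {α : Type*} [MeasurableSpace α] {f : α → V → ℝ}
    (hf : Measurable fun q : α × V => f q.1 q.2) (e : ℝ) :
    Measurable fun q : α × V => lgE e (f q.1) q.2 := by
  unfold lgE
  exact Real.measurable_log.comp ((hf.div (measurable_Maxw.comp measurable_snd)).add_const e)

theorem meas_F2 (h : IsBM n F0 F) : Measurable fun q : (ℝ × T3) × V => F q.1.1 q.1.2 q.2 :=
  h.meas.comp (by fun_prop : Measurable fun q : (ℝ × T3) × V => (q.1.1, q.1.2, q.2))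

theorem meas_QN2 (h : IsBM n F0 F) :
    Measurable fun q : (ℝ × T3) × V => QN n F q.1.1 q.1.2 q.2 := by
  have hm := meas_F2 h
  have h1 := (measurable_gainP n (f := fun a : ℝ × T3 => F a.1 a.2) hm).ennreal_toReal
  have h2 := (measurable_rateP n (f := fun a : ℝ × T3 => F a.1 a.2) hm).ennreal_toReal
  exact h1.sub (hm.mul h2)

/-- the integrand of the entropy identity -/
def wE (n : ℕ) (e : ℝ) (F : ℝ → T3 → V → ℝ) (s : ℝ) (x : T3) (v : V) : ℝ :=
  lgE e (F s x) v * QN n F s x v

theorem meas_wE2 (h : IsBM n F0 F) (e : ℝ) :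
    Measurable fun q : (ℝ × T3) × V => wE n e F q.1.1 q.1.2 q.2 :=
  (meas_lgE (f := fun a : ℝ × T3 => F a.1 a.2) (meas_F2 h) e).mul (meas_QN2 h)

theorem meas_wE (h : IsBM n F0 F) (e : ℝ) :
    Measurable fun q : ℝ × T3 × V => wE n e F q.1 q.2.1 q.2.2 :=
  (meas_wE2 h e).comp (by (clear * -; fun_prop) : Measurable fun q : ℝ × T3 × V => ((q.1, q.2.1), q.2.2))

theorem exists_wE_le (h : IsBM n F0 F) (t : ℝ) {e : ℝ} (he : 0 < e) (he1 : e ≤ 1) :
    ∃ C : ℝ, 0 ≤ C ∧ ∀ s ∈ Icc 0 t, ∀ x v, ‖v‖ ≤ n → |wE n e F s x v| ≤ C := by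
  obtain ⟨B, hB⟩ := h.bdd t
  obtain ⟨Q, hQ⟩ := h.QN_bdd t
  refine ⟨|Real.log (B / cN n + 1) - Real.log e| * |Q|, by (clear * -; positivity), ?_⟩
  intro s hs x v hv
  unfold wE
  rw [abs_mul]
  apply mul_le_mul _ _ (abs_nonneg _) (abs_nonneg _)
  · exact (abs_lgE_le hv (h.nonneg _ _ _) (hB s hs x v hv) he he1).trans (le_abs_self _)
  · exact ((hQ s hs x v).2.2.1).trans (le_abs_self _)

/-- entropy identity for the regularized entropy -/
theorem IsBM.EntE_eq (h : IsBM n F0 F) {t : ℝ} (ht : 0 ≤ t) {e : ℝ} (he : 0 < e) (he1 : e ≤ 1) :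
    EntE n e (F t) = EntE n e F0
      + ∫ s in Ioc 0 t, ∫ x : T3, ∫ v in Metric.closedBall 0 (n : ℝ), wE n e F s x v := by
  obtain ⟨C, hC0, hC⟩ := exists_wE_le h t he he1
  obtain ⟨B, hB⟩ := h.bdd t
  have e1 : EntE n e (F t)
      = ∫ p in slow n, Maxw p.2 * hE (along F (t, p) / Maxw p.2 + e) := by
    unfold EntE
    rw [← setIntegral_flow t]
    rfl
  have e2 : ∀ p : T3 × V, Maxw p.2 * hE (along F (t, p) / Maxw p.2 + e)
      = Maxw p.2 * hE (F0 p.1 p.2 / Maxw p.2 + e) + ∫ s in Ioc 0 t, along (wE n e F) (s, p) := by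
    intro p
    have hq := h.QN_integrable p t
    have hqi : IntervalIntegrable (fun s => along (QN n F) (s, p)) volume 0 t :=
      (intervalIntegrable_iff_integrableOn_Ioc_of_le ht).mpr hq
    have h2 := chain_eps (Maxw_pos p.2) he ht hqi (a := fun s => along F (s, p))
      (c := F0 p.1 p.2) ?_ (fun s _ => h.nonneg _ _ _)
    · rw [intervalIntegral.integral_of_le ht] at h2
      exact h2
    · intro s hs
      rw [intervalIntegral.integral_of_le hs.1]
      exact h.mild p s hs.1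
  have hmW : Measurable (along (wE n e F)) := measurable_along (meas_wE h e)
  have hbW : ∀ s ∈ Icc 0 t, ∀ p ∈ slow n, |along (wE n e F) (s, p)| ≤ C := by
    intro s hs p hp
    exact hC s hs _ _ (mem_slow.mp hp)
  have hint : Integrable (fun q : (T3 × V) × ℝ => along (wE n e F) (q.2, q.1))
      (((volume : Measure (T3 × V)).restrict (slow n)).prod
        ((volume : Measure ℝ).restrict (Ioc 0 t))) := by
    apply Integrable.of_bound (C := C)
    · exact (hmW.comp measurable_swap).aestronglyMeasurable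
    · rw [Measure.prod_restrict]
      filter_upwards [ae_restrict_mem ((measurableSet_slow n).prod measurableSet_Ioc)] with q hq
      exact hbW _ (Ioc_subset_Icc_self hq.2) _ hq.1
  have e3 : EntE n e (F t) = EntE n e F0
      + ∫ p in slow n, ∫ s in Ioc 0 t, along (wE n e F) (s, p) := by
    rw [e1]
    unfold EntE
    rw [← integral_add]
    · exact integral_congr_ae (Eventually.of_forall e2)
    · refine Integrable.of_bound (meas_eps h.meas0 e).aestronglyMeasurable
        ((B / cN n + 1) ^ 2 + 1) ?_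
      · filter_upwards [ae_restrict_mem (measurableSet_slow n)] with p hp
        have h5 := hB 0 ⟨le_rfl, ht⟩ p.1 p.2 (mem_slow.mp hp)
        rw [h.initial] at h5
        exact eps_bound (mem_slow.mp hp) (h.nonneg0 _ _) h5 he.le he1
    · exact hint.integral_prod_left
  rw [e3]
  congr 1
  rw [integral_integral_swap hint]
  apply setIntegral_congr_fun measurableSet_Ioc
  intro s hs
  simp only
  have e4 : ∫ p in slow n, along (wE n e F) (s, p)
      = ∫ p in slow n, wE n e F s p.1 p.2 :=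
    setIntegral_flow s (fun p => wE n e F s p.1 p.2)
  rw [e4]
  have h6 : IntegrableOn (fun p : T3 × V => wE n e F s p.1 p.2) (slow n)
      ((volume : Measure T3).prod (volume : Measure V)) := by
    rw [← Measure.volume_eq_prod]
    apply Integrable.of_bound (C := C)
    · exact ((meas_wE h e).comp (by fun_prop : Measurable fun p : T3 × V =>
        ((s, p) : ℝ × T3 × V))).aestronglyMeasurable
    · filter_upwards [ae_restrict_mem (measurableSet_slow n)] with p hp
      exact hC s (Ioc_subset_Icc_self hs) _ _ (mem_slow.mp hp)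
  have h7 := setIntegral_prod (fun p : T3 × V => wE n e F s p.1 p.2) h6
  rw [Measure.restrict_univ] at h7
  exact h7

/-- reference measure on pairs of velocities and the sphere -/
def mu3 : Measure (V × V × S2) := (volume : Measure V).prod ((volume : Measure V).prod surf)

instance : SFinite mu3 := Measure.prod.instSFinite

/-- dissipation integrand of the regularized entropy -/
def JE (e : ℝ) (g : V → ℝ) (q : V × V × S2) : ℝ :=
  (g (post q.1 q.2.1 q.2.2) * g (postStar q.1 q.2.1 q.2.2) - g q.1 * g q.2.1) *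
    (lgE e g (post q.1 q.2.1 q.2.2) + lgE e g (postStar q.1 q.2.1 q.2.2) - lgE e g q.1
      - lgE e g q.2.1)

/-- error of the lower bound -/
def kapE (C e : ℝ) : ℝ := 4 * C * e * (Real.log (C + 1) - Real.log e)

theorem kapE_nonneg {C e : ℝ} (hC : 0 ≤ C) (he : 0 < e) (he1 : e ≤ 1) : 0 ≤ kapE C e := by
  unfold kapE
  have h1 := Real.log_nonpos he.le he1
  have h2 := Real.log_nonneg (show (1 : ℝ) ≤ C + 1 by linarith only [hC])
  have : 0 ≤ Real.log (C + 1) - Real.log e := by linarith only [h1, h2]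
  positivity

theorem prod_norm {g : V → ℝ} (v w : V) :
    g v * g w = Maxw v * Maxw w * (g v / Maxw v * (g w / Maxw w)) := by
  have h1 := Maxw_pos v
  have h2 := Maxw_pos w
  field_simp

theorem JE_ge {g : V → ℝ} (g0 : ∀ v, 0 ≤ g v) {B e : ℝ} (hB : ∀ v, ‖v‖ ≤ n → g v ≤ B)
    (he : 0 < e) (he1 : e ≤ 1) {q : V × V × S2} (hq : bN n q.1 q.2.1 q.2.2 ≠ 0) :
    -kapE (B / cN n) e ≤ JE e g q := by
  obtain ⟨h1, h2, h3, h4⟩ := bN_ne_zero hq
  have m1 := Maxw_pos q.1
  have m2 := Maxw_pos q.2.1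
  have m3 := Maxw_pos (post q.1 q.2.1 q.2.2)
  have m4 := Maxw_pos (postStar q.1 q.2.1 q.2.2)
  have key := J_ge (a := g q.1 / Maxw q.1) (b := g q.2.1 / Maxw q.2.1)
    (a' := g (post q.1 q.2.1 q.2.2) / Maxw (post q.1 q.2.1 q.2.2))
    (b' := g (postStar q.1 q.2.1 q.2.2) / Maxw (postStar q.1 q.2.1 q.2.2))
    (m := Maxw q.1 * Maxw q.2.1) (e := e) (C := B / cN n) (by (clear * - m1 m2; positivity))
    (mul_le_one₀ (Maxw_le_one _) m2.le (Maxw_le_one _)) he he1
    (div_nonneg (g0 _) m1.le) (div_nonneg (g0 _) m2.le) (div_nonneg (g0 _) m3.le)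
    (div_nonneg (g0 _) m4.le) (div_Maxw_le h1 (g0 _) (hB _ h1)) (div_Maxw_le h2 (g0 _) (hB _ h2))
    (div_Maxw_le h3 (g0 _) (hB _ h3)) (div_Maxw_le h4 (g0 _) (hB _ h4))
  rw [← prod_norm, ← Maxw_post q.1 q.2.1 q.2.2, ← prod_norm] at key
  exact key

theorem JE_le {g : V → ℝ} (g0 : ∀ v, 0 ≤ g v) {B e : ℝ} (hB : ∀ v, ‖v‖ ≤ n → g v ≤ B)
    (he : 0 < e) (he1 : e ≤ 1) {q : V × V × S2} (hq : bN n q.1 q.2.1 q.2.2 ≠ 0) :
    |JE e g q| ≤ B ^ 2 * (4 * (Real.log (B / cN n + 1) - Real.log e)) := by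
  obtain ⟨h1, h2, h3, h4⟩ := bN_ne_zero hq
  have hB0 : 0 ≤ B := (g0 _).trans (hB _ h1)
  have l1 := abs_lgE_le h1 (g0 _) (hB _ h1) he he1
  have l2 := abs_lgE_le h2 (g0 _) (hB _ h2) he he1
  have l3 := abs_lgE_le h3 (g0 _) (hB _ h3) he he1
  have l4 := abs_lgE_le h4 (g0 _) (hB _ h4) he he1
  unfold JE
  rw [abs_mul]
  have h5 : |g (post q.1 q.2.1 q.2.2) * g (postStar q.1 q.2.1 q.2.2) - g q.1 * g q.2.1|
      ≤ B ^ 2 := by
    have a1 : g (post q.1 q.2.1 q.2.2) * g (postStar q.1 q.2.1 q.2.2) ≤ B * B :=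
      mul_le_mul (hB _ h3) (hB _ h4) (g0 _) hB0
    have a2 : g q.1 * g q.2.1 ≤ B * B := mul_le_mul (hB _ h1) (hB _ h2) (g0 _) hB0
    have a3 : 0 ≤ g (post q.1 q.2.1 q.2.2) * g (postStar q.1 q.2.1 q.2.2) :=
      mul_nonneg (g0 _) (g0 _)
    have a4 : 0 ≤ g q.1 * g q.2.1 := mul_nonneg (g0 _) (g0 _)
    rw [abs_le]
    constructor <;> nlinarith
  apply mul_le_mul h5 _ (abs_nonneg _) (by (clear * -; positivity))
  rw [abs_le] at l1 l2 l3 l4 ⊢
  constructor <;> linarith only [l1, l2, l3, l4]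

theorem measurable_JE {α : Type*} [MeasurableSpace α] {f : α → V → ℝ}
    (hf : Measurable fun q : α × V => f q.1 q.2) (e : ℝ) :
    Measurable fun z : α × (V × V × S2) => JE e (f z.1) z.2 := by
  have p1 : Measurable fun z : α × (V × V × S2) => (z.1, z.2.1) := by fun_prop
  have p2 : Measurable fun z : α × (V × V × S2) => (z.1, z.2.2.1) := by fun_prop
  have p3 : Measurable fun z : α × (V × V × S2) => (z.1, post z.2.1 z.2.2.1 z.2.2.2) :=
    measurable_fst.prodMk (measurable_post.comp measurable_snd)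
  have p4 : Measurable fun z : α × (V × V × S2) => (z.1, postStar z.2.1 z.2.2.1 z.2.2.2) :=
    measurable_fst.prodMk (measurable_postStar.comp measurable_snd)
  have hl := meas_lgE hf e
  exact (((hf.comp p3).mul (hf.comp p4)).sub ((hf.comp p1).mul (hf.comp p2))).mul
    ((((hl.comp p3).add (hl.comp p4)).sub (hl.comp p1)).sub (hl.comp p2))

theorem integrable_bN (n : ℕ) : Integrable (fun q : V × V × S2 => bN n q.1 q.2.1 q.2.2) mu3 := by
  have hsub : Function.support (fun q : V × V × S2 => bN n q.1 q.2.1 q.2.2)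
      ⊆ Metric.closedBall 0 (n : ℝ) ×ˢ (Metric.closedBall 0 (n : ℝ) ×ˢ univ) := by
    intro q hq
    obtain ⟨h1, h2, -, -⟩ := bN_ne_zero hq
    simp only [mem_prod, Metric.mem_closedBall, dist_zero_right, h1, h2, mem_univ, and_self]
  rw [← integrableOn_iff_integrable_of_support_subset hsub]
  apply Measure.integrableOn_of_bounded (M := 2 * n)
  · unfold mu3
    rw [Measure.prod_prod, Measure.prod_prod]
    exact ENNReal.mul_ne_top (isCompact_closedBall 0 _).measure_lt_top.ne
      (ENNReal.mul_ne_top (isCompact_closedBall 0 _).measure_lt_top.ne (measure_ne_top _ _))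
  · exact (measurable_bN n).aestronglyMeasurable
  · apply Eventually.of_forall
    intro q
    rw [Real.norm_of_nonneg (bN_nonneg _ _ _ _)]
    exact bN_le_two _ _ _ _

/-- total mass of the truncated kernel -/
def betN (n : ℕ) : ℝ := ∫ q, bN n q.1 q.2.1 q.2.2 ∂mu3

theorem betN_nonneg (n : ℕ) : 0 ≤ betN n := integral_nonneg fun _ => bN_nonneg _ _ _ _

/-- entropy production at one position -/
theorem slice {g : V → ℝ} (hg : Measurable g) (g0 : ∀ v, 0 ≤ g v) {B e : ℝ}
    (hB : ∀ v, ‖v‖ ≤ n → g v ≤ B) (he : 0 < e) (he1 : e ≤ 1) :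
    0 ≤ (-∫ v in Metric.closedBall 0 (n : ℝ),
        lgE e g v * ((gainP n g v).toReal - g v * (rateP n g v).toReal))
          + 1 / 4 * (kapE (B / cN n) e * betN n) ∧
    1 / 4 * ∫⁻ q, pfN n g * ENNReal.ofReal (bN n q.1 q.2.1 q.2.2) * ENNReal.ofReal (JE e g q) ∂mu3
      ≤ ENNReal.ofReal ((-∫ v in Metric.closedBall 0 (n : ℝ),
        lgE e g v * ((gainP n g v).toReal - g v * (rateP n g v).toReal))
          + 1 / 4 * (kapE (B / cN n) e * betN n)) := by
  have hB0 : 0 ≤ B := (g0 0).trans (hB 0 (by simp only [norm_zero, Nat.cast_nonneg]))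
  have hC0 : 0 ≤ B / cN n := div_nonneg hB0 (cN_pos n).le
  have hk := kapE_nonneg hC0 he he1
  have hm2 : Measurable fun q : Unit × V => g q.2 := hg.comp measurable_snd
  have hJm : Measurable (JE e g) :=
    (measurable_JE (f := fun _ : Unit => g) hm2 e).comp
      (measurable_const.prodMk measurable_id : Measurable fun q : V × V × S2 => ((), q))
  have hlm : Measurable (lgE e g) :=
    (meas_lgE (f := fun _ : Unit => g) hm2 e).comp
      (measurable_const.prodMk measurable_id : Measurable fun v : V => ((), v))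
  have hw := weak_form n hg g0 hB hlm (fun v hv => abs_lgE_le hv (g0 v) (hB v hv) he he1)
  have hJi : Integrable (fun q : V × V × S2 => bN n q.1 q.2.1 q.2.2 * JE e g q) mu3 := by
    apply ((integrable_bN n).mul_const
      (B ^ 2 * (4 * (Real.log (B / cN n + 1) - Real.log e)))).mono'
    · exact ((measurable_bN n).mul hJm).aestronglyMeasurable
    · apply Eventually.of_forall
      intro q
      rw [Real.norm_eq_abs, abs_mul, abs_of_nonneg (bN_nonneg _ _ _ _)]
      by_cases hq : bN n q.1 q.2.1 q.2.2 = 0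
      · rw [hq]
        simp
      · exact mul_le_mul_of_nonneg_left (JE_le g0 hB he he1 hq) (bN_nonneg _ _ _ _)
  set I : ℝ := ∫ q, bN n q.1 q.2.1 q.2.2 * JE e g q ∂mu3 with hI
  set κ := kapE (B / cN n) e with hκ
  have hKI : (-∫ v in Metric.closedBall 0 (n : ℝ),
      lgE e g v * ((gainP n g v).toReal - g v * (rateP n g v).toReal))
      = 1 / 4 * ((pfN n g).toReal * I) := by
    rw [hw]
    have h1 : ∫ q : V × V × S2, bN n q.1 q.2.1 q.2.2 *
        (g (post q.1 q.2.1 q.2.2) * g (postStar q.1 q.2.1 q.2.2) - g q.1 * g q.2.1) *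
        (lgE e g q.1 + lgE e g q.2.1 - lgE e g (post q.1 q.2.1 q.2.2)
          - lgE e g (postStar q.1 q.2.1 q.2.2))
        ∂((volume : Measure V).prod ((volume : Measure V).prod surf)) = -I := by
      rw [hI, ← integral_neg]
      apply integral_congr_ae
      apply Eventually.of_forall
      intro q
      simp only [JE]
      ring
    rw [h1]
    ring
  have hsum : Integrable (fun q : V × V × S2 => bN n q.1 q.2.1 q.2.2 * JE e g q
      + κ * bN n q.1 q.2.1 q.2.2) mu3 := hJi.add ((integrable_bN n).const_mul κ)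
  have hpos : ∀ q : V × V × S2, 0 ≤ bN n q.1 q.2.1 q.2.2 * JE e g q
      + κ * bN n q.1 q.2.1 q.2.2 := by
    intro q
    by_cases hq : bN n q.1 q.2.1 q.2.2 = 0
    · rw [hq]
      simp
    · have h1 := JE_ge g0 hB he he1 hq
      have h2 := bN_nonneg n q.1 q.2.1 q.2.2
      nlinarith only [h1, h2]
  have hIs : ∫ q, (bN n q.1 q.2.1 q.2.2 * JE e g q + κ * bN n q.1 q.2.1 q.2.2) ∂mu3
      = I + κ * betN n := by
    rw [integral_add hJi ((integrable_bN n).const_mul κ), integral_const_mul]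
    rfl
  have hIk : 0 ≤ I + κ * betN n := by
    rw [← hIs]
    exact integral_nonneg hpos
  have hp0 : 0 ≤ (pfN n g).toReal := ENNReal.toReal_nonneg
  have hp1 : (pfN n g).toReal ≤ 1 := by
    have := ENNReal.toReal_mono ENNReal.one_ne_top (pfN_le_one n g)
    simpa only [ge_iff_le, ENNReal.toReal_one] using this
  have hkb : 0 ≤ κ * betN n := mul_nonneg hk (betN_nonneg n)
  rw [hKI]
  have hineq : 1 / 4 * ((pfN n g).toReal * (I + κ * betN n))
      ≤ 1 / 4 * ((pfN n g).toReal * I) + 1 / 4 * (κ * betN n) := by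
    linarith only [mul_nonneg (sub_nonneg.2 hp1) (sub_nonneg.2 hkb)]
  refine ⟨le_trans (by (clear * - hIk; positivity)) hineq, ?_⟩
  have hlin : ∫⁻ q, ENNReal.ofReal (bN n q.1 q.2.1 q.2.2) * ENNReal.ofReal (JE e g q) ∂mu3
      ≤ ENNReal.ofReal (I + κ * betN n) := by
    rw [← hIs, ofReal_integral_eq_lintegral_ofReal hsum (Eventually.of_forall hpos)]
    apply lintegral_mono
    intro q
    simp only
    rw [← ENNReal.ofReal_mul (bN_nonneg _ _ _ _)]
    apply ENNReal.ofReal_le_ofReal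
    have := mul_nonneg hk (bN_nonneg n q.1 q.2.1 q.2.2)
    linarith only [this]
  have hpt : pfN n g ≠ ⊤ := ne_top_of_le_ne_top ENNReal.one_ne_top (pfN_le_one n g)
  calc 1 / 4 * ∫⁻ q, pfN n g * ENNReal.ofReal (bN n q.1 q.2.1 q.2.2)
        * ENNReal.ofReal (JE e g q) ∂mu3
      = 1 / 4 * (pfN n g * ∫⁻ q, ENNReal.ofReal (bN n q.1 q.2.1 q.2.2)
        * ENNReal.ofReal (JE e g q) ∂mu3) := by
        rw [← lintegral_const_mul' _ _ hpt]
        simp only [mul_assoc]
    _ ≤ 1 / 4 * (pfN n g * ENNReal.ofReal (I + κ * betN n)) := by (clear * - hlin; gcongr)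
    _ = ENNReal.ofReal (1 / 4 * ((pfN n g).toReal * (I + κ * betN n))) := by
        rw [ENNReal.ofReal_mul (by norm_num : (0 : ℝ) ≤ 1 / 4), ENNReal.ofReal_mul hp0,
          ENNReal.ofReal_toReal hpt]
        congr 1
        rw [ENNReal.ofReal_div_of_pos (by norm_num)]
        simp
    _ ≤ _ := ENNReal.ofReal_le_ofReal hineq

/-- the entropy inequality at fixed regularization -/
theorem IsBM.fixed (h : IsBM n F0 F) {t : ℝ} (ht : 0 ≤ t) {B : ℝ}
    (hB : ∀ s ∈ Icc 0 t, ∀ x v, ‖v‖ ≤ n → F s x v ≤ B) {e : ℝ} (he : 0 < e) (he1 : e ≤ 1) :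
    0 ≤ EntE n e F0 - EntE n e (F t) + 1 / 4 * (kapE (B / cN n) e * betN n) * t ∧
    ∫⁻ s in Ioc 0 t, ∫⁻ x : T3, 1 / 4 * ∫⁻ q, pfN n (F s x) *
      ENNReal.ofReal (bN n q.1 q.2.1 q.2.2) * ENNReal.ofReal (JE e (F s x) q) ∂mu3
      ≤ ENNReal.ofReal (EntE n e F0 - EntE n e (F t)
        + 1 / 4 * (kapE (B / cN n) e * betN n) * t) := by
  set κ := 1 / 4 * (kapE (B / cN n) e * betN n) with hκ
  obtain ⟨C, hC0, hC⟩ := exists_wE_le h t he he1
  have hid := h.EntE_eq ht he he1
  set W : ℝ × T3 → ℝ := fun z => ∫ v in Metric.closedBall 0 (n : ℝ), wE n e F z.1 z.2 v with hW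
  have hWm : StronglyMeasurable W :=
    StronglyMeasurable.integral_prod_right (f := fun (z : ℝ × T3) (v : V) => wE n e F z.1 z.2 v)
      (meas_wE2 h e).stronglyMeasurable
  have hfin : (volume : Measure V) (Metric.closedBall 0 (n : ℝ)) ≠ ⊤ :=
    (isCompact_closedBall 0 _).measure_lt_top.ne
  have hWb : ∀ s ∈ Icc 0 t, ∀ x, |W (s, x)| ≤ C * (volume : Measure V).real
      (Metric.closedBall 0 (n : ℝ)) := by
    intro s hs x
    have h1 := norm_setIntegral_le_of_norm_le_const (μ := (volume : Measure V))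
      (f := fun v => wE n e F s x v) (C := C) hfin.lt_top (fun v hv => by
        rw [Real.norm_eq_abs]
        exact hC s hs x v (by simpa only [Metric.mem_closedBall, dist_zero_right] using hv))
    rwa [Real.norm_eq_abs] at h1
  set ν : Measure (ℝ × T3) := ((volume : Measure ℝ).restrict (Ioc 0 t)).prod
    (volume : Measure T3) with hν
  have hae : ∀ᵐ z ∂ν, z.1 ∈ Ioc 0 t := by
    have h1 : ∀ᵐ s ∂(volume : Measure ℝ).restrict (Ioc 0 t), s ∈ Ioc 0 t :=
      ae_restrict_mem measurableSet_Ioc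
    exact Measure.quasiMeasurePreserving_fst.ae h1
  have hWi : Integrable W ν := by
    refine Integrable.of_bound hWm.aestronglyMeasurable
      (C * (volume : Measure V).real (Metric.closedBall 0 (n : ℝ))) ?_
    filter_upwards [hae] with z hz
    exact hWb z.1 (Ioc_subset_Icc_self hz) z.2
  have hneg : Integrable (fun z => -W z) ν := hWi.neg
  have hsum : Integrable (fun z => -W z + κ) ν := hneg.add (integrable_const κ)
  have hsl : ∀ s ∈ Icc 0 t, ∀ x, _ := fun s hs x =>
    slice (n := n) (measurable_slice h.meas s x) (h.nonneg s x) (hB s hs x) he he1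
  have hpos : 0 ≤ᵐ[ν] fun z => -W z + κ := by
    filter_upwards [hae] with z hz
    exact (hsl z.1 (Ioc_subset_Icc_self hz) z.2).1
  have hval : ∫ z, (-W z + κ) ∂ν = EntE n e F0 - EntE n e (F t) + κ * t := by
    have hνu : ν.real univ = t := by
      rw [hν, Measure.real, ← univ_prod_univ, Measure.prod_prod]
      simp only [MeasurableSet.univ, Measure.restrict_apply, univ_inter, Real.volume_Ioc, sub_zero, measure_univ, mul_one, ht, ENNReal.toReal_ofReal]
    rw [integral_add hneg (integrable_const κ), integral_neg, integral_prod _ hWi, hid,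
      integral_const, hνu]
    simp only [hW, smul_eq_mul]
    ring
  have hge : 0 ≤ ∫ z, (-W z + κ) ∂ν := integral_nonneg_of_ae hpos
  refine ⟨hval ▸ hge, ?_⟩
  rw [← hval, ofReal_integral_eq_lintegral_ofReal hsum hpos]
  have hm1 : Measurable fun z => ENNReal.ofReal (-W z + κ) :=
    (hWm.measurable.neg.add_const κ).ennreal_ofReal
  rw [lintegral_prod _ hm1.aemeasurable]
  apply setLIntegral_mono' measurableSet_Ioc
  intro s hs
  apply lintegral_mono
  intro x
  exact (hsl s (Ioc_subset_Icc_self hs) x).2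

theorem lintegral_mu3 {H : V × V × S2 → ℝ≥0∞} (hH : Measurable H) :
    ∫⁻ q, H q ∂mu3 = ∫⁻ v : V, ∫⁻ w : V, ∫⁻ o, H (v, w, o) ∂surf := by
  unfold mu3
  rw [lintegral_prod _ hH.aemeasurable]
  apply lintegral_congr
  intro v
  have hm3 : Measurable fun q : V × S2 => H (v, q) :=
    hH.comp (by fun_prop : Measurable fun q : V × S2 => (v, q))
  rw [lintegral_prod _ hm3.aemeasurable]

/-- the reference measure of the dissipation -/
def mu5 (t : ℝ) : Measure ((ℝ × T3) × (V × V × S2)) :=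
  (((volume : Measure ℝ).restrict (Ioc 0 t)).prod (volume : Measure T3)).prod mu3

theorem lintegral_mu5 {f : (ℝ × T3) × (V × V × S2) → ℝ≥0∞} (hf : Measurable f) (t : ℝ) :
    ∫⁻ z, f z ∂(mu5 t) = ∫⁻ s in Ioc 0 t, ∫⁻ x : T3, ∫⁻ q, f ((s, x), q) ∂mu3 := by
  unfold mu5
  rw [lintegral_prod _ hf.aemeasurable, lintegral_prod _ hf.lintegral_prod_right'.aemeasurable]

theorem measurable_kerF (h : IsBM n F0 F) :
    Measurable fun z : (ℝ × T3) × (V × V × S2) =>
      pfN n (F z.1.1 z.1.2) * ENNReal.ofReal (bN n z.2.1 z.2.2.1 z.2.2.2) :=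
  ((measurable_pfN n (f := fun a : ℝ × T3 => F a.1 a.2) (meas_F2 h)).comp measurable_fst).mul
    ((measurable_bN n).comp measurable_snd).ennreal_ofReal

theorem IsBM.diss_eq (h : IsBM n F0 F) (t : ℝ) :
    ∫⁻ s in Ioc 0 t, dissN n (F s) = 1 / 4 * ∫⁻ z, pfN n (F z.1.1 z.1.2) *
      ENNReal.ofReal (bN n z.2.1 z.2.2.1 z.2.2.2) *
      dissDensity (F z.1.1 z.1.2 (post z.2.1 z.2.2.1 z.2.2.2)
        * F z.1.1 z.1.2 (postStar z.2.1 z.2.2.1 z.2.2.2))
        (F z.1.1 z.1.2 z.2.1 * F z.1.1 z.1.2 z.2.2.1) ∂(mu5 t) := by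
  have hf := meas_F2 h
  have p1 : Measurable fun z : (ℝ × T3) × (V × V × S2) => (z.1, z.2.1) := by fun_prop
  have p2 : Measurable fun z : (ℝ × T3) × (V × V × S2) => (z.1, z.2.2.1) := by fun_prop
  have p3 : Measurable fun z : (ℝ × T3) × (V × V × S2) =>
      (z.1, post z.2.1 z.2.2.1 z.2.2.2) :=
    measurable_fst.prodMk (measurable_post.comp measurable_snd)
  have p4 : Measurable fun z : (ℝ × T3) × (V × V × S2) =>
      (z.1, postStar z.2.1 z.2.2.1 z.2.2.2) :=
    measurable_fst.prodMk (measurable_postStar.comp measurable_snd)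
  have hm := (measurable_kerF h).mul (measurable_dissDensity ((hf.comp p3).mul (hf.comp p4))
    ((hf.comp p1).mul (hf.comp p2)))
  have hm' : Measurable fun z : (ℝ × T3) × (V × V × S2) => pfN n (F z.1.1 z.1.2) *
      ENNReal.ofReal (bN n z.2.1 z.2.2.1 z.2.2.2) *
      dissDensity (F z.1.1 z.1.2 (post z.2.1 z.2.2.1 z.2.2.2)
        * F z.1.1 z.1.2 (postStar z.2.1 z.2.2.1 z.2.2.2))
        (F z.1.1 z.1.2 z.2.1 * F z.1.1 z.1.2 z.2.2.1) := hm
  rw [lintegral_mu5 hm' t, ← lintegral_const_mul' _ _ (by norm_num)]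
  apply lintegral_congr
  intro s
  unfold dissN
  congr 1
  apply lintegral_congr
  intro x
  have hm2 := hm'.comp (by fun_prop : Measurable fun q : V × V × S2 => ((s, x), q))
  exact (lintegral_mu3 hm2).symm

/-- entropy inequality of the slow particles -/
theorem IsBM.slow_ineq (h : IsBM n F0 F) {t : ℝ} (ht : 0 ≤ t) :
    EntE n 0 (F t) ≤ EntE n 0 F0 ∧
    ∫⁻ s in Ioc 0 t, dissN n (F s) ≤ ENNReal.ofReal (EntE n 0 F0 - EntE n 0 (F t)) := by
  obtain ⟨B, hB⟩ := h.bdd t
  set e : ℕ → ℝ := fun k => 1 / ((k : ℝ) + 1) with he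
  have e0 : ∀ k, 0 < e k := fun k => by
    simp only [he]
    (clear * -; positivity)
  have e1 : ∀ k, e k ≤ 1 := fun k => by
    simp only [he]
    rw [div_le_one (by positivity)]
    have : (0 : ℝ) ≤ k := Nat.cast_nonneg k
    linarith only []
  have et : Tendsto e atTop (𝓝 0) := tendsto_one_div_add_atTop_nhds_zero_nat
  have hB0 : ∀ x v, ‖v‖ ≤ n → F0 x v ≤ B := fun x v hv => by
    rw [← h.initial]
    exact hB 0 ⟨le_rfl, ht⟩ x v hv
  have l1 := tendsto_EntE (n := n) h.meas0 h.nonneg0 hB0 e0 e1 et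
  have mt : Measurable fun p : T3 × V => F t p.1 p.2 :=
    h.meas.comp (by fun_prop : Measurable fun p : T3 × V => ((t, p) : ℝ × T3 × V))
  have l2 := tendsto_EntE (n := n) mt (h.nonneg t) (hB t ⟨ht, le_rfl⟩) e0 e1 et
  have l3 : Tendsto (fun k => 1 / 4 * (kapE (B / cN n) (e k) * betN n) * t) atTop (𝓝 0) := by
    have h1 := (((tendsto_kappa (B / cN n)).mul_const (betN n)).const_mul (1 / 4)).mul_const t
    simp only [zero_mul, mul_zero] at h1
    exact h1
  have l4 := (l1.sub l2).add l3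
  rw [add_zero] at l4
  have hfix := fun k => h.fixed ht hB (e0 k) (e1 k)
  have hge : 0 ≤ EntE n 0 F0 - EntE n 0 (F t) :=
    ge_of_tendsto' l4 fun k => (hfix k).1
  refine ⟨by linarith only [hge], ?_⟩
  have hf := meas_F2 h
  have hmk : ∀ k, Measurable fun z : (ℝ × T3) × (V × V × S2) => pfN n (F z.1.1 z.1.2) *
      ENNReal.ofReal (bN n z.2.1 z.2.2.1 z.2.2.2) *
      ENNReal.ofReal (JE (e k) (F z.1.1 z.1.2) z.2) := fun k =>
    (measurable_kerF h).mul
      (measurable_JE (f := fun a : ℝ × T3 => F a.1 a.2) hf (e k)).ennreal_ofReal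
  have hI : ∀ k, 1 / 4 * ∫⁻ z, pfN n (F z.1.1 z.1.2) *
      ENNReal.ofReal (bN n z.2.1 z.2.2.1 z.2.2.2) *
      ENNReal.ofReal (JE (e k) (F z.1.1 z.1.2) z.2) ∂(mu5 t)
      ≤ ENNReal.ofReal (EntE n (e k) F0 - EntE n (e k) (F t)
        + 1 / 4 * (kapE (B / cN n) (e k) * betN n) * t) := by
    intro k
    refine le_trans (le_of_eq ?_) (hfix k).2
    rw [lintegral_mu5 (hmk k) t, ← lintegral_const_mul' _ _ (by norm_num)]
    apply lintegral_congr
    intro s
    rw [← lintegral_const_mul' _ _ (by norm_num)]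
  rw [h.diss_eq t]
  have hlim := ENNReal.tendsto_ofReal l4
  calc 1 / 4 * ∫⁻ z, pfN n (F z.1.1 z.1.2) *
      ENNReal.ofReal (bN n z.2.1 z.2.2.1 z.2.2.2) *
      dissDensity (F z.1.1 z.1.2 (post z.2.1 z.2.2.1 z.2.2.2)
        * F z.1.1 z.1.2 (postStar z.2.1 z.2.2.1 z.2.2.2))
        (F z.1.1 z.1.2 z.2.1 * F z.1.1 z.1.2 z.2.2.1) ∂(mu5 t)
      ≤ 1 / 4 * ∫⁻ z, liminf (fun k => pfN n (F z.1.1 z.1.2) *
        ENNReal.ofReal (bN n z.2.1 z.2.2.1 z.2.2.2) *
        ENNReal.ofReal (JE (e k) (F z.1.1 z.1.2) z.2)) atTop ∂(mu5 t) := by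
        gcongr with z
        have hne : pfN n (F z.1.1 z.1.2) * ENNReal.ofReal (bN n z.2.1 z.2.2.1 z.2.2.2) ≠ ⊤ :=
          ENNReal.mul_ne_top (ne_top_of_le_ne_top ENNReal.one_ne_top (pfN_le_one n _))
            ENNReal.ofReal_ne_top
        rw [ENNReal.liminf_const_mul_of_ne_top hne]
        gcongr
        have m1 := Maxw_pos z.2.1
        have m2 := Maxw_pos z.2.2.1
        have m3 := Maxw_pos (post z.2.1 z.2.2.1 z.2.2.2)
        have m4 := Maxw_pos (postStar z.2.1 z.2.2.1 z.2.2.2)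
        have g0 := h.nonneg z.1.1 z.1.2
        have key := diss_le_liminf (m := Maxw z.2.1 * Maxw z.2.2.1)
          (a := F z.1.1 z.1.2 z.2.1 / Maxw z.2.1) (b := F z.1.1 z.1.2 z.2.2.1 / Maxw z.2.2.1)
          (a' := F z.1.1 z.1.2 (post z.2.1 z.2.2.1 z.2.2.2) / Maxw (post z.2.1 z.2.2.1 z.2.2.2))
          (b' := F z.1.1 z.1.2 (postStar z.2.1 z.2.2.1 z.2.2.2)
            / Maxw (postStar z.2.1 z.2.2.1 z.2.2.2)) (by (clear * - m1 m2; positivity))
          (div_nonneg (g0 _) m1.le) (div_nonneg (g0 _) m2.le) (div_nonneg (g0 _) m3.le)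
          (div_nonneg (g0 _) m4.le) e0 et
        rw [← prod_norm, ← Maxw_post z.2.1 z.2.2.1 z.2.2.2, ← prod_norm] at key
        exact key
    _ ≤ 1 / 4 * liminf (fun k => ∫⁻ z, pfN n (F z.1.1 z.1.2) *
        ENNReal.ofReal (bN n z.2.1 z.2.2.1 z.2.2.2) *
        ENNReal.ofReal (JE (e k) (F z.1.1 z.1.2) z.2) ∂(mu5 t)) atTop := by
        gcongr
        exact lintegral_liminf_le hmk
    _ = liminf (fun k => 1 / 4 * ∫⁻ z, pfN n (F z.1.1 z.1.2) *
        ENNReal.ofReal (bN n z.2.1 z.2.2.1 z.2.2.2) *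
        ENNReal.ofReal (JE (e k) (F z.1.1 z.1.2) z.2) ∂(mu5 t)) atTop := by
        rw [ENNReal.liminf_const_mul_of_ne_top (by norm_num)]
    _ ≤ liminf (fun k => ENNReal.ofReal (EntE n (e k) F0 - EntE n (e k) (F t)
        + 1 / 4 * (kapE (B / cN n) (e k) * betN n) * t)) atTop :=
        liminf_le_liminf (Eventually.of_forall hI)
    _ = ENNReal.ofReal (EntE n 0 F0 - EntE n 0 (F t)) := hlim.liminf_eq

theorem split_relEntropy {f : T3 → V → ℝ} (hf : Measurable fun p : T3 × V => f p.1 p.2)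
    (f0 : ∀ x v, 0 ≤ f x v) {B : ℝ} (hB : ∀ x v, ‖v‖ ≤ n → f x v ≤ B) :
    relEntropy f = ENNReal.ofReal (EntE n 0 f)
      + ∫⁻ p in (slow n)ᶜ, ENNReal.ofReal (entD (f p.1 p.2) (Maxw p.2)) := by
  rw [relEntropy_eq hf, ← lintegral_add_compl _ (measurableSet_slow n), EntE_zero]
  congr 1
  rw [ofReal_integral_eq_lintegral_ofReal]
  · have h1 : Integrable (fun p : T3 × V => Maxw p.2 * hE (f p.1 p.2 / Maxw p.2 + 0))
        ((volume : Measure (T3 × V)).restrict (slow n)) := by
      refine Integrable.of_bound (meas_eps hf 0).aestronglyMeasurable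
        ((B / cN n + 1) ^ 2 + 1) ?_
      filter_upwards [ae_restrict_mem (measurableSet_slow n)] with p hp
      exact eps_bound (mem_slow.mp hp) (f0 _ _) (hB _ _ (mem_slow.mp hp)) le_rfl zero_le_one
    apply h1.congr
    apply Eventually.of_forall
    intro p
    have h := Maxw_pos p.2
    simp only [add_zero]
    unfold hE entD
    field_simp
  · exact Eventually.of_forall fun p => entD_nonneg (f0 _ _) (Maxw_pos _)

/-- entropy inequality for the truncated problem -/
theorem IsBM.entropy (h : IsBM n F0 F) {t : ℝ} (ht : 0 ≤ t) :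
    relEntropy (F t) + ∫⁻ s in Ioc 0 t, dissN n (F s) ≤ relEntropy F0 := by
  obtain ⟨B, hB⟩ := h.bdd t
  have hB0 : ∀ x v, ‖v‖ ≤ n → F0 x v ≤ B := fun x v hv => by
    rw [← h.initial]
    exact hB 0 ⟨le_rfl, ht⟩ x v hv
  have mt : Measurable fun p : T3 × V => F t p.1 p.2 :=
    h.meas.comp (by fun_prop : Measurable fun p : T3 × V => ((t, p) : ℝ × T3 × V))
  rw [split_relEntropy (n := n) mt (h.nonneg t) (hB t ⟨ht, le_rfl⟩),
    split_relEntropy (n := n) h.meas0 h.nonneg0 hB0]
  have hfast : ∫⁻ p in (slow n)ᶜ, ENNReal.ofReal (entD (F t p.1 p.2) (Maxw p.2))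
      = ∫⁻ p in (slow n)ᶜ, ENNReal.ofReal (entD (F0 p.1 p.2) (Maxw p.2)) := by
    have hcs : flow t ⁻¹' (slow n)ᶜ = (slow n)ᶜ := by
      rw [preimage_compl, flow_slow]
    have h1 := (measurePreserving_flow t).setLIntegral_comp_preimage_emb
      (measurableEmbedding_flow t) (fun p => ENNReal.ofReal (entD (F t p.1 p.2) (Maxw p.2)))
      (slow n)ᶜ
    rw [hcs] at h1
    rw [← h1]
    apply setLIntegral_congr_fun (measurableSet_slow n).compl
    intro p hp
    have hp' : (n : ℝ) < ‖p.2‖ := by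
      rw [mem_compl_iff, mem_slow, not_le] at hp
      exact hp
    have h2 := h.eq_of_lt hp' ht
    have h3 : F t (flow t p).1 (flow t p).2 = along F (t, p) := rfl
    simp only
    rw [h3, h2]
    rfl
  rw [hfast]
  obtain ⟨h1, h2⟩ := h.slow_ineq ht
  calc ENNReal.ofReal (EntE n 0 (F t))
        + (∫⁻ p in (slow n)ᶜ, ENNReal.ofReal (entD (F0 p.1 p.2) (Maxw p.2)))
        + ∫⁻ s in Ioc 0 t, dissN n (F s)
      ≤ ENNReal.ofReal (EntE n 0 (F t))
        + (∫⁻ p in (slow n)ᶜ, ENNReal.ofReal (entD (F0 p.1 p.2) (Maxw p.2)))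
        + ENNReal.ofReal (EntE n 0 F0 - EntE n 0 (F t)) := by (clear * - h2; gcongr)
    _ = ENNReal.ofReal (EntE n 0 (F t)) + ENNReal.ofReal (EntE n 0 F0 - EntE n 0 (F t))
        + ∫⁻ p in (slow n)ᶜ, ENNReal.ofReal (entD (F0 p.1 p.2) (Maxw p.2)) := by ring
    _ = _ := by
        rw [← ENNReal.ofReal_add _ (by linarith only [h1])]
        · congr 2
          ring
        · rw [EntE_zero]
          exact integral_nonneg fun p => entD_nonneg (h.nonneg _ _ _) (Maxw_pos _)

end Vale.Agent.P140.DL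
end
end
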