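import Vale.Agent.P140.MathlibUsed
import Vale.Agent.P140.Bd3.B6
import Vale.Agent.P140.Bd3.B10
import Vale.Agent.P140.Bd3.B9
import Vale.Agent.P140.Bd3.B8
import Vale.Agent.P140.Bd3.B4
import Vale.Agent.P140.Bd3.B1

set_option linter.all false

attribute [local instance 5000] Vale.Agent.P140.Sc.a01 Vale.Agent.P140.Sc.a02 Vale.Agent.P140.Sc.a03 Vale.Agent.P140.Sc.a04 Vale.Agent.P140.Sc.a05 Vale.Agent.P140.Sc.a06 Vale.Agent.P140.Sc.a07 Vale.Agent.P140.Sc.a08 Vale.Agent.P140.Sc.a09 Vale.Agent.P140.Sc.a10 Vale.Agent.P140.Sc.a11 Vale.Agent.P140.Sc.a12 Vale.Agent.P140.Sc.a13 Vale.Agent.P140.Sc.a14 Vale.Agent.P140.Sc.a15 Vale.Agent.P140.Sc.a16 Vale.Agent.P140.Sc.a17 Vale.Agent.P140.Sc.a18 Vale.Agent.P140.Sc.a19 Vale.Agent.P140.Sc.a20 Vale.Agent.P140.Sc.a21 Vale.Agent.P140.Sc.a22 Vale.Agent.P140.Sc.a23 Vale.Agent.P140.Sc.a24 Vale.Agent.P140.Sc.a25 Vale.Agent.P140.Sc.a26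 Vale.Agent.P140.Sc.a27 Vale.Agent.P140.Sc.a28 Vale.Agent.P140.Sc.a29 Vale.Agent.P140.Sc.a30 Vale.Agent.P140.Sc.a31 Vale.Agent.P140.Sc.a32 Vale.Agent.P140.Sc.a33 Vale.Agent.P140.Sc.r01 Vale.Agent.P140.Sc.r02 Vale.Agent.P140.Sc.r03 Vale.Agent.P140.Sc.r04 Vale.Agent.P140.Sc.r05 Vale.Agent.P140.Sc.r06 Vale.Agent.P140.Sc.r07 Vale.Agent.P140.Sc.r08 Vale.Agent.P140.Sc.r09 Vale.Agent.P140.Sc.r10 Vale.Agent.P140.Sc.r11 Vale.Agent.P140.Sc.r12 Vale.Agent.P140.Sc.r13 Vale.Agent.P140.Sc.r14 Vale.Agent.P140.Sc.r15 Vale.Agent.P140.Sc.r16 Vale.Agent.P140.Sc.r17 Vale.Agent.P140.Sc.r18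

section

/-!
P140-NU, module E: the parameter conditions hold eventually.
-/

open MeasureTheory Set Filter
open scoped ENNReal Topology

noncomputable section

namespace Vale.Agent.P140.NU.EW

/-- a function with negative derivative at `1` is larger on the left of `1` -/
lemma par2_left {f : ℝ → ℝ} {f' : ℝ} (hf : HasDerivAt f f' 1) (h : f' < 0) :
    ∀ᶠ lam in 𝓝[<] (1 : ℝ), f 1 < f lam := by
  have h1 := (hasDerivAt_iff_tendsto_slope.1 hf).mono_left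
    (nhdsWithin_mono (1 : ℝ) (fun x (hx : x < 1) => (ne_of_lt hx : x ≠ 1)))
  have h2 := h1.eventually (gt_mem_nhds h)
  filter_upwards [h2, self_mem_nhdsWithin] with lam hl hl1
  have hl1' : lam - 1 < 0 := sub_neg.2 hl1
  rw [slope_def_field] at hl
  have h3 : 0 < f lam - f 1 := by
    rcases div_neg_iff.1 hl with h4 | h4
    · exact h4.1
    · exact absurd h4.2 (not_lt.2 hl1'.le)
  linarith

lemma par2_lo (a b κ : ℝ) (h : κ < b - a) :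
    ∀ᶠ lam in 𝓝[<] (1 : ℝ), κ * (1 - lam) ≤ lam ^ a - lam ^ b := by
  have h1 : HasDerivAt (fun x : ℝ => x ^ a - x ^ b - κ * (1 - x)) (a - b + κ) 1 := by
    have ha := Real.hasDerivAt_rpow_const (x := (1 : ℝ)) (p := a) (Or.inl one_ne_zero)
    have hb := Real.hasDerivAt_rpow_const (x := (1 : ℝ)) (p := b) (Or.inl one_ne_zero)
    have hc : HasDerivAt (fun x : ℝ => κ * (1 - x)) (κ * (0 - 1)) 1 :=
      ((hasDerivAt_const (1 : ℝ) (1 : ℝ)).sub (hasDerivAt_id (1 : ℝ))).const_mul κ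
    have hd := (ha.sub hb).sub hc
    refine hd.congr_deriv ?_
    rw [Real.one_rpow, Real.one_rpow]
    ring
  filter_upwards [par2_left h1 (by linarith)] with lam hl
  simp only [Real.one_rpow, sub_self, mul_zero] at hl
  linarith

lemma par2_hi (a b κ : ℝ) (h : b - a < κ) :
    ∀ᶠ lam in 𝓝[<] (1 : ℝ), lam ^ a - lam ^ b ≤ κ * (1 - lam) := by
  filter_upwards [par2_lo b a (-κ) (by linarith)] with lam hl
  linarith

lemma par2_small (C m : ℝ) (hm : 0 < m) : ∀ᶠ lam in 𝓝[<] (1 : ℝ), (1 - lam) * C ≤ m := by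
  have h1 : Tendsto (fun lam : ℝ => (1 - lam) * C) (𝓝[<] (1 : ℝ)) (𝓝 ((1 - 1) * C)) := by
    apply Tendsto.mono_left _ nhdsWithin_le_nhds
    exact ((continuous_const.sub continuous_id).mul continuous_const).tendsto 1
  rw [sub_self, zero_mul] at h1
  filter_upwards [h1.eventually (gt_mem_nhds hm)] with lam hl
  exact hl.le

/-- parameter conditions -/
theorem evP_PE : EvP PE := by
  have hpos : ∀ c : ℝ, 0 < c → ∀ lam kdel : ℝ, ∀ K j0 : ℕ,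
      0 < Par.m1 ⟨c, lam, kdel, K, j0⟩ := by
    intro c hc lam kdel K j0
    unfold Par.m1 Par.Lam Par.Vg Par.w
    have : 0 < √c := Real.sqrt_pos.2 hc
    simp only
    positivity
  have h1 : EvP fun P => 10 ^ 16 ≤ P.c := EvP.of_c (eventually_ge_atTop _)
  have h2 : EvP fun P => (99 / 100 ≤ P.lam ∧ P.lam < 1) := by
    apply EvP.of_lam (φ := fun _ lam => 99 / 100 ≤ lam ∧ lam < 1)
    refine Eventually.of_forall fun c => ?_
    have : Ico (99 / 100 : ℝ) 1 ∈ 𝓝[<] (1 : ℝ) := Ico_mem_nhdsLT (by norm_num)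
    exact this
  have h3 : EvP fun P => (1 - P.lam) * 10 ^ 8 * P.c * (P.Vg + 3) ≤ P.m1 ∧
      (1 - P.lam) * 10 ^ 8 * P.w * P.c ≤ P.m1 ^ 2 := by
    apply EvP.of_lam (φ := fun c lam =>
      (1 - lam) * 10 ^ 8 * c * (Par.Vg ⟨c, lam, 0, 0, 0⟩ + 3) ≤ Par.m1 ⟨c, lam, 0, 0, 0⟩ ∧
      (1 - lam) * 10 ^ 8 * Par.w ⟨c, lam, 0, 0, 0⟩ * c ≤ Par.m1 ⟨c, lam, 0, 0, 0⟩ ^ 2)
    filter_upwards [eventually_gt_atTop (0 : ℝ)] with c hc
    have hm : 0 < Par.m1 ⟨c, 0, 0, 0, 0⟩ := hpos c hc 0 0 0 0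
    filter_upwards [par2_small (10 ^ 8 * c * (Par.Vg ⟨c, 0, 0, 0, 0⟩ + 3)) _ hm,
      par2_small (10 ^ 8 * Par.w ⟨c, 0, 0, 0, 0⟩ * c) _ (pow_pos hm 2)] with lam hl1 hl2
    constructor
    · refine le_trans (le_of_eq ?_) hl1
      simp only [Par.Vg]
      ring
    · refine le_trans (le_of_eq ?_) hl2
      simp only [Par.w]
      ring
  have h4 : EvP fun P => 998 / 1000 * (1 - P.lam) ≤ P.lam ^ (gg / 2) - P.lam ^ (1 - gg / 2) ∧
      (P.lam ^ (gg / 2) - P.lam ^ (2 * gg) ≤ 16 / 10000 * (1 - P.lam) ∧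
      P.lam ^ (1 - 2 * gg) - P.lam ^ (1 - gg / 2) ≤ 16 / 10000 * (1 - P.lam)) := by
    apply EvP.of_lam (φ := fun _ lam =>
      998 / 1000 * (1 - lam) ≤ lam ^ (gg / 2) - lam ^ (1 - gg / 2) ∧
      (lam ^ (gg / 2) - lam ^ (2 * gg) ≤ 16 / 10000 * (1 - lam) ∧
      lam ^ (1 - 2 * gg) - lam ^ (1 - gg / 2) ≤ 16 / 10000 * (1 - lam)))
    refine Eventually.of_forall fun c => ?_
    filter_upwards [par2_lo (gg / 2) (1 - gg / 2) (998 / 1000) (by unfold gg; norm_num),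
      par2_hi (gg / 2) (2 * gg) (16 / 10000) (by unfold gg; norm_num),
      par2_hi (1 - 2 * gg) (1 - gg / 2) (16 / 10000) (by unfold gg; norm_num)] with lam a b c
    exact ⟨a, b, c⟩
  have h5 : EvP fun P => 0 < P.kdel ∧ P.kdel * 10 ^ 9 ≤ P.m1 := by
    apply EvP.of_kdel (φ := fun c lam K k => 0 < k ∧ k * 10 ^ 9 ≤ Par.m1 ⟨c, lam, k, K, 0⟩)
    filter_upwards [eventually_gt_atTop (0 : ℝ)] with c hc
    refine Eventually.of_forall fun lam => Eventually.of_forall fun K => ?_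
    have hm : 0 < Par.m1 ⟨c, lam, 0, K, 0⟩ := hpos c hc lam 0 K 0
    have : Ioc (0 : ℝ) (Par.m1 ⟨c, lam, 0, K, 0⟩ / 10 ^ 9) ∈ 𝓝[>] (0 : ℝ) :=
      Ioc_mem_nhdsGT (by positivity)
    filter_upwards [this] with k hk
    refine ⟨hk.1, ?_⟩
    have h6 := hk.2
    rw [le_div_iff₀ (by positivity)] at h6
    exact h6
  have h := (((h1.and h2).and (h3.and h4)).and (h5.and EvP.of_j0))
  refine h.mono fun P hP => ?_
  obtain ⟨⟨⟨a1, a2, a3⟩, ⟨b1, b2⟩, c1, c2, c3⟩, ⟨d1, d2⟩, e⟩ := hP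
  exact ⟨a1, a2, a3, b1, b2, c1, c2, c3, d1, d2, e⟩

end Vale.Agent.P140.NU.EW
end
end

section

/-!
P140, non-uniqueness: the statements of module E (proved in `NU/E/Main.lean`, `NU/E/New.lean`).
-/
end

section

/-!
P140-NU-S: change of variables velocity -> position in the plane.
-/

open MeasureTheory Set Filter
open scoped ENNReal Topology

noncomputable section

namespace Vale.Agent.P140.NU.S

theorem lint_scale {G : ℝ × ℝ → ℝ≥0∞} (hG : Measurable G) (X0 : ℝ × ℝ) {s : ℝ} (hs : 0 < s) :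
    ∫⁻ q, G (X0 - s • q) = ENNReal.ofReal ((s ^ 2)⁻¹) * ∫⁻ X, G X := by
  have hG' : Measurable fun y => G (X0 - y) := hG.comp (measurable_const.sub measurable_id)
  have h1 := Measure.map_addHaar_smul (volume : Measure (ℝ × ℝ)) hs.ne'
  have h2 : ∫⁻ q : ℝ × ℝ, G (X0 - s • q) = ∫⁻ y, G (X0 - y) ∂(Measure.map (s • ·)
      (volume : Measure (ℝ × ℝ))) :=
    (lintegral_map hG' (measurable_const_smul s)).symm
  rw [h2, h1, lintegral_smul_measure]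
  have h3 : Module.finrank ℝ (ℝ × ℝ) = 2 := by simp
  rw [h3, abs_of_pos (by positivity), lintegral_sub_left_eq_self G X0, smul_eq_mul]

/-- velocity -> position, for a time-dependent function and time gaps at least `k` -/
theorem lint_cov {G : ℝ → ℝ × ℝ → ℝ≥0∞} (hG : Measurable fun p : ℝ × (ℝ × ℝ) => G p.1 p.2)
    (X0 : ℝ × ℝ) {k : ℝ} (hk : 0 < k) (t1 τ0 : ℝ) :
    ∫⁻ q : ℝ × ℝ, ∫⁻ τ in Icc t1 (τ0 - k), G τ (X0 + (τ - τ0) • q) ≤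
      ENNReal.ofReal ((k ^ 2)⁻¹) * ∫⁻ τ in Icc t1 (τ0 - k), ∫⁻ X, G τ X := by
  have hm : Measurable fun p : (ℝ × ℝ) × ℝ => G p.2 (X0 + (p.2 - τ0) • p.1) := by
    apply hG.comp (measurable_snd.prodMk _)
    apply measurable_const.add
    exact (measurable_snd.sub_const _).smul measurable_fst
  rw [lintegral_lintegral_swap hm.aemeasurable]
  have hGX : Measurable fun τ => ∫⁻ X, G τ X := hG.lintegral_prod_right'
  rw [← lintegral_const_mul _ hGX]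
  apply setLIntegral_mono' measurableSet_Icc
  intro τ hτ
  have hs : k ≤ τ0 - τ := by linarith [hτ.2]
  have hs0 : 0 < τ0 - τ := by linarith
  have h1 : ∀ q : ℝ × ℝ, X0 + (τ - τ0) • q = X0 - (τ0 - τ) • q := by
    intro q
    module
  simp_rw [h1]
  have hGτ : Measurable (G τ) := hG.comp measurable_prodMk_left
  rw [lint_scale hGτ X0 hs0]
  gcongr

end Vale.Agent.P140.NU.S
end
end

section

/-!
P140, module S: the good part: measurability of the sweep and iterated integrals.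
-/

open MeasureTheory Set Filter
open scoped ENNReal Topology

noncomputable section

namespace Vale.Agent.P140.NU.S

/-- the variables `(X₂, u₂, τ₃, X₃, u₃, q₃)` -/
abbrev Om : Type := (ℝ × ℝ) × V × ℝ × (ℝ × ℝ) × V × (ℝ × ℝ)

/-- sweep data -/
def PDof (v u1 : V) (X1 : ℝ × ℝ) (τ1 : ℝ) (ω : Om) : PD :=
  ⟨v, u1, ω.2.1, ω.2.2.2.2.1, X1 - ω.1, ω.1 - ω.2.2.2.1, ω.2.2.2.2.2, τ1, ω.2.2.1⟩

theorem lint_Om {F : Om → ℝ≥0∞} (hF : Measurable F) :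
    ∫⁻ ω : Om, F ω = ∫⁻ X2 : ℝ × ℝ, ∫⁻ u2 : V, ∫⁻ τ3 : ℝ, ∫⁻ X3 : ℝ × ℝ, ∫⁻ u3 : V, ∫⁻ q3 : ℝ × ℝ,
      F (X2, u2, τ3, X3, u3, q3) := by
  rw [Measure.volume_eq_prod, lintegral_prod _ hF.aemeasurable]
  refine lintegral_congr fun X2 => ?_
  have h1 : Measurable fun p : V × ℝ × (ℝ × ℝ) × V × (ℝ × ℝ) => F (X2, p) :=
    hF.comp measurable_prodMk_left
  rw [Measure.volume_eq_prod, lintegral_prod _ h1.aemeasurable]
  refine lintegral_congr fun u2 => ?_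
  have h2 : Measurable fun p : ℝ × (ℝ × ℝ) × V × (ℝ × ℝ) => F (X2, u2, p) :=
    h1.comp measurable_prodMk_left
  rw [Measure.volume_eq_prod, lintegral_prod _ h2.aemeasurable]
  refine lintegral_congr fun τ3 => ?_
  have h3 : Measurable fun p : (ℝ × ℝ) × V × (ℝ × ℝ) => F (X2, u2, τ3, p) :=
    h2.comp measurable_prodMk_left
  rw [Measure.volume_eq_prod ((ℝ × ℝ)) (V × (ℝ × ℝ)), lintegral_prod _ h3.aemeasurable]
  refine lintegral_congr fun X3 => ?_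
  have h4 : Measurable fun p : V × (ℝ × ℝ) => F (X2, u2, τ3, X3, p) :=
    h3.comp measurable_prodMk_left
  rw [Measure.volume_eq_prod V (ℝ × ℝ), lintegral_prod _ h4.aemeasurable]

/-- moving the sweep variable inside -/
theorem lint_sweep_swap {F : ℝ → Om → ℝ≥0∞} (hF : Measurable fun p : ℝ × Om => F p.1 p.2) :
    ∫⁻ τ : ℝ, ∫⁻ X2 : ℝ × ℝ, ∫⁻ u2 : V, ∫⁻ τ3 : ℝ, ∫⁻ X3 : ℝ × ℝ, ∫⁻ u3 : V, ∫⁻ q3 : ℝ × ℝ,
      F τ (X2, u2, τ3, X3, u3, q3) =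
    ∫⁻ X2 : ℝ × ℝ, ∫⁻ u2 : V, ∫⁻ τ3 : ℝ, ∫⁻ X3 : ℝ × ℝ, ∫⁻ u3 : V, ∫⁻ q3 : ℝ × ℝ,
      ∫⁻ τ : ℝ, F τ (X2, u2, τ3, X3, u3, q3) := by
  have h1 : ∀ τ, ∫⁻ X2 : ℝ × ℝ, ∫⁻ u2 : V, ∫⁻ τ3 : ℝ, ∫⁻ X3 : ℝ × ℝ, ∫⁻ u3 : V, ∫⁻ q3 : ℝ × ℝ,
      F τ (X2, u2, τ3, X3, u3, q3) = ∫⁻ ω : Om, F τ ω := fun τ =>
    (lint_Om (hF.comp measurable_prodMk_left)).symm
  have h2 : Measurable fun ω : Om => ∫⁻ τ : ℝ, F τ ω := hF.lintegral_prod_left'
  simp_rw [h1]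
  rw [← lint_Om h2, lintegral_lintegral_swap hF.aemeasurable]

/-! ### measurability of the sweep -/

theorem meas_dd1 {α : Type*} [MeasurableSpace α] {v u1 w1 : α → V} {s1 : α → ℝ}
    (hv : Measurable v) (hu1 : Measurable u1) (hw1 : Measurable w1) (hs1 : Measurable s1) :
    Measurable fun a => dd1 (s1 a) (v a) (u1 a) (w1 a) := by
  have c : ∀ {z : α → V}, Measurable z → ∀ i : Fin 3, Measurable fun a => z a i :=
    fun hz i => (measurable_coord i).comp hz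
  unfold dd1
  apply meas_vec.comp (Measurable.prodMk (Measurable.prodMk _ _) _)
  · exact (c hw1 0).div hs1
  · exact (c hw1 1).div hs1
  · exact (((((c hw1 0).div hs1).mul ((c hv 0).sub (c hu1 0))).add
      (((c hw1 1).div hs1).mul ((c hv 1).sub (c hu1 1)))).neg.div ((c hv 2).sub (c hu1 2)))

theorem meas_dd {α : Type*} [MeasurableSpace α] {v u1 w1 u2 w2 : α → V} {s1 s2 : α → ℝ}
    (hv : Measurable v) (hu1 : Measurable u1) (hw1 : Measurable w1) (hu2 : Measurable u2)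
    (hw2 : Measurable w2) (hs1 : Measurable s1) (hs2 : Measurable s2) :
    Measurable fun a => dd (s1 a) (s2 a) (v a) (u1 a) (w1 a) (u2 a) (w2 a) := by
  have c : ∀ {z : α → V}, Measurable z → ∀ i : Fin 3, Measurable fun a => z a i :=
    fun hz i => (measurable_coord i).comp hz
  have hd := meas_dd1 hv hu1 hw1 hs1
  unfold dd
  apply meas_vec.comp (Measurable.prodMk (Measurable.prodMk _ _) _)
  · exact (c hw2 0).neg.div hs2
  · exact (c hw2 1).neg.div hs2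
  · have a0 := (((c hw2 0).neg.div hs2).sub (c hd 0)).mul ((c hw1 0).sub (c hu2 0))
    have a1 := (((c hw2 1).neg.div hs2).sub (c hd 1)).mul ((c hw1 1).sub (c hu2 1))
    have b0 := ((c hw2 0).sub (c hw1 0)).mul (c hd 0)
    have b1 := ((c hw2 1).sub (c hw1 1)).mul (c hd 1)
    have b2 := ((c hw2 2).sub (c hw1 2)).mul (c hd 2)
    exact (c hd 2).sub (((((a0.add a1).add b0).add b1).add b2).div ((c hw1 2).sub (c hu2 2)))

section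

variable (v u1 : V) (X1 : ℝ × ℝ) (τ1 : ℝ)

theorem mo_X2 : Measurable fun p : ℝ × Om => p.2.1 := by fun_prop
theorem mo_u2 : Measurable fun p : ℝ × Om => p.2.2.1 := by fun_prop
theorem mo_τ3 : Measurable fun p : ℝ × Om => p.2.2.2.1 := by fun_prop
theorem mo_X3 : Measurable fun p : ℝ × Om => p.2.2.2.2.1 := by fun_prop
theorem mo_u3 : Measurable fun p : ℝ × Om => p.2.2.2.2.2.1 := by fun_prop
theorem mo_q3 : Measurable fun p : ℝ × Om => p.2.2.2.2.2.2 := by fun_prop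

theorem mo_h1 : Measurable fun p : ℝ × Om => (PDof v u1 X1 τ1 p.2).h1 p.1 := by
  unfold PD.h1 PDof
  simp only
  fun_prop

theorem mo_h2 : Measurable fun p : ℝ × Om => (PDof v u1 X1 τ1 p.2).h2 p.1 := by
  unfold PD.h2 PDof
  simp only
  fun_prop

theorem mo_w1 : Measurable fun p : ℝ × Om => (PDof v u1 X1 τ1 p.2).w1 p.1 := by
  have h := mo_h1 v u1 X1 τ1
  exact (meas_vec.comp (h.prodMk (meas_hgt.comp (measurable_const.prodMk
    (measurable_const.prodMk h)))) :)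

theorem mo_w2 : Measurable fun p : ℝ × Om => (PDof v u1 X1 τ1 p.2).w2 p.1 := by
  have h := mo_h2 v u1 X1 τ1
  exact meas_vec.comp (h.prodMk (meas_hgt.comp ((mo_w1 v u1 X1 τ1).prodMk (mo_u2.prodMk h))))

theorem mo_psi : Measurable fun p : ℝ × Om => (PDof v u1 X1 τ1 p.2).psi p.1 :=
  (meas_hgt.comp ((mo_w2 v u1 X1 τ1).prodMk (mo_u3.prodMk mo_q3)) :)

theorem mo_dpsi : Measurable fun p : ℝ × Om => (PDof v u1 X1 τ1 p.2).dpsi p.1 := by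
  have h2 := mo_w2 v u1 X1 τ1
  have hd : Measurable fun p : ℝ × Om => dd (τ1 - p.1) (p.1 - p.2.2.2.1) v u1
      ((PDof v u1 X1 τ1 p.2).w1 p.1) p.2.2.1 ((PDof v u1 X1 τ1 p.2).w2 p.1) :=
    meas_dd measurable_const measurable_const (mo_w1 v u1 X1 τ1) mo_u2 h2
      (measurable_const.sub measurable_fst) (measurable_fst.sub mo_τ3)
  have hz : Measurable fun p : ℝ × Om => vec p.2.2.2.2.2.2 ((PDof v u1 X1 τ1 p.2).psi p.1) :=
    meas_vec.comp (mo_q3.prodMk (mo_psi v u1 X1 τ1))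
  exact (hd.inner ((hz.add mo_u3).sub (h2.const_smul (2 : ℝ)))).neg.div
    (((measurable_coord 2).comp h2).sub ((measurable_coord 2).comp mo_u3))

/-- the good times -/
def GG (l0 : ℝ) (τ : ℝ) (ω : Om) : Prop :=
  ω.2.2.1 < τ ∧ τ < τ1 ∧ (PDof v u1 X1 τ1 ω).w1 τ 2 ≠ ω.2.1 2 ∧
    (PDof v u1 X1 τ1 ω).w2 τ 2 ≠ ω.2.2.2.2.1 2 ∧ l0 ≤ |(PDof v u1 X1 τ1 ω).dpsi τ|

theorem meas_GG (l0 : ℝ) : MeasurableSet {p : ℝ × Om | GG v u1 X1 τ1 l0 p.1 p.2} := by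
  have c2 := measurable_coord 2
  refine (measurableSet_lt mo_τ3 measurable_fst).inter
    ((measurableSet_lt measurable_fst measurable_const).inter
      (MeasurableSet.inter ?_ (MeasurableSet.inter ?_ ?_)))
  · exact (measurableSet_eq_fun (c2.comp (mo_w1 v u1 X1 τ1)) (c2.comp mo_u2)).compl
  · exact (measurableSet_eq_fun (c2.comp (mo_w2 v u1 X1 τ1)) (c2.comp mo_u3)).compl
  · exact measurableSet_le measurable_const (mo_dpsi v u1 X1 τ1).abs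

/-- the sweep with all other variables fixed -/
theorem GG_sweep {l0 : ℝ} (hl : 0 < l0) (hv : v 2 ≠ u1 2) (ω : Om) {g : ℝ → ℝ≥0∞}
    (hg : Measurable g) :
    ∫⁻ τ, ind (GG v u1 X1 τ1 l0 τ ω) * g ((PDof v u1 X1 τ1 ω).psi τ) ≤
      ENNReal.ofReal (6 / l0) * ∫⁻ y, g y := by
  have hm : MeasurableSet {τ | GG v u1 X1 τ1 l0 τ ω} :=
    measurable_prodMk_right (meas_GG v u1 X1 τ1 l0)
  have h1 : ∀ τ, ind (GG v u1 X1 τ1 l0 τ ω) * g ((PDof v u1 X1 τ1 ω).psi τ)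
      = {τ | GG v u1 X1 τ1 l0 τ ω}.indicator (fun τ => g ((PDof v u1 X1 τ1 ω).psi τ)) τ := by
    intro τ
    unfold ind
    by_cases h : GG v u1 X1 τ1 l0 τ ω
    · rw [if_pos h, one_mul, indicator_of_mem (show τ ∈ {τ | GG v u1 X1 τ1 l0 τ ω} from h)]
    · rw [if_neg h, zero_mul, indicator_of_notMem (show τ ∉ {τ | GG v u1 X1 τ1 l0 τ ω} from h)]
  simp_rw [h1]
  rw [lintegral_indicator hm]
  exact (PDof v u1 X1 τ1 ω).psi_sweep hm hv (fun τ h => ⟨h.1, h.2.1, h.2.2.1, h.2.2.2.1⟩) hl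
    (fun τ h => h.2.2.2.2) hg

end

end Vale.Agent.P140.NU.S
end
end

section

/-!
P140, module S: the good part: the majorant and its integral.
-/

open MeasureTheory Set Filter
open scoped ENNReal Topology

noncomputable section

namespace Vale.Agent.P140.NU.S

theorem ind_pos {p : Prop} (h : p) : ind p = 1 := by
  unfold ind; exact if_pos h

theorem ind_neg {p : Prop} (h : ¬ p) : ind p = 0 := by
  unfold ind; exact if_neg h

/-- the cold gas factor of the majorant -/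
def Cf (P : Par) (n : ℕ) (t1 t : ℝ) (τ3 : ℝ) (X3 : ℝ × ℝ) (u3 : V) : ℝ≥0∞ :=
  ind (τ3 ∈ Icc t1 t) * (ind (|X3.1| < 1 / 2 ∧ |X3.2| < 1 / 2) * cf P n τ3 (tor X3) u3)

/-- the majorant of the integrand -/
def Bf (P : Par) (n : ℕ) (f : ℝ → T3 → V → ℝ≥0∞) (v u1 : V) (X1 : ℝ × ℝ) (τ1 l0 r : ℝ)
    (Bm : T3 → V → ℝ≥0∞) (t1 t : ℝ) (τ : ℝ) (ω : Om) : ℝ≥0∞ :=
  (ind (|ω.1.1| ≤ r ∧ |ω.1.2| ≤ r) * Bm (tor ω.1) ω.2.1) *
    (Cf P n t1 t ω.2.2.1 ω.2.2.2.1 ω.2.2.2.2.1 *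
      (ind (GG v u1 X1 τ1 l0 τ ω) *
        f ω.2.2.1 (tor ω.2.2.2.1) (vec ω.2.2.2.2.2 ((PDof v u1 X1 τ1 ω).psi τ))))

theorem msb_lt (r : ℝ) : MeasurableSet {X : ℝ × ℝ | |X.1| < r ∧ |X.2| < r} := by
  have h1 : Measurable fun X : ℝ × ℝ => |X.1| := measurable_fst.abs
  have h2 : Measurable fun X : ℝ × ℝ => |X.2| := measurable_snd.abs
  exact (measurableSet_lt h1 measurable_const).inter (measurableSet_lt h2 measurable_const)

theorem msb_le (r : ℝ) : MeasurableSet {X : ℝ × ℝ | |X.1| ≤ r ∧ |X.2| ≤ r} := by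
  have h1 : Measurable fun X : ℝ × ℝ => |X.1| := measurable_fst.abs
  have h2 : Measurable fun X : ℝ × ℝ => |X.2| := measurable_snd.abs
  exact (measurableSet_le h1 measurable_const).inter (measurableSet_le h2 measurable_const)

theorem meas_cft (P : Par) (n : ℕ) :
    Measurable fun p : ℝ × (ℝ × ℝ) × V => cf P n p.1 (tor p.2.1) p.2.2 := by
  have h : Measurable fun p : ℝ × (ℝ × ℝ) × V => (p.1, tor p.2.1, p.2.2) :=
    measurable_fst.prodMk ((meas_tor.comp (measurable_fst.comp measurable_snd)).prodMk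
        (measurable_snd.comp measurable_snd))
  have h2 := (measurable_cf P n).comp h
  exact h2

theorem meas_cfu (P : Par) (n : ℕ) (τ : ℝ) (X : ℝ × ℝ) :
    Measurable fun u : V => cf P n τ (tor X) u := by
  have h : Measurable fun u : V => (τ, X, u) :=
    measurable_const.prodMk (measurable_const.prodMk measurable_id)
  have h2 := (meas_cft P n).comp h
  exact h2

theorem meas_Cf (P : Par) (n : ℕ) (t1 t : ℝ) :
    Measurable fun p : ℝ × (ℝ × ℝ) × V => Cf P n t1 t p.1 p.2.1 p.2.2 := by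
  unfold Cf
  refine Measurable.mul ?_ (Measurable.mul ?_ ?_)
  · exact meas_ind (measurable_fst measurableSet_Icc)
  · exact (meas_ind (msb_lt (1 / 2))).comp (measurable_fst.comp measurable_snd)
  · exact meas_cft P n

theorem meas_Cfu (P : Par) (n : ℕ) (t1 t τ : ℝ) (X : ℝ × ℝ) :
    Measurable fun u : V => Cf P n t1 t τ X u := by
  unfold Cf
  exact ((meas_cfu P n τ X).const_mul _).const_mul _

theorem meas_box (r : ℝ) : Measurable fun X : ℝ × ℝ => ind (|X.1| ≤ r ∧ |X.2| ≤ r) := by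
  exact meas_ind (msb_le r)

section

variable {P : Par} {n : ℕ} {f : ℝ → T3 → V → ℝ≥0∞} {v u1 : V} {X1 : ℝ × ℝ} {τ1 l0 r : ℝ}
  {Bm : T3 → V → ℝ≥0∞} {t1 t : ℝ}

theorem meas_fpsi (hf : Measurable fun p : ℝ × T3 × V => f p.1 p.2.1 p.2.2) :
    Measurable fun p : ℝ × Om => ind (GG v u1 X1 τ1 l0 p.1 p.2) *
      f p.2.2.2.1 (tor p.2.2.2.2.1) (vec p.2.2.2.2.2.2 ((PDof v u1 X1 τ1 p.2).psi p.1)) := by
  refine (meas_ind (meas_GG v u1 X1 τ1 l0)).mul ?_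
  exact hf.comp (mo_τ3.prodMk ((meas_tor.comp mo_X3).prodMk
    (meas_vec.comp (mo_q3.prodMk (mo_psi v u1 X1 τ1)))))

theorem meas_Bf (hf : Measurable fun p : ℝ × T3 × V => f p.1 p.2.1 p.2.2)
    (hB : Measurable fun p : T3 × V => Bm p.1 p.2) :
    Measurable fun p : ℝ × Om => Bf P n f v u1 X1 τ1 l0 r Bm t1 t p.1 p.2 := by
  unfold Bf
  refine Measurable.mul (Measurable.mul ?_ ?_) (Measurable.mul ?_ (meas_fpsi hf))
  · exact (meas_box r).comp mo_X2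
  · exact hB.comp ((meas_tor.comp mo_X2).prodMk mo_u2)
  · exact ((meas_Cf P n t1 t).comp (mo_τ3.prodMk (mo_X3.prodMk mo_u3)) :)

/-- integral of the majorant -/
theorem Bf_int (hf : Measurable fun p : ℝ × T3 × V => f p.1 p.2.1 p.2.2)
    (hi : ∀ τ ∈ Icc t1 t, ∀ x v a, f τ (zsh x a) v = f τ x v)
    (hB : Measurable fun p : T3 × V => Bm p.1 p.2) {Nm b1 b2 : ℝ≥0∞}
    (hN : ∀ τ ∈ Icc t1 t, ∫⁻ x, ∫⁻ v, f τ x v ≤ Nm) (hb1 : ∀ x, ∫⁻ u, Bm x u ≤ b1)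
    (hb2 : ∀ τ ∈ Icc t1 t, ∀ x, ∫⁻ u, cf P n τ x u ≤ b2) (hl : 0 < l0) (hr : 0 ≤ r)
    (hv : v 2 ≠ u1 2) :
    ∫⁻ τ : ℝ, ∫⁻ X2 : ℝ × ℝ, ∫⁻ u2 : V, ∫⁻ τ3 : ℝ, ∫⁻ X3 : ℝ × ℝ, ∫⁻ u3 : V, ∫⁻ q3 : ℝ × ℝ,
      Bf P n f v u1 X1 τ1 l0 r Bm t1 t τ (X2, u2, τ3, X3, u3, q3) ≤
    ENNReal.ofReal ((2 * r) ^ 2) * (b1 * (ENNReal.ofReal (t - t1) *
      (b2 * (ENNReal.ofReal (6 / l0) * Nm)))) := by
  rw [lint_sweep_swap (F := Bf P n f v u1 X1 τ1 l0 r Bm t1 t) (meas_Bf hf hB)]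
  set k : ℝ≥0∞ := ENNReal.ofReal (6 / l0) with hk
  -- the planar density of `f`
  set F : ℝ → ℝ × ℝ → ℝ≥0∞ := fun τ3 X3 => ∫⁻ w, f τ3 (tor X3) w with hF
  have hFm : Measurable fun p : ℝ × (ℝ × ℝ) => F p.1 p.2 := by
    have : Measurable fun p : (ℝ × (ℝ × ℝ)) × V => f p.1.1 (tor p.1.2) p.2 :=
      hf.comp ((measurable_fst.comp measurable_fst).prodMk
        ((meas_tor.comp (measurable_snd.comp measurable_fst)).prodMk measurable_snd))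
    exact this.lintegral_prod_right'
  -- the innermost integrals
  have s1 : ∀ X2 u2 τ3 X3 u3, ∫⁻ q3 : ℝ × ℝ, ∫⁻ τ : ℝ,
      Bf P n f v u1 X1 τ1 l0 r Bm t1 t τ (X2, u2, τ3, X3, u3, q3)
      ≤ (ind (|X2.1| ≤ r ∧ |X2.2| ≤ r) * Bm (tor X2) u2) * (Cf P n t1 t τ3 X3 u3 *
        (k * F τ3 X3)) := by
    intro X2 u2 τ3 X3 u3
    have hfm : Measurable fun w : V => f τ3 (tor X3) w :=
      hf.comp (measurable_const.prodMk (measurable_const.prodMk measurable_id))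
    have hfq : ∀ q3 : ℝ × ℝ, Measurable fun y : ℝ => f τ3 (tor X3) (vec q3 y) := fun q3 =>
      hfm.comp (meas_vec.comp (measurable_const.prodMk measurable_id))
    have hfy : Measurable fun q3 : ℝ × ℝ => ∫⁻ y : ℝ, f τ3 (tor X3) (vec q3 y) :=
      (hfm.comp meas_vec).lintegral_prod_right'
    have e1 : ∀ q3 : ℝ × ℝ, ∫⁻ τ : ℝ,
        Bf P n f v u1 X1 τ1 l0 r Bm t1 t τ (X2, u2, τ3, X3, u3, q3)
        ≤ (ind (|X2.1| ≤ r ∧ |X2.2| ≤ r) * Bm (tor X2) u2) * (Cf P n t1 t τ3 X3 u3 *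
          (k * ∫⁻ y : ℝ, f τ3 (tor X3) (vec q3 y))) := by
      intro q3
      have hm : Measurable fun τ : ℝ => ind (GG v u1 X1 τ1 l0 τ (X2, u2, τ3, X3, u3, q3)) *
          f τ3 (tor X3) (vec q3 ((PDof v u1 X1 τ1 (X2, u2, τ3, X3, u3, q3)).psi τ)) :=
        ((meas_fpsi hf).comp measurable_prodMk_right :)
      unfold Bf
      rw [lintegral_const_mul _ (hm.const_mul _), lintegral_const_mul _ hm]
      refine mul_le_mul' le_rfl (mul_le_mul' le_rfl ?_)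
      exact GG_sweep v u1 X1 τ1 hl hv (X2, u2, τ3, X3, u3, q3) (hfq q3)
    refine (lintegral_mono e1).trans ?_
    rw [lintegral_const_mul _ ((hfy.const_mul _).const_mul _),
      lintegral_const_mul _ (hfy.const_mul _), lintegral_const_mul _ hfy, lint_vec hfm]
  have s2 : ∀ X2 u2 τ3 X3, ∫⁻ u3 : V, (ind (|X2.1| ≤ r ∧ |X2.2| ≤ r) * Bm (tor X2) u2) *
      (Cf P n t1 t τ3 X3 u3 * (k * F τ3 X3))
      ≤ (ind (|X2.1| ≤ r ∧ |X2.2| ≤ r) * Bm (tor X2) u2) * (ind (τ3 ∈ Icc t1 t) *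
        (b2 * (k * (ind (|X3.1| < 1 / 2 ∧ |X3.2| < 1 / 2) * F τ3 X3)))) := by
    intro X2 u2 τ3 X3
    have hcf : Measurable fun u3 : V => cf P n τ3 (tor X3) u3 := meas_cfu P n τ3 X3
    have hcm : Measurable fun u3 : V => Cf P n t1 t τ3 X3 u3 := meas_Cfu P n t1 t τ3 X3
    rw [lintegral_const_mul _ (hcm.mul_const _), lintegral_mul_const _ hcm]
    refine mul_le_mul' le_rfl ?_
    unfold Cf
    rw [lintegral_const_mul _ (hcf.const_mul _), lintegral_const_mul _ hcf]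
    by_cases h : τ3 ∈ Icc t1 t
    · rw [ind_pos h, one_mul, one_mul]
      calc ind (|X3.1| < 1 / 2 ∧ |X3.2| < 1 / 2) * (∫⁻ u, cf P n τ3 (tor X3) u) * (k * F τ3 X3)
          ≤ ind (|X3.1| < 1 / 2 ∧ |X3.2| < 1 / 2) * b2 * (k * F τ3 X3) := by
            gcongr
            exact hb2 τ3 h _
        _ = b2 * (k * (ind (|X3.1| < 1 / 2 ∧ |X3.2| < 1 / 2) * F τ3 X3)) := by ring
    · rw [ind_neg h]; simp
  have hFx : ∀ τ3 ∈ Icc t1 t, ∫⁻ X3 : ℝ × ℝ, ind (|X3.1| < 1 / 2 ∧ |X3.2| < 1 / 2) * F τ3 X3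
      ≤ Nm := by
    intro τ3 h
    refine le_trans ?_ (hN τ3 h)
    have hg : Measurable fun x : T3 => ∫⁻ w, f τ3 x w := by
      have : Measurable fun p : T3 × V => f τ3 p.1 p.2 :=
        hf.comp (measurable_const.prodMk measurable_id)
      exact this.lintegral_prod_right'
    have hinv : ∀ x a, ∫⁻ w, f τ3 (zsh x a) w = ∫⁻ w, f τ3 x w := fun x a =>
      lintegral_congr fun w => hi τ3 h x w a
    refine le_trans (le_of_eq ?_) (lint_tor hg hinv)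
    have hs : MeasurableSet {X : ℝ × ℝ | |X.1| < 1 / 2 ∧ |X.2| < 1 / 2} := msb_lt (1 / 2)
    rw [← lintegral_indicator hs]
    refine lintegral_congr fun X => ?_
    by_cases hX : |X.1| < 1 / 2 ∧ |X.2| < 1 / 2
    · rw [ind_pos hX, one_mul, indicator_of_mem
        (show X ∈ {X : ℝ × ℝ | |X.1| < 1 / 2 ∧ |X.2| < 1 / 2} from hX)]
    · rw [ind_neg hX, zero_mul, indicator_of_notMem
        (show X ∉ {X : ℝ × ℝ | |X.1| < 1 / 2 ∧ |X.2| < 1 / 2} from hX)]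
  have hIF : ∀ τ3, Measurable fun X3 : ℝ × ℝ =>
      ind (|X3.1| < 1 / 2 ∧ |X3.2| < 1 / 2) * F τ3 X3 := by
    intro τ3
    exact (meas_ind (msb_lt (1 / 2))).mul (hFm.comp measurable_prodMk_left)
  have s3 : ∀ X2 u2 τ3, ∫⁻ X3 : ℝ × ℝ, (ind (|X2.1| ≤ r ∧ |X2.2| ≤ r) * Bm (tor X2) u2) *
      (ind (τ3 ∈ Icc t1 t) * (b2 * (k * (ind (|X3.1| < 1 / 2 ∧ |X3.2| < 1 / 2) * F τ3 X3))))
      ≤ (ind (|X2.1| ≤ r ∧ |X2.2| ≤ r) * Bm (tor X2) u2) * (ind (τ3 ∈ Icc t1 t) *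
        (b2 * (k * Nm))) := by
    intro X2 u2 τ3
    rw [lintegral_const_mul _ ((((hIF τ3).const_mul _).const_mul _).const_mul _),
      lintegral_const_mul _ (((hIF τ3).const_mul _).const_mul _),
      lintegral_const_mul _ ((hIF τ3).const_mul _), lintegral_const_mul _ (hIF τ3)]
    refine mul_le_mul' le_rfl ?_
    by_cases h : τ3 ∈ Icc t1 t
    · gcongr
      exact hFx τ3 h
    · rw [ind_neg h]; simp
  have hIt : Measurable fun τ3 : ℝ => ind (τ3 ∈ Icc t1 t) := meas_ind measurableSet_Icc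
  have hItI : ∫⁻ τ3 : ℝ, ind (τ3 ∈ Icc t1 t) ≤ ENNReal.ofReal (t - t1) := by
    have : ∀ τ3 : ℝ, ind (τ3 ∈ Icc t1 t) = (Icc t1 t).indicator (fun _ => (1 : ℝ≥0∞)) τ3 := by
      intro τ3
      by_cases h : τ3 ∈ Icc t1 t
      · rw [ind_pos h, indicator_of_mem h]
      · rw [ind_neg h, indicator_of_notMem h]
    simp_rw [this]
    rw [lintegral_indicator measurableSet_Icc, setLIntegral_const, one_mul, Real.volume_Icc]
  have s4 : ∀ X2 u2, ∫⁻ τ3 : ℝ, (ind (|X2.1| ≤ r ∧ |X2.2| ≤ r) * Bm (tor X2) u2) *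
      (ind (τ3 ∈ Icc t1 t) * (b2 * (k * Nm)))
      ≤ (ind (|X2.1| ≤ r ∧ |X2.2| ≤ r) * Bm (tor X2) u2) * (ENNReal.ofReal (t - t1) *
        (b2 * (k * Nm))) := by
    intro X2 u2
    rw [lintegral_const_mul _ (hIt.mul_const _), lintegral_mul_const _ hIt]
    gcongr
  have s5 : ∀ X2 : ℝ × ℝ, ∫⁻ u2 : V, (ind (|X2.1| ≤ r ∧ |X2.2| ≤ r) * Bm (tor X2) u2) *
      (ENNReal.ofReal (t - t1) * (b2 * (k * Nm)))
      ≤ ind (|X2.1| ≤ r ∧ |X2.2| ≤ r) * (b1 * (ENNReal.ofReal (t - t1) * (b2 * (k * Nm)))) := by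
    intro X2
    have hBx : Measurable fun u2 : V => Bm (tor X2) u2 := hB.comp measurable_prodMk_left
    rw [lintegral_mul_const _ (hBx.const_mul _), lintegral_const_mul _ hBx, mul_assoc]
    gcongr
    exact hb1 _
  have hbx : ∫⁻ X2 : ℝ × ℝ, ind (|X2.1| ≤ r ∧ |X2.2| ≤ r) ≤ ENNReal.ofReal ((2 * r) ^ 2) := by
    have : ∀ X2 : ℝ × ℝ, ind (|X2.1| ≤ r ∧ |X2.2| ≤ r)
        = (Icc (-r) r ×ˢ Icc (-r) r).indicator (fun _ => (1 : ℝ≥0∞)) X2 := by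
      intro X2
      by_cases h : |X2.1| ≤ r ∧ |X2.2| ≤ r
      · rw [ind_pos h, indicator_of_mem (show X2 ∈ Icc (-r) r ×ˢ Icc (-r) r from
          ⟨abs_le.1 h.1, abs_le.1 h.2⟩)]
      · rw [ind_neg h, indicator_of_notMem]
        intro h'
        exact h ⟨abs_le.2 h'.1, abs_le.2 h'.2⟩
    simp_rw [this]
    rw [lintegral_indicator (measurableSet_Icc.prod measurableSet_Icc), setLIntegral_const,
      one_mul, Measure.volume_eq_prod, Measure.prod_prod, Real.volume_Icc,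
      ← ENNReal.ofReal_mul (by linarith)]
    apply ENNReal.ofReal_le_ofReal
    nlinarith
  calc ∫⁻ X2 : ℝ × ℝ, ∫⁻ u2 : V, ∫⁻ τ3 : ℝ, ∫⁻ X3 : ℝ × ℝ, ∫⁻ u3 : V, ∫⁻ q3 : ℝ × ℝ,
        ∫⁻ τ : ℝ, Bf P n f v u1 X1 τ1 l0 r Bm t1 t τ (X2, u2, τ3, X3, u3, q3)
      ≤ ∫⁻ X2 : ℝ × ℝ, ∫⁻ u2 : V, ∫⁻ τ3 : ℝ, ∫⁻ X3 : ℝ × ℝ, ∫⁻ u3 : V,
        (ind (|X2.1| ≤ r ∧ |X2.2| ≤ r) * Bm (tor X2) u2) * (Cf P n t1 t τ3 X3 u3 *
        (k * F τ3 X3)) :=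
      lintegral_mono fun X2 => lintegral_mono fun u2 => lintegral_mono fun τ3 =>
        lintegral_mono fun X3 => lintegral_mono fun u3 => s1 X2 u2 τ3 X3 u3
    _ ≤ ∫⁻ X2 : ℝ × ℝ, ∫⁻ u2 : V, ∫⁻ τ3 : ℝ, ∫⁻ X3 : ℝ × ℝ,
        (ind (|X2.1| ≤ r ∧ |X2.2| ≤ r) * Bm (tor X2) u2) * (ind (τ3 ∈ Icc t1 t) *
        (b2 * (k * (ind (|X3.1| < 1 / 2 ∧ |X3.2| < 1 / 2) * F τ3 X3)))) :=
      lintegral_mono fun X2 => lintegral_mono fun u2 => lintegral_mono fun τ3 =>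
        lintegral_mono fun X3 => s2 X2 u2 τ3 X3
    _ ≤ ∫⁻ X2 : ℝ × ℝ, ∫⁻ u2 : V, ∫⁻ τ3 : ℝ,
        (ind (|X2.1| ≤ r ∧ |X2.2| ≤ r) * Bm (tor X2) u2) * (ind (τ3 ∈ Icc t1 t) *
        (b2 * (k * Nm))) :=
      lintegral_mono fun X2 => lintegral_mono fun u2 => lintegral_mono fun τ3 => s3 X2 u2 τ3
    _ ≤ ∫⁻ X2 : ℝ × ℝ, ∫⁻ u2 : V,
        (ind (|X2.1| ≤ r ∧ |X2.2| ≤ r) * Bm (tor X2) u2) * (ENNReal.ofReal (t - t1) *
        (b2 * (k * Nm))) :=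
      lintegral_mono fun X2 => lintegral_mono fun u2 => s4 X2 u2
    _ ≤ ∫⁻ X2 : ℝ × ℝ, ind (|X2.1| ≤ r ∧ |X2.2| ≤ r) *
        (b1 * (ENNReal.ofReal (t - t1) * (b2 * (k * Nm)))) := lintegral_mono s5
    _ = (∫⁻ X2 : ℝ × ℝ, ind (|X2.1| ≤ r ∧ |X2.2| ≤ r)) *
        (b1 * (ENNReal.ofReal (t - t1) * (b2 * (k * Nm)))) := lintegral_mul_const _ (meas_box r)
    _ ≤ _ := by gcongr

end

end Vale.Agent.P140.NU.S
end
end

section

/-!
P140, module S: the good part: pointwise comparison with the majorant.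
-/

open MeasureTheory Set Filter
open scoped ENNReal Topology

noncomputable section

namespace Vale.Agent.P140.NU.S

/-- `x` is a vertical shift of the point with horizontal coordinates `X` -/
def EX (x : T3) (X : ℝ × ℝ) : Prop := ∃ a, x = zsh (tor X) a

theorem EX_xi (x : T3) : EX x (xi x) := ⟨_, eq_zsh_tor x⟩

theorem EX_inv {β : Type*} {F : T3 → β} (hF : ∀ x a, F (zsh x a) = F x) {x : T3} {X : ℝ × ℝ}
    (h : EX x X) : F x = F (tor X) := by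
  obtain ⟨a, rfl⟩ := h
  exact hF _ _

theorem EX_mv {x : T3} {X : ℝ × ℝ} (h : EX x X) (w : V) (s : ℝ) :
    EX (mv x w s) (X + s • hz w) := by
  obtain ⟨a, rfl⟩ := h
  exact ⟨s * w 2 + a, by rw [mv_zsh', mv_tor, zsh_zsh]⟩

/-- the facts used on the good part, for fixed `n`, `t`, `t1` and `T = TT n t` -/
structure Ctx (P : Par) (n : ℕ) (g : Gp) (T t1 t M : ℝ) (Bm : T3 → V → ℝ≥0∞) : Prop where
  T0 : 0 < T
  M0 : 0 < M
  pos : g.Pos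
  t10 : 0 ≤ t1
  tT : t ≤ T
  sm : (M + 2 * g.Vm) * T < 1 / 2
  near : ∀ τ ∈ Icc t1 t, ∀ x, rr x ≤ (M + 2 * g.Vm) * T → ∀ u, cf P n τ x u ≠ 0 →
    |u 2 - 1| ≤ g.a / 2 ∨ |u 2 + 1| ≤ g.a / 2
  maj : ∀ τ ∈ Icc t1 t, ∀ x, rr x ≤ (M + g.Vm) * T → g.e * T ≤ rr x - P.w * τ →
    ∀ u, cf P n τ x u ≤ Bm x u

theorem reg_gap {a : ℝ} {w u : V} (h : Reg a w) (hu : |u 2 - 1| ≤ a / 2 ∨ |u 2 + 1| ≤ a / 2) :
    a / 2 ≤ |w 2 - u 2| := by
  obtain ⟨h1, h2⟩ := h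
  rcases hu with hu | hu
  · have h3 := abs_sub_le (w 2) (u 2) 1
    linarith only [h3, hu, h1]
  · have h3 := abs_sub_le (w 2) (u 2) (-1)
    rw [sub_neg_eq_add, sub_neg_eq_add] at h3
    linarith

theorem inv_gap {a : ℝ} (ha : 0 < a) {w u : V} (h : a / 2 ≤ |w 2 - u 2|) :
    ENNReal.ofReal |w 2 - u 2|⁻¹ ≤ ENNReal.ofReal (2 / a) := by
  apply ENNReal.ofReal_le_ofReal
  have h1 : (2 / a) = (a / 2)⁻¹ := by field_simp
  rw [h1]
  exact inv_anti₀ (by positivity) h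

theorem ne_of_gap {a : ℝ} (ha : 0 < a) {w u : V} (h : a / 2 ≤ |w 2 - u 2|) : w 2 ≠ u 2 := by
  intro h'
  rw [h', sub_self, abs_zero] at h
  linarith

theorem abs_coord_le (w : V) (i : Fin 3) : |w i| ≤ ‖w‖ := by
  have := PiLp.norm_apply_le w i
  rwa [Real.norm_eq_abs] at this

theorem box_step {X q : ℝ × ℝ} {s A B T : ℝ} (h : |X.1| ≤ A ∧ |X.2| ≤ A)
    (hq : |q.1| ≤ B ∧ |q.2| ≤ B) (hs : |s| ≤ T) :
    |(X + s • q).1| ≤ A + T * B ∧ |(X + s • q).2| ≤ A + T * B := by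
  have key : ∀ x y : ℝ, |x| ≤ A → |y| ≤ B → |x + s * y| ≤ A + T * B := by
    intro x y hx hy
    calc |x + s * y| ≤ |x| + |s * y| := abs_add_le _ _
      _ = |x| + |s| * |y| := by rw [abs_mul]
      _ ≤ A + T * B := add_le_add hx (mul_le_mul hs hy (abs_nonneg _) ((abs_nonneg _).trans hs))
  exact ⟨key _ _ h.1 hq.1, key _ _ h.2 hq.2⟩

/-- the part of the majorant which depends on the third collision -/
def Hf (P : Par) (n : ℕ) (f : ℝ → T3 → V → ℝ≥0∞) (v u1 : V) (X1 : ℝ × ℝ) (τ1 l0 : ℝ)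
    (t1 t : ℝ) (τ : ℝ) (ω : Om) : ℝ≥0∞ :=
  Cf P n t1 t ω.2.2.1 ω.2.2.2.1 ω.2.2.2.2.1 *
      (ind (GG v u1 X1 τ1 l0 τ ω) *
        f ω.2.2.1 (tor ω.2.2.2.1) (vec ω.2.2.2.2.2 ((PDof v u1 X1 τ1 ω).psi τ)))

theorem PDof_w1 {v u1 : V} {X1 q1 : ℝ × ℝ} {τ1 τ2 : ℝ} (h : τ2 < τ1) (ω : Om)
    (hω : ω.1 = X1 + (τ2 - τ1) • q1) : (PDof v u1 X1 τ1 ω).w1 τ2 = gr v u1 q1 := by
  have hne : τ1 - τ2 ≠ 0 := (sub_pos.2 h).ne'
  have e : (PDof v u1 X1 τ1 ω).h1 τ2 = q1 := by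
    unfold PD.h1 PDof
    simp only
    rw [hω]
    ext
    · simp only [Prod.fst_sub, Prod.fst_add, Prod.smul_fst, smul_eq_mul]
      field_simp
      ring
    · simp only [Prod.snd_sub, Prod.snd_add, Prod.smul_snd, smul_eq_mul]
      field_simp
      ring
  unfold PD.w1 gr
  rw [e]
  rfl

theorem PDof_w2 {v u1 : V} {X1 q1 q2 : ℝ × ℝ} {τ1 τ2 : ℝ} (h : τ2 < τ1) (ω : Om)
    (hω : ω.1 = X1 + (τ2 - τ1) • q1) (h3 : ω.2.2.1 < τ2)
    (hω3 : ω.2.2.2.1 = ω.1 + (ω.2.2.1 - τ2) • q2) :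
    (PDof v u1 X1 τ1 ω).w2 τ2 = gr (gr v u1 q1) ω.2.1 q2 := by
  have hne : τ2 - ω.2.2.1 ≠ 0 := (sub_pos.2 h3).ne'
  have e : (PDof v u1 X1 τ1 ω).h2 τ2 = q2 := by
    unfold PD.h2 PDof
    simp only
    rw [hω3]
    ext
    · simp only [Prod.fst_sub, Prod.fst_add, Prod.smul_fst, smul_eq_mul]
      field_simp
      ring
    · simp only [Prod.snd_sub, Prod.snd_add, Prod.smul_snd, smul_eq_mul]
      field_simp
      ring
  unfold PD.w2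
  rw [e, PDof_w1 h ω hω]
  rfl

section

variable {P : Par} {n : ℕ} {g : Gp} {T t1 t M : ℝ} {Bm : T3 → V → ℝ≥0∞}
  {f : ℝ → T3 → V → ℝ≥0∞} {v u1 : V} {X1 : ℝ × ℝ} {τ1 τ2 : ℝ}

/-- the value of `l0` -/
def L0 (g : Gp) (T : ℝ) : ℝ := g.l * g.b / (T * (g.Vm + g.a + 1))

/-- the third layer -/
theorem good3_le (c : Ctx P n g T t1 t M Bm)
    (hi : ∀ τ ∈ Icc t1 t, ∀ x v a, f τ (zsh x a) v = f τ x v) (hτ1 : τ1 ∈ Icc t1 t)
    (hτ2 : τ2 ∈ Icc t1 (τ1 - g.k * T)) {x2 : T3} {X2 : ℝ × ℝ} (hE : EX x2 X2)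
    (hx2 : rr x2 ≤ (M + g.Vm) * T) (hX2 : |X2.1| ≤ (M + g.Vm) * T ∧ |X2.2| ≤ (M + g.Vm) * T)
    {q1 q2 : ℝ × ℝ} {u2 : V} (hX : X2 = X1 + (τ2 - τ1) • q1)
    (h12 : gr v u1 q1 2 ≠ u2 2) (hR2 : R2 g (gr (gr v u1 q1) u2 q2)) :
    good3 P n g T t1 f v u1 (gr v u1 q1) u2 (gr (gr v u1 q1) u2 q2) (τ1 - τ2) τ2 x2 ≤
      (4 * ENNReal.ofReal (2 / g.a)) * ∫⁻ τ3 in Icc t1 (τ2 - g.k * T), ∫⁻ u3 : V, ∫⁻ q3 : ℝ × ℝ,
        Hf P n f v u1 X1 τ1 (L0 g T) t1 t τ2 (X2, u2, τ3, X2 + (τ3 - τ2) • q2, u3, q3) := by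
  have hV := c.pos.Vm
  have ha := c.pos.a
  have hb := c.pos.b
  have hk := c.pos.k
  have hT := c.T0
  have hkT : 0 < g.k * T := mul_pos hk hT
  have h21 : τ2 < τ1 := by linarith [hτ2.2]
  unfold good3 KG pl
  rw [← lintegral_const_mul' _ _ (ENNReal.mul_ne_top (by norm_num) ENNReal.ofReal_ne_top)]
  refine setLIntegral_mono' measurableSet_Icc fun τ3 hτ3 => ?_
  have h32 : τ3 < τ2 := by linarith [hτ3.2]
  have h3t : τ3 ∈ Icc t1 t := ⟨hτ3.1, by linarith [hτ1.2]⟩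
  rw [mul_assoc]
  refine mul_le_mul' le_rfl ?_
  rw [← lintegral_const_mul' _ _ ENNReal.ofReal_ne_top]
  refine lintegral_mono fun u3 => ?_
  set w1 : V := gr v u1 q1 with hw1
  set w2 : V := gr w1 u2 q2 with hw2
  have hE3 : EX (mv x2 w2 (τ3 - τ2)) (X2 + (τ3 - τ2) • q2) := EX_mv hE w2 (τ3 - τ2)
  have hs : |τ3 - τ2| ≤ T := by
    rw [abs_le]
    constructor <;> linarith [hτ3.1, hτ2.2, hτ1.2, c.tT, c.t10]
  have hr3 : rr (mv x2 w2 (τ3 - τ2)) ≤ (M + 2 * g.Vm) * T := by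
    have h1 := rr_mv_le' x2 w2 (τ3 - τ2)
    have h2 : |τ3 - τ2| * ‖w2‖ ≤ T * g.Vm := mul_le_mul hs hR2.1 (norm_nonneg _) hT.le
    linarith
  have hq2 : |q2.1| ≤ g.Vm ∧ |q2.2| ≤ g.Vm :=
    ⟨(abs_coord_le w2 0).trans hR2.1, (abs_coord_le w2 1).trans hR2.1⟩
  have hX3 : |(X2 + (τ3 - τ2) • q2).1| < 1 / 2 ∧ |(X2 + (τ3 - τ2) • q2).2| < 1 / 2 := by
    have h1 := box_step hX2 hq2 hs
    have h2 := c.sm
    exact ⟨by linarith only [h1.1, h2], by linarith only [h1.2, h2]⟩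
  by_cases h0 : cf P n τ3 (mv x2 w2 (τ3 - τ2)) u3 = 0
  · rw [h0, zero_mul]; exact bot_le
  have hnear := c.near τ3 h3t _ hr3 u3 h0
  have hge : g.a / 2 ≤ |w2 2 - u3 2| := reg_gap hR2.2.1 hnear
  rw [mul_left_comm]
  refine mul_le_mul' (inv_gap ha hge) ?_
  refine (lintegral_const_mul_le _ _).trans (lintegral_mono fun q3 => ?_)
  beta_reduce
  by_cases hR : R3 g (dd (τ1 - τ2) (τ2 - τ3) v u1 w1 u2 w2) w2 u3 (gr w2 u3 q3)
  swap
  · rw [ind_neg hR, zero_mul, mul_zero]; exact bot_le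
  rw [ind_pos hR, one_mul]
  have ecf : cf P n τ3 (mv x2 w2 (τ3 - τ2)) u3 = cf P n τ3 (tor (X2 + (τ3 - τ2) • q2)) u3 :=
    EX_inv (F := fun x => cf P n τ3 x u3) (fun x a => cf_zsh P n τ3 x a u3) hE3
  have ef : ∀ w, f τ3 (mv x2 w2 (τ3 - τ2)) w = f τ3 (tor (X2 + (τ3 - τ2) • q2)) w := fun w =>
    EX_inv (F := fun x => f τ3 x w) (fun x a => hi τ3 h3t x w a) hE3
  set ω : Om := (X2, u2, τ3, X2 + (τ3 - τ2) • q2, u3, q3) with hω
  have e1 : (PDof v u1 X1 τ1 ω).w1 τ2 = w1 := PDof_w1 h21 ω hX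
  have e2 : (PDof v u1 X1 τ1 ω).w2 τ2 = w2 := PDof_w2 h21 ω hX h32 rfl
  have e3 : (PDof v u1 X1 τ1 ω).psi τ2 = hgt w2 u3 q3 := by
    show hgt ((PDof v u1 X1 τ1 ω).w2 τ2) u3 q3 = _
    rw [e2]
  have hvp : g.b ≤ vp w2 := by
    unfold vp
    exact Real.le_sqrt_of_sq_le hR2.2.2
  have hw23 : w2 2 ≠ u3 2 := ne_of_gap ha hge
  have hGG : GG v u1 X1 τ1 (L0 g T) τ2 ω := by
    refine ⟨h32, h21, ?_, ?_, ?_⟩
    · rw [e1]; exact h12
    · rw [e2]; exact hw23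
    · unfold L0
      apply dpsi_ge c.pos.l hb (D := PDof v u1 X1 τ1 ω) (τ := τ2)
      · exact h32
      · show τ2 - τ3 ≤ T
        linarith only [(abs_le.1 hs).1]
      · rw [e2]; exact hw23
      · rw [e2]
        show |w2 2 - u3 2| ≤ _
        have h1 : |w2 2| ≤ g.Vm := (abs_coord_le w2 2).trans hR2.1
        have h2 : |u3 2| ≤ g.a + 1 := by
          rw [abs_le]
          rcases hnear with h | h
          · have := abs_le.1 h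
            constructor <;> linarith
          · have := abs_le.1 h
            constructor <;> linarith
        calc |w2 2 - u3 2| ≤ |w2 2| + |u3 2| := abs_sub _ _
          _ ≤ _ := by linarith
      · rw [e2]; exact hvp
      · rw [e1, e2, e3]
        exact hR.2
  unfold Hf
  rw [ind_pos hGG, one_mul, e3]
  unfold Cf
  rw [ind_pos (show ω.2.2.1 ∈ Icc t1 t from h3t),
    ind_pos (show |ω.2.2.2.1.1| < 1 / 2 ∧ |ω.2.2.2.1.2| < 1 / 2 from hX3), one_mul, one_mul,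
    ecf, ef]
  exact le_rfl

/-- the second layer -/
theorem good2_pt (c : Ctx P n g T t1 t M Bm)
    (hi : ∀ τ ∈ Icc t1 t, ∀ x v a, f τ (zsh x a) v = f τ x v)
    (hBi : ∀ x a u, Bm (zsh x a) u = Bm x u) (hτ1 : τ1 ∈ Icc t1 t) {x1 : T3}
    (hE : EX x1 X1) (hx1 : rr x1 ≤ M * T) (hX1 : |X1.1| ≤ M * T ∧ |X1.2| ≤ M * T) (q1 : ℝ × ℝ)
    (hR1 : R1 g (gr v u1 q1)) :
    good2 P n g T t1 f v u1 (gr v u1 q1) τ1 x1 ≤
      ((4 * ENNReal.ofReal (2 / g.a)) * (4 * ENNReal.ofReal (2 / g.a))) *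
      ∫⁻ τ2 in Icc t1 (τ1 - g.k * T), ∫⁻ u2 : V, ∫⁻ q2 : ℝ × ℝ,
      ∫⁻ τ3 in Icc t1 (τ2 - g.k * T), ∫⁻ u3 : V, ∫⁻ q3 : ℝ × ℝ,
        Bf P n f v u1 X1 τ1 (L0 g T) ((M + g.Vm) * T) Bm t1 t τ2
          (X1 + (τ2 - τ1) • q1, u2, τ3, X1 + (τ2 - τ1) • q1 + (τ3 - τ2) • q2, u3, q3) := by
  have hV := c.pos.Vm
  have ha := c.pos.a
  have hT := c.T0
  have hkT : 0 < g.k * T := mul_pos c.pos.k hT
  have hne : 4 * ENNReal.ofReal (2 / g.a) ≠ ⊤ :=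
    ENNReal.mul_ne_top (by norm_num) ENNReal.ofReal_ne_top
  unfold good2 KG pl
  rw [← lintegral_const_mul' _ _ (ENNReal.mul_ne_top hne hne)]
  refine setLIntegral_mono' measurableSet_Icc fun τ2 hτ2 => ?_
  set w1 : V := gr v u1 q1 with hw1
  by_cases hl : g.e * T ≤ rr (mv x1 w1 (τ2 - τ1)) - P.w * τ2
  swap
  · rw [ind_neg hl, zero_mul]; exact bot_le
  rw [ind_pos hl, one_mul, show (4 * ENNReal.ofReal (2 / g.a)) * (4 * ENNReal.ofReal (2 / g.a))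
    = 4 * (ENNReal.ofReal (2 / g.a) * (4 * ENNReal.ofReal (2 / g.a))) by ring, mul_assoc 4]
  refine mul_le_mul' le_rfl ?_
  rw [← lintegral_const_mul' _ _ (ENNReal.mul_ne_top ENNReal.ofReal_ne_top hne)]
  refine lintegral_mono fun u2 => ?_
  have h21 : τ2 < τ1 := by linarith [hτ2.2]
  have h2t : τ2 ∈ Icc t1 t := ⟨hτ2.1, by linarith [hτ1.2]⟩
  have hE2 : EX (mv x1 w1 (τ2 - τ1)) (X1 + (τ2 - τ1) • q1) := EX_mv hE w1 (τ2 - τ1)
  have hs : |τ2 - τ1| ≤ T := by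
    rw [abs_le]
    constructor <;> linarith [hτ2.1, hτ2.2, hτ1.2, c.tT, c.t10]
  have hr2 : rr (mv x1 w1 (τ2 - τ1)) ≤ (M + g.Vm) * T := by
    have h1 := rr_mv_le' x1 w1 (τ2 - τ1)
    have h2 : |τ2 - τ1| * ‖w1‖ ≤ T * g.Vm := mul_le_mul hs hR1.1 (norm_nonneg _) hT.le
    linarith
  have hq1 : |q1.1| ≤ g.Vm ∧ |q1.2| ≤ g.Vm :=
    ⟨(abs_coord_le w1 0).trans hR1.1, (abs_coord_le w1 1).trans hR1.1⟩
  have hX2 : |(X1 + (τ2 - τ1) • q1).1| ≤ (M + g.Vm) * T ∧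
      |(X1 + (τ2 - τ1) • q1).2| ≤ (M + g.Vm) * T := by
    have h1 := box_step hX1 hq1 hs
    exact ⟨by linarith [h1.1], by linarith [h1.2]⟩
  by_cases h0 : cf P n τ2 (mv x1 w1 (τ2 - τ1)) u2 = 0
  · rw [h0, zero_mul]; exact bot_le
  have hnear := c.near τ2 h2t _ (hr2.trans (mul_le_mul_of_nonneg_right (by linarith) hT.le)) u2 h0
  have hge : g.a / 2 ≤ |w1 2 - u2 2| := reg_gap hR1.2 hnear
  rw [mul_left_comm, mul_assoc]
  refine mul_le_mul' (inv_gap ha hge) ?_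
  rw [← lintegral_const_mul' _ _ hne]
  refine (lintegral_const_mul_le _ _).trans (lintegral_mono fun q2 => ?_)
  beta_reduce
  by_cases hR : R2 g (gr w1 u2 q2)
  swap
  · rw [ind_neg hR, zero_mul, mul_zero]; exact bot_le
  rw [ind_pos hR, one_mul]
  have hcf : cf P n τ2 (mv x1 w1 (τ2 - τ1)) u2 ≤ Bm (tor (X1 + (τ2 - τ1) • q1)) u2 := by
    have h1 := c.maj τ2 h2t _ hr2 hl u2
    have h2 : Bm (mv x1 w1 (τ2 - τ1)) u2 = Bm (tor (X1 + (τ2 - τ1) • q1)) u2 :=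
      EX_inv (F := fun x => Bm x u2) (fun x a => hBi x a u2) hE2
    rwa [h2] at h1
  refine (mul_le_mul' hcf (good3_le c hi hτ1 hτ2 hE2 hr2 hX2 rfl (ne_of_gap ha hge) hR)).trans ?_
  rw [mul_left_comm]
  refine mul_le_mul' le_rfl ?_
  refine (lintegral_const_mul_le _ _).trans (lintegral_mono fun τ3 => ?_)
  refine (lintegral_const_mul_le _ _).trans (lintegral_mono fun u3 => ?_)
  refine (lintegral_const_mul_le _ _).trans (lintegral_mono fun q3 => ?_)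
  unfold Bf
  rw [ind_pos (show |(X1 + (τ2 - τ1) • q1, u2, τ3, X1 + (τ2 - τ1) • q1 + (τ3 - τ2) • q2, u3,
    q3).1.1| ≤ (M + g.Vm) * T ∧ |(X1 + (τ2 - τ1) • q1, u2, τ3, X1 + (τ2 - τ1) • q1 +
    (τ3 - τ2) • q2, u3, q3).1.2| ≤ (M + g.Vm) * T from hX2), one_mul]
  exact le_rfl

end

end Vale.Agent.P140.NU.S
end
end

section

/-!
P140, module S: the good part (change of variables and sweep over the second collision time).
-/

open MeasureTheory Set Filter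
open scoped ENNReal Topology

noncomputable section

namespace Vale.Agent.P140.NU.S

section

variable {P : Par} {n : ℕ} {g : Gp} {T t1 t M : ℝ} {Bm : T3 → V → ℝ≥0∞}
  {f : ℝ → T3 → V → ℝ≥0∞} {v u1 : V} {X1 : ℝ × ℝ} {τ1 l0 r : ℝ}

theorem meas_Bf5 (hf : Measurable fun p : ℝ × T3 × V => f p.1 p.2.1 p.2.2)
    (hB : Measurable fun p : T3 × V => Bm p.1 p.2) :
    Measurable fun p : (((((ℝ × (ℝ × ℝ)) × V) × ℝ) × (ℝ × ℝ)) × V) × (ℝ × ℝ) =>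
      Bf P n f v u1 X1 τ1 l0 r Bm t1 t p.1.1.1.1.1.1
        (p.1.1.1.1.1.2, p.1.1.1.1.2, p.1.1.1.2, p.1.1.2, p.1.2, p.2) := by
  have h : Measurable fun p : (((((ℝ × (ℝ × ℝ)) × V) × ℝ) × (ℝ × ℝ)) × V) × (ℝ × ℝ) =>
      ((p.1.1.1.1.1.1, (p.1.1.1.1.1.2, p.1.1.1.1.2, p.1.1.1.2, p.1.1.2, p.1.2, p.2)) : ℝ × Om) := by
    fun_prop
  have h2 := (meas_Bf (P := P) (n := n) (v := v) (u1 := u1) (X1 := X1) (τ1 := τ1) (l0 := l0)
    (r := r) (t1 := t1) (t := t) hf hB).comp h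
  exact h2

theorem meas_Bf3 (hf : Measurable fun p : ℝ × T3 × V => f p.1 p.2.1 p.2.2)
    (hB : Measurable fun p : T3 × V => Bm p.1 p.2) :
    Measurable fun p : (((ℝ × (ℝ × ℝ)) × V) × ℝ) × (ℝ × ℝ) => ∫⁻ u3 : V, ∫⁻ q3 : ℝ × ℝ,
      Bf P n f v u1 X1 τ1 l0 r Bm t1 t p.1.1.1.1
        (p.1.1.1.2, p.1.1.2, p.1.2, p.2, u3, q3) :=
  (meas_Bf5 hf hB).lintegral_prod_right'.lintegral_prod_right'

theorem meas_Bf1 (hf : Measurable fun p : ℝ × T3 × V => f p.1 p.2.1 p.2.2)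
    (hB : Measurable fun p : T3 × V => Bm p.1 p.2) :
    Measurable fun p : ℝ × (ℝ × ℝ) => ∫⁻ u2 : V, ∫⁻ τ3 : ℝ, ∫⁻ X3 : ℝ × ℝ, ∫⁻ u3 : V,
      ∫⁻ q3 : ℝ × ℝ, Bf P n f v u1 X1 τ1 l0 r Bm t1 t p.1 (p.2, u2, τ3, X3, u3, q3) :=
  (meas_Bf3 hf hB).lintegral_prod_right'.lintegral_prod_right'.lintegral_prod_right'

/-- both changes of variables -/
theorem good2_cov (c : Ctx P n g T t1 t M Bm)
    (hf : Measurable fun p : ℝ × T3 × V => f p.1 p.2.1 p.2.2)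
    (hi : ∀ τ ∈ Icc t1 t, ∀ x v a, f τ (zsh x a) v = f τ x v)
    (hB : Measurable fun p : T3 × V => Bm p.1 p.2)
    (hBi : ∀ x a u, Bm (zsh x a) u = Bm x u) (hτ1 : τ1 ∈ Icc t1 t) {x1 : T3}
    (hx1 : rr x1 ≤ M * T) {Nm b1 b2 : ℝ≥0∞}
    (hN : ∀ τ ∈ Icc t1 t, ∫⁻ x, ∫⁻ v, f τ x v ≤ Nm) (hb1 : ∀ x, ∫⁻ u, Bm x u ≤ b1)
    (hb2 : ∀ τ ∈ Icc t1 t, ∀ x, ∫⁻ u, cf P n τ x u ≤ b2) (hv : v 2 ≠ u1 2) :
    ∫⁻ q : ℝ × ℝ, ind (R1 g (gr v u1 q)) * good2 P n g T t1 f v u1 (gr v u1 q) τ1 x1 ≤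
      ((4 * ENNReal.ofReal (2 / g.a)) * (4 * ENNReal.ofReal (2 / g.a))) *
      (ENNReal.ofReal (((g.k * T) ^ 2)⁻¹) * (ENNReal.ofReal (((g.k * T) ^ 2)⁻¹) *
      (ENNReal.ofReal ((2 * ((M + g.Vm) * T)) ^ 2) * (b1 * (ENNReal.ofReal (t - t1) *
      (b2 * (ENNReal.ofReal (6 / L0 g T) * Nm))))))) := by
  have hV := c.pos.Vm
  have ha := c.pos.a
  have hT := c.T0
  have hkT : 0 < g.k * T := mul_pos c.pos.k hT
  have hne : 4 * ENNReal.ofReal (2 / g.a) ≠ ⊤ :=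
    ENNReal.mul_ne_top (by norm_num) ENNReal.ofReal_ne_top
  set X1 := xi x1 with hX1
  set r : ℝ := (M + g.Vm) * T with hr
  set K := ENNReal.ofReal (((g.k * T) ^ 2)⁻¹) with hK
  have hX1b : |X1.1| ≤ M * T ∧ |X1.2| ≤ M * T :=
    ⟨(abs_rep_le_rr x1 0 (by decide)).trans hx1, (abs_rep_le_rr x1 1 (by decide)).trans hx1⟩
  set F : ℝ → ℝ × ℝ → V → ℝ → ℝ × ℝ → ℝ≥0∞ := fun τ X2 u2 τ3 X3 => ∫⁻ u3 : V, ∫⁻ q3 : ℝ × ℝ,
    Bf P n f v u1 X1 τ1 (L0 g T) r Bm t1 t τ (X2, u2, τ3, X3, u3, q3) with hF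
  have hFm : Measurable fun p : (((ℝ × (ℝ × ℝ)) × V) × ℝ) × (ℝ × ℝ) =>
      F p.1.1.1.1 p.1.1.1.2 p.1.1.2 p.1.2 p.2 := meas_Bf3 hf hB
  set G : ℝ → ℝ × ℝ → ℝ≥0∞ := fun τ X2 => ∫⁻ u2 : V, ∫⁻ τ3 : ℝ, ∫⁻ X3 : ℝ × ℝ,
    F τ X2 u2 τ3 X3 with hG
  have hGm : Measurable fun p : ℝ × (ℝ × ℝ) => G p.1 p.2 := meas_Bf1 hf hB
  -- inner change of variables
  have h1 : ∀ τ2 X2 u2, ∫⁻ q2 : ℝ × ℝ, ∫⁻ τ3 in Icc t1 (τ2 - g.k * T),
      F τ2 X2 u2 τ3 (X2 + (τ3 - τ2) • q2) ≤ K * ∫⁻ τ3 : ℝ, ∫⁻ X3 : ℝ × ℝ, F τ2 X2 u2 τ3 X3 := by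
    intro τ2 X2 u2
    have hm : Measurable fun p : ℝ × (ℝ × ℝ) => F τ2 X2 u2 p.1 p.2 := by
      have h : Measurable fun p : ℝ × (ℝ × ℝ) =>
          (((((τ2, X2), u2), p.1), p.2) : (((ℝ × (ℝ × ℝ)) × V) × ℝ) × (ℝ × ℝ)) := by fun_prop
      have h2 := hFm.comp h
      exact h2
    refine (lint_cov hm X2 hkT t1 τ2).trans ?_
    refine mul_le_mul' le_rfl ?_
    exact setLIntegral_le_lintegral _ _
  -- one layer
  have h2 : ∀ q : ℝ × ℝ, ind (R1 g (gr v u1 q)) * good2 P n g T t1 f v u1 (gr v u1 q) τ1 x1 ≤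
      ((4 * ENNReal.ofReal (2 / g.a)) * (4 * ENNReal.ofReal (2 / g.a))) * (K *
        ∫⁻ τ2 in Icc t1 (τ1 - g.k * T), G τ2 (X1 + (τ2 - τ1) • q)) := by
    intro q
    by_cases hR1 : R1 g (gr v u1 q)
    swap
    · rw [ind_neg hR1, zero_mul]; exact bot_le
    rw [ind_pos hR1, one_mul]
    refine (good2_pt c hi hBi hτ1 (EX_xi x1) hx1 hX1b q hR1).trans ?_
    refine mul_le_mul' le_rfl ?_
    rw [← lintegral_const_mul' _ _ ENNReal.ofReal_ne_top]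
    refine lintegral_mono fun τ2 => ?_
    show _ ≤ K * ∫⁻ u2 : V, ∫⁻ τ3 : ℝ, ∫⁻ X3 : ℝ × ℝ, F τ2 (X1 + (τ2 - τ1) • q) u2 τ3 X3
    rw [← lintegral_const_mul' _ _ ENNReal.ofReal_ne_top]
    exact lintegral_mono fun u2 => h1 τ2 (X1 + (τ2 - τ1) • q) u2
  refine (lintegral_mono h2).trans ?_
  rw [lintegral_const_mul' _ _ (ENNReal.mul_ne_top hne hne),
    lintegral_const_mul' _ _ ENNReal.ofReal_ne_top]
  refine mul_le_mul' le_rfl (mul_le_mul' le_rfl ?_)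
  refine (lint_cov hGm X1 hkT t1 τ1).trans (mul_le_mul' le_rfl ?_)
  refine (setLIntegral_le_lintegral _ _).trans ?_
  have hl0 : 0 < L0 g T := by
    unfold L0
    have := c.pos.l
    have := c.pos.b
    positivity
  have hr0 : 0 ≤ r := by
    have := c.M0
    rw [hr]
    positivity
  exact Bf_int hf hi hB hN hb1 hb2 hl0 hr0 hv

end

/-- all facts on the medium -/
theorem ctx_ev {P : Par} (hP : Nice P) (g : Gp) (hg : g.Pos) {M : ℝ} (hM : 0 < M) :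
    ∃ C1 : ℝ, 0 < C1 ∧ ∃ C2 : ℝ, 0 < C2 ∧ ∀ᶠ t0 in 𝓝[>] (0 : ℝ), ∀ n, P.ss n ≤ t0 →
      ∀ t ∈ Icc 0 t0, ∀ t1 ∈ Icc 0 t, P.TT n t ≤ 2 * P.TT n t1 → ∃ Bm : T3 → V → ℝ≥0∞,
      (Measurable fun p : T3 × V => Bm p.1 p.2) ∧ (∀ x a u, Bm (zsh x a) u = Bm x u) ∧
      (∀ x, ∫⁻ u, Bm x u ≤ ENNReal.ofReal (C1 / P.TT n t)) ∧
      (∀ τ ∈ Icc t1 t, ∀ x, ∫⁻ u, cf P n τ x u ≤ ENNReal.ofReal (2 * C2 / P.TT n t)) ∧
      Ctx P n g (P.TT n t) t1 t M Bm := by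
  have hV := hg.Vm
  obtain ⟨C1, hC1, h1⟩ := cold_major hP hg.e (show 0 < M + g.Vm by positivity)
  obtain ⟨C2, hC2, h2⟩ := cold_mass hP
  have h3 := cold_near hP (show 0 < g.a / 2 from half_pos hg.a)
    (show 0 < 2 * (M + 2 * g.Vm) by positivity)
  refine ⟨C1, hC1, C2, hC2, ?_⟩
  have h4 : ∀ᶠ t0 in 𝓝[>] (0 : ℝ), t0 < 1 / (4 * (M + 2 * g.Vm)) :=
    mem_nhdsWithin_of_mem_nhds (Iio_mem_nhds (by positivity))
  filter_upwards [h1, h2, h3, h4] with t0 g1 g2 g3 g4 n hn t ht t1 ht1 hTT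
  obtain ⟨Bm, b1, b2, b3, b4⟩ := g1 n hn t ht
  have hT := hP.TTpos n ht.1
  have hτT : ∀ τ ∈ Icc t1 t, P.TT n t ≤ 2 * P.TT n τ := by
    intro τ hτ
    have : P.TT n t1 ≤ P.TT n τ := by
      unfold Par.TT
      linarith [hτ.1]
    linarith
  refine ⟨Bm, b1, b2, b3, fun τ hτ x => ?_, ?_⟩
  · refine (g2 n τ ⟨ht1.1.trans hτ.1, hτ.2.trans ht.2⟩ x).trans (ENNReal.ofReal_le_ofReal ?_)
    have h5 := hP.TTpos n (ht1.1.trans hτ.1)
    rw [div_le_div_iff₀ h5 hT]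
    have := hτT τ hτ
    linarith only [mul_nonneg (le_of_lt (sub_pos.2 hC2)) (sub_nonneg.2 this)]
  · refine ⟨hT, hM, hg, ht1.1, ?_, ?_, ?_, ?_⟩
    · unfold Par.TT
      linarith [hP.sspos n]
    · have h5 : P.TT n t ≤ 2 * t0 := by
        unfold Par.TT
        linarith [ht.2]
      have h6 : (M + 2 * g.Vm) * P.TT n t ≤ (M + 2 * g.Vm) * (2 * t0) :=
        mul_le_mul_of_nonneg_left h5 (by positivity)
      rw [lt_div_iff₀ (by positivity)] at g4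
      linarith
    · intro τ hτ x hx u hu
      have h5 : rr x ≤ 2 * (M + 2 * g.Vm) * P.TT n τ := by
        have h6 := mul_le_mul_of_nonneg_left (hτT τ hτ) (show 0 ≤ M + 2 * g.Vm by positivity)
        linarith
      obtain ⟨-, h6⟩ := g3 n hn τ ⟨ht1.1.trans hτ.1, hτ.2.trans ht.2⟩ x h5 u hu
      rcases h6 with h6 | h6
      · left
        exact (abs_coord_le (u - us P 1 x) 2).trans h6
      · right
        have h7 := (abs_coord_le (u - us P (-1) x) 2).trans h6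
        have h8 : (u - us P (-1) x) 2 = u 2 + 1 := by
          show u 2 - (-1) = u 2 + 1
          ring
        rwa [h8] at h7
    · intro τ hτ x hx hl u
      exact b4 τ ⟨ht1.1.trans hτ.1, hτ.2⟩ x hx hl u

theorem ofR_mul {a b : ℝ} (ha : 0 ≤ a) (X : ℝ≥0∞) :
    ENNReal.ofReal a * (ENNReal.ofReal b * X) = ENNReal.ofReal (a * b) * X := by
  rw [← mul_assoc, ← ENNReal.ofReal_mul ha]

/-- The inner integral of the good part: `τ₁, x₁, v, u₁` are fixed.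

Proof: on the good set `|w1_z - u2_z| ≥ a/2`, `|w2_z - u3_z| ≥ a/2` (`cold_near` with `δ = a/2`),
`cf P n τ2 x2 u2 ≤ B x2 u2` (`cold_major`).  Change of variables `q1 ↦ X2 = X1 - (τ1-τ2) q1`,
`q2 ↦ X3 = X2 - (τ2-τ3) q2` at fixed times (Jacobians `≤ (k T)⁻²` each), then integrate first over
`τ2` by `PD.psi_sweep` and `dpsi_ge`. -/
theorem good2_le {P : Par} (hP : Nice P) (g : Gp) (hg : g.Pos) {M : ℝ} (hM : 0 < M) :
    ∃ C : ℝ, 0 < C ∧ ∀ᶠ t0 in 𝓝[>] (0 : ℝ), ∀ n, P.ss n ≤ t0 → ∀ t ∈ Icc 0 t0, ∀ t1 ∈ Icc 0 t,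
      P.TT n t ≤ 2 * P.TT n t1 → ∀ f : ℝ → T3 → V → ℝ≥0∞,
      (Measurable fun p : ℝ × T3 × V => f p.1 p.2.1 p.2.2) →
      (∀ τ ∈ Icc t1 t, ∀ x v a, f τ (zsh x a) v = f τ x v) → ∀ Nm : ℝ≥0∞,
      (∀ τ ∈ Icc t1 t, ∫⁻ x, ∫⁻ v, f τ x v ≤ Nm) →
      ∀ τ1 ∈ Icc t1 t, ∀ x1, rr x1 ≤ M * P.TT n t → ∀ v u1, g.a / 2 ≤ |v 2 - u1 2| →
      ∫⁻ q : ℝ × ℝ, ind (R1 g (gr v u1 q)) *
          good2 P n g (P.TT n t) t1 f v u1 (gr v u1 q) τ1 x1 ≤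
        ENNReal.ofReal (C / P.TT n t ^ 2) * Nm := by
  obtain ⟨C1, hC1, C2, hC2, h⟩ := ctx_ev hP g hg hM
  have hV := hg.Vm
  have ha := hg.a
  have hb := hg.b
  have hl := hg.l
  have hk := hg.k
  refine ⟨(4 * (2 / g.a)) ^ 2 * (1 / g.k ^ 4) * (2 * (M + g.Vm)) ^ 2 * C1 * (2 * C2) *
    (6 * (g.Vm + g.a + 1) / (g.l * g.b)), by positivity, ?_⟩
  filter_upwards [h] with t0 h0 n hn t ht t1 ht1 hTT f hf hi Nm hN τ1 hτ1 x1 hx1 v u1 hv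
  obtain ⟨Bm, b1, b2, b3, b4, c⟩ := h0 n hn t ht t1 ht1 hTT
  set T := P.TT n t with hTdef
  have hT : 0 < T := c.T0
  refine (good2_cov c hf hi b1 b2 hτ1 hx1 hN b3 b4 (ne_of_gap ha hv)).trans ?_
  have htT : ENNReal.ofReal (t - t1) ≤ ENNReal.ofReal T :=
    ENNReal.ofReal_le_ofReal (by linarith [c.tT, c.t10])
  have e4 : 4 * ENNReal.ofReal (2 / g.a) = ENNReal.ofReal (4 * (2 / g.a)) := by
    rw [ENNReal.ofReal_mul (by norm_num)]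
    norm_num
  have hL : L0 g T = g.l * g.b / (T * (g.Vm + g.a + 1)) := rfl
  rw [e4, hL]
  calc _ ≤ (ENNReal.ofReal (4 * (2 / g.a)) * ENNReal.ofReal (4 * (2 / g.a))) *
      (ENNReal.ofReal (((g.k * T) ^ 2)⁻¹) * (ENNReal.ofReal (((g.k * T) ^ 2)⁻¹) *
      (ENNReal.ofReal ((2 * ((M + g.Vm) * T)) ^ 2) * (ENNReal.ofReal (C1 / T) *
      (ENNReal.ofReal T * (ENNReal.ofReal (2 * C2 / T) *
      (ENNReal.ofReal (6 / (g.l * g.b / (T * (g.Vm + g.a + 1)))) * Nm))))))) := by gcongr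
    _ = _ := by
      rw [ofR_mul (by positivity), ofR_mul (by positivity), ofR_mul (by positivity),
        ofR_mul (by (clear * - hk hT hM hV hC1; positivity)), ofR_mul (by (clear * - hk hT hM hV hC1; positivity)), ofR_mul (by positivity), mul_assoc,
        ofR_mul (by positivity), ofR_mul (by positivity)]
      congr 2
      field_simp

/-- the good part -/
theorem good1_le {P : Par} (hP : Nice P) (g : Gp) (hg : g.Pos) {M : ℝ} (hM : 0 < M) :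
    ∃ C : ℝ, 0 < C ∧ ∀ᶠ t0 in 𝓝[>] (0 : ℝ), ∀ n, P.ss n ≤ t0 → ∀ t ∈ Icc 0 t0, ∀ t1 ∈ Icc 0 t,
      P.TT n t ≤ 2 * P.TT n t1 → ∀ f : ℝ → T3 → V → ℝ≥0∞,
      (Measurable fun p : ℝ × T3 × V => f p.1 p.2.1 p.2.2) →
      (∀ τ ∈ Icc t1 t, ∀ x v a, f τ (zsh x a) v = f τ x v) → ∀ Nm : ℝ≥0∞,
      (∀ τ ∈ Icc t1 t, ∫⁻ x, ∫⁻ v, f τ x v ≤ Nm) →
      ∀ x, rr x ≤ M * P.TT n t → ∀ v, ‖v‖ ≤ g.Vm → Reg g.a v →
      good1 P n g (P.TT n t) t1 f t x v ≤ ENNReal.ofReal (C / P.TT n t ^ 2) * Nm := by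
  have hV := hg.Vm
  have ha := hg.a
  obtain ⟨C, hC, h⟩ := good2_le hP g hg (show 0 < M + g.Vm by positivity)
  obtain ⟨C3, hC3, h3⟩ := KG_le hP
  obtain ⟨_, _, _, _, h4⟩ := ctx_ev hP g hg hM
  refine ⟨2 * C3 * (2 / g.a) * C, by positivity, ?_⟩
  filter_upwards [h, h3, h4] with t0 h0 h3' h4' n hn t ht t1 ht1 hTT f hf hi Nm hN x hx v hv hvr
  obtain ⟨_, _, _, _, _, c⟩ := h4' n hn t ht t1 ht1 hTT
  set T := P.TT n t with hTdef
  have hT : 0 < T := c.T0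
  unfold good1
  have key : ∀ τ1 ∈ Icc t1 t, KG P n τ1 (mv x v (τ1 - t)) v (fun u1 w1 =>
      ind (R1 g w1) * good2 P n g T t1 f v u1 w1 τ1 (mv x v (τ1 - t))) ≤
      ENNReal.ofReal (2 * C3 / T) * (ENNReal.ofReal (2 / g.a) * (ENNReal.ofReal (C / T ^ 2) * Nm)) := by
    intro τ1 hτ1
    have hs : |τ1 - t| ≤ T := by
      rw [abs_le]
      constructor <;> linarith [hτ1.1, hτ1.2, c.tT, c.t10]
    have hr1 : rr (mv x v (τ1 - t)) ≤ (M + g.Vm) * T := by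
      have g1 := rr_mv_le' x v (τ1 - t)
      have g2 : |τ1 - t| * ‖v‖ ≤ T * g.Vm := mul_le_mul hs hv (norm_nonneg _) hT.le
      linarith
    have hTτ : P.TT n t1 ≤ P.TT n τ1 := by
      unfold Par.TT
      linarith [hτ1.1]
    have hTp : 0 < P.TT n τ1 := hP.TTpos n (ht1.1.trans hτ1.1)
    refine (h3' n τ1 ⟨ht1.1.trans hτ1.1, hτ1.2.trans ht.2⟩ _ v _
      (ENNReal.ofReal (2 / g.a) * (ENNReal.ofReal (C / T ^ 2) * Nm)) ?_).trans ?_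
    · intro u1 hu1 _
      have hnear := c.near τ1 hτ1 _ (hr1.trans (mul_le_mul_of_nonneg_right (by linarith) hT.le))
        u1 hu1
      have hge : g.a / 2 ≤ |v 2 - u1 2| := reg_gap hvr hnear
      unfold pl
      refine mul_le_mul' (inv_gap ha hge) ?_
      exact h0 n hn t ht t1 ht1 hTT f hf hi Nm hN τ1 hτ1 _ hr1 v u1 hge
    · refine mul_le_mul' (ENNReal.ofReal_le_ofReal ?_) le_rfl
      rw [div_le_div_iff₀ hTp hT]
      linarith only [mul_nonneg (le_of_lt (sub_pos.2 hC3)) (sub_nonneg.2 hTτ), mul_nonneg (le_of_lt (sub_pos.2 hC3)) (sub_nonneg.2 hTT)]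
  refine (setLIntegral_mono' measurableSet_Icc key).trans ?_
  rw [setLIntegral_const, Real.volume_Icc]
  calc _ ≤ ENNReal.ofReal (2 * C3 / T) * (ENNReal.ofReal (2 / g.a) *
      (ENNReal.ofReal (C / T ^ 2) * Nm)) * ENNReal.ofReal T :=
        mul_le_mul' le_rfl (ENNReal.ofReal_le_ofReal (by linarith [c.tT, c.t10]))
    _ = _ := by
      rw [mul_comm, ofR_mul (by positivity), ofR_mul (by positivity), ofR_mul (by positivity)]
      congr 2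
      field_simp

end Vale.Agent.P140.NU.S
end
end

section

/-!
P140, non-uniqueness: the gain operator is symmetric.
-/

open MeasureTheory Set Filter
open scoped ENNReal Topology

noncomputable section

namespace Vale.Agent.P140.NU

/-- symmetry of the gain operator -/
theorem supGam_comm {f g : V → ℝ≥0∞} (hf : Measurable f) (hg : Measurable g) (v : V) :
    Gam f g v = Gam g f v := by
  unfold Gam
  refine lintegral_congr fun w => ?_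
  have mΦ : Measurable fun p : V × V => f p.1 * g p.2 :=
    (hf.comp measurable_fst).mul (hg.comp measurable_snd)
  have h := lintegral_exchange v w mΦ
  refine Eq.trans h ?_
  refine lintegral_congr fun ω => ?_
  simp only [kk]
  rw [mul_comm (f _) (g _)]

end Vale.Agent.P140.NU
end
end
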