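import Vale.Agent.P140.MathlibUsed
import Vale.Agent.P140.Bd3.B1
import Vale.Agent.P140.Bd3.B11
import Vale.Agent.P140.Bd3.B6
import Vale.Agent.P140.Bd3.B4
import Vale.Agent.P140.Bd3.B9
import Vale.Agent.P140.Bd3.B13
import Vale.Agent.P140.Bd3.B10
import Vale.Agent.P140.Bd3.B7

set_option linter.all false

attribute [local instance 5000] Vale.Agent.P140.Sc.a01 Vale.Agent.P140.Sc.a02 Vale.Agent.P140.Sc.a03 Vale.Agent.P140.Sc.a04 Vale.Agent.P140.Sc.a05 Vale.Agent.P140.Sc.a06 Vale.Agent.P140.Sc.a07 Vale.Agent.P140.Sc.a08 Vale.Agent.P140.Sc.a09 Vale.Agent.P140.Sc.a10 Vale.Agent.P140.Sc.a11 Vale.Agent.P140.Sc.a12 Vale.Agent.P140.Sc.a13 Vale.Agent.P140.Sc.a14 Vale.Agent.P140.Sc.a15 Vale.Agent.P140.Sc.a16 Vale.Agent.P140.Sc.a17 Vale.Agent.P140.Sc.a18 Vale.Agent.P140.Sc.a19 Vale.Agent.P140.Sc.a20 Vale.Agent.P140.Sc.a21 Vale.Agent.P140.Sc.a22 Vale.Agent.P140.Sc.a23 Vale.Agent.P140.Sc.a24 Vale.Agent.P140.Sc.a25 Vale.Agent.P140.Sc.a26 Vale.Agent.P140.Sc.a27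 Vale.Agent.P140.Sc.a28 Vale.Agent.P140.Sc.a29 Vale.Agent.P140.Sc.a30 Vale.Agent.P140.Sc.a31 Vale.Agent.P140.Sc.a32 Vale.Agent.P140.Sc.a33 Vale.Agent.P140.Sc.r01 Vale.Agent.P140.Sc.r02 Vale.Agent.P140.Sc.r03 Vale.Agent.P140.Sc.r04 Vale.Agent.P140.Sc.r05 Vale.Agent.P140.Sc.r06 Vale.Agent.P140.Sc.r07 Vale.Agent.P140.Sc.r08 Vale.Agent.P140.Sc.r09 Vale.Agent.P140.Sc.r10 Vale.Agent.P140.Sc.r11 Vale.Agent.P140.Sc.r12 Vale.Agent.P140.Sc.r13 Vale.Agent.P140.Sc.r14 Vale.Agent.P140.Sc.r15 Vale.Agent.P140.Sc.r16 Vale.Agent.P140.Sc.r17 Vale.Agent.P140.Sc.r18 Vale.Agent.P140.Sc.a34 Vale.Agent.P140.Sc.a35 Vale.Agent.P140.Sc.a36 Vale.Agent.P140.Sc.a37 Vale.Agent.P140.Sc.a38 Vale.Agent.P140.Sc.a39 Vale.Agent.P140.Sc.a40 Vale.Agent.P140.Sc.a42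

section

/-!
P140, non-uniqueness, module N: the pointwise inequality for the barrier, abstract part.
-/

open MeasureTheory Set Filter
open scoped ENNReal Topology

noncomputable section

namespace Vale.Agent.P140.NU.Nb

theorem barGam_eq (f g : V → ℝ≥0∞) (v : V) :
    Gam f g v = ∫⁻ w, ∫⁻ o, kk v w o * (f (post v w o) * g (postStar v w o)) ∂surf := rfl

/-- measurability of the integrand of the gain -/
theorem barGam_meas {f g : V → ℝ≥0∞} (hf : Measurable f) (hg : Measurable g) (v : V) :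
    Measurable fun q : V × S2 => kk v q.1 q.2 * (f (post v q.1 q.2) * g (postStar v q.1 q.2)) := by
  have e1 : Measurable fun q : V × S2 => (v, q.1, q.2) := by (clear * -; fun_prop)
  exact (measurable_kk.comp e1).mul ((hf.comp (measurable_post.comp e1)).mul
    (hg.comp (measurable_postStar.comp e1)))

theorem barGam_comm {f g : V → ℝ≥0∞} (hf : Measurable f) (hg : Measurable g) (v : V) :
    Gam f g v = Gam g f v := by
  rw [barGam_eq, barGam_eq]
  apply lintegral_congr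
  intro w
  have h := lintegral_exchange v w (Φ := fun p => f p.1 * g p.2)
    ((hf.comp measurable_fst).mul (hg.comp measurable_snd))
  simp only at h
  rw [h]
  apply lintegral_congr
  intro o
  rw [mul_comm (f _) (g _)]

theorem barGam_add_left {f g h : V → ℝ≥0∞} (hf : Measurable f) (hh : Measurable h) (v : V) :
    Gam (fun u => f u + g u) h v = Gam f h v + Gam g h v := by
  rw [barGam_eq, barGam_eq, barGam_eq]
  have m1 := barGam_meas hf hh v
  have h1 : ∀ w : V, ∫⁻ o, kk v w o * ((f (post v w o) + g (post v w o)) * h (postStar v w o)) ∂surf =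
      (∫⁻ o, kk v w o * (f (post v w o) * h (postStar v w o)) ∂surf) +
      ∫⁻ o, kk v w o * (g (post v w o) * h (postStar v w o)) ∂surf := by
    intro w
    have m2 : Measurable fun o : S2 => kk v w o * (f (post v w o) * h (postStar v w o)) := by
      have e2 : Measurable fun o : S2 => (w, o) := by fun_prop
      have h3 := m1.comp e2
      exact h3
    rw [← lintegral_add_left m2]
    apply lintegral_congr
    intro o
    ring
  simp_rw [h1]
  exact lintegral_add_left m1.lintegral_prod_right' _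

theorem barGam_add_right {f g h : V → ℝ≥0∞} (hf : Measurable f) (hh : Measurable h) (v : V) :
    Gam h (fun u => f u + g u) v = Gam h f v + Gam h g v := by
  rw [barGam_eq, barGam_eq, barGam_eq]
  have m1 := barGam_meas hh hf v
  have h1 : ∀ w : V, ∫⁻ o, kk v w o * (h (post v w o) * (f (postStar v w o) + g (postStar v w o))) ∂surf =
      (∫⁻ o, kk v w o * (h (post v w o) * f (postStar v w o)) ∂surf) +
      ∫⁻ o, kk v w o * (h (post v w o) * g (postStar v w o)) ∂surf := by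
    intro w
    have m2 : Measurable fun o : S2 => kk v w o * (h (post v w o) * f (postStar v w o)) := by
      have e2 : Measurable fun o : S2 => (w, o) := by fun_prop
      have h3 := m1.comp e2
      exact h3
    rw [← lintegral_add_left m2]
    apply lintegral_congr
    intro o
    ring
  simp_rw [h1]
  exact lintegral_add_left m1.lintegral_prod_right' _

theorem barGam_const_mul {f g : V → ℝ≥0∞} (hf : Measurable f) (hg : Measurable g) (a b : ℝ≥0∞)
    (v : V) : Gam (fun u => a * f u) (fun u => b * g u) v = a * b * Gam f g v := by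
  rw [barGam_eq, barGam_eq]
  have m1 := barGam_meas hf hg v
  have m3 := m1.lintegral_prod_right' (ν := surf)
  rw [← lintegral_const_mul _ m3]
  apply lintegral_congr
  intro w
  have m2 : Measurable fun o : S2 => kk v w o * (f (post v w o) * g (postStar v w o)) := by
    have e2 : Measurable fun o : S2 => (w, o) := by fun_prop
    have h3 := m1.comp e2
    exact h3
  rw [← lintegral_const_mul _ m2]
  apply lintegral_congr
  intro o
  ring

/-- expansion of the gain of a sum of three functions -/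
theorem barGam_three {f g h : V → ℝ≥0∞} (hf : Measurable f) (hg : Measurable g)
    (hh : Measurable h) (v : V) :
    Gam (fun u => f u + g u + h u) (fun u => f u + g u + h u) v =
      Gam f f v + (2 * Gam f g v + Gam g g v) + 2 * Gam f h v + 2 * Gam g h v + Gam h h v := by
  have hfg : Measurable fun u => f u + g u := hf.add hg
  have hU : Measurable fun u => f u + g u + h u := hfg.add hh
  rw [barGam_add_left (f := fun u => f u + g u) hfg hU, barGam_add_left hf hU,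
    barGam_add_right (f := fun u => f u + g u) hfg hf, barGam_add_right hf hf,
    barGam_add_right (f := fun u => f u + g u) hfg hg, barGam_add_right hf hg,
    barGam_add_right (f := fun u => f u + g u) hfg hh, barGam_add_right hf hh,
    barGam_comm hg hf, barGam_comm hh hf, barGam_comm hh hg]
  ring

/-- the real inequality for the collisions of the barrier with the cold gas -/
theorem bar_real {K : ℕ} (hK : 1 ≤ K) {C w c t r a : ℝ} (hC : 0 ≤ C) (hw : 0 < w) (hc : 0 ≤ c)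
    (ht : 0 ≤ t) (hr : 0 < r) (ha : 0 ≤ a) (hrt : w * t ≤ r)
    (hKC : 2 * C * c * (K / w + 1) ≤ (K : ℝ) ^ 2 / 2) :
    2 * (C * c / (r * (1 + a))) * (min ((K + a) * t + r) 1) ^ K ≤
      (K : ℝ) ^ 2 / 2 * (min ((K + a) * t + r) 1) ^ (K - 1) +
        2 * C * c * (K / w + 1) * (min ((K + a) * t + r) 1) ^ K := by
  have hK1 : (1 : ℝ) ≤ K := by exact_mod_cast hK
  set R := (K + a) * t + r with hR
  have hR0 : 0 < R := by positivity
  have hD : 0 ≤ 2 * C * c * (K / w + 1) := by positivity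
  have h1 : R ≤ r * (1 + a) * (K / w + 1) := by
    have h2 : t ≤ r / w := by
      rw [le_div_iff₀ hw]
      linarith only [hrt]
    have h3 : (K + a) * t ≤ (K + a) * (r / w) := mul_le_mul_of_nonneg_left h2 (by positivity)
    have h4 : r * (1 + a) * (K / w + 1) - ((K + a) * (r / w) + r) =
        r * (a * (K - 1) / w + a) := by
      field_simp
      ring
    have h5 : 0 ≤ r * (a * (K - 1) / w + a) := by
      have : (0 : ℝ) ≤ K - 1 := by linarith only [hK1]
      (clear * - hr ha hK1 hw; positivity)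
    linarith only [h5, h4, h3]
  have h2 : C * c / (r * (1 + a)) ≤ C * c * (K / w + 1) / R := by
    rw [div_le_div_iff₀ (by positivity) hR0]
    have := mul_le_mul_of_nonneg_left h1 (by positivity : 0 ≤ C * c)
    linarith only [this]
  rcases le_or_gt R 1 with h | h
  · have hm : min R 1 = R := min_eq_left h
    rw [hm]
    have h3 : R ^ K = R * R ^ (K - 1) := by
      rw [← pow_succ']
      congr 1
      (clear * - hK; omega)
    have h4 : 2 * (C * c / (r * (1 + a))) * R ^ K ≤ 2 * (C * c * (K / w + 1) / R) * R ^ K := by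
      gcongr
    have h5 : 2 * (C * c * (K / w + 1) / R) * R ^ K = 2 * C * c * (K / w + 1) * R ^ (K - 1) := by
      rw [h3]
      (clear * - hw hR0 hK; field_simp)
    have h6 : 2 * C * c * (K / w + 1) * R ^ (K - 1) ≤ (K : ℝ) ^ 2 / 2 * R ^ (K - 1) := by
      (clear * - hKC hK ha ht hr; gcongr)
    have h7 : 0 ≤ 2 * C * c * (K / w + 1) * R ^ K := by (clear * - hC hc hK hw ha ht hr; positivity)
    linarith only [h7, h6, h5, h4]
  · have hm : min R 1 = 1 := min_eq_right h.le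
    rw [hm, one_pow, one_pow]
    have h4 : C * c * (K / w + 1) / R ≤ C * c * (K / w + 1) :=
      div_le_self (by (clear * - hC hc hK hw; positivity)) h.le
    have h5 : (0 : ℝ) ≤ (K : ℝ) ^ 2 / 2 := by positivity
    linarith only [hKC, hD, h2, h4]

/-- the pointwise inequality for the barrier, from the gain bounds -/
theorem bar_pointwise {P : Par} (hP : P.Good) {n : ℕ} {l t C1 C2 C3 C4 : ℝ} {x : T3} (hK : 1 ≤ P.K)
    (hl : 0 ≤ l) (ht : 0 ≤ t) (hC1 : 0 ≤ C1) (hC2 : 0 ≤ C2) (hC3 : 0 ≤ C3) (hC4 : 0 ≤ C4)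
    (hKC : 2 * C2 * P.c * (P.K / P.w + 1) ≤ (P.K : ℝ) ^ 2 / 2)
    (m1 : Measurable (cf P n t x)) (m2 : Measurable (bf P n t x)) (m3 : Measurable (Bt P l t x))
    (h1 : ∀ v, 2 * Gam (cf P n t x) (bf P n t x) v + Gam (bf P n t x) (bf P n t x) v ≤
      ENNReal.ofReal (C1 * (Real.exp (-(‖v‖ ^ 2 / 5)) * mB P t (rr x) ‖v‖ ^ P.K)) * WW P t x v)
    (h2 : ∀ v, Gam (cf P n t x) (Bt P l t x) v ≤
      ENNReal.ofReal (C2 * P.c / (rr x * (1 + ‖v‖))) * Bt P l t x v)
    (h2' : (∃ u, cf P n t x u ≠ 0) → 0 < rr x ∧ P.w * t ≤ rr x)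
    (h3 : ∀ v, Gam (bf P n t x) (Bt P l t x) v ≤ ENNReal.ofReal C3 * Bt P l t x v)
    (h4 : ∀ v, Gam (Bt P l t x) (Bt P l t x) v ≤
      ENNReal.ofReal (C4 * (1 + ‖v‖)) * Bt P l t x v) (v : V) :
    Gam (fun u => cf P n t x u + bf P n t x u + Bt P l t x u)
      (fun u => cf P n t x u + bf P n t x u + Bt P l t x u) v ≤
    Gam (cf P n t x) (cf P n t x) v +
      Rt P l (C1 + 2 * C2 * P.c * (P.K / P.w + 1) + 2 * C3 + C4) t x v := by
  rw [barGam_three m1 m2 m3]
  set a := ‖v‖ with ha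
  have ha0 : 0 ≤ a := norm_nonneg v
  set E := Real.exp (l * t) with hE
  have hE1 : 1 ≤ E := Real.one_le_exp (mul_nonneg hl ht)
  set G := Real.exp (-((1 / 5 - t) * a ^ 2)) with hG
  have hG0 : 0 < G := Real.exp_pos _
  set m := mB P t (rr x) a with hm
  have hr0 := rr_nonneg x
  have hm0 : 0 ≤ m := mB_nonneg ht hr0 ha0
  have hcp := hP.c_pos
  have hwp := hP.w_pos
  set D := 2 * C2 * P.c * (P.K / P.w + 1) with hD
  have hD0 : 0 ≤ D := by (clear * - hC2 hcp hK hwp; positivity)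
  have hBt : Bt P l t x v = ENNReal.ofReal (E * (G * m ^ P.K)) * WW P t x v := rfl
  have hEG : 0 ≤ E * (G * m ^ P.K) := by (clear * - hm0; positivity)
  -- the four terms
  have t1 : 2 * Gam (cf P n t x) (bf P n t x) v + Gam (bf P n t x) (bf P n t x) v ≤
      ENNReal.ofReal (C1 * (E * (G * m ^ P.K))) * WW P t x v := by
    refine (h1 v).trans (mul_le_mul' (ENNReal.ofReal_le_ofReal
      (mul_le_mul_of_nonneg_left ?_ hC1)) le_rfl)
    rw [← ha, ← hm]
    have h5 : Real.exp (-(a ^ 2 / 5)) ≤ G := by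
      rw [hG]
      apply Real.exp_le_exp.mpr
      have := mul_nonneg ht (sq_nonneg a)
      (clear * - this; linarith)
    calc Real.exp (-(a ^ 2 / 5)) * m ^ P.K ≤ G * m ^ P.K := by (clear * - h5 hm0; gcongr)
      _ ≤ E * (G * m ^ P.K) := le_mul_of_one_le_left (by (clear * - hm0; positivity)) hE1
  have t2 : 2 * Gam (cf P n t x) (Bt P l t x) v ≤
      ENNReal.ofReal (E * (G * ((P.K : ℝ) ^ 2 / 2 * m ^ (P.K - 1) + D * m ^ P.K))) * WW P t x v := by
    by_cases hz : ∃ u, cf P n t x u ≠ 0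
    · obtain ⟨hr, hrt⟩ := h2' hz
      have h5 := bar_real hK hC2 hwp hcp.le ht hr ha0 hrt hKC
      calc 2 * Gam (cf P n t x) (Bt P l t x) v
          ≤ 2 * (ENNReal.ofReal (C2 * P.c / (rr x * (1 + a))) * Bt P l t x v) := by
            gcongr
            exact h2 v
        _ = ENNReal.ofReal (2 * (C2 * P.c / (rr x * (1 + a))) * (E * (G * m ^ P.K))) *
            WW P t x v := by
          rw [hBt, ← mul_assoc, ← mul_assoc, ← ENNReal.ofReal_ofNat 2,
            ← ENNReal.ofReal_mul (by norm_num), ← ENNReal.ofReal_mul (by (clear * - hC2 hcp hr; positivity))]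
        _ ≤ _ := by
          refine mul_le_mul' (ENNReal.ofReal_le_ofReal ?_) le_rfl
          have h6 := mul_le_mul_of_nonneg_left h5 (by positivity : 0 ≤ E * G)
          calc 2 * (C2 * P.c / (rr x * (1 + a))) * (E * (G * m ^ P.K)) =
              E * G * (2 * (C2 * P.c / (rr x * (1 + a))) * m ^ P.K) := by ring
            _ ≤ _ := h6
            _ = E * (G * ((P.K : ℝ) ^ 2 / 2 * m ^ (P.K - 1) + D * m ^ P.K)) := by
              show E * G * ((P.K : ℝ) ^ 2 / 2 * m ^ (P.K - 1) + D * m ^ P.K) = _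
              ring
    · push Not at hz
      have h5 : Gam (cf P n t x) (Bt P l t x) v = 0 := by
        unfold Gam
        simp only [hz, zero_mul, mul_zero, lintegral_const, measure_univ_of_isAddLeftInvariant]
      rw [h5, mul_zero]
      exact zero_le
  have t3 : 2 * Gam (bf P n t x) (Bt P l t x) v ≤
      ENNReal.ofReal (2 * C3 * (E * (G * m ^ P.K))) * WW P t x v := by
    calc 2 * Gam (bf P n t x) (Bt P l t x) v ≤ 2 * (ENNReal.ofReal C3 * Bt P l t x v) := by
          gcongr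
          exact h3 v
      _ = _ := by
        rw [hBt, ← mul_assoc, ← mul_assoc, ← ENNReal.ofReal_ofNat 2,
            ← ENNReal.ofReal_mul (by norm_num), ← ENNReal.ofReal_mul (by (clear * - hC3; positivity))]
  have t4 : Gam (Bt P l t x) (Bt P l t x) v ≤
      ENNReal.ofReal (C4 * (1 + a) * (E * (G * m ^ P.K))) * WW P t x v := by
    refine (h4 v).trans (le_of_eq ?_)
    rw [hBt, ← mul_assoc, ← ENNReal.ofReal_mul (by (clear * - hC4; positivity))]
  have hsum : ENNReal.ofReal (C1 * (E * (G * m ^ P.K))) * WW P t x v +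
      ENNReal.ofReal (E * (G * ((P.K : ℝ) ^ 2 / 2 * m ^ (P.K - 1) + D * m ^ P.K))) * WW P t x v +
      ENNReal.ofReal (2 * C3 * (E * (G * m ^ P.K))) * WW P t x v +
      ENNReal.ofReal (C4 * (1 + a) * (E * (G * m ^ P.K))) * WW P t x v ≤
      Rt P l (C1 + D + 2 * C3 + C4) t x v := by
    unfold Rt
    rw [← add_mul, ← add_mul, ← add_mul, ← ENNReal.ofReal_add (by (clear * - hC1 hm0; positivity)) (by (clear * - hK hm0 hC2 hcp hwp; (clear * - hK hm0 hC2 hcp hwp; positivity))),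
      ← ENNReal.ofReal_add (by (clear * - hC1 hm0 hK hC2 hcp hwp; positivity)) (by (clear * - hC3 hm0; positivity)),
      ← ENNReal.ofReal_add (by (clear * - hC1 hm0 hK hC2 hcp hwp hC3; positivity)) (by (clear * - hC4 hm0; positivity))]
    refine mul_le_mul' (ENNReal.ofReal_le_ofReal ?_) le_rfl
    rw [← ha, ← hm, ← hE, ← hG]
    have h6 : 0 ≤ E * (G * m ^ P.K) * a := by (clear * - hm0; positivity)
    have h7 : 0 ≤ (C1 + D + 2 * C3) * (E * (G * m ^ P.K) * a) := by (clear * - hC1 hC2 hcp hK hwp hC3 hm0; positivity)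
    linarith only [h7]
  calc _ ≤ Gam (cf P n t x) (cf P n t x) v +
      ENNReal.ofReal (C1 * (E * (G * m ^ P.K))) * WW P t x v +
      ENNReal.ofReal (E * (G * ((P.K : ℝ) ^ 2 / 2 * m ^ (P.K - 1) + D * m ^ P.K))) * WW P t x v +
      ENNReal.ofReal (2 * C3 * (E * (G * m ^ P.K))) * WW P t x v +
      ENNReal.ofReal (C4 * (1 + a) * (E * (G * m ^ P.K))) * WW P t x v := by (clear * - t1 t2 t3 t4; gcongr)
    _ = Gam (cf P n t x) (cf P n t x) v +
      (ENNReal.ofReal (C1 * (E * (G * m ^ P.K))) * WW P t x v +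
      ENNReal.ofReal (E * (G * ((P.K : ℝ) ^ 2 / 2 * m ^ (P.K - 1) + D * m ^ P.K))) * WW P t x v +
      ENNReal.ofReal (2 * C3 * (E * (G * m ^ P.K))) * WW P t x v +
      ENNReal.ofReal (C4 * (1 + a) * (E * (G * m ^ P.K))) * WW P t x v) := by ring
    _ ≤ _ := by (clear * - hsum; gcongr)

end Vale.Agent.P140.NU.Nb
end
end

section

/-!
P140, non-uniqueness, module N: the source of the barrier (collisions of the cold gas with the
products of the first cold-cold collisions).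
-/

open MeasureTheory Set Filter
open scoped ENNReal Topology

noncomputable section

namespace Vale.Agent.P140.NU.Nb

/-- real inequality behind the choice of the thermal exponent -/
theorem noise_real {K : ℕ} {L k δ T1 T2 t : ℝ} (hL0 : 0 < L) (hL1 : L ≤ 1) (hk0 : 0 < k)
    (hk1 : k ≤ 1) (hδ : δ = k * L ^ (2 * K + 8)) (hT1 : 0 ≤ T1) (hT2 : 0 ≤ T2) (ht0 : 0 ≤ t)
    (ht1 : t ≤ 1) :
    T1 * (δ⁻¹ * (L⁻¹) ^ 3) * t + T2 * (L⁻¹) ^ 4 * t ^ 2 ≤
      (T1 + T2) * (L ^ K * (δ * √δ)⁻¹) := by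
  have hδ0 : 0 < δ := by rw [hδ]; positivity
  have hs : √δ = √k * L ^ (K + 4) := by
    rw [hδ, Real.sqrt_mul hk0.le, show 2 * K + 8 = (K + 4) * 2 by ring, pow_mul,
      Real.sqrt_sq (by positivity)]
  have hs0 : 0 < √δ := Real.sqrt_pos.mpr hδ0
  have hk2 : √k ≤ 1 := Real.sqrt_le_iff.mpr ⟨zero_le_one, by simpa only [one_pow] using hk1⟩
  have h1 : √δ ≤ L ^ (K + 4) := by
    rw [hs]
    exact mul_le_of_le_one_left (by (clear * - hL0; positivity)) hk2
  have h2 : δ ≤ 1 := by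
    rw [hδ]
    exact mul_le_one₀ hk1 (by positivity) (pow_le_one₀ hL0.le hL1)
  have h3 : L ^ (K + 4) = L ^ K * L ^ 4 := pow_add _ _ _
  have h4 : L ^ 4 = L ^ 3 * L := by ring
  have e1 : δ⁻¹ * (L⁻¹) ^ 3 ≤ L ^ K * (δ * √δ)⁻¹ := by
    rw [mul_inv, inv_pow]
    have h5 : (L ^ 3)⁻¹ ≤ L ^ K * (√δ)⁻¹ := by
      rw [← div_eq_mul_inv, inv_eq_one_div, div_le_div_iff₀ (by positivity) hs0, one_mul]
      refine h1.trans ?_
      rw [h3, h4]
      have : L ^ 3 * L ≤ L ^ 3 * 1 := mul_le_mul_of_nonneg_left hL1 (by positivity)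
      calc L ^ K * (L ^ 3 * L) ≤ L ^ K * (L ^ 3 * 1) := by (clear * - this hL0; gcongr)
        _ = L ^ K * L ^ 3 := by ring
    calc δ⁻¹ * (L ^ 3)⁻¹ ≤ δ⁻¹ * (L ^ K * (√δ)⁻¹) := by (clear * - h5 hδ0; gcongr)
      _ = _ := by ring
  have e2 : (L⁻¹) ^ 4 ≤ L ^ K * (δ * √δ)⁻¹ := by
    rw [inv_pow, ← div_eq_mul_inv, inv_eq_one_div, div_le_div_iff₀ (by positivity) (by (clear * - hδ0; positivity)),
      one_mul]
    calc δ * √δ ≤ 1 * √δ := by (clear * - h2 hδ0; gcongr)
      _ ≤ L ^ K * L ^ 4 := by rw [one_mul, ← h3]; exact h1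
  have e0 : 0 ≤ L ^ K * (δ * √δ)⁻¹ := by positivity
  have f1 : T1 * (δ⁻¹ * (L⁻¹) ^ 3) * t ≤ T1 * (L ^ K * (δ * √δ)⁻¹) := by
    calc T1 * (δ⁻¹ * (L⁻¹) ^ 3) * t ≤ T1 * (δ⁻¹ * (L⁻¹) ^ 3) * 1 := by (clear * - ht1 hT1 hδ0 hL0; gcongr)
      _ ≤ _ := by rw [mul_one]; (clear * - e1 hT1; gcongr)
  have f2 : T2 * (L⁻¹) ^ 4 * t ^ 2 ≤ T2 * (L ^ K * (δ * √δ)⁻¹) := by
    have : t ^ 2 ≤ 1 := pow_le_one₀ ht0 ht1
    calc T2 * (L⁻¹) ^ 4 * t ^ 2 ≤ T2 * (L⁻¹) ^ 4 * 1 := by (clear * - this hT2 hL0; gcongr)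
      _ ≤ _ := by rw [mul_one]; (clear * - e2 hT2; gcongr)
  linarith only [f2, f1]

/-- lower bound of the singular weight near the beams -/
theorem WW_lower {P : Par} {t δ s : ℝ} (hs : s = 1 ∨ s = -1) (hδ : 0 < δ) {x : T3} {v : V}
    (hx : rr x ≤ 1 / 16 + 2 * t) (hv : SS P s x v ≤ 72 * δ ^ 2) :
    ENNReal.ofReal ((72 * (δ * √δ))⁻¹) ≤ WW P t x v := by
  have h1 : ENNReal.ofReal ((72 * (δ * √δ))⁻¹) ≤ ENNReal.ofReal (SS P s x v) ^ (-(3 / 4) : ℝ) := by
    have h2 : ENNReal.ofReal (72 * δ ^ 2) ^ (-(3 / 4) : ℝ) ≤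
        ENNReal.ofReal (SS P s x v) ^ (-(3 / 4) : ℝ) :=
      ennrpow_neg_anti (ENNReal.ofReal_le_ofReal hv) (by (clear * -; norm_num))
    refine le_trans ?_ h2
    rw [ENNReal.ofReal_rpow_of_pos (by positivity)]
    apply ENNReal.ofReal_le_ofReal
    rw [Real.rpow_neg (by positivity)]
    apply inv_anti₀ (by positivity)
    rw [Real.mul_rpow (by norm_num) (by positivity)]
    have h3 : (δ ^ 2 : ℝ) ^ (3 / 4 : ℝ) = δ * √δ := by
      rw [← Real.rpow_natCast, ← Real.rpow_mul hδ.le, Real.sqrt_eq_rpow]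
      nth_rewrite 2 [← Real.rpow_one δ]
      rw [← Real.rpow_add hδ]
      norm_num
    rw [h3]
    gcongr
    calc (72 : ℝ) ^ (3 / 4 : ℝ) ≤ (72 : ℝ) ^ (1 : ℝ) := by
          apply Real.rpow_le_rpow_of_exponent_le <;> norm_num
      _ = 72 := Real.rpow_one _
  refine h1.trans ?_
  unfold WW
  rw [if_pos hx]
  set A := ENNReal.ofReal (SS P 1 x v) ^ (-(3 / 4) : ℝ)
  set B := ENNReal.ofReal (SS P (-1) x v) ^ (-(3 / 4) : ℝ)
  rcases hs with rfl | rfl
  · calc A ≤ 1 + (A - 1) := le_add_tsub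
      _ ≤ 1 + (A - 1 + (B - 1)) := by gcongr; exact le_self_add
  · calc B ≤ 1 + (B - 1) := le_add_tsub
      _ ≤ 1 + (A - 1 + (B - 1)) := by gcongr; exact le_add_self

theorem sg_cases (j : ℕ) : sg j = 1 ∨ sg j = -1 := by
  unfold sg
  exact neg_one_pow_eq_or ℝ j

theorem kdel_small {P : Par} (hP : P.Good) : P.kdel < 1 / 100 := by
  have hl := hP.lam_pos
  have hw := hP.w_pos
  have h7 := hP.hk1
  have h5 : P.w ≤ 1 := hP.w_le.trans (by norm_num)
  have h10 : (P.w * P.lam) ^ 2 ≤ 1 := by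
    apply pow_le_one₀ (by (clear * - hw hl; positivity))
    exact mul_le_one₀ h5 hl.le hP.hl1.le
  have h11 : P.lam ^ (-(gg / 4)) - 1 ≤ 1 := by
    have h12 : P.lam ^ (-(gg / 4)) ≤ (1 / 2 : ℝ) ^ (-(gg / 4)) := by
      apply Real.rpow_le_rpow_of_nonpos (by norm_num) hP.hl0.le
      unfold gg
      norm_num
    have h13 : (1 / 2 : ℝ) ^ (-(gg / 4)) ≤ (1 / 2 : ℝ) ^ (-1 : ℝ) := by
      apply Real.rpow_le_rpow_of_exponent_ge (by norm_num) (by norm_num)
      unfold gg
      norm_num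
    have h14 : (1 / 2 : ℝ) ^ (-1 : ℝ) = 2 := by
      rw [Real.rpow_neg_one]
      norm_num
    linarith only [h12, h13]
  have h15 := hP.gap_pos
  have h16 : (P.w * P.lam) ^ 2 * (P.lam ^ (-(gg / 4)) - 1) ≤ 1 * 1 :=
    mul_le_mul h10 h11 h15.le (by norm_num)
  linarith only [h7, h16]

theorem del_small {P : Par} (hP : P.Good) (j : ℕ) : P.del j ≤ 1 / 100 := by
  refine (hP.del_le j).trans ?_
  have h1 := kdel_small hP
  have h2 : (P.lam ^ j) ^ 8 ≤ 1 := pow_le_one₀ (hP.lamj_pos j).le (hP.lamj_le_one j)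
  calc P.kdel * (P.lam ^ j) ^ 8 ≤ P.kdel * 1 := mul_le_mul_of_nonneg_left h2 hP.hk0.le
    _ ≤ 1 / 100 := by linarith only [h1]

theorem near_beam_norm {P : Par} (hP : P.Good) {x : T3} (hr : 0 < rr x) {j : ℕ} {v : V} {δ : ℝ}
    (hδ0 : 0 ≤ δ) (hδ : δ ≤ 1 / 100) (h : ‖v - uu P (sg j) x‖ ^ 2 ≤ 72 * δ ^ 2) : ‖v‖ ≤ 2 := by
  have h1 : ‖v - uu P (sg j) x‖ ≤ 9 * δ := by
    apply le_of_sq_le_sq _ (by (clear * - hδ0; positivity))
    refine h.trans ?_
    rw [mul_pow]
    have := sq_nonneg δ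
    linarith only [this]
  have h2 := norm_uu_le P (sg j) hr hP.w_pos.le
  have h3 : |sg j| = 1 := by
    rcases sg_cases j with h | h <;> rw [h] <;> simp
  have h4 : ‖v‖ ≤ ‖v - uu P (sg j) x‖ + ‖uu P (sg j) x‖ := by
    have := norm_add_le (v - uu P (sg j) x) (uu P (sg j) x)
    rwa [sub_add_cancel] at this
  have h5 : P.w ≤ 1 / 100 := hP.w_le.trans (by norm_num)
  linarith only [h5, h4, h3, h2, h1, hδ]

/-- final real inequality for the source -/
theorem noise_final {K : ℕ} {L lam X S g m T : ℝ} (hL : 0 < L) (hlam : 0 < lam) (hS : 0 < S)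
    (hT : 0 ≤ T) (hX : X ≤ T * (L ^ K * S⁻¹)) (hg : Real.exp (-1) ≤ g)
    (hm : lam ^ K * L ^ K ≤ m) :
    X ≤ (T * 72 * Real.exp 1 * (lam ^ K)⁻¹ * (g * m)) * (72 * S)⁻¹ := by
  refine hX.trans ?_
  have h1 : (1 : ℝ) = Real.exp 1 * Real.exp (-1) := by
    rw [← Real.exp_add]
    simp
  have h2 : Real.exp (-1) * (lam ^ K * L ^ K) ≤ g * m :=
    mul_le_mul hg hm (by positivity) ((Real.exp_pos _).le.trans hg)
  have h3 : 0 ≤ T * 72 * Real.exp 1 * (lam ^ K)⁻¹ := by (clear * - hT hlam; positivity)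
  calc T * (L ^ K * S⁻¹) = (T * 72 * (Real.exp 1 * Real.exp (-1)) * (lam ^ K)⁻¹ *
        ((lam ^ K * L ^ K))) * (72 * S)⁻¹ := by
        rw [← h1]
        field_simp
    _ = (T * 72 * Real.exp 1 * (lam ^ K)⁻¹ * (Real.exp (-1) * (lam ^ K * L ^ K))) *
        (72 * S)⁻¹ := by ring
    _ ≤ _ := by gcongr

section

variable {P : Par} {t0 t : ℝ} {n j : ℕ} {x : T3}

theorem cf_near (hP : P.Good) (hS : Gb.SuppAt P t0) (ht : t ∈ Icc 0 (2 * t0))
    (hj2 : rr x - P.w * t ∈ P.cell (gg / 4) j) (z : V) :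
    cf P n t x z ≤ ENNReal.ofReal (P.amp j) ∧
        (cf P n t x z ≠ 0 → ‖z - uu P (sg j) x‖ ≤ 6 * P.del j) := by
  have hr0 : 0 < rr x := Gb.rr_pos_of_cell hP ht.1 hj2
  have hδ0 : 0 < P.del j := hP.del_pos j
  by_cases h0 : cf P n t x z = 0
  · rw [h0]
    exact ⟨zero_le, fun h => absurd rfl h⟩
  · obtain ⟨k, _, h1, _, h2, h3⟩ := hS n t ht x z h0
    have hjk : k = j := hP.cell_inj (by unfold gg; norm_num)
      (hP.cell_mono (by unfold gg; norm_num) k h1) hj2
    subst hjk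
    refine ⟨h3, fun _ => ?_⟩
    rw [← sqrt_SS_eq_norm P (sg k) hr0]
    linarith

theorem bf_near (hP : P.Good) (ht0 : t0 ≤ 1 / 100) (hS : Gb.SuppAt P t0)
    (ht : t ∈ Icc 0 (2 * t0)) (hj2 : rr x - P.w * t ∈ P.cell (gg / 4) j) (z : V) :
    bf P n t x z ≤ ENNReal.ofReal (64 * Real.pi * Gb.kap * (4 * P.del j) ^ 4 * P.amp j ^ 2 * t) ∧
        (bf P n t x z ≠ 0 → ‖z - uu P (sg j) x‖ ≤ 6 * P.del j) := by
  have hr0 : 0 < rr x := Gb.rr_pos_of_cell hP ht.1 hj2
  refine ⟨Gb.bf_le' hP ht0 hS ht hj2 z, fun h0 => ?_⟩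
  obtain ⟨k, _, h1, h2⟩ := Gb.bf_supp' hP ht0 hS ht h0
  have hjk : k = j := hP.cell_inj (by unfold gg; norm_num) h1 hj2
  subst hjk
  rwa [← sqrt_SS_eq_norm P (sg k) hr0]

theorem rr_le_of_cell (hP : P.Good) (ht : 0 ≤ t) (hj1 : j ∈ Finset.Icc P.j0 n)
    (hj2 : rr x - P.w * t ∈ P.cell (gg / 4) j) : rr x ≤ 1 / 16 + 2 * t := by
  have h1 : rr x - P.w * t ≤ P.lam ^ j := hP.cell_le (by unfold gg; norm_num) hj2
  have h2 : P.lam ^ j ≤ P.lam ^ P.j0 :=
    pow_le_pow_of_le_one hP.lam_pos.le hP.hl1.le (Finset.mem_Icc.mp hj1).1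
  have h3 := hP.hj
  have h4 : P.w * t ≤ 1 * t := by
    apply mul_le_mul_of_nonneg_right _ ht
    exact hP.w_le.trans (by norm_num)
  linarith

end

/-- the source of the barrier -/
theorem noise_source {P : Par} (hP : P.Good) : ∃ C1 : ℝ, 0 ≤ C1 ∧ ∀ t0 : ℝ, t0 ≤ 1 / 100 →
    Gb.SuppAt P t0 → ∀ n, ∀ t ∈ Icc 0 (2 * t0), ∀ x v,
    2 * Gam (cf P n t x) (bf P n t x) v + Gam (bf P n t x) (bf P n t x) v ≤
      ENNReal.ofReal (C1 * (Real.exp (-(‖v‖ ^ 2 / 5)) * mB P t (rr x) ‖v‖ ^ P.K)) *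
        WW P t x v := by
  have hc := hP.c_pos
  have hw := hP.w_pos
  have hl := hP.lam_pos
  have hk := Gb.kap_pos
  set κ : ℝ := 64 * Real.pi * Gb.kap with hκ
  have hκ0 : 0 < κ := by positivity
  set A0 : ℝ := P.c / (4 * P.w * P.lam) with hA0
  have hA00 : 0 < A0 := by positivity
  set M0 : ℝ := κ * 256 * A0 ^ 2 with hM0
  have hM00 : 0 < M0 := by positivity
  set T1 : ℝ := 2 * κ * 6 ^ 4 * A0 * M0 with hT1
  set T2 : ℝ := κ * 6 ^ 4 * M0 ^ 2 with hT2
  have hT10 : 0 < T1 := by positivity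
  have hT20 : 0 < T2 := by positivity
  refine ⟨(T1 + T2) * 72 * Real.exp 1 * ((P.lam ^ P.K)⁻¹), by positivity, ?_⟩
  intro t0 ht0 hS n t ht x v
  by_cases hj : ∃ j ∈ Finset.Icc P.j0 n, rr x - P.w * t ∈ P.cell (gg / 4) j
  · obtain ⟨j, hj1, hj2⟩ := hj
    set L := P.lam ^ j with hL
    have hL0 : 0 < L := hP.lamj_pos j
    have hL1 : L ≤ 1 := hP.lamj_le_one j
    set δ := P.del j with hδ
    have hδ0 : 0 < δ := hP.del_pos j
    have hr0 : 0 < rr x := Gb.rr_pos_of_cell hP ht.1 hj2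
    have ht1 : t ≤ 1 := by linarith only [ht0, ht.2]
    have hk1 : P.kdel ≤ 1 := (kdel_small hP).le.trans (by norm_num)
    have hcf := cf_near (n := n) hP hS ht hj2
    have hbf := bf_near (n := n) hP ht0 hS ht hj2
    rw [← hδ, ← hκ] at hbf
    rw [← hδ] at hcf
    have hamp : P.amp j = A0 * ((δ⁻¹) ^ 3 * L⁻¹) := by
      unfold Par.amp Par.imp
      rw [hA0, pow_succ P.lam j, ← hL, ← hδ]
      (clear * - hl hL0 hδ0 hw hc; field_simp)
    have hM : κ * (4 * δ) ^ 4 * P.amp j ^ 2 * t = M0 * ((δ⁻¹) ^ 2 * (L⁻¹) ^ 2) * t := by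
      rw [hamp, hM0]
      field_simp
      ring
    by_cases hz : Gam (cf P n t x) (bf P n t x) v = 0 ∧ Gam (bf P n t x) (bf P n t x) v = 0
    · rw [hz.1, hz.2, mul_zero, add_zero]
      exact zero_le
    · have hρ : (0 : ℝ) ≤ 6 * δ := by (clear * - hδ0; positivity)
      have hsupp : ‖v - uu P (sg j) x‖ ^ 2 ≤ 72 * δ ^ 2 := by
        have h2 : (72 : ℝ) * δ ^ 2 = 2 * (6 * δ) ^ 2 := by ring
        rw [h2]
        by_cases h0 : Gam (cf P n t x) (bf P n t x) v = 0
        · have h1 : Gam (bf P n t x) (bf P n t x) v ≠ 0 := fun h => hz ⟨h0, h⟩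
          exact Gb.Gam_beam_supp hρ (fun z => (hbf z).2) (fun z => (hbf z).2) h1
        · exact Gb.Gam_beam_supp hρ (fun z => (hcf z).2) (fun z => (hbf z).2) h0
      have hSS : SS P (sg j) x v ≤ 72 * δ ^ 2 := by
        rw [SS_eq_norm P (sg j) hr0]
        exact hsupp
      have hWW := WW_lower (t := t) (sg_cases j) hδ0 (rr_le_of_cell hP ht.1 hj1 hj2) hSS
      have hv2 : ‖v‖ ≤ 2 := near_beam_norm hP hr0 hδ0.le (del_small hP j) hsupp
      -- the products
      have g1 := Gb.Gam_beam_le hρ (fun z => (hcf z).1) (fun z => (hbf z).1)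
        (fun z => (hcf z).2) (fun z => (hbf z).2) v
      have g2 := Gb.Gam_beam_le hρ (fun z => (hbf z).1) (fun z => (hbf z).1)
        (fun z => (hbf z).2) (fun z => (hbf z).2) v
      rw [← hκ] at g1 g2
      have hamp0 : 0 < P.amp j := hP.amp_pos j
      have ht00 : 0 ≤ t := ht.1
      have g3 : 2 * Gam (cf P n t x) (bf P n t x) v + Gam (bf P n t x) (bf P n t x) v ≤
          ENNReal.ofReal (T1 * (δ⁻¹ * (L⁻¹) ^ 3) * t + T2 * (L⁻¹) ^ 4 * t ^ 2) := by
        rw [← ENNReal.ofReal_mul hamp0.le, ← ENNReal.ofReal_mul (by (clear * - hk hδ0; positivity))] at g1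
        rw [← ENNReal.ofReal_mul (by (clear * - hk hδ0 hamp0 ht00; positivity)), ← ENNReal.ofReal_mul (by (clear * - hk hδ0; positivity))] at g2
        calc 2 * Gam (cf P n t x) (bf P n t x) v + Gam (bf P n t x) (bf P n t x) v
            ≤ 2 * ENNReal.ofReal (κ * (6 * δ) ^ 4 *
                (P.amp j * (κ * (4 * δ) ^ 4 * P.amp j ^ 2 * t))) +
              ENNReal.ofReal (κ * (6 * δ) ^ 4 * ((κ * (4 * δ) ^ 4 * P.amp j ^ 2 * t) *
                (κ * (4 * δ) ^ 4 * P.amp j ^ 2 * t))) := by (clear * - g1 g2; gcongr)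
          _ = _ := by
            rw [← ENNReal.ofReal_ofNat 2, ← ENNReal.ofReal_mul (by norm_num),
              ← ENNReal.ofReal_add (by (clear * - hk hδ0 hamp0 ht00; positivity)) (by (clear * - hk hδ0 hamp0 ht00; positivity)), hM, hamp, hT1, hT2]
            congr 1
            (clear * - hδ0 hA00 hL0 hM00 ht00 hκ0; field_simp)
      have g4 := noise_real (K := P.K) hL0 hL1 hP.hk0 hk1 (δ := δ) rfl hT10.le hT20.le ht00 ht1
      have g5 : P.lam ^ P.K * L ^ P.K ≤ mB P t (rr x) ‖v‖ ^ P.K := by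
        rw [← mul_pow]
        apply pow_le_pow_left₀ (by (clear * - hl; positivity))
        unfold mB
        have h1 : P.lam ^ (j + 1) ≤ rr x - P.w * t := hP.cell_ge (by unfold gg; norm_num) hj2
        have h2 : P.lam ^ (j + 1) = P.lam * L := by rw [pow_succ']
        apply le_min
        · have h3 : 0 ≤ P.w * t := by (clear * - hw ht00; positivity)
          have h4 : 0 ≤ ((P.K : ℝ) + ‖v‖) * t := by (clear * - ht00; positivity)
          linarith only [h1, h2, h3, h4]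
        · exact mul_le_one₀ hP.hl1.le hL0.le hL1
      have g6 : Real.exp (-1) ≤ Real.exp (-(‖v‖ ^ 2 / 5)) := by
        apply Real.exp_le_exp.mpr
        have : ‖v‖ ^ 2 ≤ 2 ^ 2 := pow_le_pow_left₀ (norm_nonneg v) hv2 2
        linarith only [this]
      have g7 := noise_final hL0 hl (by (clear * - hδ0; positivity) : 0 < δ * √δ) (by positivity) g4 g6 g5
      refine g3.trans ((ENNReal.ofReal_le_ofReal g7).trans ?_)
      have h8 := mB_nonneg (P := P) ht00 hr0.le (norm_nonneg v)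
      rw [ENNReal.ofReal_mul (by (clear * - hk hc hw hl h8; positivity))]
      (clear * - hWW; gcongr)
  · have hz : ∀ z, bf P n t x z = 0 := by
      push Not at hj
      exact Gb.bf_zero hP ht0 hS ht hj
    have h1 : ∀ f : V → ℝ≥0∞, Gam f (bf P n t x) v = 0 := by
      intro f
      unfold Gam
      simp only [hz, mul_zero, lintegral_const, zero_mul, measure_univ_of_isAddLeftInvariant]
    rw [h1, h1, mul_zero, add_zero]
    exact zero_le

end Vale.Agent.P140.NU.Nb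
end
end

section

/-!
P140, non-uniqueness, module N: the weight of the barrier is admissible.
-/

open MeasureTheory Set Filter
open scoped ENNReal Topology

noncomputable section

namespace Vale.Agent.P140.NU.Nb

/-- the weight of the barrier as a function of the speed -/
def omB (P : Par) (t r a : ℝ) : ℝ≥0∞ := ENNReal.ofReal (mB P t r (max a 0) ^ P.K)

variable {P : Par} {t r : ℝ}

theorem omB_meas : Measurable (omB P t r) := by
  unfold omB mB
  fun_prop

theorem mB_mono (ht : 0 ≤ t) {a b : ℝ} (hab : a ≤ b) : mB P t r a ≤ mB P t r b := by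
  unfold mB
  gcongr

theorem omB_mono (ht : 0 ≤ t) (hr : 0 ≤ r) : Monotone (omB P t r) := by
  intro a b hab
  unfold omB
  apply ENNReal.ofReal_le_ofReal
  apply pow_le_pow_left₀ (mB_nonneg ht hr (le_max_right _ _))
  exact mB_mono ht (max_le_max_right 0 hab)

theorem omB_le_one (ht : 0 ≤ t) (hr : 0 ≤ r) (a : ℝ) : omB P t r a ≤ 1 := by
  unfold omB
  rw [← ENNReal.ofReal_one]
  apply ENNReal.ofReal_le_ofReal
  exact pow_le_one₀ (mB_nonneg ht hr (le_max_right _ _)) (mB_le_one _ _ _)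

theorem mB_grow (hK : 1 ≤ P.K) (ht : 0 ≤ t) (hr : 0 ≤ r) {a b : ℝ} (ha : 0 ≤ a) (hb : 0 ≤ b) :
    mB P t r (a + b) ≤ mB P t r a * (1 + b / P.K) := by
  have hK0 : (1 : ℝ) ≤ P.K := by exact_mod_cast hK
  have hK1 : (0 : ℝ) < P.K := by linarith only [hK0]
  unfold mB
  have h1 : 1 ≤ 1 + b / P.K := by
    have : 0 ≤ b / P.K := by (clear * - hb hK; positivity)
    linarith only [this]
  rw [min_mul_of_nonneg _ _ (by linarith only [h1])]
  apply min_le_min
  · have h2 : (P.K + (a + b)) * t ≤ (P.K + a) * t * (1 + b / P.K) := by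
      have h3 : (P.K + a) * t * (1 + b / P.K) - (P.K + (a + b)) * t = a * b / P.K * t := by
        field_simp
        ring
      have h4 : 0 ≤ a * b / P.K * t := by (clear * - ha hb hK ht; positivity)
      linarith only [h3, h4]
    have h3 : r ≤ r * (1 + b / P.K) := le_mul_of_one_le_right hr h1
    linarith only [h3, h2]
  · linarith only [h1]

theorem omB_grow (hK : 1 ≤ P.K) (ht : 0 ≤ t) (hr : 0 ≤ r) {a b : ℝ} (ha : 0 ≤ a) (hb : 0 ≤ b) :
    omB P t r (a + b) ≤ omB P t r a * ENNReal.ofReal (Real.exp (2 * b)) := by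
  have hK0 : (1 : ℝ) ≤ P.K := by exact_mod_cast hK
  have hK1 : (0 : ℝ) < P.K := by linarith only [hK0]
  unfold omB
  rw [max_eq_left (by linarith only [ha, hb] : 0 ≤ a + b), max_eq_left ha,
    ← ENNReal.ofReal_mul (pow_nonneg (mB_nonneg ht hr ha) _)]
  apply ENNReal.ofReal_le_ofReal
  calc mB P t r (a + b) ^ P.K ≤ (mB P t r a * (1 + b / P.K)) ^ P.K := by
        apply pow_le_pow_left₀ (mB_nonneg ht hr (by linarith only [ha, hb]))
        exact mB_grow hK ht hr ha hb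
    _ = mB P t r a ^ P.K * (1 + b / P.K) ^ P.K := mul_pow _ _ _
    _ ≤ mB P t r a ^ P.K * Real.exp (2 * b) := by
        apply mul_le_mul_of_nonneg_left _ (pow_nonneg (mB_nonneg ht hr ha) _)
        calc (1 + b / P.K) ^ P.K ≤ (Real.exp (b / P.K)) ^ P.K := by
              apply pow_le_pow_left₀ (by (clear * - hb hK; positivity))
              have := Real.add_one_le_exp (b / P.K)
              linarith only [this]
          _ = Real.exp b := by
              rw [← Real.exp_nat_mul]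
              congr 1
              field_simp
          _ ≤ Real.exp (2 * b) := Real.exp_le_exp.mpr (by linarith only [hb])

/-- the barrier in terms of its weight -/
theorem Bt_eq (l : ℝ) (x : T3) (v : V) : Bt P l t x v =
    ENNReal.ofReal (Real.exp (l * t)) * (omB P t (rr x) ‖v‖ *
      ENNReal.ofReal (Real.exp (-((1 / 5 - t) * ‖v‖ ^ 2))) * WW P t x v) := by
  unfold Bt omB
  rw [max_eq_left (norm_nonneg v), ENNReal.ofReal_mul (Real.exp_pos _).le,
    ENNReal.ofReal_mul (Real.exp_pos _).le]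
  ring

end Vale.Agent.P140.NU.Nb
end
end

section

/-!
P140, non-uniqueness, module N: the supersolution, from the gain bounds.
-/

open MeasureTheory Set Filter
open scoped ENNReal Topology

noncomputable section

namespace Vale.Agent.P140.NU.Nb

/-- profile of the barrier -/
def pB (P : Par) (t : ℝ) (x : T3) (v : V) : ℝ≥0∞ :=
  omB P t (rr x) ‖v‖ * ENNReal.ofReal (Real.exp (-((1 / 5 - t) * ‖v‖ ^ 2))) * WW P t x v

variable {P : Par}

theorem Bt_eq' (l t : ℝ) (x : T3) : Bt P l t x = fun v =>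
    ENNReal.ofReal (Real.exp (l * t)) * pB P t x v := by
  funext v
  rw [Bt_eq]
  rfl

theorem measurable_Bt (P : Par) (l : ℝ) :
    Measurable fun p : ℝ × T3 × V => Bt P l p.1 p.2.1 p.2.2 := by
  unfold Bt mB
  have r : Measurable fun p : ℝ × T3 × V => rr p.2.1 := measurable_rr.comp measurable_snd.fst
  have h1 : Measurable fun p : ℝ × T3 × V => ((P.K : ℝ) + ‖p.2.2‖) * p.1 + rr p.2.1 :=
    ((measurable_snd.snd.norm.const_add _).mul measurable_fst).add r
  have h2 : Measurable fun p : ℝ × T3 × V => Real.exp (-((1 / 5 - p.1) * ‖p.2.2‖ ^ 2)) :=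
    (((measurable_fst.const_sub (1 / 5)).mul (measurable_snd.snd.norm.pow_const 2)).neg).exp
  have h3 : Measurable fun p : ℝ × T3 × V => Real.exp (l * p.1) := (measurable_fst.const_mul l).exp
  exact ((h3.mul (h2.mul ((h1.min measurable_const).pow_const _))).ennreal_ofReal).mul
    (measurable_WW P)

theorem measurable_slice' {f : ℝ → T3 → V → ℝ≥0∞}
    (hf : Measurable fun p : ℝ × T3 × V => f p.1 p.2.1 p.2.2) (t : ℝ) (x : T3) :
    Measurable (f t x) := by
  have h := hf.comp (by fun_prop : Measurable fun v : V => (t, x, v))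
  exact h

theorem measurable_pB (t : ℝ) (x : T3) : Measurable (pB P t x) := by
  unfold pB
  have h1 := measurable_slice' (measurable_WW P) t x
  have h2 : Measurable fun v : V => omB P t (rr x) ‖v‖ := omB_meas.comp measurable_norm
  have h3 : Measurable fun v : V => ENNReal.ofReal (Real.exp (-((1 / 5 - t) * ‖v‖ ^ 2))) := by
    fun_prop
  exact (h2.mul h3).mul h1

theorem one_le_WW' (t : ℝ) (x : T3) (v : V) : 1 ≤ WW P t x v := one_le_WW _ _ _

/-- the internal barrier is below the barrier of the interface -/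
theorem Bt_le {l t : ℝ} (h0 : 0 ≤ t) (h1 : t ≤ 1 / 50) (hl : l * t ≤ Real.log 2) (x : T3) (v : V) :
    Bt P l t x v ≤ ENNReal.ofReal 2 * Bb P t x v := by
  unfold Bt Bb
  rw [← mul_assoc (ENNReal.ofReal 2), ← ENNReal.ofReal_mul (by norm_num)]
  refine mul_le_mul' (ENNReal.ofReal_le_ofReal ?_) le_rfl
  have hm := mB_nonneg (P := P) h0 (rr_nonneg x) (norm_nonneg v)
  have e1 : Real.exp (l * t) ≤ 2 := by
    rw [← Real.exp_log (by norm_num : (0 : ℝ) < 2)]
    exact Real.exp_le_exp.mpr hl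
  have e2 : Real.exp (-((1 / 5 - t) * ‖v‖ ^ 2)) ≤ Real.exp (-(‖v‖ ^ 2 / 6)) := by
    apply Real.exp_le_exp.mpr
    (clear * - h1; linarith only [mul_nonneg (sub_nonneg.2 h1) (sq_nonneg ‖v‖), mul_nonneg (mul_self_nonneg (1 : ℝ)) (sq_nonneg ‖v‖)])
  have e3 : min ((P.K + ‖v‖) * t + rr x) 1 = mB P t (rr x) ‖v‖ := rfl
  rw [e3, mul_comm (mB P t (rr x) ‖v‖ ^ P.K)]
  gcongr

/-- the supersolution -/
def UU (P : Par) (l : ℝ) (n : ℕ) (t : ℝ) (x : T3) (v : V) : ℝ≥0∞ :=
  cf P n t x v + bf P n t x v + Bt P l t x v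

theorem supersol_of (hP : P.Good) (hK : 2 ≤ P.K) {C2 C3 C4 t1 : ℝ} (hC2 : 0 ≤ C2) (hC3 : 0 ≤ C3)
    (hC4 : 0 ≤ C4) (ht1 : 0 < t1)
    (hKC : 2 * C2 * P.c * (P.K / P.w + 1) ≤ (P.K : ℝ) ^ 2 / 2)
    (hS : Gb.SuppAt P t1)
    (GA : ∀ n, ∀ t ∈ Icc 0 t1, ∀ x v, Gam (cf P n t x) (pB P t x) v ≤
      ENNReal.ofReal (C2 * P.c / (rr x * (1 + ‖v‖))) * pB P t x v)
    (GB : ∀ n, ∀ t ∈ Icc 0 t1, ∀ x v, Gam (bf P n t x) (pB P t x) v ≤
      ENNReal.ofReal C3 * pB P t x v)
    (GC : ∀ t ∈ Icc 0 t1, ∀ x v, Gam (pB P t x) (pB P t x) v ≤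
      ENNReal.ofReal (C4 * (1 + ‖v‖)) * pB P t x v) :
    ∃ l : ℝ, ∀ᶠ t0 in 𝓝[>] (0 : ℝ), ∀ n, ∀ t ∈ Icc 0 t0, ∀ x v,
      UU P l n t x v ≤ cf P n t x v + bf P n t x v + ENNReal.ofReal 2 * Bb P t x v ∧
      ENNReal.ofReal (coldn P n x v) +
        ∫⁻ τ in Ioc 0 t, Gam (UU P l n τ (mv x v τ)) (UU P l n τ (mv x v τ)) v ≤
        UU P l n t (mv x v t) v := by
  obtain ⟨C1, hC1, hN⟩ := noise_source hP
  set A := C1 + 2 * C2 * P.c * (P.K / P.w + 1) + 2 * C3 + 2 * C4 with hA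
  have hcp := hP.c_pos
  have hwp := hP.w_pos
  have hA0 : 0 ≤ A := by (clear * - hC1 hC2 hcp hK hwp hC3 hC4; positivity)
  set l := 2 * (P.K : ℝ) ^ 2 + (4 * A + 4 * A ^ 2) with hl
  have hl0 : 0 ≤ l := by (clear * - hK hC1 hC2 hcp hwp hC3 hC4; positivity)
  refine ⟨l, ?_⟩
  have e1 : ∀ᶠ t0 in 𝓝[>] (0 : ℝ), t0 < min (min (1 / 100) t1) (Real.log 2 / (l + 1)) := by
    apply eventually_nhdsWithin_of_eventually_nhds
    apply eventually_lt_nhds
    have : 0 < Real.log 2 := Real.log_pos (by norm_num)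
    (clear * - ht1 hK hC1 hC2 hcp hwp hC3 hC4; positivity)
  filter_upwards [e1] with t0 ht0 n t ht x v
  have h1 : t0 < 1 / 100 := lt_of_lt_of_le ht0 ((min_le_left _ _).trans (min_le_left _ _))
  have h2 : t0 < t1 := lt_of_lt_of_le ht0 ((min_le_left _ _).trans (min_le_right _ _))
  have h3 : t0 < Real.log 2 / (l + 1) := lt_of_lt_of_le ht0 (min_le_right _ _)
  have h4 : ∀ τ ∈ Icc 0 t0, l * τ ≤ Real.log 2 := by
    intro τ hτ
    rw [lt_div_iff₀ (by (clear * - hK hC1 hC2 hcp hwp hC3 hC4; (clear * - hK hC1 hC2 hcp hwp hC3 hC4; positivity)))] at h3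
    (by_contra nlg; linarith only [nlg, mul_nonneg (sub_nonneg.2 hτ.2) (sub_nonneg.2 hτ.2), mul_nonneg (sub_nonneg.2 hτ.1) (sub_nonneg.2 hτ.2), mul_nonneg (sub_nonneg.2 hτ.1) (sub_nonneg.2 hτ.1), mul_nonneg (le_of_lt (sub_pos.2 h3)) (sub_nonneg.2 hτ.2), mul_nonneg (le_of_lt (sub_pos.2 h3)) (sub_nonneg.2 hτ.1), mul_nonneg (le_of_lt (sub_pos.2 h1)) (sub_nonneg.2 hτ.2), mul_nonneg (le_of_lt (sub_pos.2 h1)) (sub_nonneg.2 hτ.1), mul_pos (sub_pos.2 h1) (sub_pos.2 h3), mul_nonneg (sub_nonneg.2 hl0) (sub_nonneg.2 hτ.2), mul_nonneg (le_of_lt (sub_pos.2 (not_le.1 nlg))) (sub_nonneg.2 hτ.2), mul_nonneg (le_of_lt (sub_pos.2 (not_le.1 nlg))) (sub_nonneg.2 hτ.1), mul_pos (sub_pos.2 (not_le.1 nlg)) (sub_pos.2 h1)])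
  have hexp : ∀ τ ∈ Icc 0 t0, Real.exp (l * τ) ≤ 2 := by
    intro τ hτ
    rw [← Real.exp_log (by norm_num : (0 : ℝ) < 2)]
    exact Real.exp_le_exp.mpr (h4 τ hτ)
  -- support at t0
  have hS0 : Gb.SuppAt P (t0 / 2) := by
    intro n t ht
    exact hS n t ⟨ht.1, by linarith only [ht1, h2, ht.2]⟩
  refine ⟨?_, ?_⟩
  · unfold UU
    gcongr
    exact Bt_le ht.1 (by linarith only [h1, ht.2]) (h4 t ht) x v
  · -- pointwise bound
    have key : ∀ τ ∈ Ioc 0 t, Gam (UU P l n τ (mv x v τ)) (UU P l n τ (mv x v τ)) v ≤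
        Gam (cf P n τ (mv x v τ)) (cf P n τ (mv x v τ)) v + Rt P l A τ (mv x v τ) v := by
      intro τ hτ
      have hτ0 : τ ∈ Icc 0 t0 := ⟨hτ.1.le, hτ.2.trans ht.2⟩
      have hτ1 : τ ∈ Icc 0 t1 := ⟨hτ.1.le, hτ0.2.trans h2.le⟩
      set y := mv x v τ with hy
      have hpB := measurable_pB (P := P) τ y
      have mcf := measurable_slice' (measurable_cf P n) τ y
      have mbf := measurable_slice' (measurable_bf P n) τ y
      apply bar_pointwise hP (by (clear * - hK; omega)) hl0 hτ0.1 hC1 hC2 hC3 (by (clear * - hC4; positivity) : 0 ≤ 2 * C4) hKC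
        mcf mbf (measurable_slice' (measurable_Bt P l) τ y)
      · intro u
        exact hN (t0 / 2) (by linarith only [h1]) hS0 n τ ⟨hτ0.1, by linarith only [hτ0.2]⟩ y u
      · intro u
        rw [Bt_eq']
        have h5 := barGam_const_mul mcf hpB 1 (ENNReal.ofReal (Real.exp (l * τ))) u
        simp only [one_mul] at h5
        rw [h5]
        calc ENNReal.ofReal (Real.exp (l * τ)) * Gam (cf P n τ y) (pB P τ y) u
            ≤ ENNReal.ofReal (Real.exp (l * τ)) *
              (ENNReal.ofReal (C2 * P.c / (rr y * (1 + ‖u‖))) * pB P τ y u) := by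
              gcongr
              exact GA n τ hτ1 y u
          _ = _ := by ring
      · rintro ⟨u, hu⟩
        obtain ⟨j, _, h5, _⟩ := hS0 n τ ⟨hτ0.1, by linarith only [hτ0.2]⟩ y u hu
        have h6 := hP.cell_pos h5
        have h7 := mul_nonneg hwp.le hτ0.1
        exact ⟨by linarith only [h6, h7], by linarith only [h6]⟩
      · intro u
        rw [Bt_eq']
        have h5 := barGam_const_mul mbf hpB 1 (ENNReal.ofReal (Real.exp (l * τ))) u
        simp only [one_mul] at h5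
        rw [h5]
        calc ENNReal.ofReal (Real.exp (l * τ)) * Gam (bf P n τ y) (pB P τ y) u
            ≤ ENNReal.ofReal (Real.exp (l * τ)) * (ENNReal.ofReal C3 * pB P τ y u) := by
              gcongr
              exact GB n τ hτ1 y u
          _ = _ := by ring
      · intro u
        rw [Bt_eq']
        rw [barGam_const_mul hpB hpB]
        calc ENNReal.ofReal (Real.exp (l * τ)) * ENNReal.ofReal (Real.exp (l * τ)) *
              Gam (pB P τ y) (pB P τ y) u
            ≤ ENNReal.ofReal (Real.exp (l * τ)) * ENNReal.ofReal 2 *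
              (ENNReal.ofReal (C4 * (1 + ‖u‖)) * pB P τ y u) := by
              gcongr
              · exact hexp τ hτ0
              · exact GC τ hτ1 y u
          _ = ENNReal.ofReal 2 * ENNReal.ofReal (C4 * (1 + ‖u‖)) *
              (ENNReal.ofReal (Real.exp (l * τ)) * pB P τ y u) := by ring
          _ = _ := by
              rw [← ENNReal.ofReal_mul (by norm_num)]
              congr 2
              ring
    have mG : Measurable fun τ : ℝ => Gam (cf P n τ (mv x v τ)) (cf P n τ (mv x v τ)) v := by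
      have hm : Measurable fun q : ℝ × V => cf P n q.1 (mv x v q.1) q.2 := by
        have h5 : Measurable fun q : ℝ × V => ((q.1, mv x v q.1, q.2) : ℝ × T3 × V) := by
          apply measurable_fst.prodMk
          apply Measurable.prodMk _ measurable_snd
          unfold mv
          have h6 : Measurable fun q : ℝ × V => toTorus (q.1 • v) :=
            measurable_toTorus.comp (measurable_fst.smul_const v)
          exact h6.const_add x
        have h6 := (measurable_cf P n).comp h5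
        exact h6
      have h7 := (measurable_Gam (f := fun τ => cf P n τ (mv x v τ))
        (g := fun τ => cf P n τ (mv x v τ)) hm hm).comp
        (by fun_prop : Measurable fun τ : ℝ => (τ, v))
      exact h7
    calc ENNReal.ofReal (coldn P n x v) +
        ∫⁻ τ in Ioc 0 t, Gam (UU P l n τ (mv x v τ)) (UU P l n τ (mv x v τ)) v
        ≤ ENNReal.ofReal (coldn P n x v) +
          ∫⁻ τ in Ioc 0 t, (Gam (cf P n τ (mv x v τ)) (cf P n τ (mv x v τ)) v +
            Rt P l A τ (mv x v τ) v) := by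
          exact add_le_add le_rfl (setLIntegral_mono' measurableSet_Ioc key)
      _ = ENNReal.ofReal (coldn P n x v) +
          ((∫⁻ τ in Ioc 0 t, Gam (cf P n τ (mv x v τ)) (cf P n τ (mv x v τ)) v) +
            ∫⁻ τ in Ioc 0 t, Rt P l A τ (mv x v τ) v) := by
          rw [lintegral_add_left mG]
      _ ≤ cf P n t (mv x v t) v + (bf P n t (mv x v t) v + Bt P l t (mv x v t) v) := by
          gcongr ?_ + (?_ + ?_)
          · unfold cf
            rw [mv_mv, add_neg_cancel, mv_zero]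
          · unfold bf
            simp only [mv_mv, add_sub_cancel]
            exact lintegral_mono_set Ioc_subset_Icc_self
          · exact flight_barrier hP hK hA0 (by rw [hl]; nlinarith only [hA0]) (by
              rw [hl]
              have : (0 : ℝ) ≤ 2 * (P.K : ℝ) ^ 2 := by positivity
              linarith only [this]) ht.1 (by linarith only [h1, ht.2]) x v
      _ = UU P l n t (mv x v t) v := by
          unfold UU
          ring

end Vale.Agent.P140.NU.Nb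
end
end

section

/-!
P140, module N: bounds of the hot part.
-/

open MeasureTheory Set Filter
open scoped ENNReal Topology

noncomputable section

namespace Vale.Agent.P140.NU.Nm

variable {P : Par} {CB t0 : ℝ} {n N : ℕ} {κ : ℝ} {F G h : ℝ → T3 → V → ℝ}

theorem htN_h_le (hs : Split P CB t0 n N κ F G h) (t : ℝ) (x : T3) (v : V) :
    h t x v ≤ F t x v := by
  rw [hs.eq]
  linarith only [hs.nonnegG t x v]

theorem htN_G_le (hs : Split P CB t0 n N κ F G h) (t : ℝ) (x : T3) (v : V) :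
    G t x v ≤ F t x v := by
  rw [hs.eq]
  linarith [hs.nonnegh t x v]

theorem Qh_eq_zero {v : V} (hv : (N : ℝ) < ‖v‖) (f g k : V → ℝ) : Qh N f g k v = 0 := by
  unfold Qh
  rw [GamN_eq_zero hv, GamN_eq_zero hv, GamN_eq_zero hv, DL.rateP_eq_zero hv]
  simp

theorem htN_large (hs : Split P CB t0 n N κ F G h) {t : ℝ} (ht : 0 ≤ t) {v : V}
    (hv : (N : ℝ) < ‖v‖) (h0 : ∀ x, κ * seed P n x v = 0) (x : T3) : h t x v = 0 := by
  have h1 := hs.mild t ht (mv x v (-t)) v
  have e1 : mv (mv x v (-t)) v t = x := by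
    rw [itN_mv_mv]
    rw [neg_add_cancel, itN_mv_zero]
  rw [e1, h0] at h1
  rw [h1, zero_add]
  have e2 : (fun τ => Qh N (F τ (mv (mv x v (-t)) v τ)) (G τ (mv (mv x v (-t)) v τ))
      (h τ (mv (mv x v (-t)) v τ)) v) = fun _ => (0 : ℝ) := by
    funext τ
    exact Qh_eq_zero hv _ _ _
  rw [e2]
  simp only [integral_zero]

theorem seed_large (hN : 3 ≤ N) {v : V} (hv : (N : ℝ) < ‖v‖) (x : T3) : seed P n x v = 0 := by
  unfold seed
  rw [if_neg]
  rintro ⟨-, -, -, -, h3⟩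
  have : (3 : ℝ) ≤ N := by exact_mod_cast hN
  linarith only [hv, h3, this]

theorem htN_gain_le {C : ℝ} (hC0 : 0 ≤ C) (hC : ∀ (f g : V → ℝ≥0∞) (a b : ℝ≥0∞),
    (∀ v, ‖v‖ ≤ N → f v ≤ a) → (∀ v, ‖v‖ ≤ N → g v ≤ b) → ∀ v,
    GamN N f g v ≤ ENNReal.ofReal C * (a * b)) {f g k : V → ℝ} {b m : ℝ} (hb0 : 0 ≤ b)
    (hm0 : 0 ≤ m) (hg : ∀ v, ‖v‖ ≤ N → g v ≤ b) (hk : ∀ v, ‖v‖ ≤ N → k v ≤ b)
    (hk' : ∀ v, ‖v‖ ≤ N → k v ≤ m) (v : V) :
    (DL.pfN N f * (GamN N (nn g) (nn k) v + GamN N (nn k) (nn g) v +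
      GamN N (nn k) (nn k) v)).toReal ≤ 3 * C * b * m := by
  have hn : ∀ {f : V → ℝ} {b : ℝ}, (∀ v, ‖v‖ ≤ N → f v ≤ b) → ∀ v, ‖v‖ ≤ N →
      nn f v ≤ ENNReal.ofReal b := fun hf v hv => ENNReal.ofReal_le_ofReal (hf v hv)
  have h1 := hC (nn g) (nn k) _ _ (hn hg) (hn hk') v
  have h2 := hC (nn k) (nn g) _ _ (hn hk') (hn hg) v
  have h3 := hC (nn k) (nn k) _ _ (hn hk) (hn hk') v
  refine ENNReal.toReal_le_of_le_ofReal (by (clear * - hC0 hb0 hm0; positivity)) ?_
  calc DL.pfN N f * (GamN N (nn g) (nn k) v + GamN N (nn k) (nn g) v + GamN N (nn k) (nn k) v)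
      ≤ 1 * (ENNReal.ofReal C * (ENNReal.ofReal b * ENNReal.ofReal m) +
          ENNReal.ofReal C * (ENNReal.ofReal m * ENNReal.ofReal b) +
          ENNReal.ofReal C * (ENNReal.ofReal b * ENNReal.ofReal m)) :=
        mul_le_mul' (DL.pfN_le_one N f) (add_le_add (add_le_add h1 h2) h3)
    _ = ENNReal.ofReal (3 * C * b * m) := by
        rw [← ENNReal.ofReal_mul hb0, ← ENNReal.ofReal_mul hm0, ← ENNReal.ofReal_mul hC0,
          ← ENNReal.ofReal_mul hC0, ← ENNReal.ofReal_add (by (clear * - hC0 hb0 hm0; positivity)) (by (clear * - hC0 hm0 hb0; positivity)),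
          ← ENNReal.ofReal_add (by (clear * - hC0 hb0 hm0; positivity)) (by (clear * - hC0 hb0 hm0; positivity)), one_mul]
        congr 1
        ring

theorem hot_bdd (hN : 3 ≤ N) (hs : Split P CB t0 n N κ F G h) (T : ℝ) :
    ∃ B : ℝ, 0 ≤ B ∧ ∀ t ∈ Icc 0 T,
    ∀ x v, h t x v ≤ B ∧ ((N : ℝ) < ‖v‖ → h t x v = 0) ∧
      |Qh N (F t x) (G t x) (h t x) v| ≤ B := by
  obtain ⟨C, hC0, hC⟩ := exists_GamN_le N
  obtain ⟨B1, hB1⟩ := hs.appr.bdd T
  obtain ⟨B2, hB2⟩ := hs.appr.QN_bdd T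
  set b : ℝ := max B1 0 with hb
  set r : ℝ := max B2 0 with hr
  have hb0 : 0 ≤ b := le_max_right _ _
  have hr0 : 0 ≤ r := le_max_right _ _
  have hz : ∀ t ∈ Icc 0 T, ∀ x v, (N : ℝ) < ‖v‖ → h t x v = 0 := fun t ht x v hv =>
    htN_large hs ht.1 hv (fun y => by rw [seed_large hN hv, mul_zero]) x
  have hF : ∀ t ∈ Icc 0 T, ∀ x v, ‖v‖ ≤ N → F t x v ≤ b := fun t ht x v hv =>
    (hB1 t ht x v hv).trans (le_max_left _ _)
  have hh : ∀ t ∈ Icc 0 T, ∀ x v, h t x v ≤ b := by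
    intro t ht x v
    by_cases hv : ‖v‖ ≤ N
    · exact (htN_h_le hs t x v).trans (hF t ht x v hv)
    · rw [hz t ht x v (not_le.1 hv)]
      exact hb0
  refine ⟨b + (3 * C * b * b + b * r), by (clear * - hC0; positivity), fun t ht x v => ?_⟩
  have h3 : 0 ≤ 3 * C * b * b + b * r := by (clear * - hC0; positivity)
  refine ⟨(hh t ht x v).trans (by linarith only [h3]), hz t ht x v, ?_⟩
  unfold Qh
  have g1 := htN_gain_le (N := N) (f := F t x) hC0 hC hb0 hb0
    (fun u hu => (htN_G_le hs t x u).trans (hF t ht x u hu))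
    (fun u _ => hh t ht x u) (fun u _ => hh t ht x u) v
  have g0 : 0 ≤ (DL.pfN N (F t x) * (GamN N (nn (G t x)) (nn (h t x)) v +
    GamN N (nn (h t x)) (nn (G t x)) v + GamN N (nn (h t x)) (nn (h t x)) v)).toReal :=
    ENNReal.toReal_nonneg
  have r1 : (DL.rateP N (F t x) v).toReal ≤ r := (hB2 t ht x v).2.1.trans (le_max_left _ _)
  have r0 : 0 ≤ (DL.rateP N (F t x) v).toReal := ENNReal.toReal_nonneg
  have p1 : h t x v * (DL.rateP N (F t x) v).toReal ≤ b * r :=
    mul_le_mul (hh t ht x v) r1 r0 hb0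
  have p0 : 0 ≤ h t x v * (DL.rateP N (F t x) v).toReal := mul_nonneg (hs.nonnegh t x v) r0
  have q1 : 0 ≤ 3 * C * b * b := by (clear * - hC0; positivity)
  have q2 : 0 ≤ b * r := by (clear * -; positivity)
  rw [abs_le]
  constructor <;> linarith only [hb0, g1, g0, p1, p0]

theorem htN_int_le {f g : ℝ → ℝ} {t : ℝ} (hfg : ∀ s ∈ Ioc 0 t, f s ≤ g s)
    (hg0 : ∀ s ∈ Ioc 0 t, 0 ≤ g s) (hg : IntegrableOn g (Ioc 0 t)) :
    ∫ s in Ioc 0 t, f s ≤ ∫ s in Ioc 0 t, g s := by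
  by_cases hf : IntegrableOn f (Ioc 0 t)
  · exact setIntegral_mono_on hf hg measurableSet_Ioc hfg
  · rw [integral_undef hf]
    exact setIntegral_nonneg measurableSet_Ioc hg0

theorem htN_pow_int (L : ℝ) (k : ℕ) {t : ℝ} (ht : 0 ≤ t) :
    ∫ s in Ioc 0 t, L * ((L * s) ^ k / k.factorial) = (L * t) ^ (k + 1) / (k + 1).factorial := by
  rw [← intervalIntegral.integral_of_le ht]
  have h1 : ∀ s : ℝ, L * ((L * s) ^ k / k.factorial) = (L ^ (k + 1) / k.factorial) * s ^ k := by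
    intro s
    rw [mul_pow]
    ring
  simp_rw [h1]
  rw [intervalIntegral.integral_const_mul, integral_pow]
  rw [Nat.factorial_succ]
  push_cast
  have hk : (k.factorial : ℝ) ≠ 0 := by positivity
  have hk1 : (k : ℝ) + 1 ≠ 0 := by positivity
  rw [zero_pow (Nat.succ_ne_zero k), mul_pow]
  field_simp
  ring

theorem hot_eq_zero (hs : Split P CB t0 n N 0 F G h) : ∀ t, 0 ≤ t → ∀ x v, h t x v = 0 := by
  intro T hT
  obtain ⟨C, hC0, hC⟩ := exists_GamN_le N
  obtain ⟨B1, hB1⟩ := hs.appr.bdd T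
  set b : ℝ := max B1 0 with hb
  have hb0 : 0 ≤ b := le_max_right _ _
  have hz : ∀ t ∈ Icc 0 T, ∀ x v, (N : ℝ) < ‖v‖ → h t x v = 0 := fun t ht x v hv =>
    htN_large hs ht.1 hv (fun y => by rw [zero_mul]) x
  have hF : ∀ t ∈ Icc 0 T, ∀ x v, ‖v‖ ≤ N → F t x v ≤ b := fun t ht x v hv =>
    (hB1 t ht x v hv).trans (le_max_left _ _)
  have hh : ∀ t ∈ Icc 0 T, ∀ x v, h t x v ≤ b := by
    intro t ht x v
    by_cases hv : ‖v‖ ≤ N
    · exact (htN_h_le hs t x v).trans (hF t ht x v hv)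
    · rw [hz t ht x v (not_le.1 hv)]
      exact hb0
  set L : ℝ := 3 * C * b with hL
  have hL0 : 0 ≤ L := by (clear * - hC0; positivity)
  have key : ∀ k : ℕ, ∀ t ∈ Icc 0 T, ∀ x v, h t x v ≤ b * ((L * t) ^ k / k.factorial) := by
    intro k
    induction k with
    | zero =>
      intro t ht x v
      simpa only [pow_zero, Nat.factorial_zero, Nat.cast_one, ne_eq, one_ne_zero, not_false_eq_true, div_self,     mul_one] using hh t ht x v
    | succ k ih =>
      intro t ht x v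
      have h1 := hs.mild t ht.1 (mv x v (-t)) v
      have e1 : mv (mv x v (-t)) v t = x := by
        rw [itN_mv_mv, neg_add_cancel, itN_mv_zero]
      rw [e1, zero_mul, zero_add] at h1
      rw [h1]
      have hi : IntegrableOn (fun s => b * (L * ((L * s) ^ k / k.factorial))) (Ioc 0 t) := by
        refine Continuous.integrableOn_Ioc ?_
        fun_prop
      have hle := htN_int_le (f := fun τ => Qh N (F τ (mv (mv x v (-t)) v τ))
        (G τ (mv (mv x v (-t)) v τ)) (h τ (mv (mv x v (-t)) v τ)) v)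
        (g := fun s => b * (L * ((L * s) ^ k / k.factorial))) (t := t) ?_ ?_ hi
      · refine hle.trans (le_of_eq ?_)
        rw [integral_const_mul, htN_pow_int L k ht.1]
      · intro s hsI
        have hsT : s ∈ Icc 0 T := ⟨hsI.1.le, hsI.2.trans ht.2⟩
        have hm0 : 0 ≤ b * ((L * s) ^ k / k.factorial) := by
          have := hsI.1.le
          (clear * - hC0 this; positivity)
        unfold Qh
        set y : T3 := mv (mv x v (-t)) v s with hy
        have g1 := htN_gain_le (N := N) (f := F s y) hC0 hC hb0 hm0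
          (fun u hu => (htN_G_le hs s y u).trans (hF s hsT y u hu))
          (fun u _ => hh s hsT y u) (fun u _ => ih s hsT y u) v
        have p0 : 0 ≤ h s y v * (DL.rateP N (F s y) v).toReal :=
          mul_nonneg (hs.nonnegh s y v) ENNReal.toReal_nonneg
        have e3 : 3 * C * b * (b * ((L * s) ^ k / k.factorial)) =
            b * (L * ((L * s) ^ k / k.factorial)) := by
          rw [hL]
          ring
        linarith only [p0, g1]
      · intro s hsI
        have := hsI.1.le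
        (clear * - hC0 this; positivity)
  intro x v
  refine le_antisymm ?_ (hs.nonnegh T x v)
  have hlim : Tendsto (fun k : ℕ => b * ((L * T) ^ k / k.factorial)) atTop (𝓝 (b * 0)) :=
    (FloorSemiring.tendsto_pow_div_factorial_atTop (L * T)).const_mul b
  rw [mul_zero] at hlim
  exact ge_of_tendsto' hlim fun k => key k T ⟨hT, le_rfl⟩ x v

end Vale.Agent.P140.NU.Nm
end
end

section

/-!
P140, non-uniqueness, module N: the three statements of the interface.
-/

open MeasureTheory Set Filter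
open scoped ENNReal Topology

noncomputable section

namespace Vale.Agent.P140.NU

namespace Nb

/-- `K` is large compared with `c` -/
theorem evP_KC (C : ℝ) (hC : 0 ≤ C) :
    EvP fun P => 2 * C * P.c * (P.K / P.w + 1) ≤ (P.K : ℝ) ^ 2 / 2 := by
  unfold Par.w
  apply EvP.of_K (φ := fun c _ K => 2 * C * c * (K / (1 / (10 ^ 20 * c ^ 2)) + 1) ≤ (K : ℝ) ^ 2 / 2)
  filter_upwards [eventually_gt_atTop 0] with c hc
  refine Eventually.of_forall fun lam => ?_
  have h1 : Tendsto (fun K : ℕ => (K : ℝ)) atTop atTop := tendsto_natCast_atTop_atTop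
  filter_upwards [h1.eventually_ge_atTop (4 * C * c * (10 ^ 20 * c ^ 2 + 1)),
    h1.eventually_ge_atTop 1] with K hK hK1
  have e : (K : ℝ) / (1 / (10 ^ 20 * c ^ 2)) = K * (10 ^ 20 * c ^ 2) := by
    rw [div_div_eq_mul_div, div_one]
  rw [e]
  have h2 : K * (10 ^ 20 * c ^ 2) + 1 ≤ K * (10 ^ 20 * c ^ 2 + 1) := by linarith only [hK1]
  have h3 : 2 * C * c * (K * (10 ^ 20 * c ^ 2) + 1) ≤ 2 * C * c * (K * (10 ^ 20 * c ^ 2 + 1)) :=
    mul_le_mul_of_nonneg_left h2 (by (clear * - hC hc; positivity))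
  have h4 : K * (4 * C * c * (10 ^ 20 * c ^ 2 + 1)) ≤ (K : ℝ) * K :=
    mul_le_mul_of_nonneg_left hK (by linarith only [])
  linarith only [h4, h3]

theorem evP_K2 : EvP fun P => 2 ≤ P.K := by
  apply EvP.of_K (φ := fun _ _ K => 2 ≤ K)
  exact Eventually.of_forall fun c => Eventually.of_forall fun lam => eventually_ge_atTop 2

variable {P : Par}

theorem adm_omB (hK : 1 ≤ P.K) {t r : ℝ} (ht : 0 ≤ t) (hr : 0 ≤ r) : Adm (omB P t r) :=
  ⟨omB_meas, omB_mono ht hr, fun _ _ ha hb => omB_grow hK ht hr ha hb, omB_le_one ht hr⟩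

theorem pB_eq (t : ℝ) (x : T3) : pB P t x = prof P (omB P t (rr x)) (1 / 5 - t) t x := rfl

theorem bf_supp2 (hP : P.Good) {t0 : ℝ} (ht0 : t0 ≤ 1 / 100) (hS : Gb.SuppAt P t0) {n : ℕ} {t : ℝ}
    (ht : t ∈ Icc 0 (2 * t0)) {x : T3} {y : V} (hy : bf P n t x y ≠ 0) : ‖y‖ ≤ 2 := by
  obtain ⟨j, _, h1, h2⟩ := Gb.bf_supp' hP ht0 hS ht hy
  have hr0 : 0 < rr x := Gb.rr_pos_of_cell hP ht.1 h1
  apply near_beam_norm hP hr0 (hP.del_pos j).le (del_small hP j)
  rw [sqrt_SS_eq_norm P (sg j) hr0] at h2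
  have h3 : ‖y - uu P (sg j) x‖ ^ 2 ≤ (6 * P.del j) ^ 2 := pow_le_pow_left₀ (norm_nonneg _) h2 2
  have h4 := sq_nonneg (P.del j)
  linarith

theorem supersol (hP : P.Good) (hk : Gb.KdOK P) (hK : 2 ≤ P.K)
    (hKC : 2 * CAr * P.c * (P.K / P.w + 1) ≤ (P.K : ℝ) ^ 2 / 2) {t1 : ℝ} (ht1 : 0 < t1)
    (ht1' : t1 ≤ 1 / 100) (hS : Gb.SuppAt P t1) (hM : CfM P t1) :
    ∃ l : ℝ, ∀ᶠ t0 in 𝓝[>] (0 : ℝ), ∀ n, ∀ t ∈ Icc 0 t0, ∀ x v,
      UU P l n t x v ≤ cf P n t x v + bf P n t x v + ENNReal.ofReal 2 * Bb P t x v ∧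
      ENNReal.ofReal (coldn P n x v) +
        ∫⁻ τ in Ioc 0 t, Gam (UU P l n τ (mv x v τ)) (UU P l n τ (mv x v τ)) v ≤
        UU P l n t (mv x v t) v := by
  have hS' : CfS P t1 := hS
  have hK1 : 1 ≤ P.K := by omega
  have hg : ∀ t ∈ Icc 0 t1, (1 / 5 - t) ∈ Icc (1 / 8 : ℝ) (1 / 4) := fun t ht =>
    ⟨by linarith only [ht1', ht.2], by linarith only [ht.1]⟩
  apply supersol_of hP hK (C2 := CAr) (C3 := 2 * (CE.toReal + 1)) (C4 := CGr) CAr_pos.le
    (by positivity) CGr_pos.le ht1 hKC hS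
  · intro n t ht x v
    have h := Gam_cf_prof hP hS' hM (by linarith only [ht1']) n (t := t) ⟨ht.1, by linarith only [ht1, ht.2]⟩ x v
      (adm_omB (P := P) (r := rr x) hK1 ht.1 (rr_nonneg x)) (hg t ht)
    rw [pB_eq]
    refine h.trans (le_of_eq ?_)
    congr 2
    rw [← mul_div_assoc, div_div]
  · intro n t ht x v
    have ht2 : t ∈ Icc 0 (2 * t1) := ⟨ht.1, by linarith only [ht1, ht.2]⟩
    have h := Gam_ext P (measurable_slice' (measurable_bf P n) t x)
      (fun y hy => bf_supp2 hP ht1' hS ht2 hy) (adm_omB (P := P) (r := rr x) hK1 ht.1 (rr_nonneg x)) (hg t ht) t x v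
    rw [pB_eq]
    refine h.trans ?_
    have h2 := Gb.bf_pot hP hk ht1' hS (n := n) ht2 x v
    have h3 : ENNReal.ofReal (1 / (1 + ‖v‖)) ≤ 1 := by
      rw [ENNReal.ofReal_le_one, div_le_one (by (clear * -; positivity))]
      linarith only [norm_nonneg v]
    have h4 : CE ≤ ENNReal.ofReal (CE.toReal + 1) := by
      calc CE = ENNReal.ofReal CE.toReal := (ENNReal.ofReal_toReal CE_ne_top).symm
        _ ≤ _ := ENNReal.ofReal_le_ofReal (by linarith only [])
    unfold prof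
    calc CE * (omB P t (rr x) ‖v‖ * ENNReal.ofReal (Real.exp (-((1 / 5 - t) * ‖v‖ ^ 2)))) *
          (2 * Pot (bf P n t x) v)
        ≤ ENNReal.ofReal (CE.toReal + 1) *
          (omB P t (rr x) ‖v‖ * ENNReal.ofReal (Real.exp (-((1 / 5 - t) * ‖v‖ ^ 2)))) *
          (2 * (1 * WW P t x v)) := by
          gcongr
          exact h2.trans (by (clear * - h3; gcongr))
      _ = 2 * ENNReal.ofReal (CE.toReal + 1) * (omB P t (rr x) ‖v‖ *
          ENNReal.ofReal (Real.exp (-((1 / 5 - t) * ‖v‖ ^ 2))) * WW P t x v) := by ring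
      _ = _ := by
          have h5 : 2 * ENNReal.ofReal (CE.toReal + 1) = ENNReal.ofReal (2 * (CE.toReal + 1)) := by
            rw [ENNReal.ofReal_mul (by norm_num), ENNReal.ofReal_ofNat]
          rw [h5]
  · intro t ht x v
    have ha := adm_omB (P := P) (t := t) (r := rr x) hK1 ht.1 (rr_nonneg x)
    have h := Gam_prof_prof (P := P) ha ha (hg t ht) t x v
    rw [pB_eq]
    refine h.trans ?_
    gcongr
    unfold prof
    exact le_mul_of_one_le_right (zero_le) (one_le_WW' t x v)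

end Nb

/-- the split of the solutions of the truncated problem -/
theorem exists_split : EvP fun P => ∃ CB : ℝ, 0 < CB ∧ ∀ᶠ t0 in 𝓝[>] (0 : ℝ), ∀ n, P.j0 ≤ n →
    ∀ N : ℕ, 3 ≤ N → ∀ κ ∈ Icc (0 : ℝ) 1, ∀ F, DL.IsBM N (dat P n κ) F →
    ∃ G h, Split P CB t0 n N κ F G h := by
  have h0 := (((((evP_good.and Gb.evP_kdOK).and Nb.evP_K2).and
    (Nb.evP_KC CAr CAr_pos.le)).and cf_support).and cf_mass_le)
  refine h0.mono ?_
  rintro P ⟨⟨⟨⟨⟨hP, hk⟩, hK⟩, hKC⟩, hS⟩, hM⟩
  refine ⟨2, by norm_num, ?_⟩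
  have e1 : ∀ᶠ t0 in 𝓝[>] (0 : ℝ), t0 ∈ Ioc (0 : ℝ) (1 / 100) := Ioc_mem_nhdsGT (by norm_num)
  obtain ⟨t1, ⟨hS1, hM1⟩, ht1⟩ := ((hS.and hM).and e1).exists
  obtain ⟨l, hl⟩ := Nb.supersol hP hk hK hKC ht1.1 ht1.2 hS1 hM1
  filter_upwards [hl] with t0 ht0 n _ N _ κ hκ F hF
  exact Nm.split_of_super hP hκ.1 (fun t ht x v => (ht0 n t ht x v).2)
    (fun t ht x v => (ht0 n t ht x v).1) hF

/-- without seed the hot part vanishes -/
theorem Split.hot_eq_zero {P : Par} {CB t0 : ℝ} {n N : ℕ} {F G h : ℝ → T3 → V → ℝ}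
    (hs : Split P CB t0 n N 0 F G h) : ∀ t, 0 ≤ t → ∀ x v, h t x v = 0 := Nm.hot_eq_zero hs

/-- `h` is bounded, vanishes for large velocities, and is continuous along characteristics -/
theorem Split.hot_bdd {P : Par} {CB t0 : ℝ} {n N : ℕ} {κ : ℝ} {F G h : ℝ → T3 → V → ℝ}
    (hN : 3 ≤ N) (hs : Split P CB t0 n N κ F G h) (T : ℝ) : ∃ B : ℝ, 0 ≤ B ∧ ∀ t ∈ Icc 0 T,
    ∀ x v, h t x v ≤ B ∧ ((N : ℝ) < ‖v‖ → h t x v = 0) ∧
      |Qh N (F t x) (G t x) (h t x) v| ≤ B := Nm.hot_bdd hN hs T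

end Vale.Agent.P140.NU
end
end

section

/-!
P140, non-uniqueness, module B: tools for `sup_improve`.
-/

open MeasureTheory Set Filter
open scoped ENNReal Topology

noncomputable section

namespace Vale.Agent.P140.NU

open Nm

/-! ### gain operator: measurability, additivity, homogeneity -/

section

variable {α : Type*} [MeasurableSpace α]

theorem sup0_meas_int {f g : α → V → ℝ≥0∞}
    (hf : Measurable fun q : α × V => f q.1 q.2) (hg : Measurable fun q : α × V => g q.1 q.2) :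
    Measurable fun q : ((α × V) × V) × S2 => ENNReal.ofReal |relA q.1.1.2 q.1.2 q.2| *
      (f q.1.1.1 (post q.1.1.2 q.1.2 q.2) * g q.1.1.1 (postStar q.1.1.2 q.1.2 q.2)) := by
  have e1 : Measurable fun q : ((α × V) × V) × S2 => (q.1.1.2, q.1.2, q.2) := by (clear * -; fun_prop)
  have e2 : Measurable fun q : ((α × V) × V) × S2 => (q.1.1.1, post q.1.1.2 q.1.2 q.2) :=
    (by fun_prop : Measurable fun q : ((α × V) × V) × S2 => q.1.1.1).prodMk
      (measurable_post.comp e1)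
  have e3 : Measurable fun q : ((α × V) × V) × S2 => (q.1.1.1, postStar q.1.1.2 q.1.2 q.2) :=
    (by fun_prop : Measurable fun q : ((α × V) × V) × S2 => q.1.1.1).prodMk
      (measurable_postStar.comp e1)
  have h1 := measurable_kk.comp e1
  have h2 := hf.comp e2
  have h3 := hg.comp e3
  exact h1.mul (h2.mul h3)

theorem sup0_meas_Gam {f g : α → V → ℝ≥0∞}
    (hf : Measurable fun q : α × V => f q.1 q.2) (hg : Measurable fun q : α × V => g q.1 q.2) :
    Measurable fun q : α × V => Gam (f q.1) (g q.1) q.2 := by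
  unfold Gam
  have h1 := (sup0_meas_int hf hg).lintegral_prod_right' (ν := surf)
  exact h1.lintegral_prod_right' (ν := (volume : Measure V))

/-- measurability of the gain along a curve, for a fixed velocity -/
theorem sup0_meas_Gam' {f g : α → V → ℝ≥0∞}
    (hf : Measurable fun q : α × V => f q.1 q.2) (hg : Measurable fun q : α × V => g q.1 q.2)
    (v : V) : Measurable fun a : α => Gam (f a) (g a) v := by
  have e : Measurable fun a : α => ((a, v) : α × V) := measurable_id.prodMk measurable_const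
  have h1 := sup0_meas_Gam hf hg
  have h2 := h1.comp e
  exact h2

theorem sup0_meas_GamN' (N : ℕ) {f g : α → V → ℝ≥0∞}
    (hf : Measurable fun q : α × V => f q.1 q.2) (hg : Measurable fun q : α × V => g q.1 q.2)
    (v : V) : Measurable fun a : α => GamN N (f a) (g a) v := by
  have e : Measurable fun a : α => ((a, v) : α × V) := measurable_id.prodMk measurable_const
  have h1 := measurable_GamN N hf hg
  have h2 := h1.comp e
  exact h2

end

theorem sup0_meas_vw {f g : V → ℝ≥0∞} (hf : Measurable f) (hg : Measurable g) (v : V) :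
    Measurable fun q : V × S2 => ENNReal.ofReal |relA v q.1 q.2| *
      (f (post v q.1 q.2) * g (postStar v q.1 q.2)) := by
  have e1 : Measurable fun q : V × S2 => (v, q.1, q.2) := by (clear * -; fun_prop)
  have h1 := measurable_kk.comp e1
  have h2 := hf.comp (measurable_post.comp e1)
  have h3 := hg.comp (measurable_postStar.comp e1)
  exact h1.mul (h2.mul h3)

theorem sup0_Gam_add_left {f g h : V → ℝ≥0∞} (hf : Measurable f) (hh : Measurable h) (v : V) :
    Gam (fun u => f u + g u) h v = Gam f h v + Gam g h v := by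
  have h1 := opN_ll_add (B := fun q : V × S2 => ENNReal.ofReal |relA v q.1 q.2| *
      (g (post v q.1 q.2) * h (postStar v q.1 q.2))) (sup0_meas_vw hf hh v)
  unfold Gam
  refine Eq.trans ?_ h1
  refine lintegral_congr fun w => lintegral_congr fun ω => ?_
  ring

theorem sup0_Gam_add_right {f g h : V → ℝ≥0∞} (hf : Measurable f) (hh : Measurable h) (v : V) :
    Gam h (fun u => f u + g u) v = Gam h f v + Gam h g v := by
  have h1 := opN_ll_add (B := fun q : V × S2 => ENNReal.ofReal |relA v q.1 q.2| *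
      (h (post v q.1 q.2) * g (postStar v q.1 q.2))) (sup0_meas_vw hh hf v)
  unfold Gam
  refine Eq.trans ?_ h1
  refine lintegral_congr fun w => lintegral_congr fun ω => ?_
  ring

theorem sup0_Gam_smul_right {a : ℝ≥0∞} (ha : a ≠ ⊤) (f g : V → ℝ≥0∞) (v : V) :
    Gam f (fun u => a * g u) v = a * Gam f g v := by
  unfold Gam
  rw [← lintegral_const_mul' _ _ ha]
  refine lintegral_congr fun w => ?_
  rw [← lintegral_const_mul' _ _ ha]
  refine lintegral_congr fun ω => ?_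
  ring

theorem sup0_Gam_smul_left {a : ℝ≥0∞} (ha : a ≠ ⊤) (f g : V → ℝ≥0∞) (v : V) :
    Gam (fun u => a * f u) g v = a * Gam f g v := by
  unfold Gam
  rw [← lintegral_const_mul' _ _ ha]
  refine lintegral_congr fun w => ?_
  rw [← lintegral_const_mul' _ _ ha]
  refine lintegral_congr fun ω => ?_
  ring

/-! ### measurability of the medium and of the profile -/

variable (P : Par)

theorem sup0_meas_coldn (n : ℕ) : Measurable fun p : T3 × V => coldn P n p.1 p.2 := by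
  have h := dat_meas P n 0
  simpa only [dat, zero_mul, add_zero] using h

theorem sup0_meas_seed (n : ℕ) : Measurable fun p : T3 × V => seed P n p.1 p.2 := by
  have h := (dat_meas P n 1).sub (dat_meas P n 0)
  have e : (fun p : T3 × V => seed P n p.1 p.2) =
      fun p : T3 × V => dat P n 1 p.1 p.2 - dat P n 0 p.1 p.2 := by
    funext p
    simp only [dat]
    ring
  rw [e]
  exact h

theorem sup0_meas_cf (n : ℕ) : Measurable fun p : ℝ × T3 × V => cf P n p.1 p.2.1 p.2.2 := by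
  unfold cf
  have e : Measurable fun p : ℝ × T3 × V => (mv p.2.1 p.2.2 (-p.1), p.2.2) := by
    have e1 : Measurable fun p : ℝ × T3 × V => ((-p.1, p.2.1, p.2.2) : ℝ × T3 × V) := by fun_prop
    exact (measurable_mv.comp e1).prodMk (by fun_prop)
  exact ((sup0_meas_coldn P n).comp e).ennreal_ofReal

theorem sup0_meas_WW : Measurable fun p : ℝ × T3 × V => WW P p.1 p.2.1 p.2.2 := by
  unfold WW
  have e1 : Measurable fun p : ℝ × T3 × V => rr p.2.1 := measurable_rr.comp (by fun_prop)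
  have e2 : ∀ s : ℝ, Measurable fun p : ℝ × T3 × V => SS P s p.2.1 p.2.2 := by
    intro s
    have h1 := (measurable_SS P s).comp
      (by fun_prop : Measurable fun p : ℝ × T3 × V => ((p.2.1, p.2.2) : T3 × V))
    exact h1
  have e3 : ∀ s : ℝ, Measurable fun p : ℝ × T3 × V =>
      ENNReal.ofReal (SS P s p.2.1 p.2.2) ^ (-(3 / 4) : ℝ) - 1 := fun s =>
    ((e2 s).ennreal_ofReal.pow_const (-(3 / 4) : ℝ)).sub measurable_const
  have e4 : MeasurableSet {p : ℝ × T3 × V | rr p.2.1 ≤ 1 / 16 + 2 * p.1} :=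
    measurableSet_le e1 (by fun_prop)
  exact (measurable_const (a := (1 : ℝ≥0∞))).add (Measurable.ite e4 ((e3 1).add (e3 (-1)))
    measurable_const)

theorem sup0_meas_yy (n : ℕ) : Measurable fun p : ℝ × T3 × V => yy P n p.1 p.2.1 p.2.2 := by
  unfold yy Par.TT
  have e1 : Measurable fun p : ℝ × T3 × V => rr p.2.1 := measurable_rr.comp (by fun_prop)
  have e2 : Measurable fun p : ℝ × T3 × V => ‖p.2.2‖ := by fun_prop
  exact ((e1.sub (e2.mul (by fun_prop))).max measurable_const).div (by fun_prop)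

theorem sup0_meas_Pi (n : ℕ) (γ : ℝ) :
    Measurable fun p : ℝ × T3 × V => Pi P n γ p.1 p.2.1 p.2.2 := by
  unfold Pi
  have e1 := sup0_meas_yy P n
  have e2 : Measurable fun p : ℝ × T3 × V => ‖p.2.2‖ := by fun_prop
  exact ((Real.measurable_exp.comp (((e1.const_mul 2).neg).sub ((e2.pow_const 2).const_mul γ))
    ).ennreal_ofReal).mul (sup0_meas_WW P)

/-- a jointly measurable function along a characteristic -/
theorem sup0_meas_along {f : ℝ → T3 → V → ℝ≥0∞}
    (hf : Measurable fun p : ℝ × T3 × V => f p.1 p.2.1 p.2.2) (t : ℝ) (x : T3) (v : V) :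
    Measurable fun q : ℝ × V => f q.1 (mv x v (q.1 - t)) q.2 := by
  have e1 : Measurable fun q : ℝ × V => ((q.1 - t, x, v) : ℝ × T3 × V) := by fun_prop
  have e2 : Measurable fun q : ℝ × V => ((q.1, mv x v (q.1 - t), q.2) : ℝ × T3 × V) :=
    measurable_fst.prodMk ((measurable_mv.comp e1).prodMk measurable_snd)
  exact hf.comp e2

theorem sup0_meas_slice {f : ℝ → T3 → V → ℝ≥0∞}
    (hf : Measurable fun p : ℝ × T3 × V => f p.1 p.2.1 p.2.2) (t : ℝ) (x : T3) :
    Measurable (f t x) :=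
  hf.comp (by fun_prop : Measurable fun v : V => ((t, x, v) : ℝ × T3 × V))

/-- `KK` of a measurable function along a characteristic -/
theorem sup0_meas_KK (n : ℕ) {f : ℝ → T3 → V → ℝ≥0∞}
    (hf : Measurable fun p : ℝ × T3 × V => f p.1 p.2.1 p.2.2) (t : ℝ) (x : T3) (v : V) :
    Measurable fun s : ℝ => KK P n s (f s) (mv x v (s - t)) v := by
  unfold KK
  have h1 := sup0_meas_along (sup0_meas_cf P n) t x v
  have h2 := sup0_meas_along hf t x v
  exact (sup0_meas_Gam' h1 h2 v).const_mul 2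

/-! ### the Duhamel operator -/

theorem sup0_KK_mono (n : ℕ) {s : ℝ} {f g : T3 → V → ℝ≥0∞} (x : T3) (h : ∀ v, f x v ≤ g x v)
    (v : V) : KK P n s f x v ≤ KK P n s g x v := by
  unfold KK
  gcongr
  exact Gam_mono (fun _ => le_rfl) h v

theorem sup0_UK_mono (n : ℕ) {t1 t : ℝ} {f g : ℝ → T3 → V → ℝ≥0∞}
    (h : ∀ τ ∈ Icc t1 t, ∀ x v, f τ x v ≤ g τ x v) (x : T3) (v : V) :
    UK P n t1 f t x v ≤ UK P n t1 g t x v := by
  unfold UK
  refine setLIntegral_mono' measurableSet_Icc fun τ hτ => ?_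
  exact sup0_KK_mono P n _ (fun u => h τ hτ _ u) v

theorem sup0_UK_add (n : ℕ) {t1 t : ℝ} {f g : ℝ → T3 → V → ℝ≥0∞}
    (hf : Measurable fun p : ℝ × T3 × V => f p.1 p.2.1 p.2.2) (x : T3) (v : V) :
    UK P n t1 (fun τ x v => f τ x v + g τ x v) t x v =
      UK P n t1 f t x v + UK P n t1 g t x v := by
  unfold UK
  rw [← lintegral_add_left (sup0_meas_KK P n hf t x v)]
  refine lintegral_congr fun τ => ?_
  unfold KK
  rw [sup0_Gam_add_right (sup0_meas_slice hf τ _) (sup0_meas_slice (sup0_meas_cf P n) τ _)]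
  ring

end Vale.Agent.P140.NU
end
end

section

/-!
P140, non-uniqueness, module B: Duhamel inequality for the hot part.
-/

open MeasureTheory Set Filter
open scoped ENNReal Topology

noncomputable section

namespace Vale.Agent.P140.NU

open Nm

theorem sup1_meas_along {β : Type*} [MeasurableSpace β] {f : ℝ → T3 → V → β}
    (hf : Measurable fun p : ℝ × T3 × V => f p.1 p.2.1 p.2.2) (t : ℝ) (x : T3) (v : V) :
    Measurable fun q : ℝ × V => f q.1 (mv x v (q.1 - t)) q.2 := by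
  have e1 : Measurable fun q : ℝ × V => ((q.1 - t, x, v) : ℝ × T3 × V) := by fun_prop
  have e2 : Measurable fun q : ℝ × V => ((q.1, mv x v (q.1 - t), q.2) : ℝ × T3 × V) :=
    measurable_fst.prodMk ((measurable_mv.comp e1).prodMk measurable_snd)
  exact hf.comp e2

theorem sup1_ofReal_integral_le {α : Type*} [MeasurableSpace α] {μ : Measure α} {f : α → ℝ}
    (hf : Integrable f μ) : ENNReal.ofReal (∫ a, f a ∂μ) ≤ ∫⁻ a, ENNReal.ofReal (f a) ∂μ := by
  have h1 : ∫ a, f a ∂μ ≤ ∫ a, max (f a) 0 ∂μ :=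
    integral_mono hf hf.pos_part fun a => le_max_left _ _
  refine (ENNReal.ofReal_le_ofReal h1).trans ?_
  rw [ofReal_integral_eq_lintegral_ofReal hf.pos_part (ae_of_all _ fun a => le_max_right _ _)]
  refine lintegral_mono fun a => ?_
  rw [ENNReal.ofReal_max, ENNReal.ofReal_zero, max_eq_left zero_le]

variable {P : Par} {CB t0 : ℝ} {n N : ℕ} {κ : ℝ} {F G h : ℝ → T3 → V → ℝ}

theorem sup1_meas_Qh (hs : Split P CB t0 n N κ F G h) (t : ℝ) (x : T3) (v : V) :
    Measurable fun s : ℝ => Qh N (F s (mv x v (s - t))) (G s (mv x v (s - t)))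
      (h s (mv x v (s - t))) v := by
  have mF := sup1_meas_along hs.appr.meas t x v
  have mG := sup1_meas_along hs.measG t x v
  have mh := sup1_meas_along hs.meash t x v
  have e : Measurable fun s : ℝ => ((s, v) : ℝ × V) := measurable_id.prodMk measurable_const
  have h1 : Measurable fun s : ℝ => DL.pfN N (F s (mv x v (s - t))) :=
    DL.measurable_pfN (α := ℝ) N (f := fun s u => F s (mv x v (s - t)) u) mF
  have h2 : Measurable fun s : ℝ => DL.rateP N (F s (mv x v (s - t))) v := by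
    have k1 := DL.measurable_rateP (α := ℝ) N (f := fun s u => F s (mv x v (s - t)) u) mF
    have k2 := k1.comp e
    exact k2
  have g1 := sup0_meas_GamN' (α := ℝ) N (f := fun s => nn (G s (mv x v (s - t))))
    (g := fun s => nn (h s (mv x v (s - t)))) mG.ennreal_ofReal mh.ennreal_ofReal v
  have g2 := sup0_meas_GamN' (α := ℝ) N (f := fun s => nn (h s (mv x v (s - t))))
    (g := fun s => nn (G s (mv x v (s - t)))) mh.ennreal_ofReal mG.ennreal_ofReal v
  have g3 := sup0_meas_GamN' (α := ℝ) N (f := fun s => nn (h s (mv x v (s - t))))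
    (g := fun s => nn (h s (mv x v (s - t)))) mh.ennreal_ofReal mh.ennreal_ofReal v
  have h3 := mh.comp e
  unfold Qh
  exact ((h1.mul ((g1.add g2).add g3)).ennreal_toReal).sub (h3.mul h2.ennreal_toReal)

/-- the hot part along a characteristic -/
theorem sup1_incr (hN : 3 ≤ N) (hs : Split P CB t0 n N κ F G h) {ta t : ℝ} (h0 : 0 ≤ ta)
    (h1 : ta ≤ t) (x : T3) (v : V) :
    IntegrableOn (fun s : ℝ => Qh N (F s (mv x v (s - t))) (G s (mv x v (s - t)))
      (h s (mv x v (s - t))) v) (Ioc ta t) ∧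
    h t x v = h ta (mv x v (ta - t)) v + ∫ s in Ioc ta t, Qh N (F s (mv x v (s - t)))
      (G s (mv x v (s - t))) (h s (mv x v (s - t))) v := by
  set q : ℝ → ℝ := fun s : ℝ => Qh N (F s (mv x v (s - t))) (G s (mv x v (s - t)))
      (h s (mv x v (s - t))) v with hq
  have mq : Measurable q := sup1_meas_Qh hs t x v
  obtain ⟨B, hB0, hB⟩ := hs.hot_bdd hN t
  have hint : IntegrableOn q (Ioc 0 t) := by
    apply Measure.integrableOn_of_bounded (M := B) (by simp only [Real.volume_Ioc, sub_zero, ne_eq, ENNReal.ofReal_ne_top, not_false_eq_true]) mq.aestronglyMeasurable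
    filter_upwards [ae_restrict_mem measurableSet_Ioc] with s hs1
    exact (hB s (Ioc_subset_Icc_self hs1) _ _).2.2
  have hsub1 : Ioc ta t ⊆ Ioc 0 t := Ioc_subset_Ioc_left h0
  have hsub2 : Ioc 0 ta ⊆ Ioc 0 t := Ioc_subset_Ioc_right h1
  refine ⟨hint.mono_set hsub1, ?_⟩
  have e1 := hs.mild t (h0.trans h1) (mv x v (-t)) v
  have e2 := hs.mild ta h0 (mv x v (-t)) v
  have key : ∀ s : ℝ, mv (mv x v (-t)) v s = mv x v (s - t) := by
    intro s
    rw [mv_mv]
    congr 1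
    ring
  simp only [key] at e1 e2
  rw [sub_self, mv_zero] at e1
  rw [e1, e2, add_assoc]
  congr 1
  rw [← Ioc_union_Ioc_eq_Ioc h0 h1, setIntegral_union (Ioc_disjoint_Ioc_of_le le_rfl)
    measurableSet_Ioc (hint.mono_set hsub2) (hint.mono_set hsub1)]

/-- perturbation in the Duhamel inequality -/
def pert (P : Par) (n : ℕ) (CB : ℝ) (f : ℝ → T3 → V → ℝ≥0∞) (s : ℝ) (x : T3) (v : V) : ℝ≥0∞ :=
  2 * Gam (fun u => bf P n s x u + ENNReal.ofReal CB * Bb P s x u) (f s x) v +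
    Gam (f s x) (f s x) v

/-- the hot part, `[0,∞]`-valued -/
def hh (h : ℝ → T3 → V → ℝ) : ℝ → T3 → V → ℝ≥0∞ := fun t x v => ENNReal.ofReal (h t x v)

theorem sup1_meas_hh (hs : Split P CB t0 n N κ F G h) :
    Measurable fun p : ℝ × T3 × V => hh h p.1 p.2.1 p.2.2 := hs.meash.ennreal_ofReal

theorem sup1_Qh_le (hc : ∀ f g : V → ℝ≥0∞, Measurable f → Measurable g → ∀ v,
      Gam f g v = Gam g f v) (hs : Split P CB t0 n N κ F G h) {s : ℝ} (hs0 : s ∈ Icc 0 t0)
    (y : T3) (v : V) : ENNReal.ofReal (Qh N (F s y) (G s y) (h s y) v) ≤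
      KK P n s (hh h s) y v + pert P n CB (hh h) s y v := by
  have mG : Measurable (nn (G s y)) :=
    sup0_meas_slice (f := fun t x v => ENNReal.ofReal (G t x v)) hs.measG.ennreal_ofReal s y
  have mh : Measurable (nn (h s y)) := sup0_meas_slice (f := hh h) (sup1_meas_hh hs) s y
  have mc : Measurable (cf P n s y) := sup0_meas_slice (sup0_meas_cf P n) s y
  have hGb : Gam (nn (G s y)) (nn (h s y)) v ≤ Gam (cf P n s y) (nn (h s y)) v +
      Gam (fun u => bf P n s y u + ENNReal.ofReal CB * Bb P s y u) (nn (h s y)) v := by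
    rw [← sup0_Gam_add_left mc mh]
    refine Gam_mono (fun u => ?_) (fun _ => le_rfl) v
    have := hs.up s hs0 y u
    rw [add_assoc] at this
    exact this
  unfold Qh
  refine (ENNReal.ofReal_le_ofReal (sub_le_self _
    (mul_nonneg (hs.nonnegh s y v) ENNReal.toReal_nonneg))).trans ?_
  refine ENNReal.ofReal_toReal_le.trans ?_
  have h1 : DL.pfN N (F s y) * (GamN N (nn (G s y)) (nn (h s y)) v +
      GamN N (nn (h s y)) (nn (G s y)) v + GamN N (nn (h s y)) (nn (h s y)) v) ≤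
      1 * (Gam (nn (G s y)) (nn (h s y)) v + Gam (nn (G s y)) (nn (h s y)) v +
        Gam (nn (h s y)) (nn (h s y)) v) := by
    refine mul_le_mul' (DL.pfN_le_one _ _) (add_le_add (add_le_add (GamN_le_Gam _ _ _ _) ?_)
      (GamN_le_Gam _ _ _ _))
    rw [hc _ _ mG mh]
    exact GamN_le_Gam _ _ _ _
  refine h1.trans ?_
  rw [one_mul, ← two_mul]
  unfold KK pert
  calc 2 * Gam (nn (G s y)) (nn (h s y)) v + Gam (nn (h s y)) (nn (h s y)) v
      ≤ 2 * (Gam (cf P n s y) (nn (h s y)) v +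
          Gam (fun u => bf P n s y u + ENNReal.ofReal CB * Bb P s y u) (nn (h s y)) v) +
        Gam (nn (h s y)) (nn (h s y)) v := by gcongr
    _ = _ := by
      rw [mul_add, add_assoc]
      rfl

/-- Duhamel inequality -/
theorem sup1_duh (hc : ∀ f g : V → ℝ≥0∞, Measurable f → Measurable g → ∀ v,
      Gam f g v = Gam g f v) (hN : 3 ≤ N) (hs : Split P CB t0 n N κ F G h) {ta t : ℝ}
    (h0 : 0 ≤ ta) (h1 : ta ≤ t) (h2 : t ≤ t0) (x : T3) (v : V) :
    hh h t x v ≤ hh h ta (mv x v (ta - t)) v + UK P n ta (hh h) t x v +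
      ∫⁻ s in Icc ta t, pert P n CB (hh h) s (mv x v (s - t)) v := by
  obtain ⟨hint, heq⟩ := sup1_incr hN hs h0 h1 x v
  have e1 : hh h t x v ≤ hh h ta (mv x v (ta - t)) v +
      ∫⁻ s in Ioc ta t, ENNReal.ofReal (Qh N (F s (mv x v (s - t))) (G s (mv x v (s - t)))
        (h s (mv x v (s - t))) v) := by
    unfold hh
    rw [heq]
    exact ENNReal.ofReal_add_le.trans (add_le_add le_rfl (sup1_ofReal_integral_le hint))
  refine e1.trans ?_
  rw [add_assoc]
  refine add_le_add le_rfl ?_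
  unfold UK
  rw [← lintegral_add_left (sup0_meas_KK P n (sup1_meas_hh hs) t x v),
    ← restrict_Ioc_eq_restrict_Icc]
  refine setLIntegral_mono' measurableSet_Ioc fun s hs1 => ?_
  exact sup1_Qh_le hc hs ⟨h0.trans hs1.1.le, hs1.2.trans h2⟩ _ v

end Vale.Agent.P140.NU
end
end

section

/-!
P140, non-uniqueness, module B: bound of the perturbation, abstract iteration.
-/

open MeasureTheory Set Filter
open scoped ENNReal Topology

noncomputable section

namespace Vale.Agent.P140.NU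

open Nm

variable {P : Par}

theorem sup3_Pi_exp (n : ℕ) (γ γ' t : ℝ) (x : T3) (v : V) :
    Pi P n γ' t x v = ENNReal.ofReal (Real.exp (-((γ' - γ) * ‖v‖ ^ 2))) * Pi P n γ t x v := by
  unfold Pi
  rw [← mul_assoc, ← ENNReal.ofReal_mul (Real.exp_pos _).le, ← Real.exp_add]
  congr 3
  ring

theorem sup3_Pi_anti (n : ℕ) {γ γ' : ℝ} (h : γ ≤ γ') (t : ℝ) (x : T3) (v : V) :
    Pi P n γ' t x v ≤ Pi P n γ t x v := by
  rw [sup3_Pi_exp n γ γ']
  have h1 : ENNReal.ofReal (Real.exp (-((γ' - γ) * ‖v‖ ^ 2))) ≤ 1 := by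
    rw [← ENNReal.ofReal_one]
    apply ENNReal.ofReal_le_ofReal
    apply Real.exp_le_one_iff.2
    have : 0 ≤ (γ' - γ) * ‖v‖ ^ 2 := mul_nonneg (by linarith) (sq_nonneg _)
    linarith only [this]
  calc _ ≤ 1 * Pi P n γ t x v := by gcongr
    _ = _ := one_mul _

/-- pointwise bound of the perturbation -/
theorem sup3_pert_point {n : ℕ} {CB CG CN γ s : ℝ} {x : T3} {v : V} (hCG : 0 ≤ CG) (hCN : 0 ≤ CN)
    (hGP : Gam (Pi P n γ s x) (Pi P n γ s x) v ≤
      ENNReal.ofReal (CG * (1 + ‖v‖)) * Pi P n γ s x v)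
    (hGN : Gam (fun u => bf P n s x u + ENNReal.ofReal CB * Bb P s x u) (Pi P n γ s x) v ≤
      ENNReal.ofReal (CN * (1 + ‖v‖)) * Pi P n γ s x v)
    {f : ℝ → T3 → V → ℝ≥0∞} {a : ℝ} (ha : 0 ≤ a)
    (hf : ∀ v, f s x v ≤ ENNReal.ofReal a * Pi P n γ s x v) :
    pert P n CB f s x v ≤
      ENNReal.ofReal (a * (2 * CN + CG * a) * (1 + ‖v‖)) * Pi P n γ s x v := by
  have hat : ENNReal.ofReal a ≠ ⊤ := ENNReal.ofReal_ne_top
  have hv : 0 ≤ 1 + ‖v‖ := by (clear * -; positivity)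
  unfold pert
  have h1 : Gam (fun u => bf P n s x u + ENNReal.ofReal CB * Bb P s x u) (f s x) v ≤
      ENNReal.ofReal a * (ENNReal.ofReal (CN * (1 + ‖v‖)) * Pi P n γ s x v) := by
    refine (Gam_mono (fun _ => le_rfl) hf v).trans ?_
    rw [sup0_Gam_smul_right hat (g := Pi P n γ s x)]
    (clear * - hGN; gcongr)
  have h2 : Gam (f s x) (f s x) v ≤
      ENNReal.ofReal a * (ENNReal.ofReal a * (ENNReal.ofReal (CG * (1 + ‖v‖)) * Pi P n γ s x v)) := by
    refine (Gam_mono hf hf v).trans ?_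
    rw [sup0_Gam_smul_right hat (g := Pi P n γ s x), sup0_Gam_smul_left hat]
    gcongr
  calc 2 * Gam (fun u => bf P n s x u + ENNReal.ofReal CB * Bb P s x u) (f s x) v +
        Gam (f s x) (f s x) v
      ≤ 2 * (ENNReal.ofReal a * (ENNReal.ofReal (CN * (1 + ‖v‖)) * Pi P n γ s x v)) +
        ENNReal.ofReal a * (ENNReal.ofReal a *
          (ENNReal.ofReal (CG * (1 + ‖v‖)) * Pi P n γ s x v)) := by (clear * - h1 h2; gcongr)
    _ = (ENNReal.ofReal (2 * a * (CN * (1 + ‖v‖))) +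
          ENNReal.ofReal (a * a * (CG * (1 + ‖v‖)))) * Pi P n γ s x v := by
        rw [ENNReal.ofReal_mul (by (clear * - ha; positivity) : 0 ≤ 2 * a),
          ENNReal.ofReal_mul (by norm_num : (0 : ℝ) ≤ 2), ENNReal.ofReal_ofNat,
          ENNReal.ofReal_mul (by positivity : 0 ≤ a * a), ENNReal.ofReal_mul ha]
        ring
    _ = _ := by
        rw [← ENNReal.ofReal_add (by (clear * - ha hCN; positivity)) (by (clear * - ha hCG; positivity))]
        congr 2
        ring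

/-- bound of the perturbation -/
theorem sup3_pert_int {n : ℕ} {CB CG CN t0 : ℝ} (hCG : 0 ≤ CG) (hCN : 0 ≤ CN)
    (hGP : ∀ γ ∈ Icc (1 / 8 : ℝ) (1 / 6), ∀ t ∈ Icc 0 t0, ∀ x v,
      Gam (Pi P n γ t x) (Pi P n γ t x) v ≤ ENNReal.ofReal (CG * (1 + ‖v‖)) * Pi P n γ t x v)
    (hGN : ∀ γ ∈ Icc (1 / 8 : ℝ) (1 / 6), ∀ t ∈ Icc 0 t0, ∀ x v,
      Gam (fun u => bf P n t x u + ENNReal.ofReal CB * Bb P t x u) (Pi P n γ t x) v ≤
      ENNReal.ofReal (CN * (1 + ‖v‖)) * Pi P n γ t x v)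
    (hmono : ∀ γ, ∀ t ∈ Icc 0 (2 * t0), ∀ t' ∈ Icc t (2 * t0), ∀ x v,
      Pi P n γ t x v ≤ Pi P n γ t' (mv x v (t' - t)) v)
    {f : ℝ → T3 → V → ℝ≥0∞} {a g : ℝ → ℝ} {t C2 ε : ℝ} (ht : 0 ≤ t) (htt : t ≤ t0)
    (hC2 : 0 < C2) (ha0 : ∀ s ∈ Icc 0 t, 0 ≤ a s) (hat : ∀ s ∈ Icc 0 t, a s ≤ a t)
    (hai : IntervalIntegrable (fun s => 1 + a s) volume 0 t)
    (hε : ∫ s in (0:ℝ)..t, (1 + a s) ≤ ε)
    (hg : ∀ s, g s = 1 / 6 - C2 * ∫ u in (0:ℝ)..s, (1 + a u))
    (hgr : ∀ s ∈ Icc 0 t, g s ∈ Icc (1 / 8 : ℝ) (1 / 6))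
    (hf : ∀ s ∈ Icc 0 t, ∀ x v, f s x v ≤ ENNReal.ofReal (a s) * Pi P n (g s) s x v)
    {ta τ : ℝ} (h0 : 0 ≤ ta) (h1 : ta ≤ τ) (h2 : τ ≤ t) (x : T3) (v : V) :
    ∫⁻ s in Icc ta τ, pert P n CB f s (mv x v (s - τ)) v ≤
      ENNReal.ofReal ((2 * CN + CG) * (2 * ε + 1 / C2) * a t) * Pi P n (g t) τ x v := by
  set φ : ℝ → ℝ := fun s => 1 + a s with hφ
  set Ψ : ℝ → ℝ := fun s => ∫ u in (0:ℝ)..s, φ u with hΨ
  have hφ0 : ∀ s ∈ Icc 0 t, 0 ≤ φ s := fun s hs => by have := ha0 s hs; simp only [hφ]; linarith only [this]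
  have hgst : ∀ s, g s - g t = C2 * (Ψ t - Ψ s) := by
    intro s
    rw [hg s, hg t]
    simp only [hΨ, hφ]
    ring
  have hatt : 0 ≤ a t := ha0 t ⟨ht, le_rfl⟩
  set m : ℝ := ‖v‖ with hm
  have hm0 : 0 ≤ m := norm_nonneg v
  set E : ℝ → ℝ := fun s => φ s * (1 + m) * Real.exp (-(C2 * (Ψ t - Ψ s) * m ^ 2)) with hE
  have hEint : IntervalIntegrable E volume ta τ := by
    have i1 := sup2_intble ht hai (C2 * m ^ 2) h0 h1 h2
    have : E = fun s => (1 + m) * (φ s * Real.exp (-(C2 * m ^ 2 * (Ψ t - Ψ s)))) := by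
      funext s
      simp only [hE]
      rw [show C2 * (Ψ t - Ψ s) * m ^ 2 = C2 * m ^ 2 * (Ψ t - Ψ s) by ring]
      ring
    rw [this]
    exact i1.const_mul _
  have hEw : ∫ s in ta..τ, E s ≤ 2 * ε + 1 / C2 := sup2_weight ht hai hφ0 hC2 hε h0 h1 h2 hm0
  have hE0 : ∀ s ∈ Icc 0 t, 0 ≤ E s := fun s hs => by
    have := hφ0 s hs
    simp only [hE]
    (clear * - this; positivity)
  have hpt : ∀ s ∈ Icc ta τ, pert P n CB f s (mv x v (s - τ)) v ≤
      ENNReal.ofReal (a t * (2 * CN + CG) * E s) * Pi P n (g t) τ x v := by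
    intro s hs
    have hs' : s ∈ Icc 0 t := ⟨h0.trans hs.1, hs.2.trans h2⟩
    have hs0 : s ∈ Icc 0 t0 := ⟨hs'.1, hs'.2.trans htt⟩
    have k1 := sup3_pert_point (CB := CB) hCG hCN (hGP (g s) (hgr s hs') s hs0 (mv x v (s - τ)) v)
      (hGN (g s) (hgr s hs') s hs0 (mv x v (s - τ)) v) (ha0 s hs') (hf s hs' (mv x v (s - τ)))
    refine k1.trans ?_
    rw [sup3_Pi_exp n (g t) (g s), ← mul_assoc, ← ENNReal.ofReal_mul (by
      have := ha0 s hs'
      (clear * - this hCN hCG; positivity))]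
    have k2 : Pi P n (g t) s (mv x v (s - τ)) v ≤ Pi P n (g t) τ x v := by
      have t0p : 0 ≤ t0 := ht.trans htt
      have := hmono (g t) s ⟨hs'.1, by linarith only [ht, htt, hs0.2]⟩ τ ⟨hs.2, by linarith only [ht, htt, h2]⟩ (mv x v (s - τ)) v
      rwa [mv_mv, show s - τ + (τ - s) = 0 by ring, mv_zero] at this
    refine mul_le_mul' (ENNReal.ofReal_le_ofReal ?_) k2
    rw [hgst s]
    simp only [hE]
    have ha1 := ha0 s hs'
    have ha2 := hat s hs'
    have k3 : a s * (2 * CN + CG * a s) ≤ a t * (2 * CN + CG) * φ s := by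
      have k4 : 2 * CN + CG * a s ≤ (2 * CN + CG) * φ s := by
        simp only [hφ]
        linarith only [mul_nonneg (sub_nonneg.2 hCN) (sub_nonneg.2 ha1), hCG]
      calc a s * (2 * CN + CG * a s) ≤ a t * ((2 * CN + CG) * φ s) := by (clear * - ha2 k4 hCN hCG ha1 hatt; gcongr)
        _ = _ := by ring
    calc a s * (2 * CN + CG * a s) * (1 + m) * Real.exp (-(C2 * (Ψ t - Ψ s) * m ^ 2))
        ≤ a t * (2 * CN + CG) * φ s * (1 + m) * Real.exp (-(C2 * (Ψ t - Ψ s) * m ^ 2)) := by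
          (clear * - k3; gcongr)
      _ = _ := by ring
  refine (setLIntegral_mono' measurableSet_Icc hpt).trans ?_
  have hIoc : IntegrableOn (fun s => a t * (2 * CN + CG) * E s) (Icc ta τ) := by
    rw [integrableOn_Icc_iff_integrableOn_Ioc]
    exact ((intervalIntegrable_iff_integrableOn_Ioc_of_le h1).1 hEint).const_mul _
  rw [lintegral_mul_const'' _ hIoc.aemeasurable.ennreal_ofReal]
  refine mul_le_mul' ?_ le_rfl
  rw [← ofReal_integral_eq_lintegral_ofReal hIoc]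
  · apply ENNReal.ofReal_le_ofReal
    rw [integral_Icc_eq_integral_Ioc, ← intervalIntegral.integral_of_le h1,
      intervalIntegral.integral_const_mul]
    calc a t * (2 * CN + CG) * ∫ s in ta..τ, E s ≤ a t * (2 * CN + CG) * (2 * ε + 1 / C2) := by
          (clear * - hEw hatt hCN hCG; gcongr)
      _ = _ := by ring
  · filter_upwards [ae_restrict_mem measurableSet_Icc] with s hs
    have := hE0 s ⟨h0.trans hs.1, hs.2.trans h2⟩
    (clear * - hatt hCN hCG this; positivity)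

/-! ### iteration -/

/-- iteration of `f ≤ σ Π + U f` -/
theorem sup3_iter {n : ℕ} {γ ta t : ℝ} {A σ : ℝ≥0∞} {f : ℝ → T3 → V → ℝ≥0∞}
    (hUK : ∀ τ ∈ Icc ta t, ∀ H : ℝ≥0∞, ∀ x v, UK P n ta (fun τ x v => H * Pi P n γ τ x v) τ x v ≤
      A * H * Pi P n γ τ x v)
    (hf : ∀ τ ∈ Icc ta t, ∀ x v, f τ x v ≤ σ * Pi P n γ τ x v + UK P n ta f τ x v) :
    ∀ k : ℕ, ∀ τ ∈ Icc ta t, ∀ x v, f τ x v ≤
      (∑ i ∈ Finset.range k, A ^ i) * σ * Pi P n γ τ x v + (UK P n ta)^[k] f τ x v := by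
  intro k
  induction k with
  | zero =>
    intro τ hτ x v
    simp
  | succ k ih =>
    intro τ hτ x v
    set Sk : ℝ≥0∞ := (∑ i ∈ Finset.range k, A ^ i) * σ with hSk
    have hm : Measurable fun p : ℝ × T3 × V => Sk * Pi P n γ p.1 p.2.1 p.2.2 :=
      (sup0_meas_Pi P n γ).const_mul _
    have h1 : UK P n ta f τ x v ≤ A * Sk * Pi P n γ τ x v + UK P n ta ((UK P n ta)^[k] f) τ x v := by
      refine (sup0_UK_mono P n (g := fun τ x v => Sk * Pi P n γ τ x v + (UK P n ta)^[k] f τ x v)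
        (fun s hs x v => ih s ⟨hs.1, hs.2.trans hτ.2⟩ x v) x v).trans ?_
      rw [sup0_UK_add P n (f := fun τ x v => Sk * Pi P n γ τ x v) hm]
      exact add_le_add (hUK τ hτ Sk x v) le_rfl
    rw [Function.iterate_succ_apply']
    refine (hf τ hτ x v).trans ((add_le_add le_rfl h1).trans ?_)
    rw [← add_assoc]
    refine add_le_add (le_of_eq ?_) le_rfl
    rw [hSk, Finset.sum_range_succ']
    simp only [pow_succ, ← Finset.sum_mul]
    ring

end Vale.Agent.P140.NU
end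
end

section

/-!
P140, non-uniqueness, module B: the sup norm of the hot part on a doubling interval.
-/

open MeasureTheory Set Filter
open scoped ENNReal Topology

noncomputable section

namespace Vale.Agent.P140.NU

/-- inputs of the sup bound for fixed `P`, `n`, `t0` -/
structure SupH (P : Par) (n : ℕ) (t0 CB A CG CN Ce : ℝ) : Prop where
  c_pos : 0 < P.c
  ss_pos : 0 < P.ss n
  del_nonneg : ∀ j, 0 ≤ P.del j
  hA : 0 ≤ A
  hCG : 0 ≤ CG
  hCN : 0 ≤ CN
  hCe : 0 ≤ Ce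
  UKP : ∀ γ ∈ Icc (1 / 8 : ℝ) (1 / 6), ∀ t1 t, 0 ≤ t1 → t1 ≤ t → t ≤ t0 →
    P.TT n t ≤ 2 * P.TT n t1 → ∀ H : ℝ≥0∞, ∀ x v,
    UK P n t1 (fun τ x v => H * Pi P n γ τ x v) t x v ≤ ENNReal.ofReal A * H * Pi P n γ t x v
  mono : ∀ γ, ∀ t ∈ Icc 0 (2 * t0), ∀ t' ∈ Icc t (2 * t0), ∀ x v,
      Pi P n γ t x v ≤ Pi P n γ t' (mv x v (t' - t)) v
  GP : ∀ γ ∈ Icc (1 / 8 : ℝ) (1 / 6), ∀ t ∈ Icc 0 t0, ∀ x v,
      Gam (Pi P n γ t x) (Pi P n γ t x) v ≤ ENNReal.ofReal (CG * (1 + ‖v‖)) * Pi P n γ t x v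
  GN : ∀ γ ∈ Icc (1 / 8 : ℝ) (1 / 6), ∀ t ∈ Icc 0 t0, ∀ x v,
      Gam (fun u => bf P n t x u + ENNReal.ofReal CB * Bb P t x u) (Pi P n γ t x) v ≤
      ENNReal.ofReal (CN * (1 + ‖v‖)) * Pi P n γ t x v
  Sm : ∀ γ ∈ Icc (1 / 8 : ℝ) (1 / 6), ∀ t1 t, 0 ≤ t1 → t1 ≤ t → t ≤ t0 →
    P.TT n t ≤ 2 * P.TT n t1 → ∀ f : ℝ → T3 → V → ℝ≥0∞,
    (Measurable fun p : ℝ × T3 × V => f p.1 p.2.1 p.2.2) →
    (∀ τ ∈ Icc t1 t, ∀ x v a, f τ (zsh x a) v = f τ x v) → ∀ H Nm : ℝ≥0∞,
    (∀ τ ∈ Icc t1 t, ∀ x v, f τ x v ≤ H * Pi P n γ τ x v) →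
    (∀ τ ∈ Icc t1 t, ∫⁻ x, ∫⁻ v, f τ x v ≤ Nm) → ∀ x v,
    (UK P n t1)^[4] f t x v ≤
      (ENNReal.ofReal (1 / 8) * H + ENNReal.ofReal (Ce / P.TT n t ^ 2) * Nm) * Pi P n γ t x v
  met : Measurable fun p : ℝ × T3 × V => et P n (2 * t0) p.1 p.2.1 p.2.2
  expo : ∀ t ∈ Icc 0 (2 * t0), ∀ x v,
    500 * ∫ τ in t..(2 * t0), qb P n τ (mv x v (τ - t)) v ≤ 1 / 4

variable {P : Par} {n : ℕ} {t0 CB A CG CN Ce : ℝ}

/-- bounded functions with bounded velocity support are integrable -/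
theorem sup4_integrable {f : T3 × V → ℝ} (hm : Measurable f) {B R : ℝ} (hb : ∀ p, |f p| ≤ B)
    (hz : ∀ p : T3 × V, R < ‖p.2‖ → f p = 0) : Integrable f := by
  have hfin : volume ((univ : Set T3) ×ˢ Metric.closedBall (0 : V) R) ≠ ⊤ := by
    rw [Measure.volume_eq_prod, Measure.prod_prod]
    exact ENNReal.mul_ne_top (measure_ne_top _ _) measure_closedBall_lt_top.ne
  have hms : MeasurableSet ((univ : Set T3) ×ˢ Metric.closedBall (0 : V) R) :=
    MeasurableSet.univ.prod measurableSet_closedBall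
  have h1 : Integrable (((univ : Set T3) ×ˢ Metric.closedBall (0 : V) R).indicator
      fun _ => (B : ℝ)) := by
    rw [integrable_indicator_iff hms]
    exact integrableOn_const hfin
  refine h1.mono' hm.aestronglyMeasurable (ae_of_all _ fun p => ?_)
  by_cases hp : ‖p.2‖ ≤ R
  · rw [indicator_of_mem (by simpa only [mem_prod, mem_univ, Metric.mem_closedBall, dist_zero_right, true_and] using hp)]
    exact hb p
  · rw [hz p (not_le.1 hp), norm_zero]
    apply indicator_nonneg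
    intro q _
    exact (abs_nonneg _).trans (hb q)

theorem sup4_rr_le (x : T3) : rr x ≤ 1 := by
  rw [rr_eq]
  have h0 := rep_mem x 0
  have h1 := rep_mem x 1
  apply Real.sqrt_le_one.2
  (by_contra nlg; linarith only [nlg, mul_nonneg (sub_nonneg.2 h1.1) (le_of_lt (sub_pos.2 h1.2)), mul_nonneg (sub_nonneg.2 h0.1) (le_of_lt (sub_pos.2 h0.2)), mul_pos (sub_pos.2 (not_le.1 nlg)) (sub_pos.2 h1.2), mul_nonneg (le_of_lt (sub_pos.2 (not_le.1 nlg))) (sub_nonneg.2 h1.1)])

namespace SupH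

theorem TT_pos (H : SupH P n t0 CB A CG CN Ce) {t : ℝ} (ht : 0 ≤ t) : 0 < P.TT n t := by
  have := H.ss_pos
  unfold Par.TT
  linarith only [ht, this]

theorem yy_nonneg (H : SupH P n t0 CB A CG CN Ce) {t : ℝ} (ht : 0 ≤ t) (x : T3) (v : V) :
    0 ≤ yy P n t x v := by
  have := H.TT_pos ht
  unfold yy
  (clear * - this; positivity)

theorem yy_le (H : SupH P n t0 CB A CG CN Ce) {t : ℝ} (ht : 0 ≤ t) (x : T3) (v : V) :
    yy P n t x v ≤ rr x / P.TT n t := by
  have h1 := H.TT_pos ht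
  unfold yy
  gcongr
  apply max_le _ (rr_nonneg x)
  have : 0 ≤ ‖v‖ * P.TT n t := by (clear * - h1; positivity)
  linarith only [this]

theorem qb_nonneg (H : SupH P n t0 CB A CG CN Ce) (t : ℝ) (x : T3) (v : V) :
    0 ≤ qb P n t x v := by
  unfold qb
  refine Finset.sum_nonneg fun j _ => ?_
  split_ifs
  · have h1 := H.c_pos
    have h2 := H.del_nonneg j
    have h3 := rr_nonneg x
    have h4 := Real.pi_pos
    (clear * - h1 h3 h2; positivity)
  · exact le_rfl

theorem expo_nonneg (H : SupH P n t0 CB A CG CN Ce) {t : ℝ} (ht : t ≤ 2 * t0) (x : T3) (v : V) :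
    0 ≤ ∫ τ in t..(2 * t0), qb P n τ (mv x v (τ - t)) v :=
  intervalIntegral.integral_nonneg ht fun _ _ => H.qb_nonneg _ _ _

theorem Vg_nonneg : 0 ≤ P.Vg := by
  unfold Par.Vg
  positivity

theorem meas_slice2 {f : ℝ → T3 → V → ℝ} (hf : Measurable fun p : ℝ × T3 × V => f p.1 p.2.1 p.2.2)
    (τ : ℝ) : Measurable fun p : T3 × V => f τ p.1 p.2 := by
  have e : Measurable fun p : T3 × V => ((τ, p.1, p.2) : ℝ × T3 × V) := by fun_prop
  have h := hf.comp e
  exact h

/-- lower bound of the small weight -/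
theorem et_ge (H : SupH P n t0 CB A CG CN Ce) {τ : ℝ} (h0 : 0 ≤ τ) (h1 : τ ≤ 2 * t0) (x : T3)
    (v : V) : Real.exp (-(2 * P.Vg) - 100) ≤ et P n (2 * t0) τ x v := by
  have hz0 : 0 ≤ 500 * ∫ s in τ..(2 * t0), qb P n s (mv x v (s - τ)) v := by
    have := H.expo_nonneg h1 x v
    positivity
  unfold et ee
  have k2 := H.yy_nonneg h0 x v
  have k3 : 1 ≤ Real.exp (yy P n τ x v + ‖v‖ ^ 2 / 16) := by
    apply Real.one_le_exp
    (clear * - k2; positivity)
  have k4 := Real.exp_pos (-(2 * P.Vg) - 100)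
  calc Real.exp (-(2 * P.Vg) - 100) = Real.exp (-(2 * P.Vg) - 100) * 1 * 1 := by ring
    _ ≤ _ := by gcongr; linarith only [hz0]

/-- upper bound of the small weight -/
theorem et_le (H : SupH P n t0 CB A CG CN Ce) {τ : ℝ} (h0 : 0 ≤ τ) (h1 : τ ≤ 2 * t0) (x : T3)
    (v : V) {R : ℝ} (hv : ‖v‖ ≤ R) : et P n (2 * t0) τ x v ≤
      Real.exp (1 / P.TT n τ + R ^ 2 / 16) * (5 / 4) := by
  have hT := H.TT_pos h0
  have k0 : 0 ≤ 500 * ∫ s in τ..(2 * t0), qb P n s (mv x v (s - τ)) v := by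
    have := H.expo_nonneg h1 x v
    (clear * - this; positivity)
  unfold et ee
  have k1 := H.expo τ ⟨h0, h1⟩ x v
  have k2 := H.yy_le h0 x v
  have k3 : rr x / P.TT n τ ≤ 1 / P.TT n τ := by
    gcongr
    exact sup4_rr_le x
  have k4 : Real.exp (-(2 * P.Vg) - 100) ≤ 1 := by
    apply Real.exp_le_one_iff.2
    have : 0 ≤ P.Vg := Vg_nonneg
    linarith only [this]
  have k5 : Real.exp (yy P n τ x v + ‖v‖ ^ 2 / 16) ≤ Real.exp (1 / P.TT n τ + R ^ 2 / 16) := by
    apply Real.exp_le_exp.2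
    have : ‖v‖ ^ 2 ≤ R ^ 2 := by gcongr
    linarith only [k2, k3, this]
  calc Real.exp (-(2 * P.Vg) - 100) * Real.exp (yy P n τ x v + ‖v‖ ^ 2 / 16) *
        (1 + 500 * ∫ s in τ..(2 * t0), qb P n s (mv x v (s - τ)) v)
      ≤ 1 * Real.exp (1 / P.TT n τ + R ^ 2 / 16) * (5 / 4) := by
        gcongr
        linarith only [k1]
    _ = _ := by ring

theorem et_integrable (H : SupH P n t0 CB A CG CN Ce) {N : ℕ} {κ : ℝ} {F G h : ℝ → T3 → V → ℝ}
    (hN : 3 ≤ N) (hs : Split P CB t0 n N κ F G h) {τ : ℝ} (h0 : 0 ≤ τ) (h1 : τ ≤ 2 * t0) :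
    Integrable fun p : T3 × V => et P n (2 * t0) τ p.1 p.2 * h τ p.1 p.2 := by
  have mh := meas_slice2 hs.meash τ
  have me := meas_slice2 H.met τ
  obtain ⟨B, hB0, hB⟩ := hs.hot_bdd hN τ
  have hB' : ∀ x v, h τ x v ≤ B ∧ ((N : ℝ) < ‖v‖ → h τ x v = 0) := fun x v =>
    ⟨(hB τ ⟨h0, le_rfl⟩ x v).1, (hB τ ⟨h0, le_rfl⟩ x v).2.1⟩
  apply sup4_integrable (me.mul mh)
    (B := Real.exp (1 / P.TT n τ + (N : ℝ) ^ 2 / 16) * (5 / 4) * B) (R := N)
  · intro p
    have k1 := hs.nonnegh τ p.1 p.2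
    have k2 : 0 ≤ et P n (2 * t0) τ p.1 p.2 := (Real.exp_pos _).le.trans (H.et_ge h0 h1 _ _)
    change |et P n (2 * t0) τ p.1 p.2 * h τ p.1 p.2| ≤ _
    rw [abs_of_nonneg (mul_nonneg k2 k1)]
    by_cases hv : ‖p.2‖ ≤ N
    · exact mul_le_mul (H.et_le h0 h1 _ _ hv) (hB' _ _).1 k1 (by positivity)
    · rw [(hB' p.1 p.2).2 (not_le.1 hv), mul_zero]
      (clear * - hB0; positivity)
  · intro p hp
    change et P n (2 * t0) τ p.1 p.2 * h τ p.1 p.2 = 0
    rw [(hB' p.1 p.2).2 hp, mul_zero]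

theorem hh_le_et (H : SupH P n t0 CB A CG CN Ce) {N : ℕ} {κ : ℝ} {F G h : ℝ → T3 → V → ℝ}
    (hs : Split P CB t0 n N κ F G h) {τ : ℝ} (h0 : 0 ≤ τ) (h1 : τ ≤ 2 * t0) (x : T3) (v : V) :
    hh h τ x v ≤ ENNReal.ofReal (Real.exp (2 * P.Vg + 100) *
      (et P n (2 * t0) τ x v * h τ x v)) := by
  have k1 := hs.nonnegh τ x v
  have k2 := H.et_ge h0 h1 x v
  have k3 : Real.exp (2 * P.Vg + 100) * Real.exp (-(2 * P.Vg) - 100) = 1 := by
    rw [← Real.exp_add, show 2 * P.Vg + 100 + (-(2 * P.Vg) - 100) = 0 by ring, Real.exp_zero]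
  have k6 := Real.exp_pos (2 * P.Vg + 100)
  unfold hh
  generalize et P n (2 * t0) τ x v = e at *
  generalize h τ x v = z at *
  generalize Real.exp (2 * P.Vg + 100) = a at *
  generalize Real.exp (-(2 * P.Vg) - 100) = b at *
  apply ENNReal.ofReal_le_ofReal
  calc z = a * b * z := by rw [k3, one_mul]
    _ = a * (b * z) := mul_assoc _ _ _
    _ ≤ a * (e * z) := by gcongr

/-- mass bound -/
theorem mass_le (H : SupH P n t0 CB A CG CN Ce) {N : ℕ} {κ : ℝ} {F G h : ℝ → T3 → V → ℝ}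
    (hN : 3 ≤ N) (hs : Split P CB t0 n N κ F G h) {τ : ℝ} (h0 : 0 ≤ τ) (h1 : τ ≤ 2 * t0) :
    ∫⁻ x, ∫⁻ v, hh h τ x v ≤
      ENNReal.ofReal (Real.exp (2 * P.Vg + 100) * NE P n (2 * t0) h τ) := by
  have hint := (H.et_integrable hN hs h0 h1).const_mul (Real.exp (2 * P.Vg + 100))
  have mh : Measurable fun p : T3 × V => hh h τ p.1 p.2 :=
    (meas_slice2 hs.meash τ).ennreal_ofReal
  have e1 : ∫⁻ x, ∫⁻ v, hh h τ x v = ∫⁻ p : T3 × V, hh h τ p.1 p.2 := by
    rw [Measure.volume_eq_prod]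
    exact (lintegral_prod _ mh.aemeasurable).symm
  have k8 : ∀ p : T3 × V, hh h τ p.1 p.2 ≤ ENNReal.ofReal (Real.exp (2 * P.Vg + 100) *
      (et P n (2 * t0) τ p.1 p.2 * h τ p.1 p.2)) := fun p => H.hh_le_et hs h0 h1 p.1 p.2
  rw [e1]
  refine (lintegral_mono k8).trans ?_
  have e2 : Real.exp (2 * P.Vg + 100) * NE P n (2 * t0) h τ =
      ∫ p : T3 × V, Real.exp (2 * P.Vg + 100) *
        (et P n (2 * t0) τ p.1 p.2 * h τ p.1 p.2) := by
    rw [integral_const_mul]
    rfl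
  rw [e2, ofReal_integral_eq_lintegral_ofReal hint]
  refine ae_of_all _ fun p => ?_
  have k1 := hs.nonnegh τ p.1 p.2
  have k2 : 0 ≤ et P n (2 * t0) τ p.1 p.2 := (Real.exp_pos _).le.trans (H.et_ge h0 h1 _ _)
  exact mul_nonneg (Real.exp_pos _).le (mul_nonneg k2 k1)

end SupH

end Vale.Agent.P140.NU
end
end

section

/-!
P140, non-uniqueness, module B: regularity along flights of the hot part and of the main weight,
continuity of the main functional.
-/

open MeasureTheory Set Filter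
open scoped ENNReal Topology Interval

noncomputable section

namespace Vale.Agent.P140.NU

section

variable {P : Par} {CB t0 : ℝ} {n N : ℕ} {κ : ℝ} {F G h : ℝ → T3 → V → ℝ}

theorem bt_meas_Qh (hs : Split P CB t0 n N κ F G h) (x : T3) (v : V) :
    Measurable fun τ : ℝ => Qh N (F τ (mv x v τ)) (G τ (mv x v τ)) (h τ (mv x v τ)) v := by
  have e0 : Measurable fun q : ℝ × V => (q.1, x, v) := by fun_prop
  have e1 : Measurable fun q : ℝ × V => mv x v q.1 := measurable_mv.comp e0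
  have e : Measurable fun q : ℝ × V => (q.1, mv x v q.1, q.2) :=
    measurable_fst.prodMk (e1.prodMk measurable_snd)
  have mF : Measurable fun q : ℝ × V => F q.1 (mv x v q.1) q.2 := hs.appr.meas.comp e
  have mG : Measurable fun q : ℝ × V => G q.1 (mv x v q.1) q.2 := hs.measG.comp e
  have mh : Measurable fun q : ℝ × V => h q.1 (mv x v q.1) q.2 := hs.meash.comp e
  have mG' : Measurable fun q : ℝ × V => nn (G q.1 (mv x v q.1)) q.2 := mG.ennreal_ofReal
  have mh' : Measurable fun q : ℝ × V => nn (h q.1 (mv x v q.1)) q.2 := mh.ennreal_ofReal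
  have sl : Measurable fun τ : ℝ => (τ, v) := measurable_id.prodMk measurable_const
  have m1 := (Nm.measurable_GamN N (f := fun τ => nn (G τ (mv x v τ)))
    (g := fun τ => nn (h τ (mv x v τ))) mG' mh').comp sl
  have m2 := (Nm.measurable_GamN N (f := fun τ => nn (h τ (mv x v τ)))
    (g := fun τ => nn (G τ (mv x v τ))) mh' mG').comp sl
  have m3 := (Nm.measurable_GamN N (f := fun τ => nn (h τ (mv x v τ)))
    (g := fun τ => nn (h τ (mv x v τ))) mh' mh').comp sl
  have m4 := DL.measurable_pfN N (f := fun τ => F τ (mv x v τ)) mF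
  have m5 := (DL.measurable_rateP N (f := fun τ => F τ (mv x v τ)) mF).comp sl
  have m6 : Measurable fun τ : ℝ => h τ (mv x v τ) v := mh.comp sl
  unfold Qh
  exact ((m4.mul ((m1.add m2).add m3)).ennreal_toReal).sub (m6.mul m5.ennreal_toReal)

/-- the hot part is bounded, supported in `|v| ≤ N`, and Lipschitz along flights -/
theorem bt_lip (hN : 3 ≤ N) (hs : Split P CB t0 n N κ F G h) (T : ℝ) : ∃ B : ℝ, 0 ≤ B ∧
    (∀ t ∈ Icc 0 T, ∀ x v, h t x v ≤ B ∧ ((N : ℝ) < ‖v‖ → h t x v = 0)) ∧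
    ∀ s ∈ Icc 0 T, ∀ t ∈ Icc s T, ∀ x v,
      |h t (mv x v t) v - h s (mv x v s) v| ≤ B * (t - s) := by
  obtain ⟨B, hB, hb⟩ := hs.hot_bdd hN T
  refine ⟨B, hB, fun t ht x v => ⟨(hb t ht x v).1, (hb t ht x v).2.1⟩, ?_⟩
  intro s hs' t ht x v
  have hst : s ≤ t := ht.1
  have ht0 : 0 ≤ t := hs'.1.trans hst
  set q : ℝ → ℝ := fun τ => Qh N (F τ (mv x v τ)) (G τ (mv x v τ)) (h τ (mv x v τ)) v with hq
  have mq : Measurable q := bt_meas_Qh hs x v
  have hbd : ∀ τ ∈ Icc 0 T, |q τ| ≤ B := fun τ hτ => (hb τ hτ (mv x v τ) v).2.2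
  have hint : ∀ a b : ℝ, 0 ≤ a → a ≤ b → b ≤ T → IntervalIntegrable q volume a b := by
    intro a b ha hab hbT
    rw [intervalIntegrable_iff_integrableOn_Ioc_of_le hab]
    refine Measure.integrableOn_of_bounded (M := B) (by simp only [Real.volume_Ioc, ne_eq, ENNReal.ofReal_ne_top, not_false_eq_true]) mq.aestronglyMeasurable ?_
    refine (ae_restrict_iff' measurableSet_Ioc).2 (Eventually.of_forall fun τ hτ => ?_)
    exact hbd τ ⟨ha.trans hτ.1.le, hτ.2.trans hbT⟩
  have e1 := hs.mild t ht0 x v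
  have e2 := hs.mild s hs'.1 x v
  rw [← intervalIntegral.integral_of_le ht0] at e1
  rw [← intervalIntegral.integral_of_le hs'.1] at e2
  have e3 : h t (mv x v t) v - h s (mv x v s) v = ∫ τ in s..t, q τ := by
    rw [e1, e2, ← intervalIntegral.integral_interval_sub_left (hint 0 t le_rfl ht0 ht.2)
      (hint 0 s le_rfl hs'.1 hs'.2)]
    ring
  rw [e3]
  have h1 := intervalIntegral.norm_integral_le_of_norm_le_const (f := q) (a := s) (b := t)
    (C := B) (fun τ hτ => by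
      rw [uIoc_of_le hst] at hτ
      exact hbd τ ⟨hs'.1.trans hτ.1.le, hτ.2.trans ht.2⟩)
  rwa [Real.norm_eq_abs, abs_of_nonneg (sub_nonneg.2 hst)] at h1

end

/-! ### main weight along flights -/

section

variable (P : Par)

theorem bt_meas_rr (x : T3) (v : V) : Measurable fun τ : ℝ => rr (mv x v τ) := by
  have e0 : Measurable fun τ : ℝ => (τ, x, v) := by fun_prop
  exact measurable_rr.comp (measurable_mv.comp e0)

theorem bt_meas_SS (s : ℝ) (x : T3) (v : V) : Measurable fun τ : ℝ => SS P s (mv x v τ) v := by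
  have e0 : Measurable fun τ : ℝ => (τ, x, v) := by fun_prop
  have e1 : Measurable fun τ : ℝ => (mv x v τ, v) := (measurable_mv.comp e0).prodMk measurable_const
  have e2 := (measurable_SS P s).comp e1
  simpa only [Function.comp_def] using e2

theorem bt_meas_pp (n : ℕ) (x : T3) (v : V) : Measurable fun τ : ℝ => pp P n τ (mv x v τ) v := by
  unfold pp
  refine Finset.measurable_sum _ fun j _ => ?_
  have m1 := bt_meas_rr x v
  have m2 := bt_meas_SS P (sg j) x v
  have mT : Measurable fun τ : ℝ => P.TT n τ := by unfold Par.TT; fun_prop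
  have ma : Measurable fun τ : ℝ => P.a1 (P.TT n τ) := by unfold Par.a1; (clear * - mT; fun_prop)
  refine Measurable.ite ?_ (by fun_prop) measurable_const
  have s1 : MeasurableSet {τ : ℝ | rr (mv x v τ) - P.w * τ ∈ P.cell (2 * gg) j} := by
    have : Measurable fun τ : ℝ => rr (mv x v τ) - P.w * τ := by fun_prop
    exact this measurableSet_Icc
  have s2 : MeasurableSet {τ : ℝ | rr (mv x v τ) ≤ P.Vg * P.TT n τ} :=
    measurableSet_le m1 (by fun_prop)
  have s3 : MeasurableSet {τ : ℝ | ‖v‖ ≤ P.Vg} := MeasurableSet.const _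
  have s4 : MeasurableSet {τ : ℝ | P.m2 ≤ √(SS P (sg j) (mv x v τ) v)} :=
    measurableSet_le measurable_const (by fun_prop)
  have s5 : MeasurableSet {τ : ℝ | P.m1 ≤ √(SS P (sg j) (mv x v τ) v)} :=
    measurableSet_le measurable_const (by fun_prop)
  have s6 : MeasurableSet {τ : ℝ | P.a1 (P.TT n τ) ≤ rr (mv x v τ) - P.w * P.TT n τ} :=
    measurableSet_le ma (by fun_prop)
  exact s1.inter (s2.inter (s3.inter (s4.union (s5.inter s6))))

theorem bt_meas_qq (n : ℕ) (x : T3) (v : V) : Measurable fun τ : ℝ => qq P n τ (mv x v τ) v := by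
  unfold qq
  refine Finset.measurable_sum _ fun j _ => ?_
  have m1 := bt_meas_rr x v
  have m2 := bt_meas_SS P (sg j) x v
  refine Measurable.ite ?_ (by fun_prop) measurable_const
  have : Measurable fun τ : ℝ => rr (mv x v τ) - P.w * τ := by fun_prop
  exact this measurableSet_Icc

variable {P}

theorem bt_term {c l r S a b : ℝ} (hc : 0 ≤ c) (hl : 0 < l) (hr : l ≤ r) (hS : |S| ≤ b) :
    |a * (2 * Real.pi) * (c / r) * S| ≤ |a| * (2 * Real.pi) * (c / l) * b := by
  have hr0 : 0 < r := hl.trans_le hr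
  rw [abs_mul, abs_mul, abs_mul]
  have h1 : |2 * Real.pi| = 2 * Real.pi := abs_of_pos (by positivity)
  have h2 : |c / r| = c / r := abs_of_nonneg (by (clear * - hc hr0; positivity))
  rw [h1, h2]
  have h3 : c / r ≤ c / l := div_le_div_of_nonneg_left hc hl hr
  have h4 : 0 ≤ c / r := by positivity
  have h5 : 0 ≤ |a| * (2 * Real.pi) := by (clear * -; positivity)
  gcongr

theorem bt_sqrt_bd (hc : 1 ≤ P.c) (j : ℕ) (x : T3) (v : V) (d : ℝ) (hd : |d| = 4 * |P.del j|) :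
    |√(SS P (sg j) x v) + d| ≤ ‖v‖ + P.w + 1 + 4 * |P.del j| := by
  have hw : 0 ≤ P.w := by unfold Par.w; positivity
  have h1 := sqrt_SS_le P (s := sg j) x v hw
  have h2 : |sg j| = 1 := by unfold sg; simp only [abs_pow, abs_neg, abs_one, one_pow]
  rw [h2] at h1
  calc |√(SS P (sg j) x v) + d| ≤ |√(SS P (sg j) x v)| + |d| := abs_add_le _ _
    _ ≤ _ := by rw [abs_of_nonneg (Real.sqrt_nonneg _), hd]; linarith only [h1]

theorem bt_cell_ge {γ : ℝ} {j : ℕ} {x : T3} {τ : ℝ} (hc : 1 ≤ P.c) (hτ : 0 ≤ τ)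
    (h : rr x - P.w * τ ∈ P.cell γ j) : P.lam ^ ((j : ℝ) + 1 - γ) ≤ rr x := by
  have hw : 0 ≤ P.w := by unfold Par.w; (clear * - hc; positivity)
  have h1 : P.lam ^ ((j : ℝ) + 1 - γ) ≤ rr x - P.w * τ := h.1
  have : 0 ≤ P.w * τ := mul_nonneg hw hτ
  linarith

theorem bt_pp_bdd (hc : 1 ≤ P.c) (hl : 0 < P.lam) (n : ℕ) (v : V) :
    ∃ C : ℝ, ∀ τ, 0 ≤ τ → ∀ x, |pp P n τ x v| ≤ C := by
  refine ⟨∑ j ∈ Finset.Icc P.j0 n, |(1 - 1 / 100 : ℝ)| * (2 * Real.pi) *
    (P.c / P.lam ^ ((j : ℝ) + 1 - 2 * gg)) * (‖v‖ + P.w + 1 + 4 * |P.del j|), ?_⟩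
  intro τ hτ x
  unfold pp
  refine (Finset.abs_sum_le_sum_abs _ _).trans (Finset.sum_le_sum fun j _ => ?_)
  have hw : 0 ≤ P.w := by unfold Par.w; positivity
  have hlp : 0 < P.lam ^ ((j : ℝ) + 1 - 2 * gg) := Real.rpow_pos_of_pos hl _
  split_ifs with h
  · have h1 := bt_cell_ge hc hτ h.1
    have h2 : |√(SS P (sg j) x v) - 4 * P.del j| ≤ ‖v‖ + P.w + 1 + 4 * |P.del j| := by
      have := bt_sqrt_bd hc j x v (-(4 * P.del j)) (by rw [abs_neg, abs_mul]; norm_num)
      rwa [← sub_eq_add_neg] at this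
    exact bt_term (by linarith) hlp h1 h2
  · rw [abs_zero]
    have : 0 ≤ P.c := by linarith only [hc]
    (clear * - hc hl hw; positivity)

theorem bt_qq_bdd (hc : 1 ≤ P.c) (hl : 0 < P.lam) (n : ℕ) (v : V) :
    ∃ C : ℝ, ∀ τ, 0 ≤ τ → ∀ x, |qq P n τ x v| ≤ C := by
  refine ⟨∑ j ∈ Finset.Icc P.j0 n, |(1 + 1 / 100 : ℝ)| * (2 * Real.pi) *
    (P.c / P.lam ^ ((j : ℝ) + 1 - gg / 2)) * (‖v‖ + P.w + 1 + 4 * |P.del j|), ?_⟩
  intro τ hτ x
  unfold qq
  refine (Finset.abs_sum_le_sum_abs _ _).trans (Finset.sum_le_sum fun j _ => ?_)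
  have hw : 0 ≤ P.w := by unfold Par.w; positivity
  have hlp : 0 < P.lam ^ ((j : ℝ) + 1 - gg / 2) := Real.rpow_pos_of_pos hl _
  split_ifs with h
  · have h1 := bt_cell_ge hc hτ h
    have h2 : |√(SS P (sg j) x v) + 4 * P.del j| ≤ ‖v‖ + P.w + 1 + 4 * |P.del j| :=
      bt_sqrt_bd hc j x v (4 * P.del j) (by rw [abs_mul]; norm_num)
    exact bt_term (by (clear * - hc; linarith)) hlp h1 h2
  · rw [abs_zero]
    have : 0 ≤ P.c := by (clear * - hc; linarith)
    (clear * - hc hl hw; positivity)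

theorem bt_ss_pos (hc : 1 ≤ P.c) (hl : 0 < P.lam) (n : ℕ) : 0 < P.ss n := by
  unfold Par.ss Par.w
  positivity

theorem bt_TT_pos (hc : 1 ≤ P.c) (hl : 0 < P.lam) (n : ℕ) {t : ℝ} (ht : 0 ≤ t) :
    0 < P.TT n t := by
  have := bt_ss_pos hc hl n
  unfold Par.TT
  linarith

theorem bt_wt_cont (hc : 1 ≤ P.c) (hl : 0 < P.lam) (n : ℕ) {te : ℝ} (hte : 0 ≤ te) (x : T3)
    (v : V) : ContinuousOn (fun t => wt P n te t (mv x v t) v) (Icc 0 te) := by
  set p : ℝ → ℝ := fun τ => pp P n τ (mv x v τ) v with hp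
  set k : ℝ → ℝ := fun s => qq P n s (mv x v s) v + P.Lam / P.TT n s with hk
  have mp : Measurable p := bt_meas_pp P n x v
  have mT : Measurable fun τ : ℝ => P.TT n τ := by unfold Par.TT; fun_prop
  have mk : Measurable k := (bt_meas_qq P n x v).add (measurable_const.div mT)
  obtain ⟨Cp, hCp⟩ := bt_pp_bdd hc hl n v
  obtain ⟨Cq, hCq⟩ := bt_qq_bdd hc hl n v
  have hss := bt_ss_pos hc hl n
  have hkb : ∀ τ, 0 ≤ τ → |k τ| ≤ Cq + |P.Lam| / P.ss n := by
    intro τ hτ
    refine (abs_add_le _ _).trans (add_le_add (hCq τ hτ _) ?_)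
    rw [abs_div]
    have : P.ss n ≤ |P.TT n τ| := by
      refine le_trans ?_ (le_abs_self _)
      unfold Par.TT; linarith only [hτ]
    exact div_le_div_of_nonneg_left (abs_nonneg _) hss this
  have hii : ∀ f : ℝ → ℝ, Measurable f → (∃ C : ℝ, ∀ τ ∈ Icc 0 te, |f τ| ≤ C) →
      ∀ a ∈ Icc 0 te, ∀ b ∈ Icc 0 te, IntervalIntegrable f volume a b := by
    intro f mf ⟨C, hC⟩ a ha b hb
    have h0 : IntegrableOn f (Icc 0 te) := by
      refine Measure.integrableOn_of_bounded (M := C) (by simp only [Real.volume_Icc, sub_zero, ne_eq, ENNReal.ofReal_ne_top, not_false_eq_true]) mf.aestronglyMeasurable ?_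
      exact (ae_restrict_iff' measurableSet_Icc).2 (Eventually.of_forall fun τ hτ => hC τ hτ)
    exact (h0.mono_set (uIcc_subset_Icc ha hb)).intervalIntegrable
  have hik := hii k mk ⟨_, fun τ hτ => hkb τ hτ.1⟩
  set Kp : ℝ → ℝ := fun t => ∫ s in (0 : ℝ)..t, k s with hKp
  have hKc : ContinuousOn Kp (Icc 0 te) := by
    have h0 : IntegrableOn k (uIcc 0 te) := by
      have := hik 0 ⟨le_rfl, hte⟩ te ⟨hte, le_rfl⟩
      rwa [intervalIntegrable_iff', ] at this
    have := intervalIntegral.continuousOn_primitive_interval h0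
    rwa [uIcc_of_le hte] at this
  -- the integrand
  set f : ℝ → ℝ := fun τ => (Icc 0 te).indicator (fun τ => p τ * Real.exp (-Kp τ)) τ with hf
  have hfi : ∀ a ∈ Icc 0 te, ∀ b ∈ Icc 0 te, IntervalIntegrable
      (fun τ => p τ * Real.exp (-Kp τ)) volume a b := by
    intro a ha b hb
    have h1 := hii p mp ⟨Cp, fun τ hτ => hCp τ hτ.1 _⟩ a ha b hb
    refine h1.mul_continuousOn ?_
    have h2 : ContinuousOn Kp (uIcc a b) := hKc.mono (uIcc_subset_Icc ha hb)
    exact Real.continuous_exp.comp_continuousOn h2.neg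
  have hfc : ContinuousOn (fun t => ∫ τ in t..te, p τ * Real.exp (-Kp τ)) (Icc 0 te) := by
    have h0 : IntegrableOn (fun τ => p τ * Real.exp (-Kp τ)) (uIcc 0 te) := by
      have := hfi 0 ⟨le_rfl, hte⟩ te ⟨hte, le_rfl⟩
      rwa [intervalIntegrable_iff'] at this
    have h1 := intervalIntegral.continuousOn_primitive_interval h0
    rw [uIcc_of_le hte] at h1
    have h2 : ContinuousOn (fun t => (∫ τ in (0 : ℝ)..te, p τ * Real.exp (-Kp τ)) -
        ∫ τ in (0 : ℝ)..t, p τ * Real.exp (-Kp τ)) (Icc 0 te) := continuousOn_const.sub h1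
    refine h2.congr fun t ht => ?_
    simp only
    rw [intervalIntegral.integral_interval_sub_left (hfi 0 ⟨le_rfl, hte⟩ te ⟨hte, le_rfl⟩)
      (hfi 0 ⟨le_rfl, hte⟩ t ht)]
  have hmain : ContinuousOn (fun t => Real.exp (Kp t) * ∫ τ in t..te, p τ * Real.exp (-Kp τ))
      (Icc 0 te) := (Real.continuous_exp.comp_continuousOn hKc).mul hfc
  refine hmain.congr fun t ht => ?_
  simp only
  unfold wt
  rw [← intervalIntegral.integral_const_mul]
  refine intervalIntegral.integral_congr fun τ hτ => ?_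
  rw [uIcc_of_le ht.2] at hτ
  have hτ' : τ ∈ Icc 0 te := ⟨ht.1.trans hτ.1, hτ.2⟩
  rw [mv_mv, add_sub_cancel]
  have e1 : (∫ s in t..τ, (qq P n s (mv (mv x v t) v (s - t)) v + P.Lam / P.TT n s)) =
      Kp τ - Kp t := by
    rw [hKp]
    simp only
    rw [intervalIntegral.integral_interval_sub_left (hik 0 ⟨le_rfl, hte⟩ τ hτ')
      (hik 0 ⟨le_rfl, hte⟩ t ht)]
    refine intervalIntegral.integral_congr fun s _ => ?_
    simp only [mv_mv, add_sub_cancel, hk]
  rw [e1, neg_sub, Real.exp_sub, Real.exp_neg]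
  have := Real.exp_pos (Kp τ)
  field_simp
  rfl

end

/-! ### continuity of the main functional -/

section

variable {P : Par} {CB t0 : ℝ} {n N : ℕ} {κ : ℝ} {F G h : ℝ → T3 → V → ℝ}

theorem bt_int_ball (B R : ℝ) : Integrable fun q : T3 × V =>
    (univ ×ˢ Metric.closedBall (0 : V) R : Set (T3 × V)).indicator (fun _ => B) q := by
  rw [integrable_indicator_iff (MeasurableSet.univ.prod measurableSet_closedBall)]
  refine integrableOn_const ?_
  rw [Measure.volume_eq_prod, Measure.prod_prod]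
  exact ENNReal.mul_ne_top (measure_ne_top _ _) measure_closedBall_lt_top.ne

theorem bt_NN_cont (hc : 1 ≤ P.c) (hl : 0 < P.lam) (hN : 3 ≤ N)
    (hs : Split P CB t0 n N κ F G h) {te T : ℝ} (hT : T ≤ te) (hte : 0 ≤ te)
    (mw : Measurable fun p : ℝ × T3 × V => wt P n te p.1 p.2.1 p.2.2)
    (hw : ∀ t ∈ Icc 0 te, ∀ x v, 0 ≤ wt P n te t x v ∧ wt P n te t x v ≤ 1) :
    ContinuousOn (fun t => NN P n te h t) (Icc 0 T) := by
  obtain ⟨B, hB, hb, hlip⟩ := bt_lip hN hs T
  have hint := bt_int_ball B N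
  have e : ∀ t, NN P n te h t =
      ∫ q : T3 × V, wt P n te t (mv q.1 q.2 t) q.2 * h t (mv q.1 q.2 t) q.2 := by
    intro t
    unfold NN
    exact ((measurePreserving_flow t).integral_comp (measurableEmbedding_flow t)
      (fun p : T3 × V => wt P n te t p.1 p.2 * h t p.1 p.2)).symm
  have key : ContinuousOn (fun t => ∫ q : T3 × V, wt P n te t (mv q.1 q.2 t) q.2 *
      h t (mv q.1 q.2 t) q.2) (Icc 0 T) := by
    refine continuousOn_of_dominated (bound := fun q : T3 × V =>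
      (univ ×ˢ Metric.closedBall (0 : V) N : Set (T3 × V)).indicator (fun _ => B) q)
      ?_ ?_ hint ?_
    · intro t _
      have e1 : Measurable fun q : T3 × V => (t, mv q.1 q.2 t, q.2) :=
        measurable_const.prodMk (measurable_flow t)
      exact ((mw.comp e1).mul (hs.meash.comp e1)).aestronglyMeasurable
    · intro t ht
      refine Eventually.of_forall fun q => ?_
      have h1 := hw t ⟨ht.1, ht.2.trans hT⟩ (mv q.1 q.2 t) q.2
      have h2 := hb t ht (mv q.1 q.2 t) q.2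
      have h3 := hs.nonnegh t (mv q.1 q.2 t) q.2
      by_cases hq : ‖q.2‖ ≤ N
      · rw [indicator_of_mem (by simp only [mem_prod, mem_univ, Metric.mem_closedBall, dist_zero_right, hq, and_self]), Real.norm_eq_abs,
          abs_of_nonneg (mul_nonneg h1.1 h3)]
        calc _ ≤ 1 * B := mul_le_mul h1.2 h2.1 h3 zero_le_one
          _ = B := one_mul B
      · rw [h2.2 (not_le.1 hq), mul_zero, norm_zero]
        exact indicator_nonneg (fun _ _ => hB) q
    · refine Eventually.of_forall fun q => ?_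
      have h1 := (bt_wt_cont hc hl n hte q.1 q.2).mono (Icc_subset_Icc_right hT)
      refine h1.mul ?_
      rw [Metric.continuousOn_iff]
      intro s hs' δ hδ
      refine ⟨δ / (B + 1), by positivity, fun t ht hd => ?_⟩
      rw [Real.dist_eq] at hd ⊢
      have h2 : |h t (mv q.1 q.2 t) q.2 - h s (mv q.1 q.2 s) q.2| ≤ B * |t - s| := by
        rcases le_total s t with hst | hst
        · rw [abs_of_nonneg (sub_nonneg.2 hst)]
          exact hlip s hs' t ⟨hst, ht.2⟩ q.1 q.2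
        · rw [abs_sub_comm, abs_sub_comm t s, abs_of_nonneg (sub_nonneg.2 hst)]
          exact hlip t ht s ⟨hst, hs'.2⟩ q.1 q.2
      have h3 : |t - s| * (B + 1) < δ := (lt_div_iff₀ (by positivity)).mp hd
      linarith only [abs_nonneg (t - s), h3, h2]
  exact key.congr fun t _ => e t

end

end Vale.Agent.P140.NU
end
end

section

open MeasureTheory Set Filter
open scoped ENNReal Topology NNReal

noncomputable section

namespace Vale.Agent.P140.DL

theorem s3_log_two_pi_le : Real.log (2 * Real.pi) ≤ 2 := by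
  rw [Real.log_le_iff_le_exp (by positivity)]
  have h1 : Real.exp 2 = Real.exp 1 * Real.exp 1 := by rw [← Real.exp_add]; norm_num
  have h2 := Real.exp_one_gt_d9
  have h3 := Real.pi_lt_d2
  rw [h1]
  nlinarith

theorem s3_abs_log_Maxw_le (v : V) : |Real.log (Maxw v)| ≤ 3 + ‖v‖ ^ 2 / 2 := by
  rw [log_Maxw, abs_le]
  have h1 := s3_log_two_pi_le
  have h2 : 0 ≤ Real.log (2 * Real.pi) := by
    apply Real.log_nonneg
    have := Real.pi_gt_three
    linarith only [this]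
  have h3 := sq_nonneg ‖v‖
  constructor <;> linarith

theorem s3_abs_log_le_entD {p m : ℝ} (hp : 0 ≤ p) (hm : 0 < m) :
    p * |Real.log (p / m)| ≤ entD p m + p + m := by
  rcases hp.eq_or_lt with h | h
  · subst h
    have := entD_nonneg le_rfl hm
    simp only [zero_mul, add_zero]
    linarith
  · unfold entD
    rcases le_total 0 (Real.log (p / m)) with h1 | h1
    · rw [abs_of_nonneg h1]
      linarith only [hm]
    · rw [abs_of_nonpos h1]
      have h2 := Real.one_sub_inv_le_log_of_pos (div_pos h hm)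
      rw [inv_div] at h2
      have h3 : p * (1 - m / p) ≤ p * Real.log (p / m) := mul_le_mul_of_nonneg_left h2 hp
      have h4 : p * (1 - m / p) = p - m := by
        field_simp
      linarith only [h, h3, h4]

theorem s3_size_pointwise {p : ℝ} (hp : 0 ≤ p) (v : V) :
    p * (1 + ‖v‖ ^ 2 + |Real.log p|) ≤ entD p (Maxw v) + 5 * ((1 + ‖v‖ ^ 2) * p) + Maxw v := by
  have hm := Maxw_pos v
  have h1 := s3_abs_log_le_entD hp hm
  have h2 := s3_abs_log_Maxw_le v
  have h3 : p * |Real.log p| ≤ p * |Real.log (p / Maxw v)| + p * |Real.log (Maxw v)| := by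
    rcases hp.eq_or_lt with h | h
    · subst h
      simp
    · rw [← mul_add]
      apply mul_le_mul_of_nonneg_left _ hp
      rw [Real.log_div h.ne' hm.ne']
      have := abs_add_le (Real.log p - Real.log (Maxw v)) (Real.log (Maxw v))
      rwa [sub_add_cancel] at this
  have h4 : p * |Real.log (Maxw v)| ≤ p * (3 + ‖v‖ ^ 2 / 2) := mul_le_mul_of_nonneg_left h2 hp
  have h5 : 0 ≤ p * ‖v‖ ^ 2 := mul_nonneg hp (sq_nonneg _)
  linarith only [h5, h4, h3, h1]

/-- relative entropy and second moment control `∫ f (1 + |v|² + |log f|)` -/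
theorem bounded_of_relEntropy (C : ℝ≥0) : ∃ C' : ℝ≥0, ∀ f : T3 → V → ℝ,
    (Measurable fun p : T3 × V => f p.1 p.2) → (∀ x v, 0 ≤ f x v) →
    relEntropy f ≤ C → wInt psi2 f ≤ C →
    ∫⁻ p : T3 × V, ENNReal.ofReal
      (f p.1 p.2 * (1 + ‖p.2‖ ^ 2 + |Real.log (f p.1 p.2)|)) ≤ C' := by
  refine ⟨C + 5 * C + (∫⁻ p : T3 × V, ENNReal.ofReal (Maxw p.2)).toNNReal, ?_⟩
  intro f mf hf he h2
  have m1 : Measurable fun p : T3 × V => ENNReal.ofReal (entD (f p.1 p.2) (Maxw p.2)) :=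
    (measurable_entD mf (measurable_Maxw.comp measurable_snd)).ennreal_ofReal
  have m2 : Measurable fun p : T3 × V => psi2 p.2 * ENNReal.ofReal (f p.1 p.2) :=
    (measurable_psi2.comp measurable_snd).mul mf.ennreal_ofReal
  calc ∫⁻ p : T3 × V, ENNReal.ofReal (f p.1 p.2 * (1 + ‖p.2‖ ^ 2 + |Real.log (f p.1 p.2)|))
      ≤ ∫⁻ p : T3 × V, (ENNReal.ofReal (entD (f p.1 p.2) (Maxw p.2))
          + 5 * (psi2 p.2 * ENNReal.ofReal (f p.1 p.2)) + ENNReal.ofReal (Maxw p.2)) := by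
        apply lintegral_mono
        intro p
        simp only
        have h := s3_size_pointwise (hf p.1 p.2) p.2
        refine (ENNReal.ofReal_le_ofReal h).trans ?_
        have e1 : (5 : ℝ≥0∞) * (psi2 p.2 * ENNReal.ofReal (f p.1 p.2))
            = ENNReal.ofReal (5 * ((1 + ‖p.2‖ ^ 2) * f p.1 p.2)) := by
          have h5 : (0 : ℝ) ≤ 1 + ‖p.2‖ ^ 2 := by (clear * -; positivity)
          unfold psi2
          rw [ENNReal.ofReal_mul (p := 5) (by norm_num), ENNReal.ofReal_mul h5]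
          simp
        rw [e1]
        refine ENNReal.ofReal_add_le.trans ?_
        gcongr
        exact ENNReal.ofReal_add_le
    _ = relEntropy f + 5 * wInt psi2 f + ∫⁻ p : T3 × V, ENNReal.ofReal (Maxw p.2) := by
        have m3 : Measurable fun p : T3 × V => ENNReal.ofReal (entD (f p.1 p.2) (Maxw p.2))
            + 5 * (psi2 p.2 * ENNReal.ofReal (f p.1 p.2)) := m1.add (m2.const_mul 5)
        rw [lintegral_add_left m3, lintegral_add_left m1,
          lintegral_const_mul _ m2, relEntropy_eq mf]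
        rfl
    _ ≤ _ := by
        push_cast
        rw [ENNReal.coe_toNNReal lintegral_Maxw_ne_top]
        gcongr

theorem s3_norm_mul_Maxw_le (v : V) :
    ‖v‖ * Maxw v ≤ Mr ((2 * Real.pi) ^ (-(3 / 2) : ℝ)) (1 / 8) 0 v := by
  unfold Maxw Mr
  rw [sub_zero]
  have h1 : ‖v‖ ≤ Real.exp (‖v‖ ^ 2 / 4) := by
    have := Real.add_one_le_exp (‖v‖ ^ 2 / 4)
    linarith only [sq_nonneg (‖v‖ - 2), this]
  have h2 : Real.exp (‖v‖ ^ 2 / 4) * Real.exp (-(‖v‖ ^ 2 / 2)) = Real.exp (-(2 * (1 / 8) * ‖v‖ ^ 2)) := by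
    rw [← Real.exp_add]
    congr 1
    ring
  rw [← h2]
  have h3 : (0 : ℝ) < (2 * Real.pi) ^ (-(3 / 2) : ℝ) := by positivity
  have h4 := Real.exp_pos (-(‖v‖ ^ 2 / 2))
  calc ‖v‖ * ((2 * Real.pi) ^ (-(3 / 2) : ℝ) * Real.exp (-(‖v‖ ^ 2 / 2)))
      = (2 * Real.pi) ^ (-(3 / 2) : ℝ) * (‖v‖ * Real.exp (-(‖v‖ ^ 2 / 2))) := by ring
    _ ≤ _ := by gcongr

theorem s3_lintegral_norm_Maxw : ∫⁻ v : V, ENNReal.ofReal ‖v‖ * ENNReal.ofReal (Maxw v) ≠ ⊤ := by
  have h1 : ∫⁻ v : V, ENNReal.ofReal ‖v‖ * ENNReal.ofReal (Maxw v)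
      ≤ ∫⁻ v : V, ENNReal.ofReal (Mr ((2 * Real.pi) ^ (-(3 / 2) : ℝ)) (1 / 8) 0 v) := by
    apply lintegral_mono
    intro v
    simp only
    rw [← ENNReal.ofReal_mul (norm_nonneg _)]
    exact ENNReal.ofReal_le_ofReal (s3_norm_mul_Maxw_le v)
  refine ne_top_of_le_ne_top ?_ h1
  simp only [ofReal_Mr (show (0 : ℝ) < (2 * Real.pi) ^ (-(3 / 2) : ℝ) by positivity)]
  have h2 : ∫⁻ v : V, trv 0 (MxE ((2 * Real.pi) ^ (-(3 / 2) : ℝ)) (1 / 8)) v
      = ∫⁻ v : V, MxE ((2 * Real.pi) ^ (-(3 / 2) : ℝ)) (1 / 8) v :=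
    lintegral_sub_right_eq_self (MxE ((2 * Real.pi) ^ (-(3 / 2) : ℝ)) (1 / 8)) 0
  rw [h2]
  exact lintegral_MxE_ne_top (by norm_num)

theorem s3_lintegral_MaxwV : ∫⁻ v : V, ENNReal.ofReal (Maxw v) ≠ ⊤ := by
  have h := lintegral_Maxw_ne_top
  rwa [lintegral_T3_V measurable_Maxw.ennreal_ofReal] at h

/-- pointwise bound of the renormalized loss term -/
theorem s3_loss_div_le {f : V → ℝ} (mf : Measurable f) (hf : ∀ v, 0 ≤ f v) (v : V) :
    loss f v / ENNReal.ofReal (1 + f v / Maxw v)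
      ≤ ∫⁻ w, ∫⁻ o, kk v w o * (ENNReal.ofReal (Maxw v) * eR f w) ∂surf := by
  have hm := Maxw_pos v
  have hd : 0 ≤ f v / Maxw v := div_nonneg (hf v) hm.le
  have hD : ENNReal.ofReal (1 + f v / Maxw v) ≠ 0 := by
    rw [Ne, ENNReal.ofReal_eq_zero, not_le]
    linarith
  rw [loss_eq hf]
  rw [ENNReal.div_le_iff hD ENNReal.ofReal_ne_top]
  have m2 : Measurable fun z : V × V × S2 => kk z.1 z.2.1 z.2.2 * (ENNReal.ofReal (Maxw z.1) * eR f z.2.1) :=
    measurable_kk.mul ((measurable_Maxw.comp measurable_fst).ennreal_ofReal.mul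
      ((measurable_eR mf).comp measurable_snd.fst))
  rw [← lintegral_mul_const _ (measurable_double m2 v)]
  apply lintegral_mono
  intro w
  simp only
  rw [← lintegral_mul_const _ (measurable_single m2 v w)]
  apply lintegral_mono
  intro o
  simp only
  have h1 : eR f v ≤ ENNReal.ofReal (Maxw v) * ENNReal.ofReal (1 + f v / Maxw v) := by
    unfold eR
    rw [← ENNReal.ofReal_mul hm.le]
    apply ENNReal.ofReal_le_ofReal
    rw [mul_add, mul_div_cancel₀ _ hm.ne']
    linarith only [hm]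
  calc kk v w o * (eR f v * eR f w)
      ≤ kk v w o * ((ENNReal.ofReal (Maxw v) * ENNReal.ofReal (1 + f v / Maxw v)) * eR f w) := by
        (clear * - h1; gcongr)
    _ = _ := by ring

/-- the constant in the bound of the renormalized loss term -/
def s3_KL : ℝ≥0∞ := surf univ * ((∫⁻ v : V, ENNReal.ofReal ‖v‖ * ENNReal.ofReal (Maxw v))
  + ∫⁻ v : V, ENNReal.ofReal (Maxw v))

theorem s3_KL_ne_top : s3_KL ≠ ⊤ :=
  ENNReal.mul_ne_top (measure_ne_top _ _)
    (ENNReal.add_ne_top.mpr ⟨s3_lintegral_norm_Maxw, s3_lintegral_MaxwV⟩)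

theorem s3_loss_v_le {f : V → ℝ} (mf : Measurable f) (hf : ∀ v, 0 ≤ f v) :
    ∫⁻ v, loss f v / ENNReal.ofReal (1 + f v / Maxw v) ≤ s3_KL * ∫⁻ v, psi2 v * eR f v := by
  have h1 : ∫⁻ v, loss f v / ENNReal.ofReal (1 + f v / Maxw v)
      ≤ ∫⁻ v, ∫⁻ w, ∫⁻ o, kk v w o * (ENNReal.ofReal (Maxw v) * eR f w) ∂surf :=
    lintegral_mono fun v => s3_loss_div_le mf hf v
  have h2 := triple_kk_le (a := fun v => ENNReal.ofReal (Maxw v)) (b := eR f)
    measurable_Maxw.ennreal_ofReal (measurable_eR mf)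
  refine (h1.trans h2).trans ?_
  have h3 : ∫⁻ w, eR f w ≤ ∫⁻ v, psi2 v * eR f v := by
    apply lintegral_mono
    intro v
    simp only
    have := psi0_le_psi2 v
    unfold psi0 at this
    calc eR f v = 1 * eR f v := (one_mul _).symm
      _ ≤ _ := by gcongr
  have h4 : ∫⁻ w, ENNReal.ofReal ‖w‖ * eR f w ≤ ∫⁻ v, psi2 v * eR f v := by
    apply lintegral_mono
    intro v
    simp only
    gcongr
    exact norm_le_psi2 v
  unfold s3_KL
  rw [mul_assoc, add_mul]
  gcongr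

theorem s3_iter_prod {H : ℝ × T3 × V → ℝ≥0∞} (hH : Measurable H) (T : ℝ) :
    ∫⁻ p : ℝ × T3 × V in Icc 0 T ×ˢ univ, H p
      = ∫⁻ t in Icc 0 T, ∫⁻ x : T3, ∫⁻ v : V, H (t, x, v) := by
  rw [Measure.volume_eq_prod, ← Measure.prod_restrict, Measure.restrict_univ,
    lintegral_prod _ hH.aemeasurable]
  apply lintegral_congr
  intro t
  have h : Measurable fun p : T3 × V => H (t, p) := hH.comp measurable_prodMk_left
  rw [Measure.volume_eq_prod, lintegral_prod _ h.aemeasurable]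

theorem s3_wInt_eq_iter {f : T3 → V → ℝ} (mf : Measurable fun p : T3 × V => f p.1 p.2) :
    wInt psi2 f = ∫⁻ x, ∫⁻ v, psi2 v * eR (f x) v := by
  have m2 : Measurable fun p : T3 × V => psi2 p.2 * ENNReal.ofReal (f p.1 p.2) :=
    (measurable_psi2.comp measurable_snd).mul mf.ennreal_ofReal
  unfold wInt
  rw [Measure.volume_eq_prod, lintegral_prod _ m2.aemeasurable]
  rfl

theorem s3_measurable_slab {F : ℝ → T3 → V → ℝ}
    (mF : Measurable fun p : ℝ × T3 × V => F p.1 p.2.1 p.2.2) (t : ℝ) :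
    Measurable fun p : T3 × V => F t p.1 p.2 :=
  mF.comp (by fun_prop : Measurable fun p : T3 × V => ((t, p) : ℝ × T3 × V))

theorem s3_loss_xv_le {F : ℝ → T3 → V → ℝ}
    (mF : Measurable fun p : ℝ × T3 × V => F p.1 p.2.1 p.2.2) (hF : ∀ t x v, 0 ≤ F t x v) (t : ℝ) :
    ∫⁻ x, ∫⁻ v, loss (F t x) v / ENNReal.ofReal (1 + F t x v / Maxw v)
      ≤ s3_KL * wInt psi2 (F t) := by
  have m2 : Measurable fun p : T3 × V => psi2 p.2 * ENNReal.ofReal (F t p.1 p.2) :=
    (measurable_psi2.comp measurable_snd).mul (s3_measurable_slab mF t).ennreal_ofReal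
  rw [s3_wInt_eq_iter (s3_measurable_slab mF t), ← lintegral_const_mul' _ _ s3_KL_ne_top]
  exact lintegral_mono fun x => s3_loss_v_le (measurable_slice mF t x) (hF t x)

theorem s3_measurable_loss_div {F : ℝ → T3 → V → ℝ}
    (mF : Measurable fun p : ℝ × T3 × V => F p.1 p.2.1 p.2.2) :
    Measurable fun p : ℝ × T3 × V =>
      loss (F p.1 p.2.1) p.2.2 / ENNReal.ofReal (1 + F p.1 p.2.1 p.2.2 / Maxw p.2.2) :=
  (measurable_loss_st mF).div ((mF.div (measurable_Maxw.comp measurable_snd.snd)).const_add 1).ennreal_ofReal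

theorem s3_measurable_gain_div {F : ℝ → T3 → V → ℝ}
    (mF : Measurable fun p : ℝ × T3 × V => F p.1 p.2.1 p.2.2) :
    Measurable fun p : ℝ × T3 × V =>
      gain (F p.1 p.2.1) p.2.2 / ENNReal.ofReal (1 + F p.1 p.2.1 p.2.2 / Maxw p.2.2) :=
  (measurable_gain_st mF).div ((mF.div (measurable_Maxw.comp measurable_snd.snd)).const_add 1).ennreal_ofReal

/-- the loss term is integrable after renormalization -/
theorem loss_int_of {F : ℝ → T3 → V → ℝ} (mF : Measurable fun p : ℝ × T3 × V => F p.1 p.2.1 p.2.2)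
    (hF : ∀ t x v, 0 ≤ F t x v) {T : ℝ} {C : ℝ≥0} (h2 : ∀ t ∈ Icc 0 T, wInt psi2 (F t) ≤ C) :
    ∫⁻ p : ℝ × T3 × V in Icc 0 T ×ˢ univ,
      loss (F p.1 p.2.1) p.2.2 / ENNReal.ofReal (1 + F p.1 p.2.1 p.2.2 / Maxw p.2.2) < ⊤ := by
  rw [s3_iter_prod (s3_measurable_loss_div mF)]
  calc ∫⁻ t in Icc 0 T, ∫⁻ x : T3, ∫⁻ v : V,
        loss (F t x) v / ENNReal.ofReal (1 + F t x v / Maxw v)
      ≤ ∫⁻ t in Icc 0 T, s3_KL * C := by
        apply setLIntegral_mono measurable_const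
        intro t ht
        refine (s3_loss_xv_le mF hF t).trans ?_
        gcongr
        exact h2 t ht
    _ = s3_KL * C * volume (Icc 0 T) := by rw [setLIntegral_const]
    _ < ⊤ := by
        rw [Real.volume_Icc]
        exact ENNReal.mul_lt_top (ENNReal.mul_lt_top s3_KL_ne_top.lt_top ENNReal.coe_lt_top)
          ENNReal.ofReal_lt_top

theorem s3_two_div_log_eight : ENNReal.ofReal (2 / Real.log 8) ≤ 1 := by
  rw [← ENNReal.ofReal_one]
  apply ENNReal.ofReal_le_ofReal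
  have h1 : (2 : ℝ) ≤ Real.log 8 := by
    rw [Real.le_log_iff_exp_le (by norm_num)]
    have h1 : Real.exp 2 = Real.exp 1 * Real.exp 1 := by rw [← Real.exp_add]; norm_num
    have h2 := Real.exp_one_lt_d9
    have h3 := Real.exp_pos 1
    rw [h1]
    nlinarith only [h2, h3]
  rw [div_le_one (by linarith only [h1])]
  exact h1

/-- the density of the dissipation in the first velocity -/
def s3_eDiss (f : V → ℝ) (v : V) : ℝ≥0∞ := ∫⁻ w : V, ∫⁻ o : S2,
  ENNReal.ofReal |relA v w o| * dissDensity (f (post v w o) * f (postStar v w o)) (f v * f w) ∂surf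

theorem s3_gain_le_loss {f : V → ℝ} (mf : Measurable f) (hf : ∀ v, 0 ≤ f v) (v : V) :
    gain f v ≤ 8 * loss f v + s3_eDiss f v := by
  have m0 : Measurable fun z : V × V × S2 => kk z.1 z.2.1 z.2.2 * (eR f z.1 * eR f z.2.1) :=
    measurable_kk.mul (((measurable_eR mf).comp measurable_fst).mul
      ((measurable_eR mf).comp measurable_snd.fst))
  have m1 : Measurable fun z : V × V × S2 => 8 * (kk z.1 z.2.1 z.2.2 * (eR f z.1 * eR f z.2.1)) :=
    m0.const_mul 8
  rw [gain_eq hf, loss_eq hf]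
  unfold s3_eDiss
  rw [← lintegral_const_mul _ (measurable_double m0 v)]
  have e1 : (fun w => 8 * ∫⁻ o, kk v w o * (eR f v * eR f w) ∂surf)
      = fun w => ∫⁻ o, 8 * (kk v w o * (eR f v * eR f w)) ∂surf := by
    funext w
    rw [lintegral_const_mul _ (measurable_single m0 v w)]
  rw [e1, ← lintegral_add_left (measurable_double m1 v)]
  apply lintegral_mono
  intro w
  simp only
  rw [← lintegral_add_left (measurable_single m1 v w)]
  apply lintegral_mono
  intro o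
  simp only
  have h := ofReal_le_diss (p := f (post v w o) * f (postStar v w o)) (q := f v * f w) (K := 8)
    (mul_nonneg (hf _) (hf _)) (mul_nonneg (hf _) (hf _)) (by norm_num)
  have h3 : eR f (post v w o) * eR f (postStar v w o)
      = ENNReal.ofReal (f (post v w o) * f (postStar v w o)) := by
    unfold eR
    rw [ENNReal.ofReal_mul (hf _)]
  have h4 : ENNReal.ofReal (8 * (f v * f w)) = 8 * (eR f v * eR f w) := by
    unfold eR
    rw [ENNReal.ofReal_mul (by norm_num), ENNReal.ofReal_mul (hf _)]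
    simp
  rw [h3]
  rw [h4] at h
  calc kk v w o * ENNReal.ofReal (f (post v w o) * f (postStar v w o))
      ≤ kk v w o * (8 * (eR f v * eR f w) + 1 * dissDensity (f (post v w o) * f (postStar v w o)) (f v * f w)) := by
        gcongr
        refine h.trans ?_
        gcongr
        exact s3_two_div_log_eight
    _ = _ := by
        unfold kk
        ring

theorem s3_gain_div_le {f : V → ℝ} (mf : Measurable f) (hf : ∀ v, 0 ≤ f v) (v : V) :
    gain f v / ENNReal.ofReal (1 + f v / Maxw v)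
      ≤ 8 * (loss f v / ENNReal.ofReal (1 + f v / Maxw v)) + s3_eDiss f v := by
  have hm := Maxw_pos v
  have hd : 0 ≤ f v / Maxw v := div_nonneg (hf v) hm.le
  have hD : 1 ≤ ENNReal.ofReal (1 + f v / Maxw v) := by
    rw [← ENNReal.ofReal_one]
    apply ENNReal.ofReal_le_ofReal
    linarith
  calc gain f v / ENNReal.ofReal (1 + f v / Maxw v)
      ≤ (8 * loss f v + s3_eDiss f v) / ENNReal.ofReal (1 + f v / Maxw v) := by
        gcongr
        exact s3_gain_le_loss mf hf v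
    _ = 8 * (loss f v / ENNReal.ofReal (1 + f v / Maxw v))
        + s3_eDiss f v / ENNReal.ofReal (1 + f v / Maxw v) := by
        rw [ENNReal.add_div, mul_div_assoc]
    _ ≤ _ := by
        gcongr
        apply ENNReal.div_le_of_le_mul
        calc s3_eDiss f v = s3_eDiss f v * 1 := (mul_one _).symm
          _ ≤ _ := by (clear * - hD; gcongr)

theorem s3_gain_xv_le {F : ℝ → T3 → V → ℝ}
    (mF : Measurable fun p : ℝ × T3 × V => F p.1 p.2.1 p.2.2) (hF : ∀ t x v, 0 ≤ F t x v) (t : ℝ) :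
    ∫⁻ x, ∫⁻ v, gain (F t x) v / ENNReal.ofReal (1 + F t x v / Maxw v)
      ≤ 8 * (s3_KL * wInt psi2 (F t)) + 4 * dissipation (F t) := by
  have m0 : Measurable fun p : T3 × V =>
      loss (F t p.1) p.2 / ENNReal.ofReal (1 + F t p.1 p.2 / Maxw p.2) :=
    (measurable_loss_slice mF t).div
      (((s3_measurable_slab mF t).div (measurable_Maxw.comp measurable_snd)).const_add 1).ennreal_ofReal
  have e4 : 4 * dissipation (F t) = ∫⁻ x, ∫⁻ v, s3_eDiss (F t x) v := by
    unfold dissipation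
    rw [← mul_assoc, one_div, ENNReal.mul_inv_cancel (by norm_num) (by norm_num), one_mul]
    rfl
  have m1 : Measurable fun x : T3 => ∫⁻ v, loss (F t x) v / ENNReal.ofReal (1 + F t x v / Maxw v) :=
    m0.lintegral_prod_right'
  calc ∫⁻ x, ∫⁻ v, gain (F t x) v / ENNReal.ofReal (1 + F t x v / Maxw v)
      ≤ ∫⁻ x, (8 * (∫⁻ v, loss (F t x) v / ENNReal.ofReal (1 + F t x v / Maxw v))
          + ∫⁻ v, s3_eDiss (F t x) v) := by
        apply lintegral_mono
        intro x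
        simp only
        have m2 : Measurable fun v => loss (F t x) v / ENNReal.ofReal (1 + F t x v / Maxw v) :=
          (measurable_lossV (measurable_slice mF t x) (hF t x)).div
            (((measurable_slice mF t x).div measurable_Maxw).const_add 1).ennreal_ofReal
        rw [← lintegral_const_mul _ m2, ← lintegral_add_left (m2.const_mul 8)]
        exact lintegral_mono fun v => s3_gain_div_le (measurable_slice mF t x) (hF t x) v
    _ = 8 * (∫⁻ x, ∫⁻ v, loss (F t x) v / ENNReal.ofReal (1 + F t x v / Maxw v))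
        + ∫⁻ x, ∫⁻ v, s3_eDiss (F t x) v := by
        rw [lintegral_add_left (m1.const_mul 8), lintegral_const_mul _ m1]
    _ ≤ _ := by
        rw [e4]
        gcongr
        exact s3_loss_xv_le mF hF t

/-- the gain term is integrable after renormalization, by the entropy dissipation bound -/
theorem gain_int_of {F : ℝ → T3 → V → ℝ} (mF : Measurable fun p : ℝ × T3 × V => F p.1 p.2.1 p.2.2)
    (hF : ∀ t x v, 0 ≤ F t x v) {T : ℝ} {C : ℝ≥0} (h2 : ∀ t ∈ Icc 0 T, wInt psi2 (F t) ≤ C)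
    (hd : ∫⁻ s in Ioc 0 T, dissipation (F s) < ⊤) :
    ∫⁻ p : ℝ × T3 × V in Icc 0 T ×ˢ univ,
      gain (F p.1 p.2.1) p.2.2 / ENNReal.ofReal (1 + F p.1 p.2.1 p.2.2 / Maxw p.2.2) < ⊤ := by
  rw [s3_iter_prod (s3_measurable_gain_div mF)]
  calc ∫⁻ t in Icc 0 T, ∫⁻ x : T3, ∫⁻ v : V,
        gain (F t x) v / ENNReal.ofReal (1 + F t x v / Maxw v)
      ≤ ∫⁻ t in Icc 0 T, (8 * (s3_KL * C) + 4 * dissipation (F t)) := by
        apply setLIntegral_mono' measurableSet_Icc
        intro t ht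
        refine (s3_gain_xv_le mF hF t).trans ?_
        gcongr
        exact h2 t ht
    _ = 8 * (s3_KL * C) * volume (Icc 0 T) + 4 * ∫⁻ s in Ioc 0 T, dissipation (F s) := by
        rw [lintegral_add_left measurable_const, setLIntegral_const,
          lintegral_const_mul' _ _ (by norm_num), restrict_Ioc_eq_restrict_Icc]
    _ < ⊤ := by
        rw [Real.volume_Icc]
        refine ENNReal.add_lt_top.mpr ⟨?_, ENNReal.mul_lt_top (by norm_num) hd⟩
        exact ENNReal.mul_lt_top (ENNReal.mul_lt_top (by norm_num)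
          (ENNReal.mul_lt_top s3_KL_ne_top.lt_top ENNReal.coe_lt_top)) ENNReal.ofReal_lt_top

end Vale.Agent.P140.DL
end
end
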