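import Vale.Agent.P140.MathlibUsed
import Vale.Agent.P140.Bd3.B1
import Vale.Agent.P140.Bd3.B15
import Vale.Agent.P140.Bd3.B12
import Vale.Agent.P140.Bd3.B11
import Vale.Agent.P140.Bd3.B14
import Vale.Agent.P140.Bd3.B6
import Vale.Agent.P140.Bd3.B9
import Vale.Agent.P140.Bd3.B3
import Vale.Agent.P140.Bd3.B7
import Vale.Agent.P140.Bd3.B4

set_option linter.all false

attribute [local instance 5000] Vale.Agent.P140.Sc.a01 Vale.Agent.P140.Sc.a02 Vale.Agent.P140.Sc.a03 Vale.Agent.P140.Sc.a04 Vale.Agent.P140.Sc.a05 Vale.Agent.P140.Sc.a06 Vale.Agent.P140.Sc.a07 Vale.Agent.P140.Sc.a08 Vale.Agent.P140.Sc.a09 Vale.Agent.P140.Sc.a10 Vale.Agent.P140.Sc.a11 Vale.Agent.P140.Sc.a12 Vale.Agent.P140.Sc.a13 Vale.Agent.P140.Sc.a14 Vale.Agent.P140.Sc.a15 Vale.Agent.P140.Sc.a16 Vale.Agent.P140.Sc.a17 Vale.Agent.P140.Sc.a18 Vale.Agent.P140.Sc.a19 Vale.Agent.P140.Sc.a20 Vale.Agent.P140.Sc.a21 Vale.Agent.P140.Sc.a22 Vale.Agent.P140.Sc.a23 Vale.Agent.P140.Sc.a24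 Vale.Agent.P140.Sc.a25 Vale.Agent.P140.Sc.a26 Vale.Agent.P140.Sc.a27 Vale.Agent.P140.Sc.a28 Vale.Agent.P140.Sc.a29 Vale.Agent.P140.Sc.a30 Vale.Agent.P140.Sc.a31 Vale.Agent.P140.Sc.a32 Vale.Agent.P140.Sc.a33 Vale.Agent.P140.Sc.r01 Vale.Agent.P140.Sc.r02 Vale.Agent.P140.Sc.r03 Vale.Agent.P140.Sc.r04 Vale.Agent.P140.Sc.r05 Vale.Agent.P140.Sc.r06 Vale.Agent.P140.Sc.r07 Vale.Agent.P140.Sc.r08 Vale.Agent.P140.Sc.r09 Vale.Agent.P140.Sc.r10 Vale.Agent.P140.Sc.r11 Vale.Agent.P140.Sc.r12 Vale.Agent.P140.Sc.r13 Vale.Agent.P140.Sc.r14 Vale.Agent.P140.Sc.r15 Vale.Agent.P140.Sc.r16 Vale.Agent.P140.Sc.r17 Vale.Agent.P140.Sc.r18 Vale.Agent.P140.Sc.a34 Vale.Agent.P140.Sc.a35 Vale.Agent.P140.Sc.a36 Vale.Agent.P140.Sc.a37 Vale.Agent.P140.Sc.a38 Vale.Agent.P140.Sc.a39 Vale.Agent.P140.Sc.a40 Vale.Agent.P140.Sc.a42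

section

/-! Almost everywhere statements along the free flow. -/

open MeasureTheory Set Filter
open scoped ENNReal Topology NNReal

noncomputable section

namespace Vale.Agent.P140

variable {μ : Measure ℝ} [SFinite μ]

theorem ae_prod_of_ae_p {P : ℝ × T3 × V → Prop} (hP : MeasurableSet {q | P q})
    (h : ∀ᵐ p : T3 × V, ∀ᵐ t ∂μ, P (t, p)) : ∀ᵐ q ∂(μ.prod volume), P q := by
  have h1 : ∀ᵐ z ∂((volume : Measure (T3 × V)).prod μ), P (z.2, z.1) := by
    rw [Measure.ae_prod_iff_ae_ae (p := fun z : (T3 × V) × ℝ => P (z.2, z.1)) (measurable_swap hP)]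
    exact h
  exact (Measure.measurePreserving_swap (μ := μ)
      (ν := (volume : Measure (T3 × V)))).quasiMeasurePreserving.ae h1

omit [SFinite μ] in
theorem assoc_symm : MeasurePreserving
    (MeasurableEquiv.prodAssoc (α := ℝ) (β := T3) (γ := V)).symm
    (μ.prod (volume : Measure (T3 × V)))
    ((μ.prod (volume : Measure T3)).prod (volume : Measure V)) := by
  have h := measurePreserving_prodAssoc μ (volume : Measure T3) (volume : Measure V)
  exact h.symm _

omit [SFinite μ] in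
/-- Fubini: from space-time to positions and velocities -/
theorem ae_sX {P : ℝ × T3 × V → Prop} (h : ∀ᵐ q ∂(μ.prod volume), P q) :
    ∀ᵐ z ∂(μ.prod (volume : Measure T3)), ∀ᵐ y : V, P (z.1, z.2, y) := by
  have h1 : MeasurePreserving (MeasurableEquiv.prodAssoc (α := ℝ) (β := T3) (γ := V))
      ((μ.prod (volume : Measure T3)).prod (volume : Measure V))
      (μ.prod (volume : Measure (T3 × V))) :=
    measurePreserving_prodAssoc μ (volume : Measure T3) (volume : Measure V)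
  have h2 := h1.quasiMeasurePreserving.ae h
  exact (Measure.ae_ae_of_ae_prod h2 :)

end Vale.Agent.P140
end
end

section

/-!
P140-NU, module E: weight of newborn particles and of the seed.
-/

open MeasureTheory Set Filter
open scoped ENNReal Topology

noncomputable section

namespace Vale.Agent.P140.NU

open E EW

theorem small_t0E (P : Par) (hP : PE P) :
    ∀ᶠ t0 in 𝓝[>] (0 : ℝ), 0 < t0 ∧ 20 * P.Vg * t0 < P.lam ^ (P.j0 + 1) := by
  have hl := hP.good.lam_pos
  have hV := hP.good.Vg_pos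
  have h1 : Ioo (0 : ℝ) (P.lam ^ (P.j0 + 1) / (20 * P.Vg)) ∈ 𝓝[>] (0 : ℝ) :=
    Ioo_mem_nhdsGT (by positivity)
  filter_upwards [h1] with t0 ht
  refine ⟨ht.1, ?_⟩
  have h2 := ht.2
  rw [lt_div_iff₀ (by positivity)] at h2
  linarith only [h2]

/-- the weight of a newborn particle (E.4, E.5) -/
theorem newborn : EvP fun P => ∀ᶠ t0 in 𝓝[>] (0 : ℝ), ∀ n, P.j0 ≤ n → P.ss n ≤ t0 →
    ∀ t ∈ Icc 0 t0, ∀ x v, ‖v‖ ≤ P.Vg → P.w * P.TT n t ≤ rr x → rr x ≤ P.Vg * P.TT n t →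
    P.m1 / 200 ≤ |dotE x v - P.w| → 60 * vp v ^ 2 / P.c ≤ |dotE x v - P.w| →
    (0 < dotE x v - P.w ∨ P.m2 / 102 ≤ |dotE x v - P.w| ∨
      (|dotE x v - P.w| ≤ 105 / 100 * P.m2 ∧ P.a1 (P.TT n t) ≤ rr x - P.w * P.TT n t ∧
        ∃ s : ℝ, (s = 1 ∨ s = -1) ∧ √(SS P s x v) ≤ 11 / 10 * P.m2)) →
    4 / 5 ≤ wt P n (2 * t0) t x v := by
  refine evP_PE.mono fun P hP => ?_
  filter_upwards [small_t0E P hP] with t0 ht0 n _ hss t ht x v hv h0 h1 hm hvp hcase
  have hN : NB P t0 n t x v := ⟨ht0.1, ht0.2, hss, ht, hv, h0, h1, hm, hvp⟩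
  rcases lt_trichotomy (dotE x v - P.w) 0 with h | h | h
  · rcases hcase with h2 | h2 | h2
    · exact absurd h2 (not_lt.2 h.le)
    · exact hN.caseB hP h h2
    · exact hN.caseC hP h h2.1 h2.2.1 h2.2.2
  · have := hP.good.m1_pos
    rw [h, abs_zero] at hm
    linarith only [this, hm]
  · exact hN.caseA hP h

/-- the weight of the seed -/
theorem wt_seed : EvP fun P => ∀ᶠ t0 in 𝓝[>] (0 : ℝ), ∀ n, P.j0 ≤ n → P.ss n ≤ t0 →
    ∀ x v, seed P n x v ≠ 0 → 1 / 2 ≤ wt P n (2 * t0) 0 x v := by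
  refine evP_PE.mono fun P hP => ?_
  filter_upwards [small_t0E P hP] with t0 ht0 n _ hss x v hseed
  have hE := hP.good
  unfold seed at hseed
  rw [ite_ne_right_iff] at hseed
  obtain ⟨⟨h1, h2, h3, h4, h5⟩, -⟩ := hseed
  have hw := hE.w_le
  have hVg := hE.Vg_ge
  have hs := hE.ss_pos n
  have hT : P.TT n 0 = P.ss n := by unfold Par.TT; ring
  have hw0 := hE.w_pos
  have hc := hE.hc
  have hm := hE.m1_le_m2
  have hm2 := hE.m2_le
  have hm1 := hE.m1_pos
  norm_num at hw hc hm hm2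
  have hd : 1 / 2 ≤ dotE x v - P.w := by linarith only [h3, hw]
  have ha : |dotE x v - P.w| = dotE x v - P.w := abs_of_nonneg (by linarith only [h3, hw])
  have hN : NB P t0 n 0 x v := by
    refine ⟨ht0.1, ht0.2, hss, ⟨le_rfl, ht0.1.le⟩, ?_, ?_, ?_, ?_, ?_⟩
    · norm_num at hVg
      linarith only [h5, hVg]
    · rw [hT]
      nlinarith only [h1, hw, h2]
    · rw [hT]
      norm_num at hVg
      linarith only [mul_nonneg (sub_nonneg.2 h2) (sub_nonneg.2 hVg), mul_nonneg (sub_nonneg.2 h1) (sub_nonneg.2 hVg), h2, h1]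
    · rw [ha]
      linarith only [h3, hw, hm, hm2]
    · rw [ha]
      refine le_trans ?_ hd
      rw [div_le_iff₀ hE.c_pos]
      have h6 : vp v ≤ 3 := (vp_le_norm v).trans h5
      have h7 := vp_nonneg v
      nlinarith only [hc, h6, h7]
  have := hN.caseA hP (by (clear * - h3 hm1 hw hm hm2; linarith))
  linarith only [this]

end Vale.Agent.P140.NU
end
end

section

/-!
P140-NU, module E: average weight of the offspring.
-/

open MeasureTheory Set Filter
open scoped ENNReal Topology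

noncomputable section

namespace Vale.Agent.P140.NU.E

variable {P : Par} (hP : GoodE P)

theorem norm_post_sub_le (v u : V) (ω : S2) : ‖post v u ω - u‖ ≤ ‖v - u‖ := by
  have h : ‖post v u ω - u‖ ^ 2 = ‖v - u‖ ^ 2 - relA v u ω ^ 2 := by
    have e : post v u ω - u = (v - u) - relA v u ω • (ω : V) := by unfold post; abel
    rw [e, norm_sub_sq_real, norm_smul, norm_o, inner_smul_right]
    have : inner ℝ (v - u) (ω : V) = relA v u ω := rfl
    rw [this, Real.norm_eq_abs, mul_one, sq_abs]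
    ring
  apply le_of_sq_le_sq _ (norm_nonneg _)
  rw [h]
  nlinarith only []

theorem vp_add_le (a b : V) : vp (a + b) ≤ vp a + vp b := by
  unfold vp
  exact planar_add_le _ _ _ _

theorem vp_post_le (v u : V) (ω : S2) : vp (post v u ω) ≤ vp u + ‖v - u‖ := by
  have e : post v u ω = u + (post v u ω - u) := by abel
  rw [e]
  refine (vp_add_le _ _).trans ?_
  have h1 := vp_le_norm (post v u ω - u)
  have h2 := norm_post_sub_le v u ω
  have h3 : u + (post v u ω - u) - u = post v u ω - u := by abel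
  linarith only [h1, h2]

include hP

/-- the cells are disjoint -/
theorem cell_unique {γ : ℝ} (hγ : 0 < γ) {j j' : ℕ} {a : ℝ} (h : a ∈ P.cell γ j)
    (h' : a ∈ P.cell γ j') : j = j' := by
  have key : ∀ {i k : ℕ}, i < k → a ∈ P.cell γ i → a ∈ P.cell γ k → False := by
    intro i k hik h1 h2
    have h3 : P.lam ^ ((k : ℝ) + γ) < P.lam ^ ((i : ℝ) + 1 - γ) := by
      apply Real.rpow_lt_rpow_of_exponent_gt hP.lam_pos hP.hl1
      have : (i : ℝ) + 1 ≤ k := by exact_mod_cast hik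
      linarith only [hγ, this]
    linarith only [h3, h1.1, h2.2]
  rcases lt_trichotomy j j' with h1 | h1 | h1
  · exact (key h1 h h').elim
  · exact h1
  · exact (key h1 h' h).elim

/-- elementary facts on a collision with a cold particle -/
theorem coll_facts {n : ℕ} {t : ℝ} (ht : 0 ≤ t) {x : T3} {u v : V} {j : ℕ} (hj : j ≤ n)
    (hx : rr x - P.w * t ∈ P.cell (gg / 2) j) (hu : √(SS P (sg j) x u) ≤ 4 * P.del j) :
    0 < rr x ∧ P.w * P.TT n t ≤ rr x ∧ |dotE x u - P.w| ≤ 4 * P.del j ∧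
    ‖u - uu P (sg j) x‖ ≤ 4 * P.del j ∧ |‖v - u‖ - √(SS P (sg j) x v)| ≤ 4 * P.del j ∧
    ‖u‖ ≤ 3 / 2 := by
  have hg : (0 : ℝ) ≤ gg / 2 := by unfold gg; norm_num
  have h1 := hP.rr_pos_of_cell hg hj ht hx
  have h2 := hP.wT_le_rr hg hj hx
  have h3 := (abs_dotE_sub_le_sqrt_SS P (sg j) x u).trans hu
  have h4 : ‖u - uu P (sg j) x‖ ≤ 4 * P.del j := by
    rwa [sqrt_SS_eq_norm P (sg j) h1] at hu
  refine ⟨h1, h2, h3, h4, ?_, ?_⟩
  · rw [sqrt_SS_eq_norm P (sg j) h1]
    refine (abs_norm_sub_norm_le _ _).trans ?_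
    have : v - u - (v - uu P (sg j) x) = -(u - uu P (sg j) x) := by abel
    rwa [this, norm_neg]
  · have h5 := norm_uu_le P (sg j) h1 hP.w_pos.le
    have h6 : |sg j| = 1 := by unfold sg; rw [abs_pow, abs_neg, abs_one, one_pow]
    have h7 : ‖u‖ ≤ ‖uu P (sg j) x‖ + ‖u - uu P (sg j) x‖ := by
      have : u = uu P (sg j) x + (u - uu P (sg j) x) := by abel
      calc ‖u‖ = ‖uu P (sg j) x + (u - uu P (sg j) x)‖ := by rw [← this]
        _ ≤ _ := norm_add_le _ _
    have h8 := hP.del_le_one j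
    have h9 := hP.w_le
    norm_num at h8 h9
    linarith only [h4, h5, h6, h7, h8, h9]

/-- the hypotheses of `newborn` on the radial velocity -/
theorem newborn_hyp {n : ℕ} {t : ℝ} (ht : 0 ≤ t) {x : T3} {u v : V} {j : ℕ} (hj : j ≤ n)
    (hx : rr x - P.w * t ∈ P.cell (gg / 2) j) (hu : √(SS P (sg j) x u) ≤ 4 * P.del j)
    (hub : vp u ≤ P.w + P.del j) (hv : ‖v‖ ≤ P.Vg) (hS : P.m1 ≤ √(SS P (sg j) x v)) {ω : S2}
    (hω : ‖v - u‖ / 100 ≤ |inner ℝ (post v u ω - u) (er x)|) :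
    P.m1 / 200 ≤ |dotE x (post v u ω) - P.w| ∧
    60 * vp (post v u ω) ^ 2 / P.c ≤ |dotE x (post v u ω) - P.w| ∧
    ‖v - u‖ / 100 - 4 * P.del j ≤ |dotE x (post v u ω) - P.w| := by
  obtain ⟨h1, h2, h3, h4, h5, h6⟩ := coll_facts hP (v := v) ht hj hx hu
  have e1 : dotE x (post v u ω) - P.w =
      inner ℝ (post v u ω - u) (er x) + (dotE x u - P.w) := by
    rw [inner_er, dotE_sub]; ring
  have h7 : ‖v - u‖ / 100 - 4 * P.del j ≤ |dotE x (post v u ω) - P.w| := by
    rw [e1]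
    have := abs_sub_abs_le_abs_sub (inner ℝ (post v u ω - u) (er x)) (-(dotE x u - P.w))
    rw [abs_neg, sub_neg_eq_add] at this
    linarith only [this, h3, hω]
  have h8 := hP.del_le j
  have h9 := hP.m1_pos
  have h10 := hP.del_pos j
  set m := ‖v - u‖ with hm
  have h11 : √(SS P (sg j) x v) - 4 * P.del j ≤ m := by
    have := neg_le_of_abs_le h5
    linarith only [this]
  have hm1 : P.m1 * (1 - 1 / 10 ^ 5) ≤ m := by
    norm_num at h8 ⊢
    linarith only [hS, h10, h11, h8]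
  refine ⟨?_, ?_, h7⟩
  · norm_num at h8 hm1
    linarith only [hS, h10, h7, h11, h8]
  · have h12 : m / 101 ≤ |dotE x (post v u ω) - P.w| := by
      refine le_trans ?_ h7
      norm_num at h8 hm1
      linarith only [hS, h10, h11, h8]
    refine le_trans ?_ h12
    have h13 : vp (post v u ω) ≤ m + 2 * P.w := by
      have h14 := vp_post_le v u ω
      have h15 : P.del j ≤ P.w := by
        have h16 : P.m1 ≤ P.w := by
          unfold Par.m1
          rw [div_le_iff₀ (by have := hP.c_pos; (clear * - this; positivity)), mul_comm P.Lam]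
          apply mul_le_mul_of_nonneg_left _ hP.w_pos.le
          have h17 := hP.Lam_sq
          have h18 := hP.hc
          have h19 := hP.Lam_pos
          nlinarith only [h17, h18]
        norm_num at h8
        linarith only [h10, h16, h8]
      linarith only [hub, h14, h15]
    have hc := hP.c_pos
    have hm0 : 0 ≤ m := norm_nonneg _
    have hw := hP.w_pos
    have hmV : m ≤ P.Vg + 2 := by
      have := norm_sub_le v u
      linarith only [hv, h6, this]
    have h14 : vp (post v u ω) ^ 2 ≤ 2 * m ^ 2 + 8 * P.w ^ 2 := by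
      have h15 : vp (post v u ω) ^ 2 ≤ (m + 2 * P.w) ^ 2 :=
        pow_le_pow_left₀ (vp_nonneg _) h13 2
      linarith only [sq_nonneg (m - 2 * P.w), h15]
    rw [div_le_iff₀ hc]
    -- `120 m^2 ≤ c m / 202`
    have h16 : 24240 * m ≤ P.c := by
      have h17 := hP.sqrt_c_ge
      have h18 := hP.sq_sqrt_c
      have h19 : P.Vg = 400 * √P.c := rfl
      nlinarith only [hmV, h17, h18, h19]
    -- `480 w^2 ≤ c m / 202`
    have h17 : 480 * P.w ^ 2 ≤ m / 202 * P.c := by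
      have h18 : P.m1 * P.c = P.Lam * P.w / 10 ^ 5 := by
        unfold Par.m1
        (clear * - hc hw; field_simp)
      have h19 : P.m1 * P.c * (1 - 1 / 10 ^ 5) ≤ m * P.c := by
        have := mul_le_mul_of_nonneg_right hm1 hc.le
        linarith only [this]
      rw [h18] at h19
      have h20 := hP.Lam_ge
      have h21 := hP.w_le
      have h22 : 480 * P.w ^ 2 ≤ P.w / 10 ^ 20 := by
        norm_num at h21 ⊢
        nlinarith only [hw, h21]
      have h23 : P.w / 10 ^ 20 ≤ P.Lam * P.w / 10 ^ 5 * (1 - 1 / 10 ^ 5) / 202 := by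
        have : 2500 * P.w ≤ P.Lam * P.w := mul_le_mul_of_nonneg_right h20 hw.le
        norm_num
        linarith only [hw, this]
      (clear * - h19 h22 h23; linarith)
    linarith only [mul_nonneg (sub_nonneg.2 hm0) (sub_nonneg.2 h16), h17, h14]

omit hP in
theorem sg_eq (j : ℕ) : sg j = 1 ∨ sg j = -1 := by
  unfold sg
  rcases Nat.even_or_odd j with h | h
  · left; exact h.neg_one_pow
  · right; exact h.neg_one_pow

omit hP

theorem offspring1 : EvP fun P => ∀ᶠ t0 in 𝓝[>] (0 : ℝ), ∀ n, P.j0 ≤ n → P.ss n ≤ t0 →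
    ∀ t ∈ Icc 0 t0, ∀ x u v, cf P n t x u ≠ 0 → ‖v‖ ≤ P.Vg → rr x ≤ P.Vg * P.TT n t →
    ∀ j ∈ Finset.Icc P.j0 n, rr x - P.w * t ∈ P.cell (gg / 2) j →
    (P.m2 ≤ √(SS P (sg j) x v) ∨
        (P.m1 ≤ √(SS P (sg j) x v) ∧ P.a1 (P.TT n t) ≤ rr x - P.w * P.TT n t)) →
    ENNReal.ofReal (3 / 4 * (2 * Real.pi * ‖v - u‖)) ≤
      ∫⁻ ω, ENNReal.ofReal (|relA v u ω| * wt P n (2 * t0) t x (post v u ω)) ∂surf := by
  refine ((evGoodE.and newborn).and cf_support).mono ?_
  rintro P ⟨⟨hP, hN⟩, hC⟩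
  filter_upwards [hN, hC] with t0 hN hC n hn hs t ht x u v hcf hv hr j hj hx hgood
  have ht0 : 0 ≤ t := ht.1
  have hjn : j ≤ n := (Finset.mem_Icc.1 hj).2
  obtain ⟨j', _, hx', hub, hu, _⟩ := hC n t ⟨ht.1, by linarith only [ht0, ht.2]⟩ x u hcf
  obtain rfl : j = j' := cell_unique hP (by unfold gg; norm_num) hx hx'
  have hub' : vp u ≤ P.w + P.del j := hub.2.1
  obtain ⟨h1, h2, h3, h4, h5, h6⟩ := coll_facts hP (v := v) ht0 hjn hx hu
  have hm1S : P.m1 ≤ √(SS P (sg j) x v) := by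
    rcases hgood with h | h
    · have := hP.m1_le_m2
      have := hP.m1_pos
      (clear t0 hN hC hn hs ht hcf hv hr hj hx ht0 hjn hx' hub hu hub' h1 h2 h3 h4 h5 h6; linarith)
    · exact h.1
  have hdel := hP.del_le j
  have hdel0 := hP.del_pos j
  have hm1 := hP.m1_pos
  have hm12 := hP.m1_le_m2
  have hner := norm_er h1
  set m := ‖v - u‖ with hm
  have hVg := hP.Vg_ge
  -- the weight of a typical newborn
  have hnew : ∀ ω : S2, m / 100 ≤ |inner ℝ (post v u ω - u) (er x)| →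
      ‖post v u ω‖ ^ 2 ≤ P.Vg ^ 2 → 4 / 5 ≤ wt P n (2 * t0) t x (post v u ω) := by
    intro ω hω hω2
    obtain ⟨k1, k2, k3⟩ := newborn_hyp hP ht0 hjn hx hu hub' hv hm1S hω
    have k4 : ‖post v u ω‖ ≤ P.Vg := by
      exact le_of_sq_le_sq hω2 hP.Vg_pos.le
    refine hN n hn hs t ht x (post v u ω) k4 h2 hr k1 k2 ?_
    rcases le_or_gt P.m2 (√(SS P (sg j) x v)) with h7 | h7
    · right; left
      refine le_trans ?_ k3
      have := neg_le_of_abs_le h5
      norm_num at hdel hm12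
      linarith only [hm12, hdel, this, h7, hdel0]
    · rcases hgood with h8 | h8
      · exact absurd h8 (not_le.2 h7)
      right; right
      have h9 : √(SS P (sg j) x (post v u ω)) ≤ m + 4 * P.del j := by
        rw [sqrt_SS_eq_norm P (sg j) h1]
        have e : post v u ω - uu P (sg j) x = (post v u ω - u) + (u - uu P (sg j) x) := by abel
        rw [e]
        refine (norm_add_le _ _).trans ?_
        have := norm_post_sub_le v u ω
        linarith only [h4, this]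
      have h10 : m ≤ P.m2 + 4 * P.del j := by
        have := le_of_abs_le h5
        linarith only [h7, this]
      have h11 := abs_dotE_sub_le_sqrt_SS P (sg j) x (post v u ω)
      norm_num at hdel hm12
      refine ⟨by linarith only [hdel0, h9, h10, h11, hdel, hm12], h8.2, sg j, sg_eq j, by linarith only [hdel0, h9, h10, hdel, hm12]⟩
  -- pointwise inequality
  have hmeas1 : Measurable fun ω : S2 => ENNReal.ofReal |relA v u ω| := by
    have := measurable_relA.comp (measurable_const.prodMk (measurable_const.prodMk measurable_id) :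
      Measurable fun ω : S2 => ((v, u, ω) : V × V × S2))
    exact this.abs.ennreal_ofReal
  have hmeasP : Measurable fun ω : S2 => post v u ω := by
    exact measurable_post.comp (measurable_const.prodMk (measurable_const.prodMk measurable_id) :
      Measurable fun ω : S2 => ((v, u, ω) : V × V × S2))
  set B1 : S2 → ℝ≥0∞ := fun ω => ENNReal.ofReal |relA v u ω| *
      (Iio (m / 100)).indicator (fun _ => (1 : ℝ≥0∞)) |inner ℝ (post v u ω - u) (er x)| with hB1
  set B2 : S2 → ℝ≥0∞ := fun ω => ENNReal.ofReal |relA v u ω| *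
      (Ioi (P.Vg ^ 2)).indicator (fun _ => (1 : ℝ≥0∞)) (‖post v u ω‖ ^ 2) with hB2
  have mB1 : Measurable B1 := by
    refine hmeas1.mul ?_
    have h7 : Measurable ((Iio (m / 100)).indicator (fun _ : ℝ => (1 : ℝ≥0∞))) :=
      measurable_const.indicator measurableSet_Iio
    have h8 : Measurable fun ω : S2 => |inner ℝ (post v u ω - u) (er x)| :=
      ((hmeasP.sub_const u).inner measurable_const).abs
    exact h7.comp h8
  have mB2 : Measurable B2 := by
    refine hmeas1.mul ?_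
    have h7 : Measurable ((Ioi (P.Vg ^ 2)).indicator (fun _ : ℝ => (1 : ℝ≥0∞))) :=
      measurable_const.indicator measurableSet_Ioi
    exact h7.comp (hmeasP.norm.pow_const 2)
  have hpt : ∀ ω : S2, ENNReal.ofReal |relA v u ω| * ENNReal.ofReal (4 / 5) ≤
      ENNReal.ofReal (|relA v u ω| * wt P n (2 * t0) t x (post v u ω)) + (B1 ω + B2 ω) := by
    intro ω
    have h45 : ENNReal.ofReal (4 / 5) ≤ 1 := by
      rw [← ENNReal.ofReal_one]
      exact ENNReal.ofReal_le_ofReal (by norm_num)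
    by_cases k1 : |inner ℝ (post v u ω - u) (er x)| < m / 100
    · have : B1 ω = ENNReal.ofReal |relA v u ω| := by
        rw [hB1]
        simp only
        rw [indicator_of_mem (show _ ∈ Iio (m / 100) from k1), mul_one]
      calc ENNReal.ofReal |relA v u ω| * ENNReal.ofReal (4 / 5)
          ≤ ENNReal.ofReal |relA v u ω| * 1 := by (clear * - h45; gcongr)
        _ = B1 ω := by rw [this, mul_one]
        _ ≤ _ := by rw [add_comm, add_assoc]; exact le_self_add
    by_cases k2 : P.Vg ^ 2 < ‖post v u ω‖ ^ 2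
    · have : B2 ω = ENNReal.ofReal |relA v u ω| := by
        rw [hB2]
        simp only
        rw [indicator_of_mem (show _ ∈ Ioi (P.Vg ^ 2) from k2), mul_one]
      calc ENNReal.ofReal |relA v u ω| * ENNReal.ofReal (4 / 5)
          ≤ ENNReal.ofReal |relA v u ω| * 1 := by (clear * - h45; gcongr)
        _ = B2 ω := by rw [this, mul_one]
        _ ≤ _ := by rw [← add_assoc]; exact le_add_self
    · push Not at k1 k2
      rw [← ENNReal.ofReal_mul (abs_nonneg _)]
      refine le_trans (ENNReal.ofReal_le_ofReal ?_) le_self_add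
      exact mul_le_mul_of_nonneg_left (hnew ω k1 k2) (abs_nonneg _)
  have hint := lintegral_mono (μ := surf) hpt
  rw [lintegral_mul_const _ hmeas1, lint_relA, 
    lintegral_add_right _ (show Measurable fun ω => B1 ω + B2 ω from mB1.add mB2),
    lintegral_add_left mB1] at hint
  have hpi := Real.pi_pos
  have hm0 : 0 ≤ m := norm_nonneg _
  have hb1 : ∫⁻ ω, B1 ω ∂surf ≤ ENNReal.ofReal (4 * Real.pi * (m / 100)) :=
    sphere_band v u hner (by (clear * -; positivity))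
  have hb2 : ∫⁻ ω, B2 ω ∂surf ≤ ENNReal.ofReal (2 * Real.pi * m * (8 / (P.Vg - 3) ^ 2)) :=
    sphere_speed v u (by linarith only [h6]) (by linarith only [hVg]) hv
  have hsmall : 8 / (P.Vg - 3) ^ 2 ≤ 1 / 1000 := by
    rw [div_le_div_iff₀ (by nlinarith only [hVg]) (by norm_num)]
    nlinarith only [hVg]
  rw [← ENNReal.ofReal_mul (by (clear * -; positivity))] at hint
  have h7 : ENNReal.ofReal (2 * Real.pi * m * (4 / 5)) ≤
      (∫⁻ ω, ENNReal.ofReal (|relA v u ω| * wt P n (2 * t0) t x (post v u ω)) ∂surf) +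
      ENNReal.ofReal (4 * Real.pi * (m / 100) + 2 * Real.pi * m * (1 / 1000)) := by
    refine hint.trans ?_
    rw [ENNReal.ofReal_add (by (clear * -; positivity)) (by (clear * -; positivity))]
    gcongr
    refine hb2.trans (ENNReal.ofReal_le_ofReal ?_)
    (clear * - hsmall; gcongr)
  have h8 := tsub_le_iff_right.2 h7
  rw [← ENNReal.ofReal_sub _ (by (clear * -; positivity))] at h8
  refine le_trans (ENNReal.ofReal_le_ofReal ?_) h8
  linarith only [mul_nonneg (le_of_lt (sub_pos.2 hpi)) (sub_nonneg.2 hm0)]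

theorem offspring2 : EvP fun P => ∀ᶠ t0 in 𝓝[>] (0 : ℝ), ∀ n, P.j0 ≤ n → P.ss n ≤ t0 →
    ∀ t ∈ Icc 0 t0, ∀ x u v, cf P n t x u ≠ 0 → ‖v‖ ≤ P.Vg → rr x ≤ P.Vg * P.TT n t →
    ∀ j ∈ Finset.Icc P.j0 n, rr x - P.w * t ∈ P.cell (gg / 2) j →
    P.m1 ≤ √(SS P (sg j) x v) → √(SS P (sg j) x v) < P.m2 →
    -(√(SS P (sg j) x v) / 200) ≤ dotE x v - P.w →
    ENNReal.ofReal (1 / 4 * (2 * Real.pi * ‖v - u‖)) ≤
      ∫⁻ ω, ENNReal.ofReal (|relA v u ω| * wt P n (2 * t0) t x (post v u ω)) ∂surf := by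
  refine ((evGoodE.and newborn).and cf_support).mono ?_
  rintro P ⟨⟨hP, hN⟩, hC⟩
  filter_upwards [hN, hC] with t0 hN hC n hn hs t ht x u v hcf hv hr j hj hx hS1 hS2 hrad
  have ht0 : 0 ≤ t := ht.1
  have hjn : j ≤ n := (Finset.mem_Icc.1 hj).2
  obtain ⟨j', _, hx', hub, hu, _⟩ := hC n t ⟨ht.1, by linarith only [ht0, ht.2]⟩ x u hcf
  obtain rfl : j = j' := cell_unique hP (by unfold gg; norm_num) hx hx'
  have hub' : vp u ≤ P.w + P.del j := hub.2.1
  obtain ⟨h1, h2, h3, h4, h5, h6⟩ := coll_facts hP (v := v) ht0 hjn hx hu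
  have hdel := hP.del_le j
  have hdel0 := hP.del_pos j
  have hm1 := hP.m1_pos
  have hm12 := hP.m1_le_m2
  have hm2 := hP.m2_le
  have hner := norm_er h1
  set m := ‖v - u‖ with hm
  have hVg := hP.Vg_ge
  have hmlow : √(SS P (sg j) x v) - 4 * P.del j ≤ m := by
    have := neg_le_of_abs_le h5
    linarith only [this]
  have hmup : m ≤ √(SS P (sg j) x v) + 4 * P.del j := by
    have := le_of_abs_le h5
    linarith only [this]
  -- the weight of an outgoing newborn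
  have hnew : ∀ ω : S2, m / 100 ≤ inner ℝ (post v u ω - u) (er x) →
      4 / 5 ≤ wt P n (2 * t0) t x (post v u ω) := by
    intro ω hω
    have hω' : m / 100 ≤ |inner ℝ (post v u ω - u) (er x)| := hω.trans (le_abs_self _)
    obtain ⟨k1, k2, k3⟩ := newborn_hyp hP ht0 hjn hx hu hub' hv hS1 hω'
    have k4 : ‖post v u ω‖ ≤ P.Vg := by
      have e : post v u ω = u + (post v u ω - u) := by abel
      rw [e]
      refine (norm_add_le _ _).trans ?_
      have := norm_post_sub_le v u ω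
      norm_num at hdel hm12 hm2
      linarith only [hS2, h6, hVg, hmup, this, hdel, hm12, hm2]
    refine hN n hn hs t ht x (post v u ω) k4 h2 hr k1 k2 (Or.inl ?_)
    have e1 : dotE x (post v u ω) - P.w =
        inner ℝ (post v u ω - u) (er x) + (dotE x u - P.w) := by
      rw [inner_er, dotE_sub]; ring
    rw [e1]
    have k5 := neg_le_of_abs_le h3
    norm_num at hdel
    linarith only [hS1, hdel0, hmlow, hω, k5, hdel]
  have hpt : ∀ ω : S2, ENNReal.ofReal (4 / 5) * (ENNReal.ofReal |relA v u ω| *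
      (Ici (m / 100)).indicator (fun _ => (1 : ℝ≥0∞)) (inner ℝ (post v u ω - u) (er x))) ≤
      ENNReal.ofReal (|relA v u ω| * wt P n (2 * t0) t x (post v u ω)) := by
    intro ω
    by_cases k1 : m / 100 ≤ inner ℝ (post v u ω - u) (er x)
    · rw [indicator_of_mem (show _ ∈ Ici (m / 100) from k1), mul_one,
        ← ENNReal.ofReal_mul (by (clear * -; norm_num))]
      apply ENNReal.ofReal_le_ofReal
      rw [mul_comm]
      exact mul_le_mul_of_nonneg_left (hnew ω k1) (abs_nonneg _)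
    · rw [indicator_of_notMem (show _ ∉ Ici (m / 100) from k1), mul_zero, mul_zero]
      exact bot_le
  have hint := lintegral_mono (μ := surf) hpt
  rw [lintegral_const_mul' _ _ ENNReal.ofReal_ne_top] at hint
  have hm0 : 0 ≤ m := norm_nonneg _
  have hpi := Real.pi_pos
  have hcap := sphere_cap v u hner (x := m / 100) (by (clear * -; positivity))
  refine le_trans ?_ hint
  refine le_trans ?_ (mul_le_mul_right hcap _)
  rw [← ENNReal.ofReal_mul (by norm_num)]
  apply ENNReal.ofReal_le_ofReal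
  have e2 : inner ℝ (v - u) (er x) = (dotE x v - P.w) - (dotE x u - P.w) := by
    rw [inner_er, dotE_sub]; ring
  have h7 : -(m / 100) ≤ inner ℝ (v - u) (er x) := by
    rw [e2]
    have := le_of_abs_le h3
    norm_num at hdel
    linarith only [hS1, hrad, hdel0, hmlow, this, hdel]
  have h8 : 0 ≤ Real.pi * m := by (clear * -; positivity)
  have h9 : 0 ≤ Real.pi * (m / 100 + inner ℝ (v - u) (er x)) :=
    mul_nonneg hpi.le (by linarith only [h7])
  linarith only [h9, h8]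

end Vale.Agent.P140.NU.E
end
end

section

/-!
P140, non-uniqueness, module E: final statements (those of `NU/Iface/E.lean`;
`wt_seed` and `newborn` are in `NU/E/New.lean`).
-/

open MeasureTheory Set Filter
open scoped ENNReal Topology

noncomputable section

namespace Vale.Agent.P140.NU

/-- average weight of the offspring, good collisions -/
theorem offspring1 : EvP fun P => ∀ᶠ t0 in 𝓝[>] (0 : ℝ), ∀ n, P.j0 ≤ n → P.ss n ≤ t0 →
    ∀ t ∈ Icc 0 t0, ∀ x u v, cf P n t x u ≠ 0 → ‖v‖ ≤ P.Vg → rr x ≤ P.Vg * P.TT n t →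
    ∀ j ∈ Finset.Icc P.j0 n, rr x - P.w * t ∈ P.cell (gg / 2) j →
    (P.m2 ≤ √(SS P (sg j) x v) ∨
        (P.m1 ≤ √(SS P (sg j) x v) ∧ P.a1 (P.TT n t) ≤ rr x - P.w * P.TT n t)) →
    ENNReal.ofReal (3 / 4 * (2 * Real.pi * ‖v - u‖)) ≤
      ∫⁻ ω, ENNReal.ofReal (|relA v u ω| * wt P n (2 * t0) t x (post v u ω)) ∂surf :=
  E.offspring1

/-- average weight of the offspring, slow particles of the inner layer not moving inward -/
theorem offspring2 : EvP fun P => ∀ᶠ t0 in 𝓝[>] (0 : ℝ), ∀ n, P.j0 ≤ n → P.ss n ≤ t0 →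
    ∀ t ∈ Icc 0 t0, ∀ x u v, cf P n t x u ≠ 0 → ‖v‖ ≤ P.Vg → rr x ≤ P.Vg * P.TT n t →
    ∀ j ∈ Finset.Icc P.j0 n, rr x - P.w * t ∈ P.cell (gg / 2) j →
    P.m1 ≤ √(SS P (sg j) x v) → √(SS P (sg j) x v) < P.m2 →
    -(√(SS P (sg j) x v) / 200) ≤ dotE x v - P.w →
    ENNReal.ofReal (1 / 4 * (2 * Real.pi * ‖v - u‖)) ≤
      ∫⁻ ω, ENNReal.ofReal (|relA v u ω| * wt P n (2 * t0) t x (post v u ω)) ∂surf :=
  E.offspring2

/-- exposure to bad collisions -/
theorem exposure : EvP fun P => ∀ᶠ t0 in 𝓝[>] (0 : ℝ), ∀ n, P.j0 ≤ n → P.ss n ≤ t0 →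
    ∀ t ∈ Icc 0 (2 * t0), ∀ x v,
    500 * ∫ τ in t..(2 * t0), qb P n τ (mv x v (τ - t)) v ≤ 1 / 4 := E.exposure

/-- basic bounds for the main weight -/
theorem wt_facts : EvP fun P => ∀ᶠ t0 in 𝓝[>] (0 : ℝ), ∀ n, P.j0 ≤ n → P.ss n ≤ t0 →
    ∀ t ∈ Icc 0 (2 * t0), ∀ x v, 0 ≤ wt P n (2 * t0) t x v ∧ wt P n (2 * t0) t x v ≤ 1 ∧
    (wt P n (2 * t0) t x v ≠ 0 → ‖v‖ ≤ P.Vg ∧ rr x ≤ 6 * P.Vg * t0) ∧
    (0 < rr x → wt P n (2 * t0) t x v ≤ (2 * P.Vg * P.TT n t / rr x) ^ P.Lam) := E.wt_facts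

theorem wt_meas : EvP fun P => ∀ n te, Measurable fun p : ℝ × T3 × V => wt P n te p.1 p.2.1 p.2.2 :=
  E.wt_meas

theorem et_meas : EvP fun P => ∀ n te, Measurable fun p : ℝ × T3 × V => et P n te p.1 p.2.1 p.2.2 :=
  E.et_meas

end Vale.Agent.P140.NU
end
end

section

/-!
P140, non-uniqueness, module B: the cold part is invisible for the observable (B3).
-/

open MeasureTheory Set Filter
open scoped ENNReal Topology

noncomputable section

namespace Vale.Agent.P140.NU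

/-! ### measure of neighbourhoods of the line -/

theorem nz_vol_le (s : ℝ) : volume {x : T3 | rr x ≤ s} ≤ ENNReal.ofReal (2 * s) ^ 2 := by
  have hsub : {x : T3 | rr x ≤ s} ⊆ Set.pi univ (fun i : Fin 3 =>
      if i = 2 then (univ : Set UnitAddCircle) else Metric.closedBall 0 s) := by
    intro x hx i _
    by_cases hi : i = 2
    · simp only [hi, if_true]
      exact mem_univ _
    · simp only [hi, if_false]
      rw [mem_closedBall_zero_iff, ← abs_rep]
      exact (abs_rep_le_rr x i hi).trans hx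
  refine (measure_mono hsub).trans ?_
  rw [volume_pi, Measure.pi_pi, Fin.prod_univ_three]
  have h2 : volume (if (2 : Fin 3) = 2 then (univ : Set UnitAddCircle)
      else Metric.closedBall 0 s) = 1 := by
    rw [if_pos rfl]
    simp only [AddCircle.measure_univ, ENNReal.ofReal_one]
  have h0 : volume (if (0 : Fin 3) = 2 then (univ : Set UnitAddCircle)
      else Metric.closedBall 0 s) ≤ ENNReal.ofReal (2 * s) := by
    rw [if_neg (by decide), AddCircle.volume_closedBall]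
    exact ENNReal.ofReal_le_ofReal (min_le_right _ _)
  have h1 : volume (if (1 : Fin 3) = 2 then (univ : Set UnitAddCircle)
      else Metric.closedBall 0 s) ≤ ENNReal.ofReal (2 * s) := by
    rw [if_neg (by decide), AddCircle.volume_closedBall]
    exact ENNReal.ofReal_le_ofReal (min_le_right _ _)
  rw [h2, mul_one, pow_two]
  exact mul_le_mul' h0 h1

/-- dyadic majorant of `min 1 ((a/r)^3)` -/
def nzg (a r : ℝ) : ℝ≥0∞ :=
  ∑' k : ℕ, ENNReal.ofReal ((1 / 8) ^ k) * (Iic (2 ^ (k + 1) * a)).indicator (fun _ => 1) r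

theorem nzg_measurable (a : ℝ) : Measurable (nzg a) := by
  unfold nzg
  refine Measurable.tsum fun k => ?_
  exact (measurable_const.indicator measurableSet_Iic).const_mul _

theorem nzg_int (a : ℝ) (ha : 0 ≤ a) :
    ∫⁻ x : T3, nzg a (rr x) ≤ ENNReal.ofReal (32 * a ^ 2) := by
  unfold nzg
  have hmeas : ∀ k : ℕ, AEMeasurable (fun x : T3 => ENNReal.ofReal ((1 / 8) ^ k) *
      (Iic (2 ^ (k + 1) * a)).indicator (fun _ => (1 : ℝ≥0∞)) (rr x)) volume := fun k =>
    ((((measurable_const (a := (1 : ℝ≥0∞))).indicator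
      (measurableSet_Iic (a := 2 ^ (k + 1) * a))).comp measurable_rr).const_mul _).aemeasurable
  rw [lintegral_tsum hmeas]
  have h1 : ∀ k : ℕ, ∫⁻ x : T3, ENNReal.ofReal ((1 / 8) ^ k) *
      (Iic (2 ^ (k + 1) * a)).indicator (fun _ => (1 : ℝ≥0∞)) (rr x) ≤
      ENNReal.ofReal (16 * a ^ 2 * (1 / 2) ^ k) := by
    intro k
    have hm : Measurable fun x : T3 =>
        (Iic (2 ^ (k + 1) * a)).indicator (fun _ => (1 : ℝ≥0∞)) (rr x) :=
      (measurable_const.indicator measurableSet_Iic).comp measurable_rr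
    rw [lintegral_const_mul _ hm]
    have h2 : ∫⁻ x : T3, (Iic (2 ^ (k + 1) * a)).indicator (fun _ => (1 : ℝ≥0∞)) (rr x)
        = volume {x : T3 | rr x ≤ 2 ^ (k + 1) * a} := by
      have hms : MeasurableSet {x : T3 | rr x ≤ 2 ^ (k + 1) * a} :=
        measurable_rr measurableSet_Iic
      rw [← lintegral_indicator_one hms]
      rfl
    rw [h2]
    calc ENNReal.ofReal ((1 / 8) ^ k) * volume {x : T3 | rr x ≤ 2 ^ (k + 1) * a}
        ≤ ENNReal.ofReal ((1 / 8) ^ k) * ENNReal.ofReal (2 * (2 ^ (k + 1) * a)) ^ 2 := by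
          gcongr
          exact nz_vol_le _
      _ = ENNReal.ofReal ((1 / 8) ^ k * (2 * (2 ^ (k + 1) * a)) ^ 2) := by
          rw [← ENNReal.ofReal_pow (by (clear * - ha; positivity)), ← ENNReal.ofReal_mul (by positivity)]
      _ = ENNReal.ofReal (16 * a ^ 2 * (1 / 2) ^ k) := by
          congr 1
          have : ((1 : ℝ) / 8) ^ k * (2 ^ k) ^ 2 = (1 / 2) ^ k := by
            rw [← pow_mul, mul_comm k 2, pow_mul, ← mul_pow]
            norm_num
          rw [pow_succ]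
          calc ((1 : ℝ) / 8) ^ k * (2 * (2 ^ k * 2 * a)) ^ 2
              = 16 * a ^ 2 * ((1 / 8) ^ k * (2 ^ k) ^ 2) := by ring
            _ = 16 * a ^ 2 * (1 / 2) ^ k := by rw [this]
  refine (ENNReal.tsum_le_tsum h1).trans ?_
  rw [← ENNReal.ofReal_tsum_of_nonneg (fun k => by (clear * -; positivity))
    ((summable_geometric_two).mul_left _), tsum_mul_left, tsum_geometric_two]
  apply le_of_eq
  congr 1
  ring

/-- the majorant dominates `wt`-like functions -/
theorem nz_le_nzg {a r y L : ℝ} (ha : 0 ≤ a) (_hr : 0 ≤ r) (hy1 : y ≤ 1) (hL : 3 ≤ L)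
    (hy : 0 < r → y ≤ (a / r) ^ L) : ENNReal.ofReal y ≤ nzg a r := by
  have hterm : ∀ k : ℕ, r ≤ 2 ^ (k + 1) * a → ENNReal.ofReal ((1 / 8) ^ k) ≤ nzg a r := by
    intro k hk
    have h1 : ENNReal.ofReal ((1 / 8) ^ k) = ENNReal.ofReal ((1 / 8) ^ k) *
        (Iic (2 ^ (k + 1) * a)).indicator (fun _ => (1 : ℝ≥0∞)) r := by
      rw [indicator_of_mem (by exact hk), mul_one]
    rw [h1]
    unfold nzg
    exact ENNReal.le_tsum (f := fun k : ℕ => ENNReal.ofReal ((1 / 8) ^ k) *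
      (Iic (2 ^ (k + 1) * a)).indicator (fun _ => (1 : ℝ≥0∞)) r) k
  rcases le_or_gt r (2 * a) with h | h
  · refine le_trans ?_ (hterm 0 (by simpa only [zero_add, pow_one] using h))
    rw [pow_zero]
    exact ENNReal.ofReal_le_ofReal hy1
  · have hr0 : 0 < r := lt_of_le_of_lt (by linarith) h
    rcases ha.eq_or_lt with h0 | h0
    · have : y ≤ 0 := by
        have := hy hr0
        rw [← h0, zero_div, Real.zero_rpow (by linarith only [hL])] at this
        exact this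
      rw [ENNReal.ofReal_of_nonpos this]
      exact zero_le
    · -- choose the dyadic scale
      obtain ⟨m, hm⟩ := pow_unbounded_of_one_lt (r / a) (by norm_num : (1 : ℝ) < 2)
      have hex : ∃ m : ℕ, r ≤ 2 ^ m * a := ⟨m, ((div_lt_iff₀ h0).1 hm).le⟩
      classical
      set k := Nat.find hex with hk
      have hk1 := Nat.find_spec hex
      have hk2 : 2 ≤ k := by
        by_contra hlt
        push Not at hlt
        have h3 : (2 : ℝ) ^ k ≤ 2 ^ 1 := pow_le_pow_right₀ (by norm_num) (by (clear * - hex hlt; omega))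
        have h4 : r ≤ 2 ^ k * a := hk1
        linarith only [mul_nonneg (sub_nonneg.2 ha) (sub_nonneg.2 h3), hk1, h]
      obtain ⟨j, hj⟩ : ∃ j, k = j + 1 := ⟨k - 1, by omega⟩
      have hj1 : ¬ r ≤ 2 ^ j * a := Nat.find_min hex (m := j) (by (clear * - hex hj; omega))
      push Not at hj1
      refine le_trans (ENNReal.ofReal_le_ofReal ?_) (hterm j (by rw [← hj]; exact hk1))
      have hq : a / r ≤ (1 / 2) ^ j := by
        rw [div_le_iff₀ hr0]
        have : ((1 : ℝ) / 2) ^ j * (2 ^ j) = 1 := by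
          rw [← mul_pow]; norm_num
        have h5 : (1 / 2 : ℝ) ^ j * (2 ^ j * a) ≤ (1 / 2) ^ j * r :=
          mul_le_mul_of_nonneg_left hj1.le (by positivity)
        calc a = ((1 : ℝ) / 2) ^ j * (2 ^ j) * a := by rw [this, one_mul]
          _ = (1 / 2 : ℝ) ^ j * (2 ^ j * a) := by ring
          _ ≤ _ := h5
      have hq1 : a / r ≤ 1 := by
        rw [div_le_one hr0]
        linarith only [h, h0]
      calc y ≤ (a / r) ^ L := hy hr0
        _ ≤ (a / r) ^ (3 : ℝ) :=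
            Real.rpow_le_rpow_of_exponent_ge (by (clear * - h0 hr0; positivity)) hq1 hL
        _ = (a / r) ^ 3 := by
            rw [← Real.rpow_natCast]; norm_num
        _ ≤ ((1 / 2) ^ j) ^ 3 := by (clear * - h0 hr0 hq; gcongr)
        _ = (1 / 8) ^ j := by
            rw [← pow_mul, mul_comm, pow_mul]; norm_num

/-! ### parameters -/

theorem nz_lam : EvP fun P => 3 ≤ P.Lam := by
  have h : EvP fun P => 3 ≤ P.c / (100 * (400 * √P.c)) := by
    refine EvP.of_c (φ := fun c => 3 ≤ c / (100 * (400 * √c))) ?_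
    filter_upwards [eventually_ge_atTop ((120000 : ℝ) ^ 2)] with c hc
    have h1 : (120000 : ℝ) ≤ √c := Real.le_sqrt_of_sq_le hc
    have h2 : √c * √c = c := Real.mul_self_sqrt (by linarith)
    rw [le_div_iff₀ (by positivity)]
    (by_contra nlg; linarith only [nlg, mul_eq_zero_of_left (sub_eq_zero.2 h2) (√c * √c - (c)), mul_eq_zero_of_left (sub_eq_zero.2 h2) (3 * (100 * (400 * √c)) - (c)), mul_pos (sub_pos.2 (not_le.1 nlg)) (sub_pos.2 (not_le.1 nlg)), mul_nonneg (mul_self_nonneg (√c : ℝ)) (sub_nonneg.2 h1), mul_eq_zero_of_left (sub_eq_zero.2 h2) (0 - (0 - √c * √c)), mul_nonneg (mul_self_nonneg (√c : ℝ)) (le_of_lt (sub_pos.2 (not_le.1 nlg)))])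
  exact h

/-- in the cells that meet a small neighbourhood of the line the thermal width is small -/
theorem nz_del {P : Par} (hw : 0 ≤ P.w) (hl : 1 / 2 < P.lam) (hl1 : P.lam < 1)
    (_hk : 0 < P.kdel) (hk1 : P.kdel ≤ 1) {γ : ℝ} (hγ : 0 ≤ γ) {j : ℕ} {x : T3} {t ρ : ℝ}
    (ht : 0 ≤ t) (h : rr x - P.w * t ∈ P.cell γ j) (hr : rr x ≤ ρ) : P.del j ≤ 2 * ρ := by
  have hl0 : 0 < P.lam := by linarith
  have h1 : P.lam ^ (j + 1) ≤ ρ := by
    have h2 : P.lam ^ ((j : ℝ) + 1) ≤ P.lam ^ ((j : ℝ) + 1 - γ) :=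
      Real.rpow_le_rpow_of_exponent_ge hl0 hl1.le (by linarith only [hγ])
    have h3 : P.lam ^ ((j : ℝ) + 1) = P.lam ^ (j + 1) := by
      rw [← Real.rpow_natCast]; push_cast; rfl
    rw [← h3]
    have h4 := h.1
    have h5 : 0 ≤ P.w * t := mul_nonneg hw ht
    linarith only [hr, h2, h4, h5]
  have h2 : P.lam ^ j ≤ 2 * ρ := by
    rw [pow_succ] at h1
    have : 0 < P.lam ^ j := by positivity
    (by_contra nlg; linarith [mul_pos (sub_pos.2 hl) (sub_pos.2 this), mul_nonneg (mul_self_nonneg (1 : ℝ)) (sub_nonneg.2 h1), mul_nonneg (mul_self_nonneg (1 : ℝ)) (le_of_lt (sub_pos.2 (not_le.1 nlg)))])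
  unfold Par.del
  have h3 : (P.lam ^ j) ^ P.Q ≤ P.lam ^ j := by
    have h4 : P.lam ^ j ≤ 1 := pow_le_one₀ hl0.le hl1.le
    calc (P.lam ^ j) ^ P.Q ≤ (P.lam ^ j) ^ 1 :=
          pow_le_pow_of_le_one (by positivity) h4 (by unfold Par.Q; omega)
      _ = P.lam ^ j := pow_one _
  calc P.kdel * (P.lam ^ j) ^ P.Q ≤ 1 * (P.lam ^ j) := by (clear * - hk1 h3 hl; gcongr)
    _ ≤ 2 * ρ := by rw [one_mul]; exact h2

theorem nz_WW {P : Par} {m0 t : ℝ} (hm0 : 0 < m0) {x : T3} {v : V} (h1 : m0 ≤ √(SS P 1 x v))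
    (h2 : m0 ≤ √(SS P (-1) x v)) :
    WW P t x v ≤ ENNReal.ofReal (1 + 2 * (m0 ^ 2) ^ (-(3 / 4) : ℝ)) := by
  have key : ∀ s, m0 ≤ √(SS P s x v) →
      ENNReal.ofReal (SS P s x v) ^ (-(3 / 4) : ℝ) ≤ ENNReal.ofReal ((m0 ^ 2) ^ (-(3 / 4) : ℝ)) := by
    intro s hs
    have h3 : m0 ^ 2 ≤ SS P s x v := by
      have := Real.sq_sqrt (SS_nonneg P s x v)
      rw [← this]
      exact pow_le_pow_left₀ hm0.le hs 2
    have h4 : 0 < m0 ^ 2 := by positivity
    rw [ENNReal.ofReal_rpow_of_pos (lt_of_lt_of_le h4 h3)]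
    exact ENNReal.ofReal_le_ofReal (Real.rpow_le_rpow_of_nonpos h4 h3 (by (clear * -; norm_num)))
  have hq : 0 ≤ (m0 ^ 2) ^ (-(3 / 4) : ℝ) := Real.rpow_nonneg (by positivity) _
  unfold WW
  have e1 : ENNReal.ofReal (1 + 2 * (m0 ^ 2) ^ (-(3 / 4) : ℝ))
      = 1 + (ENNReal.ofReal ((m0 ^ 2) ^ (-(3 / 4) : ℝ))
        + ENNReal.ofReal ((m0 ^ 2) ^ (-(3 / 4) : ℝ))) := by
    rw [← ENNReal.ofReal_add hq hq, ← ENNReal.ofReal_one, ← ENNReal.ofReal_add zero_le_one
      (by positivity)]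
    congr 1
    ring
  rw [e1]
  gcongr
  split_ifs
  · exact add_le_add (tsub_le_self.trans (key 1 h1)) (tsub_le_self.trans (key (-1) h2))
  · exact zero_le

theorem nz_Bb {P : Par} {m0 t : ℝ} (hm0 : 0 < m0) (ht : 0 ≤ t) {x : T3} {v : V}
    (h1 : m0 ≤ √(SS P 1 x v)) (h2 : m0 ≤ √(SS P (-1) x v)) :
    Bb P t x v ≤ ENNReal.ofReal (1 + 2 * (m0 ^ 2) ^ (-(3 / 4) : ℝ)) := by
  unfold Bb
  have h3 : min (((P.K : ℝ) + ‖v‖) * t + rr x) 1 ^ P.K * Real.exp (-(‖v‖ ^ 2 / 6)) ≤ 1 := by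
    have h4 : 0 ≤ min (((P.K : ℝ) + ‖v‖) * t + rr x) 1 := by
      apply le_min _ zero_le_one
      have := rr_nonneg x
      positivity
    have h5 : min (((P.K : ℝ) + ‖v‖) * t + rr x) 1 ^ P.K ≤ 1 :=
      pow_le_one₀ h4 (min_le_right _ _)
    have h6 : Real.exp (-(‖v‖ ^ 2 / 6)) ≤ 1 := Real.exp_le_one_iff.2 (by
      have : 0 ≤ ‖v‖ ^ 2 / 6 := by positivity
      linarith)
    calc min (((P.K : ℝ) + ‖v‖) * t + rr x) 1 ^ P.K * Real.exp (-(‖v‖ ^ 2 / 6)) ≤ 1 * 1 := by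
          (clear * - h5 h6; gcongr)
      _ = 1 := one_mul 1
  calc ENNReal.ofReal (min (((P.K : ℝ) + ‖v‖) * t + rr x) 1 ^ P.K * Real.exp (-(‖v‖ ^ 2 / 6)))
        * WW P t x v
      ≤ 1 * ENNReal.ofReal (1 + 2 * (m0 ^ 2) ^ (-(3 / 4) : ℝ)) := by
        refine mul_le_mul' ?_ (nz_WW hm0 h1 h2)
        rw [← ENNReal.ofReal_one]
        exact ENNReal.ofReal_le_ofReal h3
    _ = _ := one_mul _

/-- from a bound of the `lintegral` to a bound of the integral -/
theorem nz_integral_le {f : T3 × V → ℝ} (hf : Measurable f) (h0 : ∀ p, 0 ≤ f p) {B : ℝ}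
    (hB : 0 ≤ B) (h : ∫⁻ p, ENNReal.ofReal (f p) ≤ ENNReal.ofReal B) : ∫ p, f p ≤ B := by
  rw [integral_eq_lintegral_of_nonneg_ae (Eventually.of_forall h0) hf.aestronglyMeasurable]
  exact ENNReal.toReal_le_of_le_ofReal hB h

theorem nz_slice {f : ℝ → T3 → V → ℝ} (h : Measurable fun p : ℝ × T3 × V => f p.1 p.2.1 p.2.2)
    (t : ℝ) : Measurable fun p : T3 × V => f t p.1 p.2 :=
  h.comp (measurable_const.prodMk measurable_id)

theorem nz_lint {f : T3 → ℝ≥0∞} (hf : Measurable f) (M R : ℝ) :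
    ∫⁻ p : T3 × V, ENNReal.ofReal M *
      (f p.1 * (Metric.closedBall (0 : V) R).indicator (fun _ => 1) p.2)
      = ENNReal.ofReal M * ((∫⁻ x, f x) * volume (Metric.closedBall (0 : V) R)) := by
  have hm2 : Measurable ((Metric.closedBall (0 : V) R).indicator fun _ : V => (1 : ℝ≥0∞)) :=
    measurable_const.indicator measurableSet_closedBall
  have hm3 : Measurable fun p : T3 × V =>
      f p.1 * (Metric.closedBall (0 : V) R).indicator (fun _ => (1 : ℝ≥0∞)) p.2 :=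
    (hf.comp measurable_fst).mul (hm2.comp measurable_snd)
  rw [lintegral_const_mul _ hm3, Measure.volume_eq_prod,
    lintegral_prod_mul hf.aemeasurable hm2.aemeasurable]
  congr 2
  exact lintegral_indicator_one measurableSet_closedBall

/-- first part, from the pointwise bound -/
theorem nz_partA {P : Par} {n : ℕ} {t0 t m0 M vB ε : ℝ} {G : ℝ → T3 → V → ℝ}
    (hM0 : 0 < M) (hvB0 : 0 ≤ vB) (hε : 0 < ε) (hV : 0 < P.Vg) (hLam : 3 ≤ P.Lam)
    (hvBe : volume (Metric.closedBall (0 : V) P.Vg) = ENNReal.ofReal vB)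
    (hd3 : 256 * M * vB * P.Vg ^ 2 * t0 ≤ ε) (hT0 : 0 ≤ P.TT n t) (hT2 : P.TT n t ≤ 2 * t0)
    (hwt : ∀ x v, 0 ≤ wt P n (2 * t0) t x v ∧ wt P n (2 * t0) t x v ≤ 1 ∧
      (wt P n (2 * t0) t x v ≠ 0 → ‖v‖ ≤ P.Vg ∧ rr x ≤ 6 * P.Vg * t0) ∧
      (0 < rr x → wt P n (2 * t0) t x v ≤ (2 * P.Vg * P.TT n t / rr x) ^ P.Lam))
    (hwm : Measurable fun p : T3 × V => wt P n (2 * t0) t p.1 p.2)
    (hGm : Measurable fun p : T3 × V => G t p.1 p.2) (hG0 : ∀ x v, 0 ≤ G t x v)
    (hpt : ∀ x v, rr x ≤ 6 * P.Vg * t0 → m0 ≤ √(SS P 1 x v) →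
      m0 ≤ √(SS P (-1) x v) → ENNReal.ofReal (G t x v) ≤ ENNReal.ofReal M) :
    MP P n (2 * t0) m0 G t ≤ ε * P.TT n t := by
  have hSSm : ∀ s : ℝ, Measurable fun p : T3 × V => √(SS P s p.1 p.2) := fun s =>
    (measurable_SS P s).sqrt
  set a : ℝ := 2 * P.Vg * P.TT n t with ha
  have ha0 : 0 ≤ a := by (clear * - hV hT0; positivity)
  have hPm : Measurable fun p : T3 × V => Phi P n (2 * t0) m0 t p.1 p.2 := by
    unfold Phi
    exact Measurable.ite ((measurableSet_le measurable_const (hSSm 1)).inter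
      (measurableSet_le measurable_const (hSSm (-1)))) hwm measurable_const
  have hP0 : ∀ x v, 0 ≤ Phi P n (2 * t0) m0 t x v := by
    intro x v
    unfold Phi
    split_ifs
    · exact (hwt x v).1
    · exact le_rfl
  have hle : ∀ p : T3 × V, ENNReal.ofReal (Phi P n (2 * t0) m0 t p.1 p.2 * G t p.1 p.2) ≤
      ENNReal.ofReal M * (nzg a (rr p.1) *
        (Metric.closedBall (0 : V) P.Vg).indicator (fun _ => 1) p.2) := by
    rintro ⟨x, v⟩
    by_cases h : m0 ≤ √(SS P 1 x v) ∧ m0 ≤ √(SS P (-1) x v)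
    · have hPhi : Phi P n (2 * t0) m0 t x v = wt P n (2 * t0) t x v := by
        unfold Phi; rw [if_pos h]
      obtain ⟨w0, w1, w2, w3⟩ := hwt x v
      simp only [hPhi]
      by_cases hwz : wt P n (2 * t0) t x v = 0
      · rw [hwz, zero_mul, ENNReal.ofReal_zero]
        exact zero_le
      · obtain ⟨hv, hr⟩ := w2 hwz
        rw [ENNReal.ofReal_mul w0, indicator_of_mem (by simpa only [Metric.mem_closedBall, dist_zero_right] using hv), mul_one, mul_comm]
        exact mul_le_mul' (hpt x v hr h.1 h.2) (nz_le_nzg ha0 (rr_nonneg x) w1 hLam w3)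
    · have hPhi : Phi P n (2 * t0) m0 t x v = 0 := by
        unfold Phi; rw [if_neg h]
      simp only [hPhi]
      rw [zero_mul, ENNReal.ofReal_zero]
      exact zero_le
  have hm1 : Measurable fun x : T3 => nzg a (rr x) := (nzg_measurable a).comp measurable_rr
  have hfin : ∫⁻ p : T3 × V, ENNReal.ofReal (Phi P n (2 * t0) m0 t p.1 p.2 * G t p.1 p.2)
      ≤ ENNReal.ofReal (ε * P.TT n t) := by
    refine (lintegral_mono hle).trans ?_
    rw [nz_lint hm1, hvBe]
    have e0 : ENNReal.ofReal M * ((∫⁻ x : T3, nzg a (rr x)) * ENNReal.ofReal vB)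
        ≤ ENNReal.ofReal M * (ENNReal.ofReal (32 * a ^ 2) * ENNReal.ofReal vB) := by
      gcongr
      exact nzg_int a ha0
    refine e0.trans ?_
    rw [← ENNReal.ofReal_mul (by (clear * -; positivity)), ← ENNReal.ofReal_mul hM0.le]
    apply ENNReal.ofReal_le_ofReal
    have e1 : M * (32 * a ^ 2 * vB) = (128 * M * vB * P.Vg ^ 2) * P.TT n t * P.TT n t := by
      rw [ha]; ring
    rw [e1]
    apply mul_le_mul_of_nonneg_right _ hT0
    calc (128 * M * vB * P.Vg ^ 2) * P.TT n t ≤ (128 * M * vB * P.Vg ^ 2) * (2 * t0) := by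
          (clear * - hT2 hM0 hvB0 hV; gcongr)
      _ = 256 * M * vB * P.Vg ^ 2 * t0 := by ring
      _ ≤ ε := hd3
  unfold MP
  exact nz_integral_le (hPm.mul hGm) (fun p => mul_nonneg (hP0 _ _) (hG0 _ _))
    (by (clear * - hε hT0; positivity)) hfin

theorem nz_Theta_meas (P : Par) (t0 m0 : ℝ) : Measurable (Theta P t0 m0) := by
  have hSSm : ∀ s : ℝ, Measurable fun p : T3 × V => √(SS P s p.1 p.2) := fun s =>
    (measurable_SS P s).sqrt
  unfold Theta
  refine Measurable.ite ?_ measurable_const measurable_const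
  exact (measurableSet_le (measurable_snd.norm) measurable_const).inter
    ((measurableSet_le (measurable_rr.comp measurable_fst) measurable_const).inter
      ((measurableSet_le measurable_const (hSSm 1)).inter
        (measurableSet_le measurable_const (hSSm (-1)))))

/-- second part, from the pointwise bound -/
theorem nz_partB {P : Par} {t0 m0 M vB ε : ℝ} {G : ℝ → T3 → V → ℝ}
    (hM0 : 0 < M) (hvB0 : 0 ≤ vB) (hε : 0 < ε) (hV : 0 < P.Vg) (ht0 : 0 < t0)
    (hvBe : volume (Metric.closedBall (0 : V) P.Vg) = ENNReal.ofReal vB)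
    (hd3 : 256 * M * vB * P.Vg ^ 2 * t0 ≤ ε)
    (hGm : Measurable fun p : T3 × V => G t0 p.1 p.2) (hG0 : ∀ x v, 0 ≤ G t0 x v)
    (hpt : ∀ x v, rr x ≤ 6 * P.Vg * t0 → m0 ≤ √(SS P 1 x v) →
      m0 ≤ √(SS P (-1) x v) → ENNReal.ofReal (G t0 x v) ≤ ENNReal.ofReal M) :
    ∫ p : T3 × V, G t0 p.1 p.2 * Theta P t0 m0 p ≤ ε * t0 := by
  have hT0 : ∀ p, 0 ≤ Theta P t0 m0 p := by
    intro p
    unfold Theta
    split_ifs <;> norm_num
  set A : Set T3 := {x | rr x ≤ 6 * P.Vg * t0} with hA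
  have hAm : MeasurableSet A := measurable_rr measurableSet_Iic
  have hle : ∀ p : T3 × V, ENNReal.ofReal (G t0 p.1 p.2 * Theta P t0 m0 p) ≤
      ENNReal.ofReal M * (A.indicator (fun _ => 1) p.1 *
        (Metric.closedBall (0 : V) P.Vg).indicator (fun _ => 1) p.2) := by
    rintro ⟨x, v⟩
    by_cases h : ‖v‖ ≤ P.Vg ∧ rr x ≤ 6 * P.Vg * t0 ∧ m0 ≤ √(SS P 1 x v) ∧
        m0 ≤ √(SS P (-1) x v)
    · have hTh : Theta P t0 m0 (x, v) = 1 := by
        unfold Theta; rw [if_pos h]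
      simp only [hTh]
      rw [mul_one, indicator_of_mem (by exact h.2.1),
        indicator_of_mem (by simpa only [Metric.mem_closedBall, dist_zero_right] using h.1), mul_one, mul_one]
      exact hpt x v h.2.1 h.2.2.1 h.2.2.2
    · have hTh : Theta P t0 m0 (x, v) = 0 := by
        unfold Theta; rw [if_neg h]
      simp only [hTh]
      rw [mul_zero, ENNReal.ofReal_zero]
      exact zero_le
  have hm1 : Measurable (A.indicator fun _ : T3 => (1 : ℝ≥0∞)) := measurable_const.indicator hAm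
  have hiA : ∫⁻ x : T3, A.indicator (fun _ => (1 : ℝ≥0∞)) x = volume A :=
    lintegral_indicator_one hAm
  have hfin : ∫⁻ p : T3 × V, ENNReal.ofReal (G t0 p.1 p.2 * Theta P t0 m0 p)
      ≤ ENNReal.ofReal (ε * t0) := by
    refine (lintegral_mono hle).trans ?_
    rw [nz_lint hm1, hvBe, hiA]
    have e0 : ENNReal.ofReal M * (volume A * ENNReal.ofReal vB)
        ≤ ENNReal.ofReal M * (ENNReal.ofReal (2 * (6 * P.Vg * t0)) ^ 2 * ENNReal.ofReal vB) := by
      gcongr
      exact nz_vol_le _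
    refine e0.trans ?_
    rw [← ENNReal.ofReal_pow (by (clear * - hV ht0; positivity)), ← ENNReal.ofReal_mul (by positivity),
      ← ENNReal.ofReal_mul hM0.le]
    apply ENNReal.ofReal_le_ofReal
    have e1 : M * ((2 * (6 * P.Vg * t0)) ^ 2 * vB)
        = (144 * M * vB * P.Vg ^ 2 * t0) * t0 := by ring
    rw [e1]
    apply mul_le_mul_of_nonneg_right _ ht0.le
    have h5 : 0 ≤ 112 * M * vB * P.Vg ^ 2 * t0 := by (clear * - hM0 hvB0 hV ht0; positivity)
    linarith only [hε, hd3]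
  exact nz_integral_le (hGm.mul (nz_Theta_meas P t0 m0))
    (fun p => mul_nonneg (hG0 _ _) (hT0 _)) (by positivity) hfin

theorem noise_small' : EvP fun P => ∀ CB m0 ε : ℝ, 0 < CB → 0 < m0 → 0 < ε →
    ∀ᶠ t0 in 𝓝[>] (0 : ℝ), ∀ n, P.j0 ≤ n → P.ss n ≤ t0 → ∀ G : ℝ → T3 → V → ℝ,
    (Measurable fun p : ℝ × T3 × V => G p.1 p.2.1 p.2.2) → (∀ t x v, 0 ≤ G t x v) →
    (∀ t ∈ Icc 0 t0, ∀ x v,
      ENNReal.ofReal (G t x v) ≤ cf P n t x v + bf P n t x v + ENNReal.ofReal CB * Bb P t x v) →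
    (∀ t ∈ Icc 0 t0, MP P n (2 * t0) m0 G t ≤ ε * P.TT n t) ∧
    ∫ p : T3 × V, G t0 p.1 p.2 * Theta P t0 m0 p ≤ ε * t0 := by
  refine (((EvP.basic.and nz_lam).and (cf_support.and bf_support)).and
    (wt_facts.and wt_meas)).mono fun P hP => ?_
  obtain ⟨⟨⟨⟨hc, hl, hl1, hK1, hk0, hk1, _⟩, hLam⟩, hcf, hbf⟩, hwt, hwm⟩ := hP
  intro CB m0 ε hCB hm0 hε
  have hw : 0 ≤ P.w := by unfold Par.w; (clear * - hc; positivity)
  have hV : 0 < P.Vg := by unfold Par.Vg; (clear * - hc; positivity)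
  set M : ℝ := CB * (1 + 2 * (m0 ^ 2) ^ (-(3 / 4) : ℝ)) with hM
  have hq : 0 ≤ (m0 ^ 2) ^ (-(3 / 4) : ℝ) := Real.rpow_nonneg (by positivity) _
  have hM0 : 0 < M := by positivity
  set B : Set V := Metric.closedBall 0 P.Vg with hB
  have hBfin : volume B ≠ ∞ := (isCompact_closedBall _ _).measure_lt_top.ne
  set vB : ℝ := (volume B).toReal with hvB
  have hvB0 : 0 ≤ vB := ENNReal.toReal_nonneg
  have hvBe : volume B = ENNReal.ofReal vB := (ENNReal.ofReal_toReal hBfin).symm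
  -- smallness of `t0`
  set δ : ℝ := min (m0 / (240 * P.Vg)) (ε / (256 * M * vB * P.Vg ^ 2 + 1)) with hδ
  have hδ0 : 0 < δ := by
    apply lt_min
    · (clear * - hm0 hV; positivity)
    · have : 0 ≤ 256 * M * vB * P.Vg ^ 2 := by (clear * - hCB hm0 hV; positivity)
      (clear * - hε hCB hm0 hV; positivity)
  filter_upwards [hcf, hbf, hwt, self_mem_nhdsWithin,
    (Ioo_mem_nhdsGT hδ0 : Ioo 0 δ ∈ 𝓝[>] (0 : ℝ))] with t0 hcf hbf hwt ht0 hδt
  intro n hn hss G hGm hG0 hG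
  have ht0' : 0 < t0 := ht0
  have hd2 : 240 * P.Vg * t0 < m0 := by
    have := hδt.2.trans_le (min_le_left _ _)
    rw [lt_div_iff₀ (by (clear * - hV; positivity))] at this
    linarith only [this]
  have hd3 : 256 * M * vB * P.Vg ^ 2 * t0 ≤ ε := by
    have h1 := hδt.2.trans_le (min_le_right _ _)
    have h2 : 0 ≤ 256 * M * vB * P.Vg ^ 2 := by (clear * - hCB hm0 hV; positivity)
    rw [lt_div_iff₀ (by (clear * - hCB hm0 hV; positivity))] at h1
    linarith only [h1, ht0']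
  -- pointwise bound
  have hpt : ∀ t ∈ Icc 0 t0, ∀ x v, rr x ≤ 6 * P.Vg * t0 → m0 ≤ √(SS P 1 x v) →
      m0 ≤ √(SS P (-1) x v) → ENNReal.ofReal (G t x v) ≤ ENNReal.ofReal M := by
    intro t ht x v hr h1 h2
    have ht' : t ∈ Icc 0 (2 * t0) := ⟨ht.1, by linarith only [ht0', ht.2]⟩
    have hsg : ∀ j, m0 ≤ √(SS P (sg j) x v) := by
      intro j
      unfold sg
      rcases Nat.even_or_odd j with hj | hj
      · rw [hj.neg_one_pow]; exact h1
      · rw [hj.neg_one_pow]; exact h2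
    have hgg : (0 : ℝ) ≤ gg := by unfold gg; norm_num
    have hcf0 : cf P n t x v = 0 := by
      by_contra hne
      obtain ⟨j, _, hj2, _, hj4, _⟩ := hcf n t ht' x v hne
      have h3 := nz_del hw hl hl1 hk0 hk1 (by linarith only [hgg] : 0 ≤ gg / 2) ht.1 hj2 hr
      have h4 := hsg j
      linarith only [hm0, hd2, hj4, h3, h4]
    have hbf0 : bf P n t x v = 0 := by
      by_contra hne
      obtain ⟨j, _, hj2, hj4⟩ := hbf n t ht' x v hne
      have h3 := nz_del hw hl hl1 hk0 hk1 (by linarith only [hgg] : 0 ≤ gg / 4) ht.1 hj2 hr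
      have h4 := hsg j
      linarith only [hd2, hj4, h3, h4]
    have h3 := hG t ht x v
    rw [hcf0, hbf0, add_zero, zero_add] at h3
    refine h3.trans ?_
    rw [hM, ENNReal.ofReal_mul hCB.le]
    exact mul_le_mul' le_rfl (nz_Bb hm0 ht.1 h1 h2)
  have hGmt : ∀ t, Measurable fun p : T3 × V => G t p.1 p.2 := nz_slice hGm
  have hss0 : 0 ≤ P.ss n := by
    unfold Par.ss
    have : 0 < P.lam := by linarith only [hl]
    (clear * - hl hw; positivity)
  constructor
  · intro t ht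
    have ht' : t ∈ Icc 0 (2 * t0) := ⟨ht.1, by linarith only [ht0', ht.2]⟩
    exact nz_partA hM0 hvB0 hε hV hLam hvBe hd3 (by unfold Par.TT; linarith only [hss0, ht.1])
      (by unfold Par.TT; linarith only [hss, ht.2]) (hwt n hn hss t ht')
      (nz_slice (f := wt P n (2 * t0)) (hwm n (2 * t0)) t) (hGmt t) (hG0 t) (hpt t ht)
  · exact nz_partB hM0 hvB0 hε hV ht0' hvBe hd3 (hGmt t0) (hG0 t0) (hpt t0 ⟨ht0'.le, le_rfl⟩)

end Vale.Agent.P140.NU
end
end

section

/-!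
P140, non-uniqueness, module B: statement Noise (proof in `NU/B/Noise.lean`).
-/

open MeasureTheory Set Filter
open scoped ENNReal Topology

noncomputable section

namespace Vale.Agent.P140.NU

/-- B3: the cold part is invisible for the observable -/
theorem noise_small : EvP fun P => ∀ CB m0 ε : ℝ, 0 < CB → 0 < m0 → 0 < ε →
    ∀ᶠ t0 in 𝓝[>] (0 : ℝ), ∀ n, P.j0 ≤ n → P.ss n ≤ t0 → ∀ G : ℝ → T3 → V → ℝ,
    (Measurable fun p : ℝ × T3 × V => G p.1 p.2.1 p.2.2) → (∀ t x v, 0 ≤ G t x v) →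
    (∀ t ∈ Icc 0 t0, ∀ x v,
      ENNReal.ofReal (G t x v) ≤ cf P n t x v + bf P n t x v + ENNReal.ofReal CB * Bb P t x v) →
    (∀ t ∈ Icc 0 t0, MP P n (2 * t0) m0 G t ≤ ε * P.TT n t) ∧
    ∫ p : T3 × V, G t0 p.1 p.2 * Theta P t0 m0 p ≤ ε * t0 := noise_small'

end Vale.Agent.P140.NU
end
end

section

/-!
P140, non-uniqueness, module B4: Lipschitz dependence of the main functional on the amplitude
of the seed.
-/

open MeasureTheory Set Filter
open scoped ENNReal Topology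

noncomputable section

namespace Vale.Agent.P140.NU

/-- the cut off weight is measurable -/
theorem b4_Phi_meas {P : Par} {n : ℕ} {te : ℝ}
    (hw : Measurable fun p : ℝ × T3 × V => wt P n te p.1 p.2.1 p.2.2) (m0 t : ℝ) :
    Measurable fun p : T3 × V => Phi P n te m0 t p.1 p.2 := by
  have h1 : Measurable fun p : T3 × V => ((t, p) : ℝ × T3 × V) :=
    measurable_const.prodMk measurable_id
  have h2 := hw.comp h1
  simp only [Function.comp_def] at h2
  have h3 : MeasurableSet {p : T3 × V | m0 ≤ √(SS P 1 p.1 p.2) ∧ m0 ≤ √(SS P (-1) p.1 p.2)} :=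
    (measurableSet_le measurable_const (measurable_SS (P := P) 1).sqrt).inter
      (measurableSet_le measurable_const (measurable_SS (P := P) (-1)).sqrt)
  unfold Phi
  exact Measurable.ite h3 h2 measurable_const

/-- the cut off weight is a sub-indicator of a bounded set of velocities -/
theorem b4_Phi_le {P : Par} {n : ℕ} {te m0 t : ℝ} {x : T3} {v : V}
    (h : 0 ≤ wt P n te t x v ∧ wt P n te t x v ≤ 1 ∧ (wt P n te t x v ≠ 0 → ‖v‖ ≤ P.Vg)) :
    |Phi P n te m0 t x v| ≤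
      (univ ×ˢ Metric.closedBall (0 : V) P.Vg : Set (T3 × V)).indicator (fun _ => (1 : ℝ)) (x, v) := by
  obtain ⟨h0, h1, h2⟩ := h
  unfold Phi
  split_ifs with hm
  · rw [abs_of_nonneg h0]
    by_cases hz : wt P n te t x v = 0
    · rw [hz]
      exact indicator_nonneg (fun _ _ => zero_le_one) _
    · rw [indicator_of_mem]
      · exact h1
      · exact ⟨mem_univ _, by simpa only [Metric.mem_closedBall, dist_zero_right] using h2 hz⟩
  · rw [abs_zero]
    exact indicator_nonneg (fun _ _ => zero_le_one) _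

theorem b4_vol (R : ℝ) : (volume : Measure (T3 × V))
    (univ ×ˢ Metric.closedBall (0 : V) R : Set (T3 × V)) ≠ ⊤ := by
  rw [Measure.volume_eq_prod, Measure.prod_prod]
  exact ENNReal.mul_ne_top (measure_ne_top _ _) measure_closedBall_lt_top.ne

/-- integrals against the cut off weight -/
theorem b4_int {R B : ℝ} {w f : T3 × V → ℝ} (mw : Measurable w) (mf : Measurable f)
    (hw : ∀ p, |w p| ≤
      (univ ×ˢ Metric.closedBall (0 : V) R : Set (T3 × V)).indicator (fun _ => (1 : ℝ)) p)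
    (hf : ∀ p, |f p| ≤ B) :
    Integrable (fun p => w p * f p) ∧ |∫ p, w p * f p| ≤
      B * ((volume : Measure (T3 × V)).real (univ ×ˢ Metric.closedBall (0 : V) R)) := by
  have hS : MeasurableSet (univ ×ˢ Metric.closedBall (0 : V) R : Set (T3 × V)) :=
    MeasurableSet.univ.prod measurableSet_closedBall
  have hb : ∀ p, ‖w p * f p‖ ≤
      (univ ×ˢ Metric.closedBall (0 : V) R : Set (T3 × V)).indicator (fun _ => B) p := by
    intro p
    rw [norm_mul, Real.norm_eq_abs, Real.norm_eq_abs]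
    have h1 := hw p
    by_cases hp : p ∈ (univ ×ˢ Metric.closedBall (0 : V) R : Set (T3 × V))
    · rw [indicator_of_mem hp] at h1 ⊢
      calc |w p| * |f p| ≤ 1 * B := mul_le_mul h1 (hf p) (abs_nonneg _) zero_le_one
        _ = B := one_mul _
    · rw [indicator_of_notMem hp] at h1 ⊢
      have h2 : |w p| = 0 := le_antisymm h1 (abs_nonneg _)
      rw [h2, zero_mul]
  have hi : Integrable ((univ ×ˢ Metric.closedBall (0 : V) R : Set (T3 × V)).indicator
      (fun _ => B)) := (integrable_indicator_iff hS).2 (integrableOn_const (b4_vol R))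
  constructor
  · exact hi.mono' (mw.mul mf).aestronglyMeasurable (Eventually.of_forall hb)
  · rw [← Real.norm_eq_abs]
    refine (norm_integral_le_of_norm_le hi (Eventually.of_forall hb)).trans (le_of_eq ?_)
    rw [integral_indicator hS, setIntegral_const, smul_eq_mul, mul_comm]

/-- bounds for the solutions and their differences, for all velocities -/
theorem b4_stable (N : ℕ) (B T : ℝ) (hB : 0 ≤ B) : ∃ K : ℝ, 0 ≤ K ∧
    (∀ F0 F, DL.IsBM N F0 F → (∀ x v, F0 x v ≤ B) → ∀ t ∈ Icc 0 T, ∀ x v, |F t x v| ≤ K) ∧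
    (∀ F0 G0 F G, DL.IsBM N F0 F → DL.IsBM N G0 G → (∀ x v, F0 x v ≤ B) → (∀ x v, G0 x v ≤ B) →
      ∀ d : ℝ, 0 ≤ d → (∀ x v, |F0 x v - G0 x v| ≤ d) →
      ∀ t ∈ Icc 0 T, ∀ x v, |F t x v - G t x v| ≤ K * d) := by
  obtain ⟨K0, hK0, H0⟩ := DL.exists_growth N
  obtain ⟨K1, hK1, H1⟩ := DL.exists_stable N B T
  have hout : ∀ F0 F, DL.IsBM N F0 F → ∀ t, 0 ≤ t → ∀ x v, (N : ℝ) < ‖v‖ →
      F t x v = F0 (flow (-t) (x, v)).1 v := by
    intro F0 F hF t ht x v hv
    rw [← DL.along_flow_neg F t x v, hF.eq_of_lt (p := flow (-t) (x, v)) hv ht]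
    rfl
  have hE : 0 ≤ B * Real.exp (K0 * |T|) := by (clear * - hB; positivity)
  refine ⟨K1 + 1 + B + B * Real.exp (K0 * |T|), by positivity, ?_, ?_⟩
  · intro F0 F hF hF0 t ht x v
    rw [abs_of_nonneg (hF.nonneg t x v)]
    rcases le_or_gt ‖v‖ (N : ℝ) with hv | hv
    · have h1 := H0 F0 F hF B (fun x v _ => hF0 x v) t ht.1 x v hv
      have h2 : K0 * t ≤ K0 * |T| :=
        mul_le_mul_of_nonneg_left (ht.2.trans (le_abs_self T)) hK0
      have h3 : B * Real.exp (K0 * t) ≤ B * Real.exp (K0 * |T|) := by (clear * - h2 hB; gcongr)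
      linarith
    · rw [hout F0 F hF t ht.1 x v hv]
      have := hF0 (flow (-t) (x, v)).1 v
      linarith only [hK1, hE, this]
  · intro F0 G0 F G hF hG hF0 hG0 d hd hFG t ht x v
    rcases le_or_gt ‖v‖ (N : ℝ) with hv | hv
    · have h1 := H1 F0 G0 F G hF hG (fun x v _ => hF0 x v) (fun x v _ => hG0 x v) d hd
        (fun x v _ => hFG x v) t ht x v hv
      have h2 : 0 ≤ (1 + B + B * Real.exp (K0 * |T|)) * d := by (clear * - hB hd; positivity)
      linarith only [h1, h2]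
    · rw [hout F0 F hF t ht.1 x v hv, hout G0 G hG t ht.1 x v hv]
      have h1 := hFG (flow (-t) (x, v)).1 v
      have h2 : 0 ≤ (K1 + B + B * Real.exp (K0 * |T|)) * d := by (clear * - hK1 hB hd; positivity)
      linarith only [h1, h2]

/-- the seed is bounded -/
theorem b4_seed {P : Par} {n : ℕ} (h : 0 < P.ss n) (x : T3) (v : V) :
    0 ≤ seed P n x v ∧ seed P n x v ≤ (P.ss n)⁻¹ := by
  have h1 : 0 ≤ (P.ss n)⁻¹ := (inv_pos.2 h).le
  unfold seed
  split_ifs
  · exact ⟨h1, le_rfl⟩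
  · exact ⟨le_rfl, h1⟩

theorem b4_dat_sub {P : Par} {n : ℕ} (h : 0 < P.ss n) (κ κ' : ℝ) (x : T3) (v : V) :
    |dat P n κ x v - dat P n κ' x v| ≤ |κ - κ'| * (P.ss n)⁻¹ := by
  have h1 := b4_seed h x v
  have h2 : dat P n κ x v - dat P n κ' x v = (κ - κ') * seed P n x v := by
    unfold dat
    ring
  rw [h2, abs_mul, abs_of_nonneg h1.1]
  exact mul_le_mul_of_nonneg_left h1.2 (abs_nonneg _)

theorem b4_ss_pos {P : Par} (h : 1 ≤ P.c) (hl : 0 < P.lam) (n : ℕ) : 0 < P.ss n := by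
  unfold Par.ss Par.w
  positivity

/-- B4: Lipschitz dependence on the amplitude of the seed -/
theorem MP_lip' : EvP fun P => ∀ m0 : ℝ, ∀ᶠ t0 in 𝓝[>] (0 : ℝ), ∀ n, P.j0 ≤ n → P.ss n ≤ t0 →
    ∀ N : ℕ, ∃ C : ℝ, 0 ≤ C ∧ ∀ κ ∈ Icc (0 : ℝ) 1, ∀ κ' ∈ Icc (0 : ℝ) 1, ∀ F F',
    DL.IsBM N (dat P n κ) F → DL.IsBM N (dat P n κ') F' → ∀ t ∈ Icc 0 t0,
    |MP P n (2 * t0) m0 F t| ≤ C ∧
    |MP P n (2 * t0) m0 F t - MP P n (2 * t0) m0 F' t| ≤ C * |κ - κ'| := by
  refine (EvP.basic.and (wt_facts.and (wt_meas.and dat_bdd))).mono ?_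
  rintro P ⟨⟨hc, hl2, -, -, -, -, -⟩, hwt, hwm, hdb⟩ m0
  filter_upwards [hwt, self_mem_nhdsWithin] with t0 hwt ht0 n hj hss N
  have ht0 : 0 < t0 := ht0
  have hs : 0 < P.ss n := b4_ss_pos hc (by linarith only [hl2]) n
  obtain ⟨B0, hB0⟩ := hdb n
  have hB : 0 ≤ max B0 0 := le_max_right _ _
  obtain ⟨K, hK, H1, H2⟩ := b4_stable N (max B0 0) t0 hB
  set μ : ℝ := (volume : Measure (T3 × V)).real (univ ×ˢ Metric.closedBall (0 : V) P.Vg) with hμ
  have hμ0 : 0 ≤ μ := measureReal_nonneg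
  have hd : ∀ κ ∈ Icc (0 : ℝ) 1, ∀ x v, dat P n κ x v ≤ max B0 0 := fun κ hκ x v =>
    (hB0 κ hκ x v).2.1.trans (le_max_left _ _)
  have hsi : 0 ≤ (P.ss n)⁻¹ := (inv_pos.2 hs).le
  refine ⟨K * μ + K * (P.ss n)⁻¹ * μ, by (clear * - hK hs; positivity), ?_⟩
  intro κ hκ κ' hκ' F F' hF hF' t ht
  have ht2 : t ∈ Icc 0 (2 * t0) := ⟨ht.1, by linarith only [ht0, ht.2]⟩
  have mPhi := b4_Phi_meas (P := P) (n := n) (te := 2 * t0) (hwm n (2 * t0)) m0 t
  have hPhi : ∀ p : T3 × V, |Phi P n (2 * t0) m0 t p.1 p.2| ≤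
      (univ ×ˢ Metric.closedBall (0 : V) P.Vg : Set (T3 × V)).indicator (fun _ => (1 : ℝ)) p := by
    intro p
    have h1 := hwt n hj hss t ht2 p.1 p.2
    exact b4_Phi_le ⟨h1.1, h1.2.1, fun h => (h1.2.2.1 h).1⟩
  have mF : ∀ κ F, DL.IsBM N (dat P n κ) F → Measurable fun p : T3 × V => F t p.1 p.2 :=
    fun κ F hF => hF.meas.comp (measurable_const.prodMk measurable_id)
  obtain ⟨i1, b1⟩ := b4_int mPhi (mF κ F hF) hPhi
    (fun p => H1 _ F hF (hd κ hκ) t ht p.1 p.2)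
  obtain ⟨i2, -⟩ := b4_int mPhi (mF κ' F' hF') hPhi
    (fun p => H1 _ F' hF' (hd κ' hκ') t ht p.1 p.2)
  obtain ⟨-, b3⟩ := b4_int mPhi ((mF κ F hF).sub (mF κ' F' hF')) hPhi
    (fun p => H2 _ _ F F' hF hF' (hd κ hκ) (hd κ' hκ') _ (by (clear * - hs; positivity))
      (fun x v => b4_dat_sub hs κ κ' x v) t ht p.1 p.2)
  constructor
  · refine (b1 : |MP P n (2 * t0) m0 F t| ≤ K * μ).trans ?_
    have : 0 ≤ K * (P.ss n)⁻¹ * μ := by (clear * - hK hs; positivity)
    linarith only [this]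
  · have e : MP P n (2 * t0) m0 F t - MP P n (2 * t0) m0 F' t =
        ∫ p : T3 × V, Phi P n (2 * t0) m0 t p.1 p.2 *
          ((fun p : T3 × V => F t p.1 p.2) - (fun p : T3 × V => F' t p.1 p.2)) p := by
      unfold MP
      rw [← integral_sub i1 i2]
      refine integral_congr_ae (Eventually.of_forall fun p => ?_)
      simp only [Pi.sub_apply]
      ring
    rw [e]
    refine b3.trans ?_
    have : 0 ≤ K * μ * |κ - κ'| := by (clear * - hK; positivity)
    calc K * (|κ - κ'| * (P.ss n)⁻¹) * μ ≤ K * (|κ - κ'| * (P.ss n)⁻¹) * μ + K * μ * |κ - κ'| := by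
          linarith only [this]
      _ = (K * μ + K * (P.ss n)⁻¹ * μ) * |κ - κ'| := by ring

end Vale.Agent.P140.NU
end
end

section

/-!
P140, non-uniqueness, module B: statement Lip (proof in `NU/B/Lip.lean`).
-/

open MeasureTheory Set Filter
open scoped ENNReal Topology

noncomputable section

namespace Vale.Agent.P140.NU

/-- B4: Lipschitz dependence on the amplitude of the seed -/
theorem MP_lip : EvP fun P => ∀ m0 : ℝ, ∀ᶠ t0 in 𝓝[>] (0 : ℝ), ∀ n, P.j0 ≤ n → P.ss n ≤ t0 →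
    ∀ N : ℕ, ∃ C : ℝ, 0 ≤ C ∧ ∀ κ ∈ Icc (0 : ℝ) 1, ∀ κ' ∈ Icc (0 : ℝ) 1, ∀ F F',
    DL.IsBM N (dat P n κ) F → DL.IsBM N (dat P n κ') F' → ∀ t ∈ Icc 0 t0,
    |MP P n (2 * t0) m0 F t| ≤ C ∧
    |MP P n (2 * t0) m0 F t - MP P n (2 * t0) m0 F' t| ≤ C * |κ - κ'| := MP_lip'

end Vale.Agent.P140.NU
end
end

section

/-!
P140, non-uniqueness, module B6: the observable and the main functional.
-/

open MeasureTheory Set Filter
open scoped ENNReal Topology

noncomputable section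

namespace Vale.Agent.P140.NU

theorem th_measurableSet (P : Par) (m0 : ℝ) :
    MeasurableSet {p : T3 × V | m0 ≤ √(SS P 1 p.1 p.2) ∧ m0 ≤ √(SS P (-1) p.1 p.2)} :=
  (measurableSet_le measurable_const (measurable_SS P 1).sqrt).inter
    (measurableSet_le measurable_const (measurable_SS P (-1)).sqrt)

/-- B6 -/
theorem measurable_Theta' (P : Par) (t0 m0 : ℝ) : Measurable (Theta P t0 m0) := by
  unfold Theta
  have h1 : MeasurableSet {p : T3 × V | ‖p.2‖ ≤ P.Vg} :=
    measurableSet_le measurable_snd.norm measurable_const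
  have h2 : MeasurableSet {p : T3 × V | rr p.1 ≤ 6 * P.Vg * t0} :=
    measurableSet_le (measurable_rr.comp measurable_fst) measurable_const
  exact Measurable.ite (h1.inter (h2.inter (th_measurableSet P m0))) measurable_const
    measurable_const

theorem th_slice {X : ℝ → T3 → V → ℝ} (hX : Measurable fun p : ℝ × T3 × V => X p.1 p.2.1 p.2.2)
    (t : ℝ) : Measurable fun p : T3 × V => X t p.1 p.2 :=
  hX.comp (by fun_prop : Measurable fun p : T3 × V => (t, p))

theorem th_measurable_Phi {P : Par} {n : ℕ} {te : ℝ}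
    (hw : Measurable fun p : ℝ × T3 × V => wt P n te p.1 p.2.1 p.2.2) (m0 t : ℝ) :
    Measurable fun p : T3 × V => Phi P n te m0 t p.1 p.2 := by
  unfold Phi
  have h1 : Measurable fun p : T3 × V => wt P n te t p.1 p.2 :=
    th_slice hw t
  exact Measurable.ite (th_measurableSet P m0) h1 measurable_const

theorem th_ball_lt_top (R : ℝ) :
    (volume : Measure (T3 × V)) (univ ×ˢ Metric.closedBall (0 : V) R) < ⊤ := by
  rw [Measure.volume_eq_prod, Measure.prod_prod]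
  exact ENNReal.mul_lt_top (measure_lt_top _ _) measure_closedBall_lt_top

theorem th_integrable {f : T3 × V → ℝ} (hf : Measurable f) {B R : ℝ} (hB : ∀ p, |f p| ≤ B)
    (h0 : ∀ p, R < ‖p.2‖ → f p = 0) : Integrable f := by
  have h1 : IntegrableOn f (univ ×ˢ Metric.closedBall (0 : V) R) :=
    Measure.integrableOn_of_bounded (M := B) (th_ball_lt_top R).ne hf.aestronglyMeasurable
      (Eventually.of_forall fun p => by rw [Real.norm_eq_abs]; exact hB p)
  rwa [integrableOn_iff_integrable_of_support_subset] at h1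
  intro p hp
  refine ⟨mem_univ _, ?_⟩
  rw [mem_closedBall_zero_iff]
  by_contra hc
  exact hp (h0 p (not_le.1 hc))

theorem th_entropy_le {z C : ℝ} (h0 : 0 ≤ z) (hC : z ≤ C) : z * |Real.log z| ≤ 1 + C ^ 2 := by
  rcases h0.eq_or_lt with h | h
  · rw [← h, zero_mul]
    (clear * -; positivity)
  · rcases le_or_gt z 1 with h1 | h1
    · have h2 := Real.abs_log_mul_self_lt z h h1
      rw [abs_mul, abs_of_pos h] at h2
      nlinarith only [h2]
    · have h2 : 0 ≤ Real.log z := Real.log_nonneg h1.le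
      have h3 := Real.log_le_sub_one_of_pos h
      rw [abs_of_nonneg h2]
      linarith only [mul_nonneg (sub_nonneg.2 hC) (sub_nonneg.2 hC), mul_nonneg (sub_nonneg.2 h0) (sub_nonneg.2 h3), mul_nonneg (sub_nonneg.2 h0) (sub_nonneg.2 hC), h0]

/-- B6 -/
theorem dat_datum' : EvP fun P => ∀ n, ∀ κ ∈ Icc (0 : ℝ) 1, IsDatum (dat P n κ) := by
  refine dat_bdd.mono fun P hd n κ hκ => ?_
  obtain ⟨C, hC⟩ := hd n
  have h := hC κ hκ
  refine ⟨dat_meas P n κ, fun x v => (h x v).1, ?_⟩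
  have hC0 : 0 ≤ C := (h 0 0).1.trans (h 0 0).2.1
  have hle : ∀ p : T3 × V, ENNReal.ofReal
      (dat P n κ p.1 p.2 * (1 + ‖p.2‖ ^ 2 + |Real.log (dat P n κ p.1 p.2)|))
      ≤ (univ ×ˢ Metric.closedBall (0 : V) 3).indicator
        (fun _ => ENNReal.ofReal (C * 10 + (1 + C ^ 2))) p := by
    intro p
    by_cases hp : ‖p.2‖ ≤ 3
    · have hmem : p ∈ univ ×ˢ Metric.closedBall (0 : V) 3 :=
        ⟨mem_univ _, mem_closedBall_zero_iff.2 hp⟩
      rw [indicator_of_mem hmem]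
      apply ENNReal.ofReal_le_ofReal
      have h1 := (h p.1 p.2).1
      have h2 := (h p.1 p.2).2.1
      have h3 := th_entropy_le h1 h2
      have h4 : 1 + ‖p.2‖ ^ 2 ≤ 10 := by linarith [mul_nonneg (sub_nonneg.2 hp) (sub_nonneg.2 (norm_nonneg p.2)), mul_nonneg (sub_nonneg.2 hp) (sub_nonneg.2 hp)]
      have h5 : dat P n κ p.1 p.2 * (1 + ‖p.2‖ ^ 2) ≤ C * 10 :=
        mul_le_mul h2 h4 (by (clear * -; positivity)) hC0
      rw [mul_add]
      linarith only [h3, h5]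
    · rw [(h p.1 p.2).2.2 (not_le.1 hp)]
      simp only [Real.log_zero, abs_zero, add_zero, zero_mul, ENNReal.ofReal_zero, zero_le]
  refine (lintegral_mono hle).trans_lt ?_
  rw [lintegral_indicator_const (MeasurableSet.univ.prod measurableSet_closedBall)]
  exact ENNReal.mul_lt_top ENNReal.ofReal_lt_top (th_ball_lt_top 3)

theorem th_F_zero {P : Par} {n N : ℕ} {κ : ℝ} {F : ℝ → T3 → V → ℝ} (hN : 3 ≤ N)
    (h3 : ∀ x v, 3 < ‖v‖ → coldn P n x v = 0) (hF : DL.IsBM N (dat P n κ) F) {t : ℝ}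
    (ht : 0 ≤ t) (x : T3) {v : V} (hv : (N : ℝ) < ‖v‖) : F t x v = 0 := by
  have hv3 : 3 < ‖v‖ := by
    have : (3 : ℝ) ≤ N := by exact_mod_cast hN
    linarith only [hv, this]
  rw [← DL.along_flow_neg F t x v, hF.eq_of_lt (p := flow (-t) (x, v)) hv ht]
  show dat P n κ (flow (-t) (x, v)).1 v = 0
  unfold dat
  rw [h3 _ _ hv3]
  unfold seed
  rw [if_neg (fun h => absurd h.2.2.2.2 (not_le.2 hv3))]
  simp

theorem th_Phi_le {P : Par} {n : ℕ} {te m0 t : ℝ} {x : T3} {v : V} (h : 0 ≤ wt P n te t x v) :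
    0 ≤ Phi P n te m0 t x v ∧ Phi P n te m0 t x v ≤ wt P n te t x v := by
  unfold Phi
  split_ifs
  · exact ⟨h, le_rfl⟩
  · exact ⟨le_rfl, h⟩

/-- B6 -/
theorem MP_le_Theta' : EvP fun P => ∀ m0 : ℝ, ∀ᶠ t0 in 𝓝[>] (0 : ℝ), ∀ n, P.j0 ≤ n →
    P.ss n ≤ t0 → ∀ CB κ : ℝ, ∀ N : ℕ, 3 ≤ N → ∀ F G h, Split P CB t0 n N κ F G h →
    (∀ t ∈ Icc 0 t0, MP P n (2 * t0) m0 h t ≤ MP P n (2 * t0) m0 F t) ∧
    (∀ t ∈ Icc 0 t0, MP P n (2 * t0) m0 F t =
      MP P n (2 * t0) m0 h t + MP P n (2 * t0) m0 G t) ∧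
    (∀ t ∈ Icc 0 t0, MP P n (2 * t0) m0 h t ≤ NN P n (2 * t0) h t) ∧
    MP P n (2 * t0) m0 h t0 ≤ ∫ p : T3 × V, F t0 p.1 p.2 * Theta P t0 m0 p := by
  refine ((wt_facts.and wt_meas).and dat_bdd).mono fun P hP m0 => ?_
  obtain ⟨⟨hwf, hwm⟩, hd⟩ := hP
  filter_upwards [hwf, self_mem_nhdsWithin] with t0 hw ht0 n hn hss CB κ N hN F G h hs
  have ht0' : 0 < t0 := ht0
  have hcold : ∀ x v, 3 < ‖v‖ → coldn P n x v = 0 := by
    intro x v hv
    obtain ⟨C, hC⟩ := hd n
    have h1 := (hC 0 (by simp only [mem_Icc, Std.le_refl, zero_le_one, and_self]) x v).2.2 hv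
    unfold dat at h1
    rw [zero_mul, add_zero] at h1
    exact h1
  have hwt : ∀ t ∈ Icc 0 t0, ∀ x v, 0 ≤ wt P n (2 * t0) t x v ∧ wt P n (2 * t0) t x v ≤ 1 ∧
      (wt P n (2 * t0) t x v ≠ 0 → ‖v‖ ≤ P.Vg ∧ rr x ≤ 6 * P.Vg * t0) := by
    intro t ht x v
    have h1 := hw n hn hss t ⟨ht.1, ht.2.trans (by linarith only [ht0'])⟩ x v
    exact ⟨h1.1, h1.2.1, h1.2.2.1⟩
  obtain ⟨B0, hB0⟩ := hs.appr.bdd t0
  set B := max B0 0 with hB
  have hBn : 0 ≤ B := le_max_right _ _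
  have hFz : ∀ t ∈ Icc 0 t0, ∀ (x : T3) (v : V), (N : ℝ) < ‖v‖ → F t x v = 0 :=
    fun t ht x v hv => th_F_zero hN hcold hs.appr ht.1 x hv
  have hFB : ∀ t ∈ Icc 0 t0, ∀ x v, F t x v ≤ B := by
    intro t ht x v
    rcases le_or_gt ‖v‖ (N : ℝ) with hv | hv
    · exact (hB0 t ht x v hv).trans (le_max_left _ _)
    · rw [hFz t ht x v hv]
      exact hBn
  have hF0 := hs.appr.nonneg
  have hhF : ∀ t x v, h t x v ≤ F t x v := fun t x v => by
    rw [hs.eq t x v]; linarith only [hs.nonnegG t x v]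
  have hGF : ∀ t x v, G t x v ≤ F t x v := fun t x v => by
    rw [hs.eq t x v]; linarith only [hs.nonnegh t x v]
  have hPm : ∀ t, Measurable fun p : T3 × V => Phi P n (2 * t0) m0 t p.1 p.2 := fun t =>
    th_measurable_Phi (hwm n (2 * t0)) m0 t
  have hwm' : ∀ t, Measurable fun p : T3 × V => wt P n (2 * t0) t p.1 p.2 := fun t =>
    th_slice (hwm n (2 * t0)) t
  -- integrability of bounded weights against the three functions
  have hint : ∀ {X : ℝ → T3 → V → ℝ}, (Measurable fun p : ℝ × T3 × V => X p.1 p.2.1 p.2.2) →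
      (∀ t x v, 0 ≤ X t x v) → (∀ t x v, X t x v ≤ F t x v) → ∀ {ψ : T3 × V → ℝ},
      Measurable ψ → (∀ p, 0 ≤ ψ p ∧ ψ p ≤ 1) → ∀ t ∈ Icc 0 t0,
      Integrable fun p : T3 × V => ψ p * X t p.1 p.2 := by
    intro X hX hX0 hXF ψ hψ hψ1 t ht
    refine th_integrable (B := B) (R := N) (hψ.mul (th_slice hX t)) (fun p => ?_) (fun p hp => ?_)
    · rw [abs_of_nonneg (mul_nonneg (hψ1 p).1 (hX0 _ _ _))]
      calc ψ p * X t p.1 p.2 ≤ 1 * B :=
            mul_le_mul (hψ1 p).2 ((hXF _ _ _).trans (hFB t ht _ _)) (hX0 _ _ _) zero_le_one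
        _ = B := one_mul B
    · have h1 : X t p.1 p.2 = 0 :=
        le_antisymm ((hXF _ _ _).trans (hFz t ht _ _ hp).le) (hX0 _ _ _)
      rw [h1, mul_zero]
  have hPhi : ∀ t ∈ Icc 0 t0, ∀ p : T3 × V, 0 ≤ Phi P n (2 * t0) m0 t p.1 p.2 ∧
      Phi P n (2 * t0) m0 t p.1 p.2 ≤ 1 := fun t ht p =>
    ⟨(th_Phi_le (hwt t ht p.1 p.2).1).1,
      (th_Phi_le (hwt t ht p.1 p.2).1).2.trans (hwt t ht p.1 p.2).2.1⟩
  have hif := fun t ht => hint hs.appr.meas hF0 (fun _ _ _ => le_rfl) (hPm t) (hPhi t ht) t ht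
  have hih := fun t ht => hint hs.meash hs.nonnegh hhF (hPm t) (hPhi t ht) t ht
  have hig := fun t ht => hint hs.measG hs.nonnegG hGF (hPm t) (hPhi t ht) t ht
  refine ⟨fun t ht => ?_, fun t ht => ?_, fun t ht => ?_, ?_⟩
  · unfold MP
    exact integral_mono (hih t ht) (hif t ht) fun p =>
      mul_le_mul_of_nonneg_left (hhF _ _ _) (hPhi t ht p).1
  · unfold MP
    rw [← integral_add (hih t ht) (hig t ht)]
    refine integral_congr_ae (Eventually.of_forall fun p => ?_)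
    simp only
    rw [hs.eq t p.1 p.2]
    ring
  · unfold MP NN
    refine integral_mono (hih t ht) (hint hs.meash hs.nonnegh hhF (hwm' t)
      (fun p => ⟨(hwt t ht p.1 p.2).1, (hwt t ht p.1 p.2).2.1⟩) t ht) fun p => ?_
    exact mul_le_mul_of_nonneg_right (th_Phi_le (hwt t ht p.1 p.2).1).2 (hs.nonnegh _ _ _)
  · have ht : t0 ∈ Icc 0 t0 := ⟨ht0'.le, le_rfl⟩
    have hT1 : ∀ p, 0 ≤ Theta P t0 m0 p ∧ Theta P t0 m0 p ≤ 1 := by
      intro p
      unfold Theta
      split_ifs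
      · exact ⟨zero_le_one, le_rfl⟩
      · exact ⟨le_rfl, zero_le_one⟩
    have hiT := hint hs.appr.meas hF0 (fun _ _ _ => le_rfl) (measurable_Theta' P t0 m0) hT1 t0 ht
    unfold MP
    have hcomm : (fun p : T3 × V => F t0 p.1 p.2 * Theta P t0 m0 p)
        = fun p : T3 × V => Theta P t0 m0 p * F t0 p.1 p.2 := by
      funext p; ring
    rw [hcomm]
    refine integral_mono (hih t0 ht) hiT fun p => ?_
    have hPT : Phi P n (2 * t0) m0 t0 p.1 p.2 ≤ Theta P t0 m0 p := by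
      by_cases h1 : Phi P n (2 * t0) m0 t0 p.1 p.2 = 0
      · rw [h1]; exact (hT1 p).1
      · have h2 : m0 ≤ √(SS P 1 p.1 p.2) ∧ m0 ≤ √(SS P (-1) p.1 p.2) := by
          by_contra hc
          apply h1
          unfold Phi
          rw [if_neg hc]
        have h3 : wt P n (2 * t0) t0 p.1 p.2 ≠ 0 := by
          intro hc
          apply h1
          unfold Phi
          rw [if_pos h2, hc]
        have h4 := (hwt t0 ht p.1 p.2).2.2 h3
        have h5 : Theta P t0 m0 p = 1 := by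
          unfold Theta
          rw [if_pos ⟨h4.1, h4.2, h2.1, h2.2⟩]
        rw [h5]
        exact (hPhi t0 ht p).2
    calc Phi P n (2 * t0) m0 t0 p.1 p.2 * h t0 p.1 p.2
        ≤ Theta P t0 m0 p * h t0 p.1 p.2 := mul_le_mul_of_nonneg_right hPT (hs.nonnegh _ _ _)
      _ ≤ Theta P t0 m0 p * F t0 p.1 p.2 := mul_le_mul_of_nonneg_left (hhF _ _ _) (hT1 p).1

end Vale.Agent.P140.NU
end
end

section

open MeasureTheory Set Filter
open scoped ENNReal Topology NNReal

noncomputable section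

namespace Vale.Agent.P140.DL.L4

/-- gains of almost everywhere equal functions -/
theorem gain_congr_ae {f g : V → ℝ} (h : ∀ᵐ v, f v = g v) : ∀ᵐ v, gain f v = gain g v := by
  have hN0 : volume {v : V | ¬ f v = g v} = 0 := h
  filter_upwards [ae_post_notMem hN0] with v hv
  unfold gain
  apply lintegral_congr_ae
  filter_upwards [hv] with w hw
  apply lintegral_congr_ae
  filter_upwards [hw] with o ho
  simp only [not_not] at ho
  rw [ho.1, ho.2]

theorem rate_congr_ae {f g : V → ℝ} (h : ∀ᵐ v, f v = g v) (v : V) : rate f v = rate g v := by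
  unfold rate
  apply lintegral_congr_ae
  filter_upwards [h] with w hw
  simp only [hw]

theorem loss_eq_rate {f : V → ℝ} (hf : ∀ v, 0 ≤ f v) (v : V) :
    loss f v = ENNReal.ofReal (f v) * rate f v := by
  unfold loss rate
  rw [← lintegral_const_mul' _ _ ENNReal.ofReal_ne_top]
  apply lintegral_congr
  intro w
  rw [← lintegral_const_mul' _ _ ENNReal.ofReal_ne_top]
  apply lintegral_congr
  intro o
  rw [← ENNReal.ofReal_mul (hf v)]
  congr 1
  ring

theorem ae_PP_flow {P : ℝ × T3 × V → Prop} (h : ∀ᵐ q ∂PP, P q) : ∀ᵐ q ∂PP, P (stFlow q) :=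
  measurePreserving_stFlow_PP.quasiMeasurePreserving.ae h

theorem ae_PP_of_flow {P : ℝ × T3 × V → Prop} (h : ∀ᵐ q ∂PP, P (stFlow q)) :
    ∀ᵐ q ∂PP, P q := by
  have h3 : MeasurePreserving stFlowEquiv PP PP := measurePreserving_stFlow_PP
  have h4 := (h3.symm stFlowEquiv).quasiMeasurePreserving.ae h
  filter_upwards [h4] with q hq
  have h5 : stFlow (stFlowEquiv.symm q) = q := stFlowEquiv.apply_symm_apply q
  rwa [h5] at hq

theorem ae_PP_restrict {P : ℝ × T3 × V → Prop} :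
    (∀ᵐ q ∂PP, P q) ↔
      ∀ᵐ q ∂((volume.restrict (Ioi (0 : ℝ))).prod (volume : Measure (T3 × V))), P q := by
  rw [ae_PP, ← restrict_prod_univ, ae_restrict_iff' (measurableSet_Ioi.prod MeasurableSet.univ)]
  simp only [mem_prod, mem_Ioi, mem_univ, and_true]

theorem ae_p_t {P : ℝ × T3 × V → Prop} (h : ∀ᵐ q ∂PP, P q) :
    ∀ᵐ p : T3 × V, ∀ᵐ t ∂(volume.restrict (Ioi (0 : ℝ))), P (t, p) := by
  have h2 := (Measure.measurePreserving_swap (μ := (volume : Measure (T3 × V)))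
    (ν := volume.restrict (Ioi (0 : ℝ)))).quasiMeasurePreserving.ae (ae_PP_restrict.mp h)
  exact (Measure.ae_ae_of_ae_prod h2 :)

theorem ae_p_t_flow {P : ℝ × T3 × V → Prop} (h : ∀ᵐ q ∂PP, P q) :
    ∀ᵐ p : T3 × V, ∀ᵐ t ∂(volume.restrict (Ioi (0 : ℝ))), P (t, flow t p) :=
  (ae_p_t (ae_PP_flow h) :)

theorem ae_PP_of_p_t {P : ℝ × T3 × V → Prop} (hP : MeasurableSet {q | P q})
    (h : ∀ᵐ p : T3 × V, ∀ᵐ t ∂(volume.restrict (Ioi (0 : ℝ))), P (t, p)) : ∀ᵐ q ∂PP, P q :=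
  ae_PP_restrict.mpr (ae_prod_of_ae_p hP h)

theorem mp_PP_zet : MeasurePreserving (fun q : ℝ × T3 × V => (q.1, q.2.1)) PP zet := by
  have h2 : MeasurePreserving Prod.fst (zet.prod mV) zet := measurePreserving_fst
  exact h2.comp measurePreserving_assoc_PP

theorem SConv.comp_mp {α β : Type*} [MeasurableSpace α] [MeasurableSpace β] {μ : Measure α}
    {ν : Measure β} {g : ℕ → α → ℝ} {G : α → ℝ} (hg : SConv μ g G) (mg : ∀ n, Measurable (g n))
    (mG : Measurable G) {T : β → α} (hT : MeasurePreserving T ν μ) :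
    SConv ν (fun n b => g n (T b)) fun b => G (T b) := by
  unfold SConv at hg ⊢
  have h : ∀ n, ∫⁻ b, ENNReal.ofReal |g n (T b) - G (T b)| ∂ν
      = ∫⁻ a, ENNReal.ofReal |g n a - G a| ∂μ := fun n =>
    hT.lintegral_comp (f := fun a => ENNReal.ofReal |g n a - G a|)
      ((mg n).sub mG).abs.ennreal_ofReal
  simp only [h]
  exact hg

section meas

variable {F : ℝ → T3 → V → ℝ}

theorem meas_assoc (hF : Measurable fun q : ℝ × T3 × V => F q.1 q.2.1 q.2.2) :
    Measurable fun q : (ℝ × T3) × V => F q.1.1 q.1.2 q.2 :=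
  hF.comp (measurable_fst.fst.prodMk (measurable_fst.snd.prodMk measurable_snd))

theorem meas_reassoc : Measurable fun p : ℝ × T3 × V => (((p.1, p.2.1), p.2.2) : (ℝ × T3) × V) := by
  fun_prop

theorem comp_reassoc {β : Type*} [MeasurableSpace β] {f : ℝ × T3 → V → β}
    (h : Measurable fun q : (ℝ × T3) × V => f q.1 q.2) :
    Measurable fun q : ℝ × T3 × V => f (q.1, q.2.1) q.2.2 := h.comp meas_reassoc

theorem meas_rateP_st (n : ℕ) (hF : Measurable fun q : ℝ × T3 × V => F q.1 q.2.1 q.2.2) :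
    Measurable fun q : ℝ × T3 × V => rateP n (F q.1 q.2.1) q.2.2 :=
  comp_reassoc (f := fun a v => rateP n (F a.1 a.2) v)
    (measurable_rateP (α := ℝ × T3) n (f := fun a => F a.1 a.2) (meas_assoc hF))

theorem meas_gainP_st (n : ℕ) (hF : Measurable fun q : ℝ × T3 × V => F q.1 q.2.1 q.2.2) :
    Measurable fun q : ℝ × T3 × V => gainP n (F q.1 q.2.1) q.2.2 :=
  comp_reassoc (f := fun a v => gainP n (F a.1 a.2) v)
    (measurable_gainP (α := ℝ × T3) n (f := fun a => F a.1 a.2) (meas_assoc hF))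

theorem meas_rate_st (hF : Measurable fun q : ℝ × T3 × V => F q.1 q.2.1 q.2.2) :
    Measurable fun q : ℝ × T3 × V => rate (F q.1 q.2.1) q.2.2 :=
  comp_reassoc (f := fun a v => rate (F a.1 a.2) v)
    (measurable_rate (α := ℝ × T3) (f := fun a => F a.1 a.2) (meas_assoc hF))

theorem meas_dk_z (k : ℕ) (hF : Measurable fun q : ℝ × T3 × V => F q.1 q.2.1 q.2.2) :
    Measurable fun z : ℝ × T3 => dk k (F z.1 z.2) :=
  measurable_dk (α := ℝ × T3) k (f := fun a => F a.1 a.2) (meas_assoc hF)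

theorem comp_z {β : Type*} [MeasurableSpace β] {f : ℝ × T3 → β} (h : Measurable f) :
    Measurable fun q : ℝ × T3 × V => f (q.1, q.2.1) :=
  h.comp (by fun_prop : Measurable fun q : ℝ × T3 × V => (q.1, q.2.1))

theorem meas_dk_st (k : ℕ) (hF : Measurable fun q : ℝ × T3 × V => F q.1 q.2.1 q.2.2) :
    Measurable fun q : ℝ × T3 × V => dk k (F q.1 q.2.1) :=
  comp_z (f := fun z => dk k (F z.1 z.2)) (meas_dk_z k hF)

theorem meas_M : Measurable fun q : ℝ × T3 × V => Maxw q.2.2 :=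
  measurable_Maxw.comp measurable_snd.snd

theorem meas_den (hF : Measurable fun q : ℝ × T3 × V => F q.1 q.2.1 q.2.2) : Measurable (den F) :=
  hF.div meas_M

theorem meas_cden (hF : Measurable fun q : ℝ × T3 × V => F q.1 q.2.1 q.2.2) :
    Measurable (cden F) := (meas_den hF).comp measurable_stFlow

theorem meas_den0 {f : T3 → V → ℝ} (hf : Measurable fun p : T3 × V => f p.1 p.2) :
    Measurable (den0 f) := hf.div (measurable_Maxw.comp measurable_snd)

end meas

theorem integrable_of_lintegral {α : Type*} [MeasurableSpace α] {μ : Measure α} {f : α → ℝ}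
    (mf : Measurable f) (f0 : ∀ a, 0 ≤ f a) (h : ∫⁻ a, ENNReal.ofReal (f a) ∂μ < ⊤) :
    Integrable f μ := by
  refine ⟨mf.aestronglyMeasurable, ?_⟩
  rw [hasFiniteIntegral_iff_norm]
  simpa only [Real.norm_of_nonneg (f0 _)] using h

theorem dk_ne_top (k : ℕ) (g : V → ℝ) : dk k g ≠ ⊤ :=
  ((dk_le_one k g).trans_lt ENNReal.one_lt_top).ne

theorem dk_mono (g : V → ℝ) : Monotone fun k => dk k g := by
  intro k l hkl
  unfold dk
  apply ENNReal.inv_le_inv.mpr
  gcongr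

theorem dk_tendsto {g : V → ℝ} (hg : rhoE g ≠ ⊤) : Tendsto (fun k => dk k g) atTop (𝓝 1) := by
  unfold dk
  have h1 : Tendsto (fun k : ℕ => rhoE g / ((k : ℝ≥0∞) + 1)) atTop (𝓝 0) := by
    have h2 : Tendsto (fun k : ℕ => ((k : ℝ≥0∞) + 1)) atTop (𝓝 ⊤) := by
      have h3 := ENNReal.tendsto_nat_nhds_top.comp (tendsto_add_atTop_nat 1)
      refine h3.congr fun k => ?_
      simp only [Function.comp_apply, Nat.cast_add, Nat.cast_one]
    have h4 := ENNReal.Tendsto.const_div h2 (a := rhoE g) (Or.inr hg)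
    simpa only [ENNReal.div_top] using h4
  have h5 : Tendsto (fun k : ℕ => (1 + rhoE g / ((k : ℝ≥0∞) + 1))⁻¹) atTop (𝓝 (1 + 0)⁻¹) := by
    apply tendsto_inv_iff.mpr
    exact tendsto_const_nhds.add h1
  simpa only [add_zero, inv_one] using h5

theorem dk_ne_zero (k : ℕ) {g : V → ℝ} (hg : rhoE g ≠ ⊤) : dk k g ≠ 0 := by
  unfold dk
  rw [ENNReal.inv_ne_zero]
  apply ENNReal.add_ne_top.mpr ⟨ENNReal.one_ne_top, ?_⟩
  apply ENNReal.div_ne_top hg
  simp only [ne_eq, add_eq_zero, Nat.cast_eq_zero, one_ne_zero, and_false, not_false_eq_true]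

section flowed

/-- the position coordinate along the flow -/
theorem meas_flow {β : Type*} [MeasurableSpace β] {f : ℝ × T3 → V → β}
    (h : Measurable fun q : ℝ × T3 × V => f (q.1, q.2.1) q.2.2) :
    Measurable fun q : ℝ × T3 × V => f (q.1, (flow q.1 q.2).1) q.2.2 :=
  h.comp measurable_stFlow

theorem integrable_flow {f : ℝ × T3 → V → ℝ}
    (h : Integrable (fun q : ℝ × T3 × V => f (q.1, q.2.1) q.2.2) PP) :
    Integrable (fun q : ℝ × T3 × V => f (q.1, (flow q.1 q.2).1) q.2.2) PP :=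
  measurePreserving_stFlow_PP.integrable_comp_of_integrable h

theorem sconv_flow {g : ℕ → ℝ × T3 → V → ℝ} {G : ℝ × T3 → V → ℝ}
    (hg : SConv PP (fun n q => g n (q.1, q.2.1) q.2.2) fun q => G (q.1, q.2.1) q.2.2)
    (mg : ∀ n, Measurable fun q : ℝ × T3 × V => g n (q.1, q.2.1) q.2.2)
    (mG : Measurable fun q : ℝ × T3 × V => G (q.1, q.2.1) q.2.2) :
    SConv PP (fun n q => g n (q.1, (flow q.1 q.2).1) q.2.2)
      fun q => G (q.1, (flow q.1 q.2).1) q.2.2 :=
  SConv.comp_mp (α := ℝ × T3 × V) (β := ℝ × T3 × V) (μ := PP) (ν := PP)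
    (g := fun n q => g n (q.1, q.2.1) q.2.2) (G := fun q => G (q.1, q.2.1) q.2.2)
    hg mg mG (T := stFlow) measurePreserving_stFlow_PP

theorem wconv_flow {g : ℕ → ℝ × T3 → V → ℝ} {G : ℝ × T3 → V → ℝ}
    (hg : WConv PP (fun n q => g n (q.1, q.2.1) q.2.2) fun q => G (q.1, q.2.1) q.2.2) :
    WConv PP (fun n q => g n (q.1, (flow q.1 q.2).1) q.2.2)
      fun q => G (q.1, (flow q.1 q.2).1) q.2.2 :=
  WConv.comp_equiv (α := ℝ × T3 × V) (β := ℝ × T3 × V) (μ := PP) (ν := PP)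
    (g := fun n q => g n (q.1, q.2.1) q.2.2) (G := fun q => G (q.1, q.2.1) q.2.2)
    hg stFlowEquiv (measurePreserving_stFlow_PP : MeasurePreserving stFlowEquiv PP PP)

theorem ui_flow {g : ℕ → ℝ × T3 → V → ℝ≥0∞}
    (hg : UI PP (fun n q => g n (q.1, q.2.1) q.2.2))
    (mg : ∀ n, Measurable fun q : ℝ × T3 × V => g n (q.1, q.2.1) q.2.2) :
    UI PP (fun n q => g n (q.1, (flow q.1 q.2).1) q.2.2) :=
  UI.comp_mp (α := ℝ × T3 × V) (β := ℝ × T3 × V) (μ := PP) (ν := PP)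
    (g := fun n q => g n (q.1, q.2.1) q.2.2) hg mg (T := stFlow) measurePreserving_stFlow_PP

end flowed

end Vale.Agent.P140.DL.L4
end
end
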