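import Vale.Agent.P140.MathlibUsed
import Vale.Agent.P140.Bd3.B4
import Vale.Agent.P140.Bd3.B6
import Vale.Agent.P140.Bd3.B13
import Vale.Agent.P140.Bd3.B5
import Vale.Agent.P140.Bd3.B7
import Vale.Agent.P140.Bd3.B14
import Vale.Agent.P140.Bd3.B10
import Vale.Agent.P140.Bd3.B8

set_option linter.all false

attribute [local instance 5000] Vale.Agent.P140.Sc.a01 Vale.Agent.P140.Sc.a02 Vale.Agent.P140.Sc.a03 Vale.Agent.P140.Sc.a04 Vale.Agent.P140.Sc.a05 Vale.Agent.P140.Sc.a06 Vale.Agent.P140.Sc.a07 Vale.Agent.P140.Sc.a08 Vale.Agent.P140.Sc.a09 Vale.Agent.P140.Sc.a10 Vale.Agent.P140.Sc.a11 Vale.Agent.P140.Sc.a12 Vale.Agent.P140.Sc.a13 Vale.Agent.P140.Sc.a14 Vale.Agent.P140.Sc.a15 Vale.Agent.P140.Sc.a16 Vale.Agent.P140.Sc.a17 Vale.Agent.P140.Sc.a18 Vale.Agent.P140.Sc.a19 Vale.Agent.P140.Sc.a20 Vale.Agent.P140.Sc.a21 Vale.Agent.P140.Sc.a22 Vale.Agent.P140.Sc.a23 Vale.Agent.P140.Sc.a24 Vale.Agent.P140.Sc.a25 Vale.Agent.P140.Sc.a26 Vale.Agent.P140.Sc.a27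 Vale.Agent.P140.Sc.a28 Vale.Agent.P140.Sc.a29 Vale.Agent.P140.Sc.a30 Vale.Agent.P140.Sc.a31 Vale.Agent.P140.Sc.a32 Vale.Agent.P140.Sc.a33 Vale.Agent.P140.Sc.r01 Vale.Agent.P140.Sc.r02 Vale.Agent.P140.Sc.r03 Vale.Agent.P140.Sc.r04 Vale.Agent.P140.Sc.r05 Vale.Agent.P140.Sc.r06 Vale.Agent.P140.Sc.r07 Vale.Agent.P140.Sc.r08 Vale.Agent.P140.Sc.r09 Vale.Agent.P140.Sc.r10 Vale.Agent.P140.Sc.r11 Vale.Agent.P140.Sc.r12 Vale.Agent.P140.Sc.r13 Vale.Agent.P140.Sc.r14 Vale.Agent.P140.Sc.r15 Vale.Agent.P140.Sc.r16 Vale.Agent.P140.Sc.r17 Vale.Agent.P140.Sc.r18 Vale.Agent.P140.Sc.a34 Vale.Agent.P140.Sc.a35 Vale.Agent.P140.Sc.a36 Vale.Agent.P140.Sc.a37 Vale.Agent.P140.Sc.a38 Vale.Agent.P140.Sc.a39 Vale.Agent.P140.Sc.a40 Vale.Agent.P140.Sc.a42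

section

/-!
P140-NU, module J: facts on the medium at a fixed point.
-/

open MeasureTheory Set Filter
open scoped ENNReal Topology

noncomputable section

namespace Vale.Agent.P140.NU.J

variable {P : Par} {t0 : ℝ} {n N : ℕ} {t : ℝ} {x : T3}

theorem us_eq (s : ℝ) (x : T3) : us P s x = uu P s x := by
  unfold us uu
  rw [mul_div_assoc, mul_div_assoc]

/-- `√SS` is the distance to the velocity of the cold gas -/
theorem sqrt_SS_eq (hr : 0 < rr x) (s : ℝ) (v : V) : √(SS P s x v) = ‖v - us P s x‖ := by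
  rw [us_eq, sqrt_SS_eq_norm P s hr]

theorem abs_sg (j : ℕ) : |sg j| = 1 := by
  unfold sg
  rw [abs_pow, abs_neg, abs_one, one_pow]

variable (C : Ctx P t0 n)

include C

theorem Ctx.gE : E.GoodE P :=
  ⟨by have := C.hc; linarith only [this], C.good.hl0,
    C.good.hl1, C.good.hk0, C.hkd, C.good.hj⟩

/-- numerical facts -/
theorem Ctx.Vg_sq : P.Vg ^ 2 = 160000 * P.c := C.gE.Vg_sq

theorem Ctx.Vg_ge : 10 ^ 6 ≤ P.Vg := le_trans (by (clear * -; norm_num)) C.gE.Vg_ge

theorem Ctx.Lam_ge : 10 ^ 6 ≤ P.Lam := by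
  rw [C.gE.Lam_eq]
  have h : (10 : ℝ) ^ 15 ≤ √P.c := by
    apply Real.le_sqrt_of_sq_le
    have := C.hc
    norm_num at this ⊢
    exact this
  linarith only [h]

theorem Ctx.m1_pos : 0 < P.m1 := C.gE.m1_pos

theorem Ctx.m1_le_m2 : P.m1 ≤ P.m2 := by
  have h1 := C.gE.m1_le_m2
  have h2 := C.gE.m1_pos
  linarith only [h1, h2]

theorem Ctx.m2_le : P.m2 ≤ 1 / 10 ^ 6 := C.gE.m2_le.trans (by norm_num)

theorem Ctx.del_le (j : ℕ) : P.del j ≤ P.m1 / 10 ^ 6 := C.gE.del_le j

theorem Ctx.cm1 : P.c * P.m1 = P.Lam * P.w / 10 ^ 5 := by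
  have := C.gE.c_pos
  unfold Par.m1
  field_simp

/-- in a cell `r ≥ w T > 0` -/
theorem Ctx.rr_ge (ht : 0 ≤ t) {j : ℕ} (hj : j ∈ Finset.Icc P.j0 n) {γ : ℝ} (hγ : 0 ≤ γ)
    (hx : rr x - P.w * t ∈ P.cell γ j) : P.w * P.TT n t ≤ rr x :=
  C.gE.wT_le_rr hγ (Finset.mem_Icc.1 hj).2 hx

theorem Ctx.rr_pos (ht : 0 ≤ t) {j : ℕ} (hj : j ∈ Finset.Icc P.j0 n) {γ : ℝ} (hγ : 0 ≤ γ)
    (hx : rr x - P.w * t ∈ P.cell γ j) : 0 < rr x :=
  C.gE.rr_pos_of_cell hγ (Finset.mem_Icc.1 hj).2 ht hx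

omit C in
theorem gg2 : (0 : ℝ) < gg / 2 := by unfold gg; (clear * -; norm_num)

omit C in
theorem norm_le_of_box {j : ℕ} {u : V} (hu : u ∈ Box P j x) : ‖u‖ ≤ P.w + 1 + 2 * P.del j := by
  obtain ⟨h1, h2, -, -, h5⟩ := hu
  have h6 := norm_sq_eq u
  have h7 : |u 2| ≤ 1 + P.del j := by
    have := abs_sub_abs_le_abs_sub (u 2) (sg j)
    rw [abs_sg] at this
    linarith
  have h8 := vp_nonneg u
  have h9 : ‖u‖ ≤ vp u + |u 2| := by
    apply le_of_sq_le_sq _ (by (clear * - h8; positivity))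
    rw [h6]
    linarith only [mul_nonneg h8 (abs_nonneg (u 2)), sq_abs (u 2)]
  linarith only [h2, h7, h9]

/-- the cell of the support is unique -/
theorem Ctx.supp (ht : t ∈ Icc 0 (2 * t0)) {j : ℕ} (hj : j ∈ Finset.Icc P.j0 n)
    (hx : rr x - P.w * t ∈ P.cell (gg / 2) j) {u : V} (hu : cf P n t x u ≠ 0) :
    √(SS P (sg j) x u) ≤ 4 * P.del j ∧ ‖u‖ ≤ 11 / 10 := by
  obtain ⟨k, hk, hxk, hb, hS, -⟩ := C.cf_support t ht x u hu
  have hkj := C.good.cell_inj gg2 hxk hx
  subst hkj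
  refine ⟨hS, (norm_le_of_box hb).trans ?_⟩
  have h1 := C.gE.w_le
  have h2 := C.gE.del_le_one k
  norm_num at h1 h2 ⊢
  linarith only [h2, h1]

theorem Ctx.close (ht : t ∈ Icc 0 (2 * t0)) {j : ℕ} (hj : j ∈ Finset.Icc P.j0 n)
    (hx : rr x - P.w * t ∈ P.cell (gg / 2) j) {u : V} (hu : cf P n t x u ≠ 0) (v : V) :
    ‖v - u‖ ≤ √(SS P (sg j) x v) + 4 * P.del j ∧ √(SS P (sg j) x v) - 4 * P.del j ≤ ‖v - u‖ := by
  have hr := C.rr_pos ht.1 hj gg2.le hx
  have h1 := (C.supp ht hj hx hu).1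
  rw [sqrt_SS_eq hr] at h1 ⊢
  have h2 : v - u = (v - us P (sg j) x) - (u - us P (sg j) x) := by abel
  constructor
  · rw [h2]
    exact (norm_sub_le _ _).trans (by linarith only [h1])
  · rw [h2]
    have := norm_sub_norm_le (v - us P (sg j) x) (u - us P (sg j) x)
    linarith only [h1, this]

/-- outside the cells there is no cold gas -/
theorem Ctx.cf_zero (ht : t ∈ Icc 0 (2 * t0))
    (hx : ∀ j ∈ Finset.Icc P.j0 n, rr x - P.w * t ∉ P.cell (gg / 2) j) (u : V) :
    cf P n t x u = 0 := by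
  by_contra hu
  obtain ⟨k, hk, hxk, -⟩ := C.cf_support t ht x u hu
  exact hx k hk hxk

theorem Ctx.norm_supp (ht : t ∈ Icc 0 (2 * t0)) {u : V} (hu : cf P n t x u ≠ 0) :
    ‖u‖ ≤ 11 / 10 := by
  obtain ⟨k, hk, hxk, -⟩ := C.cf_support t ht x u hu
  exact (C.supp ht hk hxk hu).2

theorem Ctx.MM_le (ht : t ∈ Icc 0 (2 * t0)) {j : ℕ} (hj : j ∈ Finset.Icc P.j0 n)
    (hx : rr x - P.w * t ∈ P.cell (gg / 2) j) (v : V) :
    MM (cf P n t x) v ≤ ENNReal.ofReal ((1 + 1 / 1000) * (P.c / rr x) *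
      (√(SS P (sg j) x v) + 4 * P.del j)) := by
  have hr := C.rr_pos ht.1 hj gg2.le hx
  have hc := C.gE.c_pos
  unfold MM
  calc ∫⁻ u, cf P n t x u * ENNReal.ofReal ‖v - u‖
      ≤ ∫⁻ u, cf P n t x u * ENNReal.ofReal (√(SS P (sg j) x v) + 4 * P.del j) := by
        refine lintegral_mono fun u => ?_
        by_cases hu : cf P n t x u = 0
        · rw [hu, zero_mul, zero_mul]
        · exact mul_le_mul_right (ENNReal.ofReal_le_ofReal (C.close ht hj hx hu v).1) _
    _ = (∫⁻ u, cf P n t x u) * ENNReal.ofReal (√(SS P (sg j) x v) + 4 * P.del j) :=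
        lintegral_mul_const' _ _ ENNReal.ofReal_ne_top
    _ ≤ ENNReal.ofReal ((1 + 1 / 1000) * P.c / rr x) *
        ENNReal.ofReal (√(SS P (sg j) x v) + 4 * P.del j) :=
        mul_le_mul_left (C.cf_mass_le t ht x) _
    _ = _ := by
        rw [← ENNReal.ofReal_mul (by positivity), mul_div_assoc]

theorem Ctx.MM_ge (ht : t ∈ Icc 0 (2 * t0)) {j : ℕ} (hj : j ∈ Finset.Icc P.j0 n)
    (hx : rr x - P.w * t ∈ P.cell (2 * gg) j) (v : V) :
    ENNReal.ofReal ((P.c / rr x) * (√(SS P (sg j) x v) - 4 * P.del j)) ≤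
      MM (cf P n t x) v := by
  have hx2 : rr x - P.w * t ∈ P.cell (gg / 2) j :=
    C.gE.cell_subset (by unfold gg; norm_num) j hx
  have hr := C.rr_pos ht.1 hj gg2.le hx2
  have hc := C.gE.c_pos
  unfold MM
  calc ENNReal.ofReal ((P.c / rr x) * (√(SS P (sg j) x v) - 4 * P.del j))
      = ENNReal.ofReal (P.c / rr x) * ENNReal.ofReal (√(SS P (sg j) x v) - 4 * P.del j) :=
        ENNReal.ofReal_mul (by (clear * - hc hr; positivity))
    _ ≤ (∫⁻ u, cf P n t x u) * ENNReal.ofReal (√(SS P (sg j) x v) - 4 * P.del j) :=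
        mul_le_mul_left (C.cf_mass_ge t ht x ⟨j, hj, hx⟩) _
    _ = ∫⁻ u, cf P n t x u * ENNReal.ofReal (√(SS P (sg j) x v) - 4 * P.del j) :=
        (lintegral_mul_const' _ _ ENNReal.ofReal_ne_top).symm
    _ ≤ _ := by
        refine lintegral_mono fun u => ?_
        by_cases hu : cf P n t x u = 0
        · rw [hu, zero_mul, zero_mul]
        · exact mul_le_mul_right (ENNReal.ofReal_le_ofReal (C.close ht hj hx2 hu v).2) _

theorem Ctx.MM_zero (ht : t ∈ Icc 0 (2 * t0))
    (hx : ∀ j ∈ Finset.Icc P.j0 n, rr x - P.w * t ∉ P.cell (gg / 2) j) (v : V) :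
    MM (cf P n t x) v = 0 := by
  unfold MM
  simp only [C.cf_zero ht hx, zero_mul, lintegral_zero]

theorem Ctx.mcf (t : ℝ) (x : T3) : Measurable (cf P n t x) := by
  have e : Measurable fun v : V => (t, x, v) :=
    measurable_const.prodMk (measurable_const.prodMk measurable_id)
  have h := C.cf_meas.comp e
  exact h

theorem Ctx.term_nonneg (a : ℝ) (ha : 0 ≤ a) (v : V) (j : ℕ) :
    0 ≤ a * (2 * Real.pi) * (P.c / rr x) * (√(SS P (sg j) x v) + 4 * P.del j) := by
  have h3 := C.gE.c_pos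
  have h4 := rr_nonneg x
  have h7 := Real.pi_pos
  have := C.gE.del_pos j
  positivity

/-- the true collision rate with the cold gas is at most `qq` -/
theorem Ctx.LL_cf_le (ht : t ∈ Icc 0 (2 * t0)) (v : V) :
    LL (cf P n t x) v ≤ ENNReal.ofReal (qq P n t x v) := by
  rw [LL_eq_MM (C.mcf t x)]
  by_cases h : ∃ j ∈ Finset.Icc P.j0 n, rr x - P.w * t ∈ P.cell (gg / 2) j
  · obtain ⟨j, hj, hx⟩ := h
    refine (mul_le_mul_right (C.MM_le ht hj hx v) _).trans ?_
    rw [← ENNReal.ofReal_mul (by positivity)]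
    refine ENNReal.ofReal_le_ofReal ?_
    have h1 : (1 + 1 / 100) * (2 * Real.pi) * (P.c / rr x) *
        (√(SS P (sg j) x v) + 4 * P.del j) ≤ qq P n t x v := by
      unfold qq
      refine le_trans ?_ (Finset.single_le_sum (fun k _ => ?_) hj)
      · rw [if_pos hx]
      · split_ifs
        · exact C.term_nonneg (1 + 1 / 100) (by norm_num) v k
        · exact le_rfl
    refine le_trans ?_ h1
    have h3 := C.term_nonneg (x := x) 1 zero_le_one v j
    linarith
  · push Not at h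
    rw [C.MM_zero ht h, mul_zero]
    exact zero_le

theorem Ctx.pp_nonneg (ht : t ∈ Icc 0 (2 * t0)) (v : V) : 0 ≤ pp P n t x v :=
  E.pp_nonneg C.gE n t x v

/-- the non-zero term of `pp` -/
theorem Ctx.pp_term (v : V) (h : pp P n t x v ≠ 0) : ∃ j ∈ Finset.Icc P.j0 n,
    (rr x - P.w * t ∈ P.cell (2 * gg) j ∧ rr x ≤ P.Vg * P.TT n t ∧
      ‖v‖ ≤ P.Vg ∧ (P.m2 ≤ √(SS P (sg j) x v) ∨
        (P.m1 ≤ √(SS P (sg j) x v) ∧ P.a1 (P.TT n t) ≤ rr x - P.w * P.TT n t))) ∧
    pp P n t x v = (1 - 1 / 100) * (2 * Real.pi) * (P.c / rr x) *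
      (√(SS P (sg j) x v) - 4 * P.del j) := by
  have h0 := h
  unfold pp at h0
  obtain ⟨j, hj, hne⟩ := Finset.exists_ne_zero_of_sum_ne_zero h0
  have hcond : rr x - P.w * t ∈ P.cell (2 * gg) j ∧ rr x ≤ P.Vg * P.TT n t ∧
      ‖v‖ ≤ P.Vg ∧ (P.m2 ≤ √(SS P (sg j) x v) ∨
        (P.m1 ≤ √(SS P (sg j) x v) ∧ P.a1 (P.TT n t) ≤ rr x - P.w * P.TT n t)) := by
    by_contra hc
    exact hne (if_neg hc)
  refine ⟨j, hj, hcond, ?_⟩
  unfold pp
  rw [Finset.sum_eq_single_of_mem j hj, if_pos hcond]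
  intro k hk hkj
  rw [if_neg]
  rintro ⟨hxk, -⟩
  exact hkj (C.good.cell_inj (by unfold gg; norm_num) hxk hcond.1)

theorem Ctx.pp_le (ht : t ∈ Icc 0 (2 * t0)) (v : V) :
    ENNReal.ofReal (pp P n t x v) ≤ ENNReal.ofReal (99 / 50 * Real.pi) * MM (cf P n t x) v := by
  by_cases h : pp P n t x v = 0
  · rw [h, ENNReal.ofReal_zero]
    exact zero_le
  · obtain ⟨j, hj, hcond, he⟩ := C.pp_term v h
    refine le_trans ?_ (mul_le_mul_right (C.MM_ge ht hj hcond.1 v) _)
    rw [he, ← ENNReal.ofReal_mul (by positivity)]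
    refine ENNReal.ofReal_le_ofReal (le_of_eq ?_)
    ring

/-- where `pp` does not vanish the collision is good -/
theorem Ctx.pp_ne (ht : t ∈ Icc 0 (2 * t0)) (v : V) (h : pp P n t x v ≠ 0) :
    rr x ≤ P.Vg * P.TT n t ∧ ‖v‖ ≤ P.Vg ∧ ∃ j ∈ Finset.Icc P.j0 n,
      rr x - P.w * t ∈ P.cell (gg / 2) j ∧ (P.m2 ≤ √(SS P (sg j) x v) ∨
        (P.m1 ≤ √(SS P (sg j) x v) ∧ P.a1 (P.TT n t) ≤ rr x - P.w * P.TT n t)) := by
  obtain ⟨j, hj, hcond, -⟩ := C.pp_term v h
  exact ⟨hcond.2.1, hcond.2.2.1, j, hj, C.gE.cell_subset (by unfold gg; norm_num) j hcond.1,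
    hcond.2.2.2⟩

/-- in the bad region `qb` dominates the collision rate -/
theorem Ctx.qb_ge (ht : t ∈ Icc 0 (2 * t0)) {j : ℕ} (hj : j ∈ Finset.Icc P.j0 n)
    (hx : rr x - P.w * t ∈ P.cell (gg / 2) j) (v : V)
    (h1 : P.m1 ≤ √(SS P (sg j) x v)) (h2 : √(SS P (sg j) x v) < P.m2)
    (h3 : rr x - P.w * P.TT n t < P.a1 (P.TT n t))
    (h4 : dotE x v - P.w < -(√(SS P (sg j) x v) / 200)) :
    ENNReal.ofReal 6 * MM (cf P n t x) v ≤ ENNReal.ofReal (qb P n t x v) := by
  refine (mul_le_mul_right (C.MM_le ht hj hx v) _).trans ?_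
  rw [← ENNReal.ofReal_mul (by norm_num)]
  refine ENNReal.ofReal_le_ofReal ?_
  have h5 : (1 + 1 / 100) * (2 * Real.pi) * (P.c / rr x) *
      (√(SS P (sg j) x v) + 4 * P.del j) ≤ qb P n t x v := by
    unfold qb
    refine le_trans ?_ (Finset.single_le_sum (fun k _ => ?_) hj)
    · rw [if_pos ⟨hx, h1, h2, h3, h4⟩]
    · split_ifs
      · exact C.term_nonneg (1 + 1 / 100) (by norm_num) v k
      · exact le_rfl
  refine le_trans ?_ h5
  have h7 : 0 ≤ (P.c / rr x) * (√(SS P (sg j) x v) + 4 * P.del j) := by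
    have h3 := C.gE.c_pos
    have h4 := rr_nonneg x
    have := C.gE.del_pos j
    (clear * - h3 h4 this; positivity)
  have h8 := Real.pi_gt_d2
  calc 6 * ((1 + 1 / 1000) * (P.c / rr x) * (√(SS P (sg j) x v) + 4 * P.del j))
      = (6 * (1 + 1 / 1000)) * ((P.c / rr x) * (√(SS P (sg j) x v) + 4 * P.del j)) := by ring
    _ ≤ ((1 + 1 / 100) * (2 * Real.pi)) *
        ((P.c / rr x) * (√(SS P (sg j) x v) + 4 * P.del j)) := by
        refine mul_le_mul_of_nonneg_right ?_ h7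
        linarith only [h8]
    _ = _ := by ring

end Vale.Agent.P140.NU.J
end
end

section

/-!
P140, non-uniqueness, module J: the small weight `ee` after a collision.
-/

open MeasureTheory Set Filter
open scoped ENNReal Topology

noncomputable section

namespace Vale.Agent.P140.NU.J

variable {P : Par} {n : ℕ} {t : ℝ}

/-- the exponent as a function of the speed -/
def yb (P : Par) (n : ℕ) (t : ℝ) (x : T3) (b : ℝ) : ℝ := max (rr x - b * P.TT n t) 0 / P.TT n t

theorem yy_eq (x : T3) (v : V) : yy P n t x v = yb P n t x ‖v‖ := rfl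

theorem yb_nonneg (hT : 0 < P.TT n t) (x : T3) (b : ℝ) : 0 ≤ yb P n t x b :=
  div_nonneg (le_max_right _ _) hT.le

theorem yb_anti (hT : 0 < P.TT n t) (x : T3) {a b : ℝ} (h : a ≤ b) :
    yb P n t x b ≤ yb P n t x a := by
  unfold yb
  gcongr

theorem yb_le (hT : 0 < P.TT n t) (x : T3) {a b : ℝ} (h : b ≤ a) :
    yb P n t x b ≤ yb P n t x a + (a - b) := by
  unfold yb
  have h1 : max (rr x - b * P.TT n t) 0 ≤ max (rr x - a * P.TT n t) 0 + (a - b) * P.TT n t := by
    refine max_le ?_ ?_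
    · have := le_max_left (rr x - a * P.TT n t) 0
      linarith
    · have h2 := le_max_right (rr x - a * P.TT n t) 0
      have h3 : 0 ≤ (a - b) * P.TT n t := mul_nonneg (sub_nonneg.2 h) hT.le
      linarith only [h2, h3]
  calc max (rr x - b * P.TT n t) 0 / P.TT n t
      ≤ (max (rr x - a * P.TT n t) 0 + (a - b) * P.TT n t) / P.TT n t := by gcongr
    _ = _ := by
        rw [add_div, mul_div_assoc, div_self hT.ne', mul_one]

theorem ee_eq (x : T3) (v : V) : ee P n t x v =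
    Real.exp (-(2 * P.Vg) - 100) * Real.exp (yb P n t x ‖v‖ + ‖v‖ ^ 2 / 16) := rfl

theorem ee_pos (x : T3) (v : V) : 0 < ee P n t x v := mul_pos (Real.exp_pos _) (Real.exp_pos _)

theorem ee_le_of {x : T3} {v v' : V} {a : ℝ}
    (h : yb P n t x ‖v'‖ + ‖v'‖ ^ 2 / 16 ≤ yb P n t x ‖v‖ + ‖v‖ ^ 2 / 16 + a) :
    ee P n t x v' ≤ Real.exp a * ee P n t x v := by
  rw [ee_eq, ee_eq]
  calc Real.exp (-(2 * P.Vg) - 100) * Real.exp (yb P n t x ‖v'‖ + ‖v'‖ ^ 2 / 16)
      ≤ Real.exp (-(2 * P.Vg) - 100) * Real.exp (yb P n t x ‖v‖ + ‖v‖ ^ 2 / 16 + a) := by gcongr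
    _ = _ := by rw [Real.exp_add _ a]; ring

/-- (e1): one product of a collision with a cold particle costs at most a factor `70` -/
theorem ee_le_70 (hT : 0 < P.TT n t) {x : T3} {u v v' : V} (hu : ‖u‖ ≤ 2)
    (h : ‖v'‖ ^ 2 ≤ ‖v‖ ^ 2 + ‖u‖ ^ 2) : ee P n t x v' ≤ 70 * ee P n t x v := by
  have hu2 : ‖u‖ ^ 2 ≤ 4 := by linarith only [mul_nonneg (sub_nonneg.2 hu) (sub_nonneg.2 (norm_nonneg u)), mul_nonneg (sub_nonneg.2 hu) (sub_nonneg.2 hu)]
  have h4 : Real.exp 4 ≤ 70 := by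
    have h1 := Real.exp_one_lt_d9
    have h2 : Real.exp 4 = Real.exp 1 ^ 4 := by
      rw [← Real.exp_nat_mul]; (clear * -; norm_num)
    rw [h2]
    calc Real.exp 1 ^ 4 ≤ 2.7182818286 ^ 4 := by
          exact pow_le_pow_left₀ (Real.exp_pos _).le h1.le 4
      _ ≤ 70 := by norm_num
  refine (ee_le_of (a := 4) ?_).trans (mul_le_mul_of_nonneg_right h4 (ee_pos x v).le)
  have ha := norm_nonneg v
  have hb := norm_nonneg v'
  rcases le_total ‖v'‖ ‖v‖ with hvv | hvv
  · have h1 := yb_le hT x hvv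
    rcases le_total ‖v'‖ 16 with h16 | h16
    · linarith only [mul_nonneg (sub_nonneg.2 h16) (sq_nonneg (‖v‖ - 8)), mul_nonneg (sub_nonneg.2 hb) (sq_nonneg (‖v‖ - 8)), mul_nonneg (sub_nonneg.2 hb) (sub_nonneg.2 h16), mul_nonneg (sub_nonneg.2 h1) (sub_nonneg.2 h16), mul_nonneg (sub_nonneg.2 h1) (sub_nonneg.2 hb)]
    · linarith only [mul_nonneg (sub_nonneg.2 hvv) (sub_nonneg.2 h16), mul_nonneg (sub_nonneg.2 hvv) (sub_nonneg.2 hvv), hvv, h1]
  · have h1 := yb_anti hT x hvv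
    linarith only [h1, hu2, h]

/-- crude bound for the weight of a product of a general collision -/
theorem ee_le_exp_mul (hT : 0 < P.TT n t) {x : T3} {u v v' : V}
    (h : ‖v'‖ ^ 2 ≤ ‖v‖ ^ 2 + ‖u‖ ^ 2) :
    ee P n t x v' ≤ Real.exp (‖v‖ + ‖u‖ ^ 2 / 16) * ee P n t x v := by
  refine ee_le_of ?_
  have ha := norm_nonneg v
  have hb := norm_nonneg v'
  rcases le_total ‖v'‖ ‖v‖ with hvv | hvv
  · have h1 := yb_le hT x hvv
    have h2 : ‖v'‖ ^ 2 ≤ ‖v‖ ^ 2 := by (clear * - hvv; gcongr)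
    have h3 : 0 ≤ ‖u‖ ^ 2 := by (clear * -; positivity)
    linarith only [h3, h2, h1, hb]
  · have h1 := yb_anti hT x hvv
    linarith

/-- (e3) -/
theorem ee_le_small (hT : 0 < P.TT n t) {x : T3} {v : V} (hr : rr x ≤ P.Vg * P.TT n t)
    (hv : ‖v‖ ≤ 32) (hVg : 0 ≤ P.Vg) : ee P n t x v ≤ Real.exp (-P.Vg - 36) := by
  rw [ee_eq, ← Real.exp_add, Real.exp_le_exp]
  have h1 : yb P n t x ‖v‖ ≤ P.Vg := by
    unfold yb
    rw [div_le_iff₀ hT]
    refine max_le ?_ (mul_nonneg hVg hT.le)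
    have := mul_nonneg (norm_nonneg v) hT.le
    linarith
  have h2 : ‖v‖ ^ 2 ≤ 32 ^ 2 := by gcongr
  linarith only [h1, h2]

/-! ### energies -/

theorem norm_sq_post_le (v u : V) (ω : S2) : ‖post v u ω‖ ^ 2 ≤ ‖v‖ ^ 2 + ‖u‖ ^ 2 := by
  have h := energy_post v u ω
  nlinarith [sq_nonneg ‖postStar v u ω‖]

theorem norm_sq_postStar_le (v u : V) (ω : S2) : ‖postStar v u ω‖ ^ 2 ≤ ‖v‖ ^ 2 + ‖u‖ ^ 2 := by
  have h := energy_post v u ω
  nlinarith only [h]

/-! ### (e2) -/

/-- the weight as a function of the square of the speed -/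
def eb (P : Par) (n : ℕ) (t : ℝ) (x : T3) (s : ℝ) : ℝ :=
  Real.exp (-(2 * P.Vg) - 100) * Real.exp (yb P n t x (√s) + s / 16)

theorem ee_eq_eb (x : T3) (v : V) : ee P n t x v = eb P n t x (‖v‖ ^ 2) := by
  rw [ee_eq, eb, Real.sqrt_sq (norm_nonneg v)]

theorem measurable_eb (x : T3) : Measurable (eb P n t x) := by
  unfold eb yb
  fun_prop

theorem lint_exp_le {k : ℝ} (hk : 0 < k) :
    ∫⁻ x in Icc (-1 : ℝ) 1, ENNReal.ofReal (Real.exp (-(k * (1 - x)))) ≤ ENNReal.ofReal (1 / k) := by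
  have hc : Continuous fun x : ℝ => Real.exp (-(k * (1 - x))) := by fun_prop
  have hi : IntegrableOn (fun x : ℝ => Real.exp (-(k * (1 - x)))) (Icc (-1) 1) :=
    hc.continuousOn.integrableOn_compact isCompact_Icc
  rw [← ofReal_integral_eq_lintegral_ofReal hi
    (Filter.Eventually.of_forall fun x => (Real.exp_pos _).le)]
  refine ENNReal.ofReal_le_ofReal ?_
  rw [integral_Icc_eq_integral_Ioc, ← intervalIntegral.integral_of_le (by norm_num)]
  have hd : ∀ x ∈ uIcc (-1 : ℝ) 1, HasDerivAt (fun x : ℝ => 1 / k * Real.exp (-(k * (1 - x))))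
      (Real.exp (-(k * (1 - x)))) x := by
    intro x _
    have h1 : HasDerivAt (fun x : ℝ => -(k * (1 - x))) k x := by
      have h0 : HasDerivAt (fun x : ℝ => k * x - k) k x := by
        have := ((hasDerivAt_id x).const_mul k).sub_const k
        simpa using this
      refine h0.congr_of_eventuallyEq (Filter.Eventually.of_forall fun y => ?_)
      simp only
      ring
    have h2 := h1.exp.const_mul (1 / k)
    refine h2.congr_deriv ?_
    field_simp
  rw [intervalIntegral.integral_eq_sub_of_hasDerivAt hd (hc.intervalIntegrable _ _)]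
  have h3 : Real.exp (-(k * (1 - 1))) = 1 := by simp
  have h4 : 0 ≤ 1 / k * Real.exp (-(k * (1 - -1))) := by positivity
  rw [h3]
  linarith

theorem eb_le (hT : 0 < P.TT n t) (x : T3) {u v : V} (hv : 32 ≤ ‖v‖) (hu : ‖u‖ ≤ 2) {z : ℝ}
    (hz : z ∈ Icc (-1 : ℝ) 1) :
    eb P n t x ((‖v‖ ^ 2 + ‖u‖ ^ 2) / 2 + ‖v - u‖ * ‖v + u‖ / 2 * z) ≤
      ee P n t x v * Real.exp (3 / 8) * Real.exp (-(‖v - u‖ * ‖v + u‖ / 64 * (1 - z))) := by
  obtain ⟨l, hl⟩ : ∃ l, l = ‖v - u‖ * ‖v + u‖ := ⟨_, rfl⟩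
  obtain ⟨a, ha⟩ : ∃ a, a = ‖v‖ := ⟨_, rfl⟩
  have hpar := parallelogram_law_with_norm ℝ v u
  have hl1 : l ≤ ‖v‖ ^ 2 + ‖u‖ ^ 2 := by
    rw [hl]
    linarith only [sq_nonneg (‖v - u‖ - ‖v + u‖), hpar]
  have hl0 : 0 ≤ l := by rw [hl]; (clear * -; positivity)
  rw [← hl]
  obtain ⟨s, hs⟩ : ∃ s, s = (‖v‖ ^ 2 + ‖u‖ ^ 2) / 2 + l / 2 * z := ⟨_, rfl⟩
  rw [← hs]
  have hu2 : ‖u‖ ^ 2 ≤ 4 := by linarith only [mul_nonneg (sub_nonneg.2 hu) (sub_nonneg.2 (norm_nonneg u)), mul_nonneg (sub_nonneg.2 hu) (sub_nonneg.2 hu)]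
  have hs0 : 0 ≤ s := by
    rw [hs]
    nlinarith only [hl1, mul_nonneg hl0 (by linarith [hz.1] : (0 : ℝ) ≤ 1 + z)]
  have hs1 : l / 64 * (1 - z) ≤ (‖v‖ ^ 2 + 4 - s) / 32 := by
    rw [hs]
    linarith only [hu2, hl1]
  obtain ⟨b, hb⟩ : ∃ b, b = √s := ⟨_, rfl⟩
  have hb0 : 0 ≤ b := by rw [hb]; exact Real.sqrt_nonneg _
  have hbs : s = b ^ 2 := by rw [hb, Real.sq_sqrt hs0]
  unfold eb
  rw [ee_eq, ← hb, ← Real.exp_add, ← Real.exp_add, ← Real.exp_add, ← Real.exp_add,
    Real.exp_le_exp]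
  rw [hbs] at hs1 ⊢
  have hb4 : b ^ 2 ≤ ‖v‖ ^ 2 + 4 := by
    have : 0 ≤ l / 64 * (1 - z) := mul_nonneg (by (clear * - hl0; positivity)) (by linarith only [hz.2])
    linarith only [this, hs1]
  rw [← ha] at hs1 hb4 hv ⊢
  rcases le_total b a with hba | hba
  · have h1 := yb_le hT x hba
    nlinarith only [hs1, h1, hba, hv, hb0]
  · have h1 := yb_anti hT x hba
    linarith

theorem lint_aux (hT : 0 < P.TT n t) (x : T3) {u v : V} (hv : 32 ≤ ‖v‖) (hu : ‖u‖ ≤ 2) :
    ENNReal.ofReal (Real.pi * ‖v - u‖) * ∫⁻ z in Icc (-1 : ℝ) 1,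
        ENNReal.ofReal (eb P n t x ((‖v‖ ^ 2 + ‖u‖ ^ 2) / 2 + ‖v - u‖ * ‖v + u‖ / 2 * z)) ≤
      ENNReal.ofReal (1 / 15 * (2 * Real.pi * ‖v - u‖) * ee P n t x v) := by
  have h30 : 30 ≤ ‖v - u‖ := by
    have := norm_sub_norm_le v u
    linarith only [hv, hu, this]
  have h30' : 30 ≤ ‖v + u‖ := by
    have := norm_sub_norm_le v (-u)
    rw [norm_neg, sub_neg_eq_add] at this
    linarith only [hv, hu, this]
  have hl : 900 ≤ ‖v - u‖ * ‖v + u‖ := by linarith only [mul_nonneg (sub_nonneg.2 h30) (sub_nonneg.2 h30'), h30', h30]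
  have hk : 0 < ‖v - u‖ * ‖v + u‖ / 64 := by (clear * - h30 h30'; positivity)
  have he := (ee_pos (P := P) (n := n) (t := t) x v).le
  have h1 : ∫⁻ z in Icc (-1 : ℝ) 1,
        ENNReal.ofReal (eb P n t x ((‖v‖ ^ 2 + ‖u‖ ^ 2) / 2 + ‖v - u‖ * ‖v + u‖ / 2 * z)) ≤
      ENNReal.ofReal (ee P n t x v * Real.exp (3 / 8)) *
        ENNReal.ofReal (1 / (‖v - u‖ * ‖v + u‖ / 64)) := by
    calc _ ≤ ∫⁻ z in Icc (-1 : ℝ) 1, ENNReal.ofReal (ee P n t x v * Real.exp (3 / 8)) *
          ENNReal.ofReal (Real.exp (-(‖v - u‖ * ‖v + u‖ / 64 * (1 - z)))) := by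
          refine setLIntegral_mono' measurableSet_Icc fun z hz => ?_
          rw [← ENNReal.ofReal_mul (by (clear * - he; positivity))]
          exact ENNReal.ofReal_le_ofReal (eb_le hT x hv hu hz)
      _ = ENNReal.ofReal (ee P n t x v * Real.exp (3 / 8)) * ∫⁻ z in Icc (-1 : ℝ) 1,
          ENNReal.ofReal (Real.exp (-(‖v - u‖ * ‖v + u‖ / 64 * (1 - z)))) := by
          rw [lintegral_const_mul _ (by fun_prop)]
      _ ≤ _ := by
          gcongr
          exact lint_exp_le hk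
  refine (mul_le_mul_right h1 _).trans ?_
  rw [← ENNReal.ofReal_mul (by (clear * - he; positivity)), ← ENNReal.ofReal_mul (by (clear * - h30; positivity))]
  refine ENNReal.ofReal_le_ofReal ?_
  have h38 : Real.exp (3 / 8) ≤ 3 / 2 := by
    have h2 : Real.exp (3 / 8) ^ 8 = Real.exp 1 ^ 3 := by
      rw [← Real.exp_nat_mul, ← Real.exp_nat_mul]; norm_num
    have h3 : Real.exp 1 ^ 3 ≤ 2.7182818286 ^ 3 :=
      pow_le_pow_left₀ (Real.exp_pos _).le Real.exp_one_lt_d9.le 3
    have h4 : Real.exp (3 / 8) ^ 8 ≤ (3 / 2) ^ 8 := by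
      rw [h2]
      refine h3.trans ?_
      (clear * -; norm_num)
    exact le_of_pow_le_pow_left₀ (by norm_num) (by norm_num) h4
  have h5 : 1 / (‖v - u‖ * ‖v + u‖ / 64) ≤ 64 / 900 := by
    rw [one_div, inv_div]
    (clear * - hl; gcongr)
  have h6 : Real.exp (3 / 8) * (1 / (‖v - u‖ * ‖v + u‖ / 64)) ≤ 3 / 2 * (64 / 900) := by
    (clear * - h38 h5 h30 h30'; gcongr)
  have h7 : 0 ≤ Real.pi * ‖v - u‖ * ee P n t x v := by (clear * - h30 he; positivity)
  calc Real.pi * ‖v - u‖ * (ee P n t x v * Real.exp (3 / 8) * (1 / (‖v - u‖ * ‖v + u‖ / 64)))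
      = (Real.pi * ‖v - u‖ * ee P n t x v) *
        (Real.exp (3 / 8) * (1 / (‖v - u‖ * ‖v + u‖ / 64))) := by ring
    _ ≤ (Real.pi * ‖v - u‖ * ee P n t x v) * (2 / 15) := by
        refine mul_le_mul_of_nonneg_left (h6.trans (by norm_num)) h7
    _ = _ := by ring

/-- (e2): the mean weight of a product of a fast particle -/
theorem lint_ee_post_le (hT : 0 < P.TT n t) (x : T3) {u v : V} (hv : 32 ≤ ‖v‖) (hu : ‖u‖ ≤ 2) :
    ∫⁻ ω, ENNReal.ofReal |relA v u ω| * ENNReal.ofReal (ee P n t x (post v u ω)) ∂surf ≤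
      ENNReal.ofReal (1 / 15 * (2 * Real.pi * ‖v - u‖) * ee P n t x v) := by
  refine le_trans (le_of_eq ?_) (lint_aux hT x hv hu)
  simp_rw [ee_eq_eb]
  exact post_energy_law v u (F := fun s => ENNReal.ofReal (eb P n t x s))
    (measurable_eb x).ennreal_ofReal

theorem lint_ee_postStar_le (hT : 0 < P.TT n t) (x : T3) {u v : V} (hv : 32 ≤ ‖v‖)
    (hu : ‖u‖ ≤ 2) :
    ∫⁻ ω, ENNReal.ofReal |relA v u ω| * ENNReal.ofReal (ee P n t x (postStar v u ω)) ∂surf ≤
      ENNReal.ofReal (1 / 15 * (2 * Real.pi * ‖v - u‖) * ee P n t x v) := by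
  refine le_trans (le_of_eq ?_) (lint_aux hT x hv hu)
  simp_rw [ee_eq_eb]
  exact postStar_energy_law v u (F := fun s => ENNReal.ofReal (eb P n t x s))
    (measurable_eb x).ennreal_ofReal

/-! ### the corrected weight -/

theorem ee_le_et {te : ℝ} {x : T3} {v : V}
    (h : 0 ≤ ∫ τ in t..te, qb P n τ (mv x v (τ - t)) v) : ee P n t x v ≤ et P n te t x v := by
  unfold et
  linarith only [mul_nonneg (ee_pos (P := P) (n := n) (t := t) x v).le h]

theorem et_le_ee {te : ℝ} {x : T3} {v : V}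
    (h : 500 * ∫ τ in t..te, qb P n τ (mv x v (τ - t)) v ≤ 1 / 4) :
    et P n te t x v ≤ 5 / 4 * ee P n t x v := by
  unfold et
  linarith only [mul_le_mul_of_nonneg_left h (ee_pos (P := P) (n := n) (t := t) x v).le]

end Vale.Agent.P140.NU.J
end
end

section

/-!
P140-NU, module J: facts on the small weight `e` (see also `Ecost.lean`).
-/

open MeasureTheory Set Filter
open scoped ENNReal Topology

noncomputable section

namespace Vale.Agent.P140.NU.J

variable {P : Par} {t0 : ℝ} {n : ℕ} {t : ℝ} {x : T3}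

/-- `y ≥ r/T - |v|` -/
theorem yy_ge (hT : 0 < P.TT n t) (v : V) : rr x / P.TT n t - ‖v‖ ≤ yy P n t x v := by
  have h1 : (rr x - ‖v‖ * P.TT n t) / P.TT n t ≤ yy P n t x v := by
    unfold yy
    gcongr
    exact le_max_left _ _
  rwa [sub_div, mul_div_assoc, div_self hT.ne', mul_one] at h1

variable (C : Ctx P t0 n)

include C

theorem Ctx.TT_pos (ht : 0 ≤ t) : 0 < P.TT n t := C.good.TT_pos n ht

/-- (e3): `e ≤ exp(-Vg - 36)` -/
theorem Ctx.ee_small (ht : t ∈ Icc 0 (2 * t0)) {v : V} (hv : ‖v‖ ≤ 32)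
    (hr : rr x ≤ P.Vg * P.TT n t) : ee P n t x v ≤ Real.exp (-36) := by
  have hVg : 0 ≤ P.Vg := by
    unfold Par.Vg
    (clear * -; positivity)
  refine (ee_le_small (C.TT_pos ht.1) hr hv hVg).trans (Real.exp_le_exp.2 ?_)
  linarith only [hVg]

theorem Ctx.qb_nonneg (x : T3) (v : V) (t : ℝ) : 0 ≤ qb P n t x v := by
  unfold qb
  refine Finset.sum_nonneg fun j _ => ?_
  split_ifs
  · have h1 : 0 ≤ P.c / rr x := div_nonneg (by have := C.hc; linarith only [this]) (rr_nonneg x)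
    have h2 : 0 ≤ √(SS P (sg j) x v) + 4 * P.del j := by
      have := (C.good.del_pos j).le
      (clear * - this; positivity)
    positivity
  · exact le_rfl

theorem Ctx.ee_le_et (ht : t ∈ Icc 0 (2 * t0)) (x : T3) (v : V) :
    ee P n t x v ≤ et P n (2 * t0) t x v :=
  J.ee_le_et (intervalIntegral.integral_nonneg ht.2 fun _ _ => C.qb_nonneg _ _ _)

/-- by `exposure` -/
theorem Ctx.et_le (ht : t ∈ Icc 0 (2 * t0)) (x : T3) (v : V) :
    et P n (2 * t0) t x v ≤ 5 / 4 * ee P n t x v :=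
  et_le_ee (C.exposure t ht x v)

theorem Ctx.et_nonneg (ht : t ∈ Icc 0 (2 * t0)) (x : T3) (v : V) :
    0 ≤ et P n (2 * t0) t x v := (ee_pos x v).le.trans (C.ee_le_et ht x v)

end Vale.Agent.P140.NU.J
end
end

section

/-!
P140-NU, module J: small weight of the offspring.
-/

open MeasureTheory Set Filter
open scoped ENNReal Topology

noncomputable section

namespace Vale.Agent.P140.NU.J

variable {P : Par} {t0 : ℝ} {n N : ℕ} {t : ℝ} {x : T3}

/-- the weight of the products of a collision, all velocities -/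
theorem lint_bN_eh_le (C : Ctx P t0 n) (ht : t ∈ Icc 0 t0) {u : V} (hu : ‖u‖ ≤ 2) (v : V) :
    ∫⁻ ω : S2, ENNReal.ofReal (DL.bN N v u ω) *
        (eh P n t0 t x (post v u ω) + eh P n t0 t x (postStar v u ω)) ∂surf ≤
      ENNReal.ofReal (1100 * ee P n t x v) * ENNReal.ofReal ‖v - u‖ := by
  have ht2 : t ∈ Icc 0 (2 * t0) := ⟨ht.1, ht.2.trans (by linarith only [C.ht0])⟩
  have hT := C.TT_pos ht.1
  have he := (ee_pos (P := P) (n := n) (t := t) x v).le
  have key : ∀ v' : V, ‖v'‖ ^ 2 ≤ ‖v‖ ^ 2 + ‖u‖ ^ 2 →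
      eh P n t0 t x v' ≤ ENNReal.ofReal (175 / 2 * ee P n t x v) := by
    intro v' h
    refine ENNReal.ofReal_le_ofReal ?_
    have h1 := C.et_le ht2 x v'
    have h2 := ee_le_70 (P := P) (n := n) (t := t) hT (x := x) hu h
    linarith only [h2, h1]
  calc ∫⁻ ω : S2, ENNReal.ofReal (DL.bN N v u ω) *
        (eh P n t0 t x (post v u ω) + eh P n t0 t x (postStar v u ω)) ∂surf
      ≤ ∫⁻ ω : S2, ENNReal.ofReal (DL.bN N v u ω) *
        ENNReal.ofReal (175 * ee P n t x v) ∂surf := by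
        refine lintegral_mono fun ω => mul_le_mul_right ?_ _
        refine (add_le_add (key _ (norm_sq_post_le v u ω))
          (key _ (norm_sq_postStar_le v u ω))).trans (le_of_eq ?_)
        rw [← ENNReal.ofReal_add (by (clear * - he; positivity)) (by positivity)]
        congr 1
        ring
    _ = (∫⁻ ω : S2, ENNReal.ofReal (DL.bN N v u ω) ∂surf) *
        ENNReal.ofReal (175 * ee P n t x v) := lintegral_mul_const' _ _ ENNReal.ofReal_ne_top
    _ ≤ ENNReal.ofReal (2 * Real.pi * ‖v - u‖) * ENNReal.ofReal (175 * ee P n t x v) := by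
        gcongr
        exact lint_bN_le N v u
    _ ≤ ENNReal.ofReal (1100 * ee P n t x v) * ENNReal.ofReal ‖v - u‖ := by
        rw [← ENNReal.ofReal_mul (by positivity), ← ENNReal.ofReal_mul (by positivity)]
        refine ENNReal.ofReal_le_ofReal ?_
        have hpi : Real.pi ≤ 22 / 7 := by
          have := Real.pi_lt_d4
          linarith only [this]
        have h1 : 0 ≤ ee P n t x v * ‖v - u‖ := mul_nonneg he (norm_nonneg _)
        have h2 := mul_le_mul_of_nonneg_right hpi h1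
        linarith only [h2]

/-- the weight of the products of a collision, large velocities -/
theorem lint_bN_eh_large (C : Ctx P t0 n) (hN : 1 ≤ N) (ht : t ∈ Icc 0 t0) {u v : V}
    (hv : 32 ≤ ‖v‖) (hu : ‖u‖ ≤ 2) :
    ∫⁻ ω : S2, ENNReal.ofReal (DL.bN N v u ω) *
        (eh P n t0 t x (post v u ω) + eh P n t0 t x (postStar v u ω)) ∂surf ≤
      ENNReal.ofReal (1 / 2 * ee P n t x v) *
        ∫⁻ ω : S2, ENNReal.ofReal (DL.bN N v u ω) ∂surf := by
  have ht2 : t ∈ Icc 0 (2 * t0) := ⟨ht.1, ht.2.trans (by linarith only [C.ht0])⟩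
  have hT := C.TT_pos ht.1
  have he := (ee_pos (P := P) (n := n) (t := t) x v).le
  rcases lt_or_ge ((N : ℝ) ^ 2) (‖v‖ ^ 2 + ‖u‖ ^ 2) with h | h
  · simp only [lint_bN_eq_zero h, ENNReal.ofReal_zero, zero_mul, lintegral_const, one_div, inv_nonneg, Nat.ofNat_nonneg, ENNReal.ofReal_mul, Nat.ofNat_pos, ENNReal.ofReal_inv_of_pos, ENNReal.ofReal_ofNat, mul_zero, Std.le_refl]
  have hme : Measurable fun v' : V => ENNReal.ofReal (ee P n t x v') :=
    ((measurable_ee P n).comp (by fun_prop : Measurable fun v' : V => (t, x, v'))).ennreal_ofReal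
  have hm0 : Measurable fun ω : S2 => (v, u, ω) := by fun_prop
  have hmr : Measurable fun ω : S2 => ENNReal.ofReal |relA v u ω| :=
    (measurable_relA.comp hm0).abs.ennreal_ofReal
  have hmp : Measurable fun ω : S2 => post v u ω := measurable_post.comp hm0
  have key : ∀ v' : V, eh P n t0 t x v' ≤
      ENNReal.ofReal (5 / 4) * ENNReal.ofReal (ee P n t x v') := by
    intro v'
    rw [← ENNReal.ofReal_mul (by norm_num)]
    exact ENNReal.ofReal_le_ofReal (C.et_le ht2 x v')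
  have h1 : ∫⁻ ω : S2, ENNReal.ofReal (DL.bN N v u ω) *
        (eh P n t0 t x (post v u ω) + eh P n t0 t x (postStar v u ω)) ∂surf ≤
      ENNReal.ofReal (1 / 6 * (2 * Real.pi * ‖v - u‖) * ee P n t x v) := by
    calc ∫⁻ ω : S2, ENNReal.ofReal (DL.bN N v u ω) *
          (eh P n t0 t x (post v u ω) + eh P n t0 t x (postStar v u ω)) ∂surf
        ≤ ∫⁻ ω : S2, ENNReal.ofReal (5 / 4) * (ENNReal.ofReal |relA v u ω| *
            ENNReal.ofReal (ee P n t x (post v u ω)) + ENNReal.ofReal |relA v u ω| *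
            ENNReal.ofReal (ee P n t x (postStar v u ω))) ∂surf := by
          refine lintegral_mono fun ω => ?_
          calc ENNReal.ofReal (DL.bN N v u ω) *
                (eh P n t0 t x (post v u ω) + eh P n t0 t x (postStar v u ω))
              ≤ ENNReal.ofReal |relA v u ω| *
                (ENNReal.ofReal (5 / 4) * ENNReal.ofReal (ee P n t x (post v u ω)) +
                  ENNReal.ofReal (5 / 4) * ENNReal.ofReal (ee P n t x (postStar v u ω))) := by
                gcongr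
                · exact DL.bN_le N v u ω
                · exact key _
                · exact key _
            _ = _ := by ring
      _ = ENNReal.ofReal (5 / 4) * ((∫⁻ ω : S2, ENNReal.ofReal |relA v u ω| *
            ENNReal.ofReal (ee P n t x (post v u ω)) ∂surf) +
            ∫⁻ ω : S2, ENNReal.ofReal |relA v u ω| *
            ENNReal.ofReal (ee P n t x (postStar v u ω)) ∂surf) := by
          have hm1 : Measurable fun ω : S2 => ENNReal.ofReal |relA v u ω| *
              ENNReal.ofReal (ee P n t x (post v u ω)) := hmr.mul (hme.comp hmp)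
          rw [lintegral_const_mul' _ _ ENNReal.ofReal_ne_top, lintegral_add_left hm1]
      _ ≤ ENNReal.ofReal (5 / 4) * (ENNReal.ofReal (1 / 15 * (2 * Real.pi * ‖v - u‖) *
            ee P n t x v) + ENNReal.ofReal (1 / 15 * (2 * Real.pi * ‖v - u‖) *
            ee P n t x v)) := by
          gcongr
          · exact lint_ee_post_le hT x hv hu
          · exact lint_ee_postStar_le hT x hv hu
      _ = _ := by
          rw [← ENNReal.ofReal_add (by (clear * - he; positivity)) (by (clear * - he; positivity)),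
            ← ENNReal.ofReal_mul (by norm_num)]
          congr 1
          ring
  refine h1.trans ?_
  have h2 := lint_bN_ge hN h
  have h30 : 30 ≤ ‖v - u‖ := by
    have := norm_sub_norm_le v u
    linarith only [hv, hu, this]
  have hN' : (1 : ℝ) ≤ N := by exact_mod_cast hN
  have h3 : 1 / 3 * (2 * Real.pi * ‖v - u‖) ≤ 2 * Real.pi * ‖v - u‖ - 4 * Real.pi / N := by
    have h4 : 4 * Real.pi / N ≤ 4 * Real.pi := div_le_self (by positivity) hN'
    have h5 := mul_le_mul_of_nonneg_left h30 Real.pi_pos.le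
    linarith only [Real.pi_pos, h5, h4]
  calc ENNReal.ofReal (1 / 6 * (2 * Real.pi * ‖v - u‖) * ee P n t x v)
      = ENNReal.ofReal (1 / 2 * ee P n t x v) *
        ENNReal.ofReal (1 / 3 * (2 * Real.pi * ‖v - u‖)) := by
        rw [← ENNReal.ofReal_mul (by (clear * - he; positivity))]
        congr 1
        ring
    _ ≤ ENNReal.ofReal (1 / 2 * ee P n t x v) *
        ∫⁻ ω : S2, ENNReal.ofReal (DL.bN N v u ω) ∂surf := by
        gcongr
        exact (ENNReal.ofReal_le_ofReal h3).trans h2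

variable (C : Ctx P t0 n)

include C

/-- small weight of the offspring, all velocities.  For `u` in the support of `cf` (`norm_supp`),
`|u| ≤ 2` and both outgoing velocities have energy `≤ |v|² + |u|²`: `ẽ ≤ 5/4 · 70 e` (`et_le`,
`ee_le_70`), `b_N ≤ |a|`, `∫|a| = 2π|v-u|` (`lint_relA`): `2 · 87.5 · 2π ≤ 1100` -/
theorem Ctx.PW_eh_le (ht : t ∈ Icc 0 t0) (v : V) :
    PW N (cf P n t x) (eh P n t0 t x) v ≤
      ENNReal.ofReal (1100 * ee P n t x v) * MM (cf P n t x) v := by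
  have ht2 : t ∈ Icc 0 (2 * t0) := ⟨ht.1, ht.2.trans (by linarith only [C.ht0])⟩
  have hT := C.TT_pos ht.1
  have he := (ee_pos (P := P) (n := n) (t := t) x v).le
  unfold PW MM
  rw [← lintegral_const_mul' _ _ ENNReal.ofReal_ne_top]
  refine lintegral_mono fun u => ?_
  rcases eq_or_ne (cf P n t x u) 0 with h0 | h0
  · simp only [h0, zero_mul, Nat.ofNat_nonneg, ENNReal.ofReal_mul, ENNReal.ofReal_ofNat, ofReal_norm, mul_zero, Std.le_refl]
  have hu : ‖u‖ ≤ 2 := (C.norm_supp ht2 h0).trans (by norm_num)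
  have hi := lint_bN_eh_le C ht (N := N) (x := x) hu v
  calc cf P n t x u * ∫⁻ ω : S2, ENNReal.ofReal (DL.bN N v u ω) *
        (eh P n t0 t x (post v u ω) + eh P n t0 t x (postStar v u ω)) ∂surf
      ≤ cf P n t x u * (ENNReal.ofReal (1100 * ee P n t x v) * ENNReal.ofReal ‖v - u‖) := by
        (clear * - hi; gcongr)
    _ = ENNReal.ofReal (1100 * ee P n t x v) * (cf P n t x u * ENNReal.ofReal ‖v - u‖) := by
        ring

/-- small weight of the offspring, large velocities.  If `|v|²+|u|² > N²` the kernel vanishes.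
Otherwise `∫ b_N (ẽ' + ẽ*') ≤ 5/4 · 2 · 1/15 · 2π|v-u| e = (1/6) 2π|v-u| e` (`et_le`,
`lint_ee_post_le`, `lint_ee_postStar_le` in `Ecost.lean`), `|v-u| ≥ 30`, and
`∫ b_N ≥ 2π|v-u| - 4π/N ≥ (1/3) 2π|v-u|` (`lint_bN_ge`) -/
theorem Ctx.PW_eh_large (hN : 1 ≤ N) (ht : t ∈ Icc 0 t0) {v : V} (hv : 32 ≤ ‖v‖) :
    PW N (cf P n t x) (eh P n t0 t x) v ≤
      ENNReal.ofReal (1 / 2 * ee P n t x v) * RW N (cf P n t x) v := by
  have ht2 : t ∈ Icc 0 (2 * t0) := ⟨ht.1, ht.2.trans (by linarith only [C.ht0])⟩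
  unfold PW RW
  rw [← lintegral_const_mul' _ _ ENNReal.ofReal_ne_top]
  refine lintegral_mono fun u => ?_
  rcases eq_or_ne (cf P n t x u) 0 with h0 | h0
  · simp only [h0, zero_mul, one_div, inv_nonneg, Nat.ofNat_nonneg, ENNReal.ofReal_mul, Nat.ofNat_pos, ENNReal.ofReal_inv_of_pos, ENNReal.ofReal_ofNat, mul_zero, Std.le_refl]
  have hu : ‖u‖ ≤ 2 := (C.norm_supp ht2 h0).trans (by norm_num)
  have hi := lint_bN_eh_large C hN ht (x := x) hv hu
  calc cf P n t x u * ∫⁻ ω : S2, ENNReal.ofReal (DL.bN N v u ω) *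
        (eh P n t0 t x (post v u ω) + eh P n t0 t x (postStar v u ω)) ∂surf
      ≤ cf P n t x u * (ENNReal.ofReal (1 / 2 * ee P n t x v) *
        ∫⁻ ω : S2, ENNReal.ofReal (DL.bN N v u ω) ∂surf) := by
        (clear * - hi; gcongr)
    _ = ENNReal.ofReal (1 / 2 * ee P n t x v) * (cf P n t x u *
        ∫⁻ ω : S2, ENNReal.ofReal (DL.bN N v u ω) ∂surf) := by
        ring

end Vale.Agent.P140.NU.J
end
end

section

/-!
P140-NU, module J: main weight of the offspring.
-/

open MeasureTheory Set Filter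
open scoped ENNReal Topology

noncomputable section

namespace Vale.Agent.P140.NU.J

variable {P : Par} {t0 : ℝ} {n N : ℕ} {t : ℝ} {x : T3}

variable (C : Ctx P t0 n)

include C

theorem Ctx.births_aux1 (hN1 : 1 ≤ N) (ht : t ∈ Icc 0 (2 * t0)) {v u : V}
    (h : ‖v‖ ^ 2 + ‖u‖ ^ 2 ≤ (N : ℝ) ^ 2) {m : ℝ}
    (hm : ENNReal.ofReal m ≤
      ∫⁻ ω, ENNReal.ofReal (|relA v u ω| * wt P n (2 * t0) t x (post v u ω)) ∂surf) :
    ENNReal.ofReal (m - 4 * Real.pi / N) + ENNReal.ofReal (m - 4 * Real.pi / N) ≤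
      ∫⁻ ω : S2, ENNReal.ofReal (DL.bN N v u ω) *
        (wh P n t0 t x (post v u ω) + wh P n t0 t x (postStar v u ω)) ∂surf := by
  have me : Measurable fun z : V => ((t, x, z) : ℝ × T3 × V) :=
    measurable_const.prodMk (measurable_const.prodMk measurable_id)
  have mw : Measurable fun z : V => wt P n (2 * t0) t x z := by
    have h0 := C.wt_meas.comp me
    exact h0
  have mc : Measurable fun ω : S2 => ((v, u, ω) : V × V × S2) :=
    measurable_const.prodMk (measurable_const.prodMk measurable_id)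
  have mp : Measurable fun ω : S2 => post v u ω := measurable_post.comp mc
  have mps : Measurable fun ω : S2 => postStar v u ω := measurable_postStar.comp mc
  have hm2 : ENNReal.ofReal m ≤
      ∫⁻ ω, ENNReal.ofReal (|relA v u ω| * wt P n (2 * t0) t x (postStar v u ω)) ∂surf := by
    refine hm.trans (le_of_eq ?_)
    have hΦ : Measurable fun p : V × V => ENNReal.ofReal (wt P n (2 * t0) t x p.1) :=
      (mw.comp measurable_fst).ennreal_ofReal
    have he := lintegral_exchange v u hΦ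
    simp only [kk] at he
    simp only [ENNReal.ofReal_mul (abs_nonneg _)]
    exact he
  have h1 := lint_bN_weight hN1 h (φ := fun ω => wt P n (2 * t0) t x (post v u ω))
    (mw.comp mp) (fun ω => C.wt_nonneg t ht x _) (fun ω => C.wt_le_one t ht x _) hm
  have h2 := lint_bN_weight hN1 h (φ := fun ω => wt P n (2 * t0) t x (postStar v u ω))
    (mw.comp mps) (fun ω => C.wt_nonneg t ht x _) (fun ω => C.wt_le_one t ht x _) hm2
  refine (add_le_add h1 h2).trans ((le_lintegral_add _ _).trans (le_of_eq ?_))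
  refine lintegral_congr fun ω => ?_
  rw [mul_add]
  rfl

theorem Ctx.births_aux (hN : 10 ^ 3 / P.m1 ≤ N) (hN2 : P.Vg + 2 ≤ N) (ht : t ∈ Icc 0 t0) {v : V}
    (hv : ‖v‖ ≤ P.Vg) {j : ℕ} (hj : j ∈ Finset.Icc P.j0 n)
    (hx : rr x - P.w * t ∈ P.cell (gg / 2) j)
    (hm1 : P.m1 ≤ √(SS P (sg j) x v)) {a b : ℝ} (ha : 0 ≤ a) (hab : a + 1 / 25 ≤ 4 * b)
    (hoff : ∀ u, cf P n t x u ≠ 0 → ENNReal.ofReal (b * (2 * Real.pi * ‖v - u‖)) ≤
      ∫⁻ ω, ENNReal.ofReal (|relA v u ω| * wt P n (2 * t0) t x (post v u ω)) ∂surf) :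
    ENNReal.ofReal (a * Real.pi) * MM (cf P n t x) v ≤
      PW N (cf P n t x) (wh P n t0 t x) v := by
  have ht2 : t ∈ Icc 0 (2 * t0) := ⟨ht.1, ht.2.trans (by linarith only [C.ht0])⟩
  have hVg := C.Vg_ge
  have hVg0 : (0 : ℝ) ≤ P.Vg := by linarith only [hVg]
  have hm1p := C.m1_pos
  have hNpos : (0 : ℝ) < N := by linarith only [hN2, hVg]
  have hN1 : 1 ≤ N := by
    rw [Nat.one_le_iff_ne_zero]
    rintro rfl
    simp at hNpos
  have hNm : 10 ^ 3 ≤ N * P.m1 := by
    rwa [div_le_iff₀ hm1p] at hN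
  have hd := C.del_le j
  unfold PW MM
  refine (lintegral_const_mul_le _ _).trans (lintegral_mono fun u => ?_)
  by_cases hu : cf P n t x u = 0
  · simp only [hu, ofReal_norm, zero_mul, mul_zero, Std.le_refl]
  have hnu : ‖u‖ ≤ 11 / 10 := C.norm_supp ht2 hu
  have hcl := (C.close ht2 hj hx hu v).2
  have hvu : P.m1 / 2 ≤ ‖v - u‖ := by linarith only [hcl, hd, hm1p, hm1]
  have hsq : ‖v‖ ^ 2 + ‖u‖ ^ 2 ≤ (N : ℝ) ^ 2 := by
    have e1 : ‖v‖ ^ 2 ≤ P.Vg ^ 2 := by gcongr
    have e2 : ‖u‖ ^ 2 ≤ (11 / 10) ^ 2 := by (clear * - hnu; gcongr)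
    have e3 : (P.Vg + 2) ^ 2 ≤ (N : ℝ) ^ 2 := by gcongr
    linarith only [e3, e2, e1, hVg]
  have key := C.births_aux1 (x := x) hN1 ht2 hsq (hoff u hu)
  have e0 : ENNReal.ofReal (a * Real.pi) * (cf P n t x u * ENNReal.ofReal ‖v - u‖) =
      cf P n t x u * ENNReal.ofReal (a * Real.pi * ‖v - u‖) := by
    rw [ENNReal.ofReal_mul (mul_nonneg ha Real.pi_pos.le)]
    ring
  refine e0.le.trans ?_
  gcongr
  refine le_trans ?_ key
  · have hpi := Real.pi_pos
    have h8 : 8 * Real.pi / N ≤ Real.pi * ‖v - u‖ / 25 := by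
      rw [div_le_iff₀ hNpos]
      have : 200 ≤ ‖v - u‖ * N := by
        have : P.m1 / 2 * N ≤ ‖v - u‖ * N := by (clear * - hvu hN1; gcongr)
        linarith only [hNm, this]
      linarith only [mul_nonneg (le_of_lt (sub_pos.2 hpi)) (sub_nonneg.2 this)]
    have hfin : a * Real.pi * ‖v - u‖ ≤
        (b * (2 * Real.pi * ‖v - u‖) - 4 * Real.pi / N) +
          (b * (2 * Real.pi * ‖v - u‖) - 4 * Real.pi / N) := by
      have e4 : 8 * Real.pi / N = 4 * Real.pi / N + 4 * Real.pi / N := by ring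
      have hn0 : 0 ≤ Real.pi * ‖v - u‖ := by (clear * -; positivity)
      have := mul_le_mul_of_nonneg_right hab hn0
      nlinarith only [h8, e4, this]
    exact (ENNReal.ofReal_le_ofReal hfin).trans ENNReal.ofReal_add_le

/-- births, good collisions.  For `u` in the support of `cf`: `∫ b_N wt(post) ≥ 3/2 π|v-u| - 4π/N`
(`offspring1`, `lint_bN_weight`), the same for `postStar` (`lintegral_exchange`), and
`8π/N ≤ π|v-u|/25` because `|v-u| ≥ √SS - 4 del ≥ m1/2` -/
theorem Ctx.births1 (hN : 10 ^ 3 / P.m1 ≤ N) (hN2 : P.Vg + 2 ≤ N) (ht : t ∈ Icc 0 t0) {v : V}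
    (hv : ‖v‖ ≤ P.Vg) (hr : rr x ≤ P.Vg * P.TT n t) {j : ℕ} (hj : j ∈ Finset.Icc P.j0 n)
    (hx : rr x - P.w * t ∈ P.cell (gg / 2) j)
    (hg : P.m2 ≤ √(SS P (sg j) x v) ∨
        (P.m1 ≤ √(SS P (sg j) x v) ∧ P.a1 (P.TT n t) ≤ rr x - P.w * P.TT n t)) :
    ENNReal.ofReal (74 / 25 * Real.pi) * MM (cf P n t x) v ≤
      PW N (cf P n t x) (wh P n t0 t x) v := by
  have hm1 : P.m1 ≤ √(SS P (sg j) x v) := by
    rcases hg with h | h
    · exact C.m1_le_m2.trans h
    · exact h.1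
  exact C.births_aux hN hN2 ht hv hj hx hm1 (b := 3 / 4) (by norm_num) (by norm_num)
    fun u hu => C.offspring1 t ht x u v hu hv hr j hj hx hg

/-- births, slow particles of the inner layer not moving inward: `2 (π|v-u|/2 - 4π/N)` -/
theorem Ctx.births2 (hN : 10 ^ 3 / P.m1 ≤ N) (hN2 : P.Vg + 2 ≤ N) (ht : t ∈ Icc 0 t0) {v : V}
    (hv : ‖v‖ ≤ P.Vg) (hr : rr x ≤ P.Vg * P.TT n t) {j : ℕ} (hj : j ∈ Finset.Icc P.j0 n)
    (hx : rr x - P.w * t ∈ P.cell (gg / 2) j)
    (h1 : P.m1 ≤ √(SS P (sg j) x v)) (h2 : √(SS P (sg j) x v) < P.m2)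
    (h4 : -(√(SS P (sg j) x v) / 200) ≤ dotE x v - P.w) :
    ENNReal.ofReal (24 / 25 * Real.pi) * MM (cf P n t x) v ≤
      PW N (cf P n t x) (wh P n t0 t x) v :=
  C.births_aux hN hN2 ht hv hj hx h1 (b := 1 / 4) (by norm_num) (by norm_num)
    fun u hu => C.offspring2 t ht x u v hu hv hr j hj hx h1 h2 h4

end Vale.Agent.P140.NU.J
end
end

section

/-!
P140-NU, module J: the pointwise inequality between births, deaths and the small weight.
-/

open MeasureTheory Set Filter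
open scoped ENNReal Topology

noncomputable section

namespace Vale.Agent.P140.NU.J

variable {P : Par} {t0 : ℝ} {n N : ℕ} {t : ℝ} {x : T3}

theorem claim_exp36 : Real.exp (-36) ≤ 1 / 117649 := by
  have h1 : (7 : ℝ) ≤ Real.exp 6 := by
    have := Real.add_one_le_exp (6 : ℝ)
    linarith only [this]
  have h2 : Real.exp 36 = Real.exp 6 ^ 6 := by
    rw [← Real.exp_nat_mul]
    norm_num
  have h3 : (117649 : ℝ) ≤ Real.exp 36 := by
    rw [h2]
    calc (117649 : ℝ) = 7 ^ 6 := by norm_num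
      _ ≤ Real.exp 6 ^ 6 := by gcongr
  rw [Real.exp_neg, ← one_div]
  exact one_div_le_one_div_of_le (by norm_num) h3

theorem MM_eq_zero {f : V → ℝ≥0∞} (hf : ∀ u, f u = 0) (v : V) : MM f v = 0 := by
  unfold MM
  simp [hf]

/-- the case of large distances, real inequality -/
theorem claim_far {c r T S d e y Vg : ℝ} (hc : 0 < c) (hT : 0 < T) (he : 0 ≤ e) (hVg : 10 ^ 6 ≤ Vg)
    (hV : Vg ^ 2 = 160000 * c) (hr : Vg * T < r) (hS : S ≤ 34) (hd : 4 * d ≤ 1)
    (hy : r / T - 32 ≤ y) :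
    1100 * e * ((1 + 1 / 1000) * (c / r) * (S + 4 * d)) ≤ y / T * e := by
  have hVg0 : 0 < Vg := lt_of_lt_of_le (by (clear * -; norm_num)) hVg
  have hr0 : 0 < r := lt_trans (by (clear * - hVg hT; positivity)) hr
  have h1 : 1100 * ((1 + 1 / 1000) * (c / r) * (S + 4 * d)) ≤ 40000 * (c / r) := by
    have h2 : S + 4 * d ≤ 35 := by linarith only [hS, hd]
    have h3 : 0 < c / r := by positivity
    linarith only [mul_nonneg (le_of_lt (sub_pos.2 h3)) (sub_nonneg.2 h2), h3]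
  have h4 : 40000 * (c / r) ≤ y / T := by
    have h5 : r / (2 * T) ≤ y := by
      have h6 : 64 ≤ r / T := by
        rw [le_div_iff₀ hT]
        nlinarith only [hT, hr, hVg]
      have h7 : r / (2 * T) = (r / T) / 2 := by
        field_simp
      rw [h7]
      linarith only [h6, hy]
    have h8 : 40000 * (c / r) ≤ r / (2 * T) / T := by
      rw [le_div_iff₀ hT, le_div_iff₀ (by (clear * - hT; positivity)), mul_div_assoc', div_mul_eq_mul_div,
        div_mul_eq_mul_div, div_le_iff₀ hr0]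
      have h9 : (Vg * T) ^ 2 ≤ r ^ 2 := by
        gcongr
      linarith only [mul_eq_zero_of_left (sub_eq_zero.2 hV) (T ^ 2 - (0)), mul_nonneg (sq_nonneg (Vg : ℝ)) (sq_nonneg T), h9]
    exact h8.trans (by (clear * - h5 hT; gcongr))
  have h10 := mul_le_mul_of_nonneg_right (h1.trans h4) he
  linarith only [h10]

/-- the case of slow particles, real inequality -/
theorem claim_slow {c r T S d e m1 Lam w et : ℝ} (hc : 0 < c) (hT : 0 < T) (he : 0 ≤ e)
    (hw : 0 < w) (hL : 0 ≤ Lam) (hm : 0 ≤ m1) (hr : w * T ≤ r) (hS : S < m1)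
    (hd : d ≤ m1 / 10 ^ 6) (hcm : c * m1 = Lam * w / 10 ^ 5) (het : e ≤ et) :
    1100 * e * ((1 + 1 / 1000) * (c / r) * (S + 4 * d)) ≤ Lam / (2 * T) * et := by
  have hr0 : 0 < r := lt_of_lt_of_le (by (clear * - hw hT; positivity)) hr
  have h1 : (c / r) * (S + 4 * d) ≤ 11 / 10 * (Lam / (10 ^ 5 * T)) := by
    have h2 : S + 4 * d ≤ 11 / 10 * m1 := by
      have : m1 / 10 ^ 6 ≤ m1 / 40 := by
        apply div_le_div_of_nonneg_left hm (by norm_num) (by norm_num)
      linarith only [hd, hS, hm]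
    calc (c / r) * (S + 4 * d) ≤ (c / r) * (11 / 10 * m1) := by (clear * - h2 hc hr0; gcongr)
      _ = 11 / 10 * ((Lam * w / 10 ^ 5) / r) := by
          rw [← hcm]
          ring
      _ ≤ 11 / 10 * ((Lam * w / 10 ^ 5) / (w * T)) := by gcongr
      _ = 11 / 10 * (Lam / (10 ^ 5 * T)) := by
          (clear * - hw hT; field_simp)
  have h3 : Lam / (10 ^ 5 * T) = 2 / 10 ^ 5 * (Lam / (2 * T)) := by
    field_simp
  have h4 : 0 ≤ Lam / (2 * T) := by (clear * - hL hT; positivity)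
  rw [h3] at h1
  have h5 : 1100 * ((1 + 1 / 1000) * (c / r) * (S + 4 * d)) ≤ Lam / (2 * T) := by
    have : 1100 * ((1 + 1 / 1000) * (c / r) * (S + 4 * d)) =
      1100 * (1 + 1 / 1000) * ((c / r) * (S + 4 * d)) := by ring
    rw [this]
    (clear * - h1 h4; linarith only [h4, h1])
  calc 1100 * e * ((1 + 1 / 1000) * (c / r) * (S + 4 * d))
      = 1100 * ((1 + 1 / 1000) * (c / r) * (S + 4 * d)) * e := by ring
    _ ≤ Lam / (2 * T) * e := by gcongr
    _ ≤ Lam / (2 * T) * et := by (clear * - het hL hT; gcongr)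

variable (C : Ctx P t0 n)

include C

theorem Ctx.prodE_terms (ht : t ∈ Icc 0 t0) (v : V) :
    0 ≤ yy P n t x v / P.TT n t * ee P n t x v ∧ 0 ≤ 500 * ee P n t x v * qb P n t x v ∧
      0 ≤ P.Lam / (2 * P.TT n t) * et P n (2 * t0) t x v := by
  have ht2 : t ∈ Icc 0 (2 * t0) := ⟨ht.1, by linarith only [ht.2, C.ht0]⟩
  have hT := C.TT_pos ht.1
  have he := (ee_pos (P := P) (n := n) (t := t) x v).le
  have hy : 0 ≤ yy P n t x v := by
    rw [yy_eq]
    exact yb_nonneg hT x _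
  have hq := C.qb_nonneg x v t
  have het := C.et_nonneg ht2 x v
  have hL : 0 ≤ P.Lam := le_trans (by norm_num) C.Lam_ge
  exact ⟨by (clear * - hy hT he; positivity), by (clear * - he hq; positivity), by positivity⟩

/-- the cases in which the production of the small weight wins -/
theorem Ctx.claim_prod (ht : t ∈ Icc 0 t0) (v : V) {lam : ℝ} (hl0 : 0 ≤ lam)
    (h0 : pp P n t x v = 0)
    (h : ENNReal.ofReal (1100 * ee P n t x v) * MM (cf P n t x) v ≤
      ENNReal.ofReal (prodE P n t0 t x v)) :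
    ENNReal.ofReal (pp P n t x v) + ENNReal.ofReal lam * PW N (cf P n t x) (eh P n t0 t x) v ≤
      ENNReal.ofReal (lam * prodE P n t0 t x v) := by
  rw [h0, ENNReal.ofReal_zero, zero_add, ENNReal.ofReal_mul hl0]
  gcongr
  exact (C.PW_eh_le ht v).trans h

/-- the cases in which the births win -/
theorem Ctx.claim_birth (ht : t ∈ Icc 0 t0) (v : V) {lam a b : ℝ} (hl4 : lam ≤ 4)
    {θ B : ℝ≥0∞} (hθ : ENNReal.ofReal (9 / 10) ≤ θ) (ha : 0 ≤ a)
    (h1 : ENNReal.ofReal (pp P n t x v) ≤ ENNReal.ofReal a * MM (cf P n t x) v)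
    (h2 : ENNReal.ofReal b * MM (cf P n t x) v ≤ B)
    (h3 : a + 4400 * ee P n t x v ≤ 9 / 10 * b) :
    ENNReal.ofReal (pp P n t x v) + ENNReal.ofReal lam * PW N (cf P n t x) (eh P n t0 t x) v ≤
      θ * B := by
  have he := (ee_pos (P := P) (n := n) (t := t) x v).le
  calc ENNReal.ofReal (pp P n t x v) + ENNReal.ofReal lam * PW N (cf P n t x) (eh P n t0 t x) v
      ≤ ENNReal.ofReal a * MM (cf P n t x) v +
        ENNReal.ofReal 4 * (ENNReal.ofReal (1100 * ee P n t x v) * MM (cf P n t x) v) := by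
        gcongr
        exact C.PW_eh_le ht v
    _ = ENNReal.ofReal (a + 4400 * ee P n t x v) * MM (cf P n t x) v := by
        rw [← mul_assoc, ← ENNReal.ofReal_mul (by norm_num), ← add_mul,
          ← ENNReal.ofReal_add ha (by (clear * - he; positivity))]
        congr 3
        ring
    _ ≤ ENNReal.ofReal (9 / 10 * b) * MM (cf P n t x) v := by gcongr
    _ = ENNReal.ofReal (9 / 10) * (ENNReal.ofReal b * MM (cf P n t x) v) := by
        rw [ENNReal.ofReal_mul (by norm_num), mul_assoc]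
    _ ≤ θ * B := by gcongr

/-- The pointwise inequality.  Write `M = MM cf v`, `A = PW eh`, `B = PW wh`, `R = RW`.
No cell at `x`: `cf = 0`, `pp = 0`.  Cell `j`, `S = √SS(sg j)`:
`|v| ≥ 32`: `A ≤ (e/2) R ≤ θ eh R`; if `pp ≠ 0` then (`pp_ne`, `cell_inj`) `births1` applies:
`pp ≤ 1.98 π M ≤ 0.9 · 2.96 π M ≤ θ B`.
`|v| < 32` : `A ≤ 1100 e M`.
 (V) `r > Vg T`: `pp = 0`, `M ≤ 1.001 (c/r)(S + 4 del)`, `S ≤ |v| + w + 1 ≤ 34`, `y ≥ r/(2T)`,
   `1100 · 1.001 · 35 · c/r ≤ r/(2T²)` because `r² ≥ Vg² T² = 160000 c T²`.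
 (I) good: `pp + λA ≤ (1.98π + 4 · 1100 · e^{-36}) M ≤ 0.9 · 2.96 π M ≤ θ B`.
 (II) `births2`: `λA ≤ M/10 ≤ θ B`, `pp = 0` (else `pp_ne`).
 (III) `500 e qb ≥ 3000 e M ≥ A`.
 (IV) `S < m1`: `A ≤ 1100 e · 1.001 (c/r)(m1 + 4 del) ≤ e Λ/(2T)` (`r ≥ w T`, `cm1`). -/
theorem Ctx.claim (hN : 10 ^ 3 / P.m1 ≤ N) (hN2 : P.Vg + 2 ≤ N) (ht : t ∈ Icc 0 t0) (v : V)
    {lam : ℝ} (hl0 : 0 ≤ lam) (hl4 : lam ≤ 4) {θ : ℝ≥0∞} (hθ : ENNReal.ofReal (9 / 10) ≤ θ) :
    ENNReal.ofReal (pp P n t x v) + ENNReal.ofReal lam * PW N (cf P n t x) (eh P n t0 t x) v ≤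
      ENNReal.ofReal (lam * prodE P n t0 t x v) + θ * PW N (cf P n t x) (wh P n t0 t x) v +
      ENNReal.ofReal lam * (θ * (eh P n t0 t x v * RW N (cf P n t x) v)) := by
  have ht2 : t ∈ Icc 0 (2 * t0) := ⟨ht.1, by linarith only [ht.2, C.ht0]⟩
  have hT := C.TT_pos ht.1
  have he : 0 < ee P n t x v := ee_pos x v
  have het := C.ee_le_et ht2 x v
  have hVg := C.Vg_ge
  have hN1 : 1 ≤ N := by
    have h1 : (1 : ℝ) ≤ N := by
      refine le_trans ?_ hN2
      linarith only [hVg]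
    exact_mod_cast h1
  have hpp := C.pp_le (x := x) ht2 v
  have hpi := Real.pi_gt_three
  -- the births term when `pp ≠ 0`
  have hbirth : ∀ v : V, pp P n t x v ≠ 0 →
      ENNReal.ofReal (74 / 25 * Real.pi) * MM (cf P n t x) v ≤
        PW N (cf P n t x) (wh P n t0 t x) v := by
    intro v hne
    obtain ⟨h1, h2, j, hj, hx, hg⟩ := C.pp_ne ht2 v hne
    exact C.births1 hN hN2 ht h2 h1 hj hx hg
  rcases le_or_gt 32 ‖v‖ with hv | hv
  · -- large velocities
    have hA := C.PW_eh_large (x := x) hN1 ht hv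
    have h1 : PW N (cf P n t x) (eh P n t0 t x) v ≤
        θ * (eh P n t0 t x v * RW N (cf P n t x) v) := by
      refine hA.trans ?_
      calc ENNReal.ofReal (1 / 2 * ee P n t x v) * RW N (cf P n t x) v
          ≤ ENNReal.ofReal (9 / 10 * et P n (2 * t0) t x v) * RW N (cf P n t x) v := by
            gcongr ?_ * _
            apply ENNReal.ofReal_le_ofReal
            linarith only [het, he]
        _ = ENNReal.ofReal (9 / 10) * (eh P n t0 t x v * RW N (cf P n t x) v) := by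
            rw [ENNReal.ofReal_mul (by norm_num), mul_assoc]
            rfl
        _ ≤ θ * (eh P n t0 t x v * RW N (cf P n t x) v) := by gcongr
    have h2 : ENNReal.ofReal (pp P n t x v) ≤ θ * PW N (cf P n t x) (wh P n t0 t x) v := by
      by_cases h0 : pp P n t x v = 0
      · rw [h0, ENNReal.ofReal_zero]
        exact zero_le
      · refine hpp.trans ?_
        calc ENNReal.ofReal (99 / 50 * Real.pi) * MM (cf P n t x) v
            ≤ ENNReal.ofReal (9 / 10 * (74 / 25 * Real.pi)) * MM (cf P n t x) v := by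
              gcongr ?_ * _
              apply ENNReal.ofReal_le_ofReal
              linarith only [hpi]
          _ = ENNReal.ofReal (9 / 10) * (ENNReal.ofReal (74 / 25 * Real.pi) *
                MM (cf P n t x) v) := by
              rw [ENNReal.ofReal_mul (by norm_num), mul_assoc]
          _ ≤ θ * PW N (cf P n t x) (wh P n t0 t x) v := by
              gcongr
              exact hbirth v h0
    calc ENNReal.ofReal (pp P n t x v) + ENNReal.ofReal lam * PW N (cf P n t x) (eh P n t0 t x) v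
        ≤ θ * PW N (cf P n t x) (wh P n t0 t x) v +
          ENNReal.ofReal lam * (θ * (eh P n t0 t x v * RW N (cf P n t x) v)) := by gcongr
      _ ≤ _ := by
          gcongr
          exact le_add_self
  -- it is enough to use one of the first two terms
  have hprod : ∀ {X : ℝ≥0∞}, X ≤ ENNReal.ofReal (lam * prodE P n t0 t x v) →
      X ≤ ENNReal.ofReal (lam * prodE P n t0 t x v) + θ * PW N (cf P n t x) (wh P n t0 t x) v +
      ENNReal.ofReal lam * (θ * (eh P n t0 t x v * RW N (cf P n t x) v)) := fun h =>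
    h.trans (le_self_add.trans le_self_add)
  have hb : ∀ {X : ℝ≥0∞}, X ≤ θ * PW N (cf P n t x) (wh P n t0 t x) v →
      X ≤ ENNReal.ofReal (lam * prodE P n t0 t x v) + θ * PW N (cf P n t x) (wh P n t0 t x) v +
      ENNReal.ofReal lam * (θ * (eh P n t0 t x v * RW N (cf P n t x) v)) := fun h =>
    h.trans (le_add_self.trans le_self_add)
  obtain ⟨q1, q2, q3⟩ := C.prodE_terms (x := x) ht v
  by_cases hcell : ∀ j ∈ Finset.Icc P.j0 n, rr x - P.w * t ∉ P.cell (gg / 2) j
  · -- no cold gas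
    have hM : MM (cf P n t x) v = 0 := MM_eq_zero (fun u => C.cf_zero ht2 hcell u) v
    apply hprod
    apply C.claim_prod ht v hl0
    · rw [hM, mul_zero] at hpp
      exact le_antisymm (ENNReal.ofReal_eq_zero.1 (le_antisymm hpp zero_le))
        (C.pp_nonneg ht2 v)
    · rw [hM, mul_zero]
      exact zero_le
  push Not at hcell
  obtain ⟨j, hj, hx⟩ := hcell
  have hgg : (0 : ℝ) < gg / 2 := by
    unfold gg
    (clear * -; norm_num)
  have hunique : ∀ k, rr x - P.w * t ∈ P.cell (gg / 2) k → k = j := fun k hk =>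
    C.good.cell_inj hgg hk hx
  have hw := C.good.w_pos
  have hc := C.good.c_pos
  have hm1 := C.m1_pos
  have hm12 := C.m1_le_m2
  have hm2 := C.m2_le
  have hdel := C.del_le j
  have hdel0 := (C.good.del_pos j).le
  have hMM := C.MM_le ht2 hj hx v
  have hS0 : 0 ≤ √(SS P (sg j) x v) := Real.sqrt_nonneg _
  rcases lt_or_ge (P.Vg * P.TT n t) (rr x) with hfar | hnear
  · -- (V)
    apply hprod
    apply C.claim_prod ht v hl0
    · by_contra hne
      exact absurd (C.pp_ne ht2 v hne).1 (not_le.2 hfar)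
    · refine (mul_le_mul_right hMM _).trans ?_
      rw [← ENNReal.ofReal_mul (by (clear * - he; positivity))]
      apply ENNReal.ofReal_le_ofReal
      have hS : √(SS P (sg j) x v) ≤ 34 := by
        have h1 := sqrt_SS_le (P := P) (s := sg j) x v hw.le
        have h2 : |sg j| = 1 := by
          unfold sg
          rw [abs_pow]
          simp
        have h3 := C.good.w_le
        have h4 : (1 : ℝ) / 10 ^ 20 ≤ 1 := by norm_num
        linarith only [hv, h1, h2, h3]
      have hy : rr x / P.TT n t - 32 ≤ yy P n t x v := by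
        have := yy_ge (P := P) (n := n) (t := t) (x := x) hT v
        linarith only [hv, this]
      have h5 : P.m1 / 10 ^ 6 ≤ 1 / 4 := by
        rw [div_le_iff₀ (by norm_num)]
        have : (1 : ℝ) / 10 ^ 6 ≤ 1 := by norm_num
        linarith only [hm12, hm2]
      have h4d : 4 * P.del j ≤ 1 := by linarith only [hm12, hm2, hdel]
      have := claim_far hc hT he.le hVg C.Vg_sq hfar hS h4d hy
      unfold prodE
      linarith only [q2, q3, this]
  · have hvV : ‖v‖ ≤ P.Vg := by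
      have : (32 : ℝ) ≤ 10 ^ 6 := by norm_num
      linarith only [hVg, hv]
    have hesm := (C.ee_small ht2 hv.le hnear).trans claim_exp36
    by_cases hgood : P.m2 ≤ √(SS P (sg j) x v) ∨
        (P.m1 ≤ √(SS P (sg j) x v) ∧ P.a1 (P.TT n t) ≤ rr x - P.w * P.TT n t)
    · -- (I)
      apply hb
      apply C.claim_birth (a := 99 / 50 * Real.pi) (b := 74 / 25 * Real.pi) ht v hl4 hθ
        (by positivity) hpp (C.births1 hN hN2 ht hvV hnear hj hx hgood)
      linarith only [hesm, hpi]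
    · have hpp0 : pp P n t x v = 0 := by
        by_contra hne
        obtain ⟨-, -, k, hk, hxk, hg⟩ := C.pp_ne ht2 v hne
        rw [hunique k hxk] at hg
        exact hgood hg
      push Not at hgood
      obtain ⟨hg1, hg2⟩ := hgood
      rcases lt_or_ge (√(SS P (sg j) x v)) P.m1 with hs | hs
      · -- (IV)
        apply hprod
        apply C.claim_prod ht v hl0 hpp0
        refine (mul_le_mul_right hMM _).trans ?_
        rw [← ENNReal.ofReal_mul (by positivity)]
        apply ENNReal.ofReal_le_ofReal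
        have hL : 0 ≤ P.Lam := le_trans (by norm_num) C.Lam_ge
        have := claim_slow hc hT he.le hw hL hm1.le (C.rr_ge ht.1 hj hgg.le hx) hs hdel C.cm1 het
        unfold prodE
        linarith only [q1, q2, this]
      · have ha1 := hg2 hs
        rcases le_or_gt (-(√(SS P (sg j) x v) / 200)) (dotE x v - P.w) with hd | hd
        · -- (II)
          apply hb
          apply C.claim_birth (a := 0) (b := 24 / 25 * Real.pi) ht v hl4 hθ le_rfl _
            (C.births2 hN hN2 ht hvV hnear hj hx hs hg1 hd)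
          · linarith only [hpi, hesm]
          · rw [hpp0, ENNReal.ofReal_zero]
            exact zero_le
        · -- (III)
          apply hprod
          apply C.claim_prod ht v hl0 hpp0
          have hq := C.qb_ge ht2 hj hx v hs hg1 ha1 hd
          calc ENNReal.ofReal (1100 * ee P n t x v) * MM (cf P n t x) v
              ≤ ENNReal.ofReal (500 * ee P n t x v * 6) * MM (cf P n t x) v := by
                gcongr ?_ * _
                apply ENNReal.ofReal_le_ofReal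
                linarith only [he]
            _ = ENNReal.ofReal (500 * ee P n t x v) * (ENNReal.ofReal 6 *
                  MM (cf P n t x) v) := by
                rw [ENNReal.ofReal_mul (by positivity), mul_assoc]
            _ ≤ ENNReal.ofReal (500 * ee P n t x v) * ENNReal.ofReal (qb P n t x v) := by
                (clear * - hq; gcongr)
            _ = ENNReal.ofReal (500 * ee P n t x v * qb P n t x v) := by
                rw [← ENNReal.ofReal_mul (by positivity)]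
            _ ≤ ENNReal.ofReal (prodE P n t0 t x v) := by
                apply ENNReal.ofReal_le_ofReal
                unfold prodE
                linarith only [q1, q3]

end Vale.Agent.P140.NU.J
end
end

section

/-!
P140-NU, module J: static inequality at a fixed point of space-time.
-/

open MeasureTheory Set Filter
open scoped ENNReal Topology

noncomputable section

namespace Vale.Agent.P140.NU.J

/-- error terms: collisions of the hot part with the noise `b` and with itself -/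
def ErrX (P : Par) (n : ℕ) (t0 t : ℝ) (x : T3) (lam : ℝ) (b h : V → ℝ≥0∞) : ℝ≥0∞ :=
  (∫⁻ v, wh P n t0 t x v * h v * LL (fun u => b u + h u) v) +
    ENNReal.ofReal lam * ∫⁻ v, eh P n t0 t x v * (Gam b h v + Gam h b v + Gam h h v)

variable {P : Par} {t0 : ℝ} {n N : ℕ} {t : ℝ} {x : T3}

variable (C : Ctx P t0 n)

include C

theorem Ctx.static_mcf (t : ℝ) (x : T3) : Measurable (cf P n t x) := by
  have e : Measurable fun v : V => (t, x, v) :=
    measurable_const.prodMk (measurable_const.prodMk measurable_id)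
  have h := C.cf_meas.comp e
  exact h

theorem Ctx.static_mwh (t : ℝ) (x : T3) : Measurable (wh P n t0 t x) := by
  have e : Measurable fun v : V => (t, x, v) :=
    measurable_const.prodMk (measurable_const.prodMk measurable_id)
  have h := (C.wt_meas.comp e).ennreal_ofReal
  exact h

theorem Ctx.static_meh (t : ℝ) (x : T3) : Measurable (eh P n t0 t x) := by
  have e : Measurable fun v : V => (t, x, v) :=
    measurable_const.prodMk (measurable_const.prodMk measurable_id)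
  have h := (C.et_meas.comp e).ennreal_ofReal
  exact h

/-- step (a) -/
theorem Ctx.static_a (ht : t ∈ Icc 0 t0) {pf : ℝ≥0∞} (hpf : pf ≤ 1) {G h b : V → ℝ≥0∞}
    (hG : Measurable G) (hh : Measurable h) (hb : Measurable b)
    (hup : ∀ u, G u ≤ cf P n t x u + b u) :
    (∫⁻ v, wh P n t0 t x v * h v * (pf * RW N (fun u => G u + h u) v)) ≤
      (∫⁻ v, ENNReal.ofReal (qq P n t x v) * (wh P n t0 t x v * h v)) +
      ∫⁻ v, wh P n t0 t x v * h v * LL (fun u => b u + h u) v := by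
  have ht2 : t ∈ Icc 0 (2 * t0) := ⟨ht.1, by (clear * - ht C; linarith [ht.2, C.ht0])⟩
  have m1 : Measurable fun v => wh P n t0 t x v * h v * LL (fun u => b u + h u) v :=
    ((C.static_mwh t x).mul hh).mul (measurable_LL' (hb.add hh))
  rw [← lintegral_add_right _ m1]
  refine lintegral_mono fun v => ?_
  have h1 : pf * RW N (fun u => G u + h u) v ≤
      ENNReal.ofReal (qq P n t x v) + LL (fun u => b u + h u) v := by
    calc pf * RW N (fun u => G u + h u) v
        ≤ 1 * RW N (fun u => G u + h u) v := mul_le_mul_left hpf _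
      _ = RW N (fun u => G u + h u) v := one_mul _
      _ ≤ LL (fun u => G u + h u) v := RW_le_LL (hG.add hh) v
      _ ≤ LL (fun u => cf P n t x u + (b u + h u)) v := by
          refine LL_mono (fun u => ?_) v
          rw [← add_assoc]
          exact add_le_add_left (hup u) _
      _ = LL (cf P n t x) v + LL (fun u => b u + h u) v := LL_add (C.static_mcf t x) v
      _ ≤ ENNReal.ofReal (qq P n t x v) + LL (fun u => b u + h u) v :=
          add_le_add_left (C.LL_cf_le ht2 v) _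
  calc wh P n t0 t x v * h v * (pf * RW N (fun u => G u + h u) v)
      ≤ wh P n t0 t x v * h v *
          (ENNReal.ofReal (qq P n t x v) + LL (fun u => b u + h u) v) :=
        mul_le_mul_right h1 _
    _ = ENNReal.ofReal (qq P n t x v) * (wh P n t0 t x v * h v) +
          wh P n t0 t x v * h v * LL (fun u => b u + h u) v := by ring

/-- steps (b), (c) -/
theorem Ctx.static_b {pf : ℝ≥0∞} (hpf : pf ≤ 1) {G h b : V → ℝ≥0∞}
    (hh : Measurable h) (hb : Measurable b) (hup : ∀ u, G u ≤ cf P n t x u + b u) :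
    (∫⁻ v, eh P n t0 t x v * (pf * (GamN N G h v + GamN N h G v + GamN N h h v))) ≤
      (∫⁻ v, h v * PW N (cf P n t x) (eh P n t0 t x) v) +
      ∫⁻ v, eh P n t0 t x v * (Gam b h v + Gam h b v + Gam h h v) := by
  have mc := C.static_mcf t x
  have me := C.static_meh t x
  rw [← weak_GamN mc hh me]
  have m1 : Measurable fun v => eh P n t0 t x v * (Gam b h v + Gam h b v + Gam h h v) :=
    me.mul (((measurable_Gam' hb hh).add (measurable_Gam' hh hb)).add (measurable_Gam' hh hh))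
  rw [← lintegral_add_right _ m1]
  refine lintegral_mono fun v => ?_
  have h1 : GamN N G h v ≤ GamN N (cf P n t x) h v + Gam b h v :=
    calc GamN N G h v ≤ GamN N (fun u => cf P n t x u + b u) h v :=
          Nm.GamN_mono hup (fun _ => le_rfl) v
      _ = GamN N (cf P n t x) h v + GamN N b h v := Nm.GamN_add_left N mc hh v
      _ ≤ GamN N (cf P n t x) h v + Gam b h v := add_le_add_right (Nm.GamN_le_Gam N b h v) _
  have h2 : GamN N h G v ≤ GamN N h (cf P n t x) v + Gam h b v :=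
    calc GamN N h G v ≤ GamN N h (fun u => cf P n t x u + b u) v :=
          Nm.GamN_mono (fun _ => le_rfl) hup v
      _ = GamN N h (cf P n t x) v + GamN N h b v := Nm.GamN_add_right N mc hh v
      _ ≤ GamN N h (cf P n t x) v + Gam h b v := add_le_add_right (Nm.GamN_le_Gam N h b v) _
  have h3 : GamN N h h v ≤ Gam h h v := Nm.GamN_le_Gam N h h v
  calc eh P n t0 t x v * (pf * (GamN N G h v + GamN N h G v + GamN N h h v))
      ≤ eh P n t0 t x v * (1 * ((GamN N (cf P n t x) h v + Gam b h v) +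
          (GamN N h (cf P n t x) v + Gam h b v) + Gam h h v)) :=
        mul_le_mul_right (mul_le_mul' hpf (add_le_add (add_le_add h1 h2) h3)) _
    _ = eh P n t0 t x v * (GamN N (cf P n t x) h v + GamN N h (cf P n t x) v) +
          eh P n t0 t x v * (Gam b h v + Gam h b v + Gam h h v) := by ring

/-- step (d) -/
theorem Ctx.static_d {pf θ1 : ℝ≥0∞} {G h : V → ℝ≥0∞}
    (hh : Measurable h) (hlow : ∀ u, θ1 * cf P n t x u ≤ G u) :
    θ1 * pf * (∫⁻ v, h v * PW N (cf P n t x) (wh P n t0 t x) v) ≤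
      ∫⁻ v, wh P n t0 t x v * (pf * (GamN N G h v + GamN N h G v + GamN N h h v)) := by
  have mc := C.static_mcf t x
  have mw := C.static_mwh t x
  have m1 : Measurable fun v => wh P n t0 t x v *
      (GamN N (cf P n t x) h v + GamN N h (cf P n t x) v) :=
    mw.mul ((measurable_GamN mc hh).add (measurable_GamN hh mc))
  rw [← weak_GamN mc hh mw, ← lintegral_const_mul _ m1]
  refine lintegral_mono fun v => ?_
  have h1 : θ1 * GamN N (cf P n t x) h v ≤ GamN N G h v := by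
    rw [← GamN_const_mul_left θ1 mc hh v]
    exact Nm.GamN_mono hlow (fun _ => le_rfl) v
  have h2 : θ1 * GamN N h (cf P n t x) v ≤ GamN N h G v := by
    rw [← GamN_const_mul_right θ1 hh mc v]
    exact Nm.GamN_mono (fun _ => le_rfl) hlow v
  calc θ1 * pf * (wh P n t0 t x v * (GamN N (cf P n t x) h v + GamN N h (cf P n t x) v))
      = wh P n t0 t x v * (pf * (θ1 * GamN N (cf P n t x) h v +
          θ1 * GamN N h (cf P n t x) v)) := by ring
    _ ≤ wh P n t0 t x v * (pf * (GamN N G h v + GamN N h G v)) :=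
        mul_le_mul_right (mul_le_mul_right (add_le_add h1 h2) _) _
    _ ≤ wh P n t0 t x v * (pf * (GamN N G h v + GamN N h G v + GamN N h h v)) :=
        mul_le_mul_right (mul_le_mul_right le_self_add _) _

/-- step (e) -/
theorem Ctx.static_e {pf θ1 : ℝ≥0∞} {G h : V → ℝ≥0∞}
    (hh : Measurable h) (hlow : ∀ u, θ1 * cf P n t x u ≤ G u) :
    θ1 * pf * (∫⁻ v, h v * (eh P n t0 t x v * RW N (cf P n t x) v)) ≤
      ∫⁻ v, eh P n t0 t x v * h v * (pf * RW N (fun u => G u + h u) v) := by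
  have mc := C.static_mcf t x
  have me := C.static_meh t x
  have m1 : Measurable fun v => h v * (eh P n t0 t x v * RW N (cf P n t x) v) :=
    hh.mul (me.mul (measurable_RW mc))
  rw [← lintegral_const_mul _ m1]
  refine lintegral_mono fun v => ?_
  have h1 : θ1 * RW N (cf P n t x) v ≤ RW N (fun u => G u + h u) v := by
    rw [← RW_const_mul θ1 mc v]
    exact RW_mono (fun u => (hlow u).trans le_self_add) v
  calc θ1 * pf * (h v * (eh P n t0 t x v * RW N (cf P n t x) v))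
      = eh P n t0 t x v * h v * (pf * (θ1 * RW N (cf P n t x) v)) := by ring
    _ ≤ eh P n t0 t x v * h v * (pf * RW N (fun u => G u + h u) v) :=
        mul_le_mul_right (mul_le_mul_right h1 _) _

/-- step (f) -/
theorem Ctx.static_f (hN : 10 ^ 3 / P.m1 ≤ N) (hN2 : P.Vg + 2 ≤ N) (ht : t ∈ Icc 0 t0)
    {lam : ℝ} (hl0 : 0 ≤ lam) (hl4 : lam ≤ 4) {θ : ℝ≥0∞}
    (hθ : ENNReal.ofReal (9 / 10) ≤ θ) {h : V → ℝ≥0∞} (hh : Measurable h) :
    (∫⁻ v, ENNReal.ofReal (pp P n t x v) * h v) +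
      ENNReal.ofReal lam * (∫⁻ v, h v * PW N (cf P n t x) (eh P n t0 t x) v) ≤
    (∫⁻ v, ENNReal.ofReal (lam * prodE P n t0 t x v) * h v) +
      θ * (∫⁻ v, h v * PW N (cf P n t x) (wh P n t0 t x) v) +
      ENNReal.ofReal lam * (θ * ∫⁻ v, h v * (eh P n t0 t x v * RW N (cf P n t x) v)) := by
  have mc := C.static_mcf t x
  have mw := C.static_mwh t x
  have me := C.static_meh t x
  have m1 : Measurable fun v => h v * PW N (cf P n t x) (eh P n t0 t x) v :=
    hh.mul (measurable_PW mc me)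
  have m2 : Measurable fun v => h v * PW N (cf P n t x) (wh P n t0 t x) v :=
    hh.mul (measurable_PW mc mw)
  have m3 : Measurable fun v => h v * (eh P n t0 t x v * RW N (cf P n t x) v) :=
    hh.mul (me.mul (measurable_RW mc))
  rw [← lintegral_const_mul _ m1, ← lintegral_const_mul _ m2, ← lintegral_const_mul _ m3,
    ← lintegral_const_mul _ (m3.const_mul θ), ← lintegral_add_right _ (m1.const_mul _),
    ← lintegral_add_right _ (m2.const_mul _),
    ← lintegral_add_right _ ((m3.const_mul _).const_mul _)]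
  refine lintegral_mono fun v => ?_
  have h1 := mul_le_mul_right (C.claim (x := x) hN hN2 ht v hl0 hl4 hθ) (h v)
  calc ENNReal.ofReal (pp P n t x v) * h v +
        ENNReal.ofReal lam * (h v * PW N (cf P n t x) (eh P n t0 t x) v)
      = h v * (ENNReal.ofReal (pp P n t x v) +
          ENNReal.ofReal lam * PW N (cf P n t x) (eh P n t0 t x) v) := by ring
    _ ≤ h v * (ENNReal.ofReal (lam * prodE P n t0 t x v) +
          θ * PW N (cf P n t x) (wh P n t0 t x) v +
          ENNReal.ofReal lam * (θ * (eh P n t0 t x v * RW N (cf P n t x) v))) := h1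
    _ = _ := by ring

/-- The static inequality.  Steps (all integrals in `v`, `cf = cf P n t x`, `wh`, `eh` weights):
(a) `pf * RW N (G+h) ≤ LL (G+h) ≤ LL cf + LL (b+h) ≤ qq + LL (b+h)` (`RW_le_LL`, `LL_cf_le`);
(b) `GamN G h + GamN h G ≤ (GamN cf h + GamN h cf) + (Gam b h + Gam h b)`, `pf ≤ 1`;
(c) `∫ eh (GamN cf h + GamN h cf) = ∫ h PW N cf eh` (`weak_GamN`);
(d) `∫ wh pf (GamN G h + GamN h G) ≥ θ1 pf ∫ h PW N cf wh`;
(e) `eh h pf RW N (G+h) ≥ θ1 pf eh h RW N cf`;
(f) `claim` with `θ = θ1 * pf`, multiplied by `h` and integrated. -/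
theorem Ctx.static_x (hN : 10 ^ 3 / P.m1 ≤ N) (hN2 : P.Vg + 2 ≤ N) (ht : t ∈ Icc 0 t0)
    {lam : ℝ} (hl0 : 0 ≤ lam) (hl4 : lam ≤ 4) {pf θ1 : ℝ≥0∞} (hpf : pf ≤ 1) (hθ1 : θ1 ≤ 1)
    (hθ : ENNReal.ofReal (9 / 10) ≤ θ1 * pf) {G h b : V → ℝ≥0∞} (hG : Measurable G)
    (hh : Measurable h) (hb : Measurable b) (hlow : ∀ u, θ1 * cf P n t x u ≤ G u)
    (hup : ∀ u, G u ≤ cf P n t x u + b u) :
    (∫⁻ v, ENNReal.ofReal (pp P n t x v) * h v) +
      (∫⁻ v, wh P n t0 t x v * h v * (pf * RW N (fun u => G u + h u) v)) +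
      ENNReal.ofReal lam * ∫⁻ v, eh P n t0 t x v *
        (pf * (GamN N G h v + GamN N h G v + GamN N h h v)) ≤
    (∫⁻ v, ENNReal.ofReal (qq P n t x v) * (wh P n t0 t x v * h v)) +
      (∫⁻ v, ENNReal.ofReal (lam * prodE P n t0 t x v) * h v) +
      (∫⁻ v, wh P n t0 t x v * (pf * (GamN N G h v + GamN N h G v + GamN N h h v))) +
      ENNReal.ofReal lam *
        (∫⁻ v, eh P n t0 t x v * h v * (pf * RW N (fun u => G u + h u) v)) +
      ErrX P n t0 t x lam b h := by
  have ha := C.static_a (N := N) (x := x) ht hpf hG hh hb hup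
  have hb' := C.static_b (N := N) (t := t) (x := x) hpf hh hb hup
  have hd := C.static_d (N := N) (t := t) (x := x) (pf := pf) hh hlow
  have he := C.static_e (N := N) (t := t) (x := x) (pf := pf) hh hlow
  have hf := C.static_f (x := x) hN hN2 ht hl0 hl4 hθ hh
  unfold ErrX
  generalize ENNReal.ofReal lam = l at *
  calc _ ≤ (∫⁻ v, ENNReal.ofReal (pp P n t x v) * h v) +
        ((∫⁻ v, ENNReal.ofReal (qq P n t x v) * (wh P n t0 t x v * h v)) +
          ∫⁻ v, wh P n t0 t x v * h v * LL (fun u => b u + h u) v) +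
        l * ((∫⁻ v, h v * PW N (cf P n t x) (eh P n t0 t x) v) +
          ∫⁻ v, eh P n t0 t x v * (Gam b h v + Gam h b v + Gam h h v)) :=
        add_le_add (add_le_add_right ha _) (mul_le_mul_right hb' _)
    _ = ((∫⁻ v, ENNReal.ofReal (pp P n t x v) * h v) +
          l * (∫⁻ v, h v * PW N (cf P n t x) (eh P n t0 t x) v)) +
        ((∫⁻ v, ENNReal.ofReal (qq P n t x v) * (wh P n t0 t x v * h v)) +
          (∫⁻ v, wh P n t0 t x v * h v * LL (fun u => b u + h u) v) +
          l * ∫⁻ v, eh P n t0 t x v * (Gam b h v + Gam h b v + Gam h h v)) := by ring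
    _ ≤ ((∫⁻ v, ENNReal.ofReal (lam * prodE P n t0 t x v) * h v) +
          (∫⁻ v, wh P n t0 t x v *
            (pf * (GamN N G h v + GamN N h G v + GamN N h h v))) +
          l * (∫⁻ v, eh P n t0 t x v * h v * (pf * RW N (fun u => G u + h u) v))) +
        ((∫⁻ v, ENNReal.ofReal (qq P n t x v) * (wh P n t0 t x v * h v)) +
          (∫⁻ v, wh P n t0 t x v * h v * LL (fun u => b u + h u) v) +
          l * ∫⁻ v, eh P n t0 t x v * (Gam b h v + Gam h b v + Gam h h v)) :=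
        add_le_add_left (hf.trans (add_le_add (add_le_add_right hd _)
          (mul_le_mul_right he _))) _
    _ = _ := by ring

end Vale.Agent.P140.NU.J
end
end

section

/-!
P140-NU, module J: bounds for the error terms.
-/

open MeasureTheory Set Filter
open scoped ENNReal Topology

noncomputable section

namespace Vale.Agent.P140.NU.J

variable {P : Par} {t0 CB CN : ℝ} {n : ℕ} {t : ℝ} {x : T3}

theorem err_slice {f : ℝ → T3 → V → ℝ≥0∞}
    (hf : Measurable fun p : ℝ × T3 × V => f p.1 p.2.1 p.2.2) (t : ℝ) (x : T3) :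
    Measurable (f t x) := by
  have h2 : Measurable fun v : V => (t, x, v) := by fun_prop
  have h3 := hf.comp h2
  exact h3

theorem err_slice2 {f : ℝ → T3 → V → ℝ≥0∞}
    (hf : Measurable fun p : ℝ × T3 × V => f p.1 p.2.1 p.2.2) (t : ℝ) :
    Measurable fun p : T3 × V => f t p.1 p.2 := by
  have h2 : Measurable fun p : T3 × V => (t, p.1, p.2) := by fun_prop
  have h3 := hf.comp h2
  exact h3

/-- the exponential factors -/
theorem err_exp {r T y b : ℝ} (hb : 0 ≤ b) (hy : r / T - b ≤ y) {g : ℝ}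
    (hg : g ≤ Real.exp (y + b ^ 2 / 16)) :
    Real.exp (-(2 * y) - 1 / 8 * b ^ 2) * (g * ((1 + b) * Real.exp b)) ≤
      Real.exp (-(r / T)) * ((1 + b) * Real.exp (2 * b - b ^ 2 / 16)) := by
  calc Real.exp (-(2 * y) - 1 / 8 * b ^ 2) * (g * ((1 + b) * Real.exp b))
      ≤ Real.exp (-(2 * y) - 1 / 8 * b ^ 2) *
        (Real.exp (y + b ^ 2 / 16) * ((1 + b) * Real.exp b)) := by (clear * - hg hb; gcongr)
    _ = (1 + b) * (Real.exp (-(2 * y) - 1 / 8 * b ^ 2) *
        Real.exp (y + b ^ 2 / 16) * Real.exp b) := by ring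
    _ = (1 + b) * Real.exp ((-(2 * y) - 1 / 8 * b ^ 2) + (y + b ^ 2 / 16) + b) := by
        rw [← Real.exp_add, ← Real.exp_add]
    _ ≤ (1 + b) * Real.exp (-(r / T) + (2 * b - b ^ 2 / 16)) := by
        refine mul_le_mul_of_nonneg_left (Real.exp_le_exp.2 ?_) (by positivity)
        linarith only [hy]
    _ = _ := by
        rw [Real.exp_add]
        ring

theorem err_ee_le (hVg : 0 ≤ P.Vg) (v : V) :
    ee P n t x v ≤ Real.exp (yy P n t x v + ‖v‖ ^ 2 / 16) := by
  unfold ee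
  refine mul_le_of_le_one_left (Real.exp_pos _).le ?_
  rw [Real.exp_le_one_iff]
  linarith only [hVg]

theorem err_tail_step (hT : 0 < P.TT n t) (hVg : 0 ≤ P.Vg) {a H : ℝ≥0∞} (v : V)
    (ha : a ≤ H * Pi P n (1 / 8) t x v) :
    a * ENNReal.ofReal (ee P n t x v * ((1 + ‖v‖) * Real.exp ‖v‖)) ≤
      (H * ENNReal.ofReal (Real.exp (-(rr x / P.TT n t)))) *
        (WW P t x v * ENNReal.ofReal ((1 + ‖v‖) * Real.exp (2 * ‖v‖ - ‖v‖ ^ 2 / 16))) := by
  have h1 := err_exp (norm_nonneg v) (yy_ge (P := P) (n := n) (t := t) (x := x) hT v)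
    (err_ee_le hVg v)
  calc a * ENNReal.ofReal (ee P n t x v * ((1 + ‖v‖) * Real.exp ‖v‖))
      ≤ (H * Pi P n (1 / 8) t x v) *
        ENNReal.ofReal (ee P n t x v * ((1 + ‖v‖) * Real.exp ‖v‖)) := mul_le_mul_left ha _
    _ = H * WW P t x v * (ENNReal.ofReal (Real.exp (-(2 * yy P n t x v) -
          1 / 8 * ‖v‖ ^ 2)) * ENNReal.ofReal (ee P n t x v * ((1 + ‖v‖) * Real.exp ‖v‖))) := by
        unfold Pi
        ring
    _ ≤ H * WW P t x v * (ENNReal.ofReal (Real.exp (-(rr x / P.TT n t))) *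
          ENNReal.ofReal ((1 + ‖v‖) * Real.exp (2 * ‖v‖ - ‖v‖ ^ 2 / 16))) := by
        refine mul_le_mul_right ?_ _
        rw [← ENNReal.ofReal_mul (Real.exp_pos _).le, ← ENNReal.ofReal_mul (Real.exp_pos _).le]
        exact ENNReal.ofReal_le_ofReal h1
    _ = _ := by ring

theorem err_meas_WW (P : Par) (t : ℝ) (x : T3) : Measurable fun v : V => WW P t x v * ENNReal.ofReal
    ((1 + ‖v‖) * Real.exp (2 * ‖v‖ - ‖v‖ ^ 2 / 16)) := by
  refine (err_slice (measurable_WW P) t x).mul (Measurable.ennreal_ofReal ?_)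
  fun_prop

theorem err_meas_rr (T : ℝ) : Measurable fun x : T3 =>
    ENNReal.ofReal (Real.exp (-(rr x / T))) := by
  refine Measurable.ennreal_ofReal ?_
  exact ((measurable_rr.div_const T).neg).exp

theorem err_meas_ee (P : Par) (n : ℕ) (t : ℝ) : Measurable fun p : T3 × V =>
    ENNReal.ofReal (ee P n t p.1 p.2 * ((1 + ‖p.2‖) * Real.exp ‖p.2‖)) := by
  have h0 : Measurable fun p : T3 × V => (t, p.1, p.2) := by fun_prop
  have h1 := (measurable_yy P n).comp h0
  have h2 : Measurable fun p : T3 × V => yy P n t p.1 p.2 := h1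
  have h3 : Measurable fun p : T3 × V => ‖p.2‖ := measurable_snd.norm
  unfold ee
  refine Measurable.ennreal_ofReal ?_
  exact (((h2.add ((h3.pow_const 2).div_const 16)).exp).const_mul _).mul
    ((h3.const_add 1).mul h3.exp)

theorem err_meas_ee1 (P : Par) (n : ℕ) (t : ℝ) (x : T3) : Measurable fun v : V =>
    ENNReal.ofReal (ee P n t x v * ((1 + ‖v‖) * Real.exp ‖v‖)) := by
  have h0 : Measurable fun v : V => (x, v) := by fun_prop
  have h1 := (err_meas_ee P n t).comp h0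
  exact h1

variable (C : Ctx P t0 n)

include C

/-- for outgoing velocities of `(v,u)`: `eh ≤ 5/4 e(v) exp|v| exp(|u|²/16)` (`et_le`,
`ee_le_crude`, `energy_post`), `|a| ≤ |v| + |u| ≤ (1+|v|)(1+|u|)`, total surface `4π`:
`2 · 5/4 · 4π ≤ 32` -/
theorem Ctx.PU_eh_le (ht : t ∈ Icc 0 t0) {f : V → ℝ≥0∞} (hf : Measurable f) {A : ℝ≥0∞}
    (hA : ∫⁻ u, f u * ENNReal.ofReal ((1 + ‖u‖) * Real.exp (‖u‖ ^ 2 / 16)) ≤ A) (v : V) :
    PU f (eh P n t0 t x) v ≤
      ENNReal.ofReal (32 * (ee P n t x v * ((1 + ‖v‖) * Real.exp ‖v‖))) * A := by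
  have ht2 : t ∈ Icc 0 (2 * t0) := ⟨ht.1, ht.2.trans (by linarith only [C.ht0])⟩
  have hT := C.TT_pos ht.1
  have he := (ee_pos (P := P) (n := n) (t := t) x v).le
  have hv := norm_nonneg v
  have key : ∀ u v' : V, ‖v'‖ ^ 2 ≤ ‖v‖ ^ 2 + ‖u‖ ^ 2 →
      eh P n t0 t x v' ≤ ENNReal.ofReal (5 / 4 *
        (Real.exp (‖v‖ + ‖u‖ ^ 2 / 16) * ee P n t x v)) := by
    intro u v' h
    refine ENNReal.ofReal_le_ofReal ((C.et_le ht2 x v').trans ?_)
    exact mul_le_mul_of_nonneg_left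
      (ee_le_exp_mul (P := P) (n := n) (t := t) hT (x := x) h) (by norm_num)
  have step : ∀ u : V, ∫⁻ ω : S2, ENNReal.ofReal |relA v u ω| *
      (eh P n t0 t x (post v u ω) + eh P n t0 t x (postStar v u ω)) ∂surf ≤
      ENNReal.ofReal (32 * (ee P n t x v * ((1 + ‖v‖) * Real.exp ‖v‖))) *
        ENNReal.ofReal ((1 + ‖u‖) * Real.exp (‖u‖ ^ 2 / 16)) := by
    intro u
    have hu := norm_nonneg u
    calc ∫⁻ ω : S2, ENNReal.ofReal |relA v u ω| *
          (eh P n t0 t x (post v u ω) + eh P n t0 t x (postStar v u ω)) ∂surf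
        ≤ ∫⁻ ω : S2, ENNReal.ofReal |relA v u ω| *
          ENNReal.ofReal (5 / 2 * (Real.exp (‖v‖ + ‖u‖ ^ 2 / 16) * ee P n t x v)) ∂surf := by
          refine lintegral_mono fun ω => mul_le_mul_right ?_ _
          refine (add_le_add (key u _ (norm_sq_post_le v u ω))
            (key u _ (norm_sq_postStar_le v u ω))).trans (le_of_eq ?_)
          rw [← ENNReal.ofReal_add (by (clear * - he; positivity)) (by positivity)]
          congr 1
          ring
      _ = (∫⁻ ω : S2, ENNReal.ofReal |relA v u ω| ∂surf) *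
          ENNReal.ofReal (5 / 2 * (Real.exp (‖v‖ + ‖u‖ ^ 2 / 16) * ee P n t x v)) :=
          lintegral_mul_const' _ _ ENNReal.ofReal_ne_top
      _ = ENNReal.ofReal (2 * Real.pi * ‖v - u‖) *
          ENNReal.ofReal (5 / 2 * (Real.exp (‖v‖ + ‖u‖ ^ 2 / 16) * ee P n t x v)) := by
          rw [lint_relA v u]
      _ ≤ _ := by
          rw [← ENNReal.ofReal_mul (by (clear * -; positivity)), ← ENNReal.ofReal_mul (by (clear * - he; positivity))]
          refine ENNReal.ofReal_le_ofReal ?_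
          rw [Real.exp_add]
          have hd : ‖v - u‖ ≤ (1 + ‖v‖) * (1 + ‖u‖) := by
            have h1 := norm_sub_le v u
            linarith only [mul_nonneg hv hu, h1]
          have hpi : Real.pi ≤ 32 / 5 := by
            have := Real.pi_lt_d4
            linarith only [this]
          have hE : 0 ≤ Real.exp ‖v‖ * Real.exp (‖u‖ ^ 2 / 16) * ee P n t x v := by (clear * - he; positivity)
          calc 2 * Real.pi * ‖v - u‖ *
                (5 / 2 * (Real.exp ‖v‖ * Real.exp (‖u‖ ^ 2 / 16) * ee P n t x v))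
              = (5 * Real.pi * ‖v - u‖) *
                (Real.exp ‖v‖ * Real.exp (‖u‖ ^ 2 / 16) * ee P n t x v) := by ring
            _ ≤ (5 * (32 / 5) * ((1 + ‖v‖) * (1 + ‖u‖))) *
                (Real.exp ‖v‖ * Real.exp (‖u‖ ^ 2 / 16) * ee P n t x v) := by
                refine mul_le_mul_of_nonneg_right ?_ hE
                (clear * - hpi hd; gcongr)
            _ = 32 * (ee P n t x v * ((1 + ‖v‖) * Real.exp ‖v‖)) *
                ((1 + ‖u‖) * Real.exp (‖u‖ ^ 2 / 16)) := by ring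
  unfold PU
  have hm : Measurable fun u : V => f u *
      ENNReal.ofReal ((1 + ‖u‖) * Real.exp (‖u‖ ^ 2 / 16)) := by
    refine hf.mul (Measurable.ennreal_ofReal ?_)
    fun_prop
  calc ∫⁻ u : V, f u * ∫⁻ ω : S2, ENNReal.ofReal |relA v u ω| *
        (eh P n t0 t x (post v u ω) + eh P n t0 t x (postStar v u ω)) ∂surf
      ≤ ∫⁻ u : V, ENNReal.ofReal (32 * (ee P n t x v * ((1 + ‖v‖) * Real.exp ‖v‖))) *
          (f u * ENNReal.ofReal ((1 + ‖u‖) * Real.exp (‖u‖ ^ 2 / 16))) := by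
        refine lintegral_mono fun u => ?_
        calc f u * _ ≤ f u * _ := mul_le_mul_right (step u) _
          _ = _ := by ring
    _ = ENNReal.ofReal (32 * (ee P n t x v * ((1 + ‖v‖) * Real.exp ‖v‖))) *
          ∫⁻ u : V, f u * ENNReal.ofReal ((1 + ‖u‖) * Real.exp (‖u‖ ^ 2 / 16)) :=
        lintegral_const_mul _ hm
    _ ≤ _ := mul_le_mul_right hA _

/-- `∫∫ h e (1+|v|) exp|v| ≤ 16 CN H T²` if `h ≤ H Pi`: `Pi e (1+|v|) e^{|v|} ≤
WW (1+|v|) exp(-r/T) exp(2|v| - |v|²/16)` (`yy_ge`), `intW`, `lint_exp_rr` -/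
theorem Ctx.lint_tail (E : CtxE P t0 n CB CN) (ht : t ∈ Icc 0 t0) {h : T3 → V → ℝ≥0∞}
    {H : ℝ≥0∞} (hH : ∀ x u, h x u ≤ H * Pi P n (1 / 8) t x u) :
    ∫⁻ x, ∫⁻ v, h x v * ENNReal.ofReal (ee P n t x v * ((1 + ‖v‖) * Real.exp ‖v‖)) ≤
      ENNReal.ofReal (16 * CN * P.TT n t ^ 2) * H := by
  have hT := C.TT_pos ht.1
  have hCN : 0 ≤ CN := zero_le_one.trans E.CN0
  have hVg : 0 ≤ P.Vg := by
    unfold Par.Vg
    (clear * -; positivity)
  have inner : ∀ x : T3,
      ∫⁻ v, h x v * ENNReal.ofReal (ee P n t x v * ((1 + ‖v‖) * Real.exp ‖v‖)) ≤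
      (H * ENNReal.ofReal CN) * ENNReal.ofReal (Real.exp (-(rr x / P.TT n t))) := by
    intro x
    refine (lintegral_mono fun v => err_tail_step hT hVg v (hH x v)).trans ?_
    rw [lintegral_const_mul _ (err_meas_WW P t x)]
    refine (mul_le_mul_right (E.intW t ht x) _).trans (le_of_eq ?_)
    ring
  refine (lintegral_mono inner).trans ?_
  rw [lintegral_const_mul _ (err_meas_rr _)]
  refine (mul_le_mul_right (lint_exp_rr hT) _).trans (le_of_eq ?_)
  rw [mul_assoc, ← ENNReal.ofReal_mul hCN, mul_comm]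
  congr 2
  ring

theorem Ctx.err_a (E : CtxE P t0 n CB CN) (ht : t ∈ Icc 0 t0) {h : V → ℝ≥0∞} {H : ℝ≥0∞}
    (hh : Measurable h) (hH : ∀ u, h u ≤ H * Pi P n (1 / 8) t x u) :
    (∫⁻ v, wh P n t0 t x v * h v * LL (fun u => bb P CB n t x u + h u) v) ≤
      ENNReal.ofReal (CN * (1 + P.Vg)) * (1 + H) * (∫⁻ v, wh P n t0 t x v * h v) := by
  have hCN : 0 ≤ CN := zero_le_one.trans E.CN0
  have ht2 : t ∈ Icc 0 (2 * t0) := ⟨ht.1, ht.2.trans (by linarith only [C.ht0])⟩
  have mb : Measurable (bb P CB n t x) := err_slice E.meas_bb t x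
  have mP : Measurable (Pi P n (1 / 8) t x) := err_slice E.meas_Pi t x
  have mw := C.static_mwh t x
  have mwh : Measurable fun v => wh P n t0 t x v * h v := mw.mul hh
  rw [← lintegral_const_mul _ mwh]
  refine lintegral_mono fun v => ?_
  by_cases hw : wt P n (2 * t0) t x v = 0
  · have : wh P n t0 t x v = 0 := by
      unfold wh
      rw [hw, ENNReal.ofReal_zero]
    rw [this]
    simp only [zero_mul, mul_zero, Std.le_refl]
  have hv := C.wt_supp t ht2 x v hw
  have hc : ENNReal.ofReal (CN * (1 + ‖v‖)) ≤ ENNReal.ofReal (CN * (1 + P.Vg)) := by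
    refine ENNReal.ofReal_le_ofReal ?_
    (clear * - hv hCN; gcongr)
  have hL : LL (fun u => bb P CB n t x u + h u) v ≤
      ENNReal.ofReal (CN * (1 + P.Vg)) * (1 + H) := by
    calc LL (fun u => bb P CB n t x u + h u) v
        = LL (bb P CB n t x) v + LL h v := LL_add mb v
      _ ≤ LL (bb P CB n t x) v + LL (fun u => H * Pi P n (1 / 8) t x u) v :=
          add_le_add_right (LL_mono hH v) _
      _ = LL (bb P CB n t x) v + H * LL (Pi P n (1 / 8) t x) v := by
          rw [LL_const_mul mP H v]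
      _ ≤ ENNReal.ofReal (CN * (1 + ‖v‖)) + H * ENNReal.ofReal (CN * (1 + ‖v‖)) :=
          add_le_add (E.LLb t ht x v) (mul_le_mul_right (E.LLPi t ht x v) _)
      _ ≤ ENNReal.ofReal (CN * (1 + P.Vg)) + H * ENNReal.ofReal (CN * (1 + P.Vg)) :=
          add_le_add hc (mul_le_mul_right hc _)
      _ = _ := by ring
  calc wh P n t0 t x v * h v * LL (fun u => bb P CB n t x u + h u) v
      ≤ wh P n t0 t x v * h v * (ENNReal.ofReal (CN * (1 + P.Vg)) * (1 + H)) :=
        mul_le_mul_right hL _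
    _ = _ := by ring

omit C in
theorem err_alg (a c : ℝ≥0∞) (r : ℝ) :
    a * (ENNReal.ofReal (32 * r) * c) = ENNReal.ofReal 32 * c * (a * ENNReal.ofReal r) := by
  rw [ENNReal.ofReal_mul (by norm_num : (0 : ℝ) ≤ 32)]
  ring

omit C in
theorem err_hA (E : CtxE P t0 n CB CN) (ht : t ∈ Icc 0 t0) {h : V → ℝ≥0∞} {H : ℝ≥0∞}
    (hH : ∀ u, h u ≤ H * Pi P n (1 / 8) t x u) :
    ∫⁻ u, h u * ENNReal.ofReal ((1 + ‖u‖) * Real.exp (‖u‖ ^ 2 / 16)) ≤
      H * ENNReal.ofReal CN := by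
  have mPi : Measurable fun u : V => Pi P n (1 / 8) t x u *
      ENNReal.ofReal ((1 + ‖u‖) * Real.exp (‖u‖ ^ 2 / 16)) := by
    refine (err_slice E.meas_Pi t x).mul (Measurable.ennreal_ofReal ?_)
    fun_prop
  calc ∫⁻ u, h u * ENNReal.ofReal ((1 + ‖u‖) * Real.exp (‖u‖ ^ 2 / 16))
      ≤ ∫⁻ u, H * (Pi P n (1 / 8) t x u *
          ENNReal.ofReal ((1 + ‖u‖) * Real.exp (‖u‖ ^ 2 / 16))) := by
        refine lintegral_mono fun u => ?_
        rw [← mul_assoc]
        exact mul_le_mul_left (hH u) _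
    _ = H * ∫⁻ u, Pi P n (1 / 8) t x u *
          ENNReal.ofReal ((1 + ‖u‖) * Real.exp (‖u‖ ^ 2 / 16)) := lintegral_const_mul _ mPi
    _ ≤ _ := mul_le_mul_right (E.intPi t ht x) _

theorem Ctx.err_b (E : CtxE P t0 n CB CN) (ht : t ∈ Icc 0 t0) {h : V → ℝ≥0∞}
    (hh : Measurable h) :
    ∫⁻ v, eh P n t0 t x v * (Gam (bb P CB n t x) h v + Gam h (bb P CB n t x) v) ≤
      ENNReal.ofReal 32 * ENNReal.ofReal CN *
        ∫⁻ v, h v * ENNReal.ofReal (ee P n t x v * ((1 + ‖v‖) * Real.exp ‖v‖)) := by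
  have mb : Measurable (bb P CB n t x) := err_slice E.meas_bb t x
  have mhe : Measurable fun v : V =>
      h v * ENNReal.ofReal (ee P n t x v * ((1 + ‖v‖) * Real.exp ‖v‖)) :=
    hh.mul (err_meas_ee1 P n t x)
  rw [weak_Gam mb hh (C.static_meh t x), ← lintegral_const_mul _ mhe]
  refine lintegral_mono fun v => ?_
  refine (mul_le_mul_right (C.PU_eh_le ht mb (E.intb t ht x) v) _).trans (le_of_eq ?_)
  exact err_alg (h v) (ENNReal.ofReal CN) _

theorem Ctx.err_c (E : CtxE P t0 n CB CN) (ht : t ∈ Icc 0 t0) {h : V → ℝ≥0∞}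
    (hh : Measurable h) {H : ℝ≥0∞} (hH : ∀ u, h u ≤ H * Pi P n (1 / 8) t x u) :
    ∫⁻ v, eh P n t0 t x v * Gam h h v ≤
      ENNReal.ofReal 32 * (H * ENNReal.ofReal CN) *
        ∫⁻ v, h v * ENNReal.ofReal (ee P n t x v * ((1 + ‖v‖) * Real.exp ‖v‖)) := by
  have h2 : ∫⁻ v, eh P n t0 t x v * Gam h h v ≤ ∫⁻ v, h v * PU h (eh P n t0 t x) v := by
    rw [← weak_Gam_self hh (C.static_meh t x), two_mul]
    exact le_self_add
  refine h2.trans ?_
  have mhe : Measurable fun v : V =>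
      h v * ENNReal.ofReal (ee P n t x v * ((1 + ‖v‖) * Real.exp ‖v‖)) :=
    hh.mul (err_meas_ee1 P n t x)
  rw [← lintegral_const_mul _ mhe]
  refine lintegral_mono fun v => ?_
  refine (mul_le_mul_right (C.PU_eh_le ht hh (err_hA E ht hH) v) _).trans (le_of_eq ?_)
  exact err_alg (h v) (H * ENNReal.ofReal CN) _

omit C in
theorem err_split {φ a b c : V → ℝ≥0∞} (hm : Measurable fun v => φ v * c v) :
    ∫⁻ v, φ v * (a v + b v + c v) = (∫⁻ v, φ v * (a v + b v)) + ∫⁻ v, φ v * c v := by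
  rw [← lintegral_add_right _ hm]
  refine lintegral_congr fun v => ?_
  ring

/-- error bound at a point: `LL (b+h) ≤ CN (1+|v|)(1+H)`, `wh = 0` if `|v| > Vg`;
`∫ eh (Gam b h + Gam h b) = ∫ h PU b eh`, `∫ eh Gam h h ≤ ∫ h PU h eh` (`weak_Gam`,
`weak_Gam_self`), `PU_eh_le` -/
theorem Ctx.ErrX_le (E : CtxE P t0 n CB CN) (ht : t ∈ Icc 0 t0) {lam : ℝ} (hl0 : 0 ≤ lam)
    (hl4 : lam ≤ 4) {h : V → ℝ≥0∞} (hh : Measurable h) {H : ℝ≥0∞}
    (hH : ∀ u, h u ≤ H * Pi P n (1 / 8) t x u) :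
    ErrX P n t0 t x lam (bb P CB n t x) h ≤
      ENNReal.ofReal (CN * (1 + P.Vg)) * (1 + H) * (∫⁻ v, wh P n t0 t x v * h v) +
      ENNReal.ofReal (128 * CN) * (1 + H) *
        (∫⁻ v, h v * ENNReal.ofReal (ee P n t x v * ((1 + ‖v‖) * Real.exp ‖v‖))) := by
  unfold ErrX
  refine add_le_add (C.err_a E ht hh hH) ?_
  rw [err_split ((C.static_meh t x).mul (measurable_Gam' hh hh))]
  have h1 := C.err_b (x := x) E ht hh
  have h2 := C.err_c (x := x) E ht hh hH
  have hl : ENNReal.ofReal lam ≤ ENNReal.ofReal 4 := ENNReal.ofReal_le_ofReal hl4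
  have h128 : ENNReal.ofReal (128 * CN) =
      ENNReal.ofReal 4 * (ENNReal.ofReal 32 * ENNReal.ofReal CN) := by
    rw [← ENNReal.ofReal_mul (by norm_num), ← ENNReal.ofReal_mul (by norm_num)]
    congr 1
    ring
  rw [h128]
  refine (mul_le_mul' hl (add_le_add h1 h2)).trans (le_of_eq ?_)
  ring

/-- total error -/
theorem Ctx.Err_le (E : CtxE P t0 n CB CN) (ht : t ∈ Icc 0 t0) {lam : ℝ} (hl0 : 0 ≤ lam)
    (hl4 : lam ≤ 4) {h : T3 → V → ℝ≥0∞} (hh : Measurable fun p : T3 × V => h p.1 p.2)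
    {H : ℝ≥0∞} (hH : ∀ x u, h x u ≤ H * Pi P n (1 / 8) t x u) :
    ∫⁻ x, ErrX P n t0 t x lam (bb P CB n t x) (h x) ≤
      ENNReal.ofReal (CN * (1 + P.Vg)) * (1 + H) * (∫⁻ x, ∫⁻ v, wh P n t0 t x v * h x v) +
      ENNReal.ofReal (2048 * CN ^ 2 * P.TT n t ^ 2) * (1 + H) * H := by
  have hCN : 0 ≤ CN := zero_le_one.trans E.CN0
  have mwh : Measurable fun p : ℝ × T3 × V => wh P n t0 p.1 p.2.1 p.2.2 :=
    C.wt_meas.ennreal_ofReal
  have mw : Measurable fun p : T3 × V => wh P n t0 t p.1 p.2 * h p.1 p.2 :=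
    (err_slice2 mwh t).mul hh
  have mwx : Measurable fun x : T3 => ∫⁻ v, wh P n t0 t x v * h x v :=
    mw.lintegral_prod_right' (ν := (volume : Measure V))
  have mee : Measurable fun p : T3 × V => h p.1 p.2 *
      ENNReal.ofReal (ee P n t p.1 p.2 * ((1 + ‖p.2‖) * Real.exp ‖p.2‖)) :=
    hh.mul (err_meas_ee P n t)
  have mex : Measurable fun x : T3 => ∫⁻ v, h x v *
      ENNReal.ofReal (ee P n t x v * ((1 + ‖v‖) * Real.exp ‖v‖)) :=
    mee.lintegral_prod_right' (ν := (volume : Measure V))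
  have hx : ∀ x : T3, Measurable (h x) := fun x => by
    have h0 : Measurable fun v : V => (x, v) := by fun_prop
    have h1 := hh.comp h0
    exact h1
  refine (lintegral_mono fun x => C.ErrX_le E ht hl0 hl4 (hx x) (hH x)).trans ?_
  rw [lintegral_add_left (mwx.const_mul _), lintegral_const_mul _ mwx, lintegral_const_mul _ mex]
  refine add_le_add_right ((mul_le_mul_right (C.lint_tail E ht hH) _).trans (le_of_eq ?_)) _
  have h2048 : ENNReal.ofReal (2048 * CN ^ 2 * P.TT n t ^ 2) =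
      ENNReal.ofReal (128 * CN) * ENNReal.ofReal (16 * CN * P.TT n t ^ 2) := by
    rw [← ENNReal.ofReal_mul (by (clear * - hCN; positivity))]
    congr 1
    ring
  rw [h2048]
  ring

end Vale.Agent.P140.NU.J
end
end

section

/-!
P140-NU, module J: the cold gas is hardly depleted.
-/

open MeasureTheory Set Filter
open scoped ENNReal Topology

noncomputable section

namespace Vale.Agent.P140.NU.J

variable {P : Par} {t0 CB CN : ℝ} {n N : ℕ} {κ : ℝ} {F G h : ℝ → T3 → V → ℝ}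

/-- the section of a jointly measurable function is measurable -/
theorem Deplete_sec {g : ℝ → T3 → V → ℝ≥0∞} (hg : Measurable fun p : ℝ × T3 × V => g p.1 p.2.1 p.2.2)
    (t : ℝ) (x : T3) : Measurable (g t x) :=
  hg.comp (measurable_const.prodMk (measurable_const.prodMk measurable_id))

/-- the section of a jointly measurable real function is measurable -/
theorem Deplete_secR {g : ℝ → T3 → V → ℝ} (hg : Measurable fun p : ℝ × T3 × V => g p.1 p.2.1 p.2.2)
    (t : ℝ) (x : T3) : Measurable (g t x) :=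
  hg.comp (measurable_const.prodMk (measurable_const.prodMk measurable_id))

theorem Deplete_num {c r L k w Λ d : ℝ} (hc : 0 < c) (hr : 0 < r) (hL : 1 / 2 < L) {a : ℝ}
    (ha : 0 < a) (hra : L * a ≤ r) (hd0 : 0 ≤ d) (hd : d ≤ k * a) (hk : c * k ≤ Λ * w / 10 ^ 11)
    (hLw : Λ * w ≤ 1) :
    2 * Real.pi * ((1 + 1 / 1000) * (c / r) * (4 * d + 4 * d)) ≤ 1 / 100 := by
  have h1 : c / r * d ≤ 2 / 10 ^ 11 := by
    have e1 : c * d ≤ c * (k * a) := mul_le_mul_of_nonneg_left hd hc.le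
    have e2 : c * k * a ≤ 1 / 10 ^ 11 * a := by
      refine mul_le_mul_of_nonneg_right (hk.trans ?_) ha.le
      linarith only [hLw]
    have e3 : 1 / 2 * a ≤ r := by
      refine le_trans ?_ hra
      exact mul_le_mul_of_nonneg_right hL.le ha.le
    rw [div_mul_eq_mul_div, div_le_iff₀ hr]
    have e4 : c * (k * a) = c * k * a := by ring
    linarith only [e1, e2, e3]
  have h2 : Real.pi ≤ 4 := Real.pi_le_four
  have h3 : 0 ≤ c / r * d := by positivity
  have h4 : 2 * Real.pi * ((1 + 1 / 1000) * (c / r) * (4 * d + 4 * d)) =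
      (2 * (1 + 1 / 1000) * 8) * Real.pi * (c / r * d) := by ring
  rw [h4]
  calc (2 * (1 + 1 / 1000) * 8) * Real.pi * (c / r * d)
      ≤ (2 * (1 + 1 / 1000) * 8) * 4 * (2 / 10 ^ 11) := by gcongr
    _ ≤ 1 / 100 := by norm_num

variable (C : Ctx P t0 n)

include C

/-- along a cold trajectory of cell `j` the collision frequency with the cold gas is at most
`2π · 8 del_j · 1.001 c / r`, `r ≥ λ^{j+1}`, `del_j ≤ kdel λ^{jQ}`, `Q ≥ 1`:
`≤ 60 c kdel / λ ≤ 1/100` (use `close` with `v` in the support, `LL_eq_MM`, `hkd`) -/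
theorem Ctx.LL_cf_cold {t : ℝ} {x : T3} (ht : t ∈ Icc 0 (2 * t0)) {u : V}
    (hu : cf P n t x u ≠ 0) :
    LL (cf P n t x) u ≤ ENNReal.ofReal (1 / 100) := by
  obtain ⟨j, hj, hx, -⟩ := C.cf_support t ht x u hu
  have hg := C.good
  have hgg : (0 : ℝ) ≤ gg / 2 := by unfold gg; norm_num
  have hr : 0 < rr x := C.rr_pos ht.1 hj hgg hx
  obtain ⟨h1, -⟩ := C.supp ht hj hx hu
  have h2 := C.MM_le ht hj hx u
  rw [LL_eq_MM (Deplete_sec C.cf_meas t x)]
  have hd0 := (hg.del_pos j).le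
  have hc := hg.c_pos
  have h3 : MM (cf P n t x) u ≤
      ENNReal.ofReal ((1 + 1 / 1000) * (P.c / rr x) * (4 * P.del j + 4 * P.del j)) := by
    refine h2.trans (ENNReal.ofReal_le_ofReal ?_)
    (clear * - h1 hc hr; gcongr)
  calc ENNReal.ofReal (2 * Real.pi) * MM (cf P n t x) u
      ≤ ENNReal.ofReal (2 * Real.pi) *
        ENNReal.ofReal ((1 + 1 / 1000) * (P.c / rr x) * (4 * P.del j + 4 * P.del j)) := by (clear * - h3; gcongr)
    _ = ENNReal.ofReal (2 * Real.pi *
          ((1 + 1 / 1000) * (P.c / rr x) * (4 * P.del j + 4 * P.del j))) := by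
        rw [← ENNReal.ofReal_mul (by positivity)]
    _ ≤ ENNReal.ofReal (1 / 100) := by
        refine ENNReal.ofReal_le_ofReal ?_
        have hwt : 0 ≤ P.w * t := mul_nonneg hg.w_pos.le ht.1
        have hcell := hg.cell_ge hgg hx
        have hm2 := C.m2_le
        have hcm := C.cm1
        have hlam := hg.lamj_pos j
        have hlam1 := hg.lamj_le_one j
        refine Deplete_num (k := P.kdel) (w := P.w) (Λ := P.Lam) (a := P.lam ^ j) hc hr hg.hl0
          hlam ?_ hd0 ?_ ?_ ?_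
        · rw [← pow_succ']
          linarith only [hwt, hcell]
        · refine (hg.del_le j).trans (mul_le_mul_of_nonneg_left ?_ hg.hk0.le)
          calc (P.lam ^ j) ^ 8 ≤ (P.lam ^ j) ^ 1 :=
                pow_le_pow_of_le_one hlam.le hlam1 (by norm_num)
            _ = P.lam ^ j := pow_one _
        · have := mul_le_mul_of_nonneg_left C.hkd hc.le
          have e : P.c * (P.m1 / 10 ^ 6) = P.c * P.m1 / 10 ^ 6 := by ring
          rw [e, hcm] at this
          refine this.trans (le_of_eq ?_)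
          ring
        · unfold Par.m2 at hm2
          linarith only [hm2]

/-- the collision frequency of the solution along a cold trajectory -/
theorem Ctx.Deplete_rate (E : CtxE P t0 n CB CN) (hs : Split P CB t0 n N κ F G h) {τ : ℝ}
    (hτ : τ ∈ Icc 0 t0) {z : T3} {u : V} (hu : cf P n τ z u ≠ 0) {Hτ : ℝ} (hH0 : 0 ≤ Hτ)
    (hH : ∀ v, ENNReal.ofReal (h τ z v) ≤ ENNReal.ofReal Hτ * Pi P n (1 / 8) τ z v) :
    (DL.rateP N (F τ z) u).toReal ≤ 1 / 100 + 3 * CN + 3 * CN * Hτ := by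
  have hτ2 : τ ∈ Icc 0 (2 * t0) := ⟨hτ.1, by linarith only [hτ.2, hτ.1]⟩
  have hCN := E.CN0
  have mF : Measurable (F τ z) := Deplete_secR hs.appr.meas τ z
  have mcf : Measurable (cf P n τ z) := Deplete_sec C.cf_meas τ z
  have mbb : Measurable (bb P CB n τ z) := Deplete_sec E.meas_bb τ z
  have mPi : Measurable (Pi P n (1 / 8) τ z) := Deplete_sec E.meas_Pi τ z
  have hnu : ‖u‖ ≤ 11 / 10 := C.norm_supp hτ2 hu
  have h1 : DL.rateP N (F τ z) u ≤ LL (nn (F τ z)) u := by
    calc DL.rateP N (F τ z) u ≤ 1 * DL.rateN N (F τ z) u :=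
          mul_le_mul_left (DL.pfN_le_one N (F τ z)) _
      _ = RW N (nn (F τ z)) u := by
          rw [one_mul, rateN_eq_RW _ mF (fun v => hs.appr.nonneg τ z v)]
      _ ≤ _ := RW_le_LL mF.ennreal_ofReal u
  have h2 : ∀ v, nn (F τ z) v ≤ cf P n τ z v + (bb P CB n τ z v +
      ENNReal.ofReal Hτ * Pi P n (1 / 8) τ z v) := by
    intro v
    have e1 := hs.up τ hτ z v
    calc nn (F τ z) v = ENNReal.ofReal (G τ z v + h τ z v) := by rw [nn, hs.eq]
      _ = ENNReal.ofReal (G τ z v) + ENNReal.ofReal (h τ z v) :=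
          ENNReal.ofReal_add (hs.nonnegG τ z v) (hs.nonnegh τ z v)
      _ ≤ (cf P n τ z v + bf P n τ z v + ENNReal.ofReal CB * Bb P τ z v) +
          ENNReal.ofReal Hτ * Pi P n (1 / 8) τ z v := add_le_add e1 (hH v)
      _ = _ := by rw [bb]; ring
  have h3 : LL (nn (F τ z)) u ≤ LL (cf P n τ z) u + (LL (bb P CB n τ z) u +
      ENNReal.ofReal Hτ * LL (Pi P n (1 / 8) τ z) u) := by
    refine (LL_mono h2 u).trans (le_of_eq ?_)
    rw [LL_add mcf, LL_add mbb, LL_const_mul mPi]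
  have h4 : LL (bb P CB n τ z) u ≤ ENNReal.ofReal (3 * CN) := by
    refine (E.LLb τ hτ z u).trans (ENNReal.ofReal_le_ofReal ?_)
    linarith only [mul_nonneg (sub_nonneg.2 hCN) (sub_nonneg.2 hnu), hnu, hCN]
  have h5 : LL (Pi P n (1 / 8) τ z) u ≤ ENNReal.ofReal (3 * CN) := by
    refine (E.LLPi τ hτ z u).trans (ENNReal.ofReal_le_ofReal ?_)
    nlinarith only [hCN, hnu]
  have h6 : DL.rateP N (F τ z) u ≤ ENNReal.ofReal (1 / 100 + 3 * CN + 3 * CN * Hτ) := by
    calc DL.rateP N (F τ z) u ≤ LL (cf P n τ z) u + (LL (bb P CB n τ z) u +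
          ENNReal.ofReal Hτ * LL (Pi P n (1 / 8) τ z) u) := h1.trans h3
      _ ≤ ENNReal.ofReal (1 / 100) + (ENNReal.ofReal (3 * CN) +
          ENNReal.ofReal Hτ * ENNReal.ofReal (3 * CN)) := by
          gcongr
          exact C.LL_cf_cold hτ2 hu
      _ = ENNReal.ofReal (1 / 100 + 3 * CN + 3 * CN * Hτ) := by
          rw [← ENNReal.ofReal_mul hH0, ← ENNReal.ofReal_add (by (clear * - hCN; positivity)) (by (clear * - hH0 hCN; positivity)),
            ← ENNReal.ofReal_add (by positivity) (by (clear * - hCN hH0; positivity))]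
          congr 1
          ring
  exact ENNReal.toReal_le_of_le_ofReal (by (clear * - hCN hH0; positivity)) h6

/-- depletion: `G ≥ coldn(x - tu, u) exp(-∫ rateP)` (`Split.low`),
`rateP N F ≤ LL (nn F) ≤ LL cf + LL bb + LL (nn h) ≤ 1/100 + 3 CN + 3 CN Hf` along a cold
trajectory (`LL_cf_cold`, `|u| ≤ 2`); its time integral is `≤ t0 (1/100 + 3 CN) + 3 CN ε ≤ 1/20`,
and `exp(-1/20) ≥ 19/20` -/
theorem Ctx.depletion (E : CtxE P t0 n CB CN) (hs : Split P CB t0 n N κ F G h) {t1 ε : ℝ}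
    (ht1 : t1 ∈ Icc 0 t0) {Hf : ℝ → ℝ} (hH0 : ∀ τ ∈ Icc 0 t1, 0 ≤ Hf τ)
    (hHm : IntegrableOn Hf (Icc 0 t1))
    (hH : ∀ τ ∈ Icc 0 t1, ∀ x v, ENNReal.ofReal (h τ x v) ≤
      ENNReal.ofReal (Hf τ) * Pi P n (1 / 8) τ x v)
    (hHi : ∫ τ in (0 : ℝ)..t1, Hf τ ≤ ε)
    (hsm : t0 * (1 / 100 + 3 * CN) + 3 * CN * ε ≤ 1 / 20) :
    ∀ t ∈ Icc 0 t1, ∀ x u,
      ENNReal.ofReal (19 / 20) * cf P n t x u ≤ ENNReal.ofReal (G t x u) := by
  intro t ht x u
  by_cases hcf : cf P n t x u = 0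
  · rw [hcf, mul_zero]; exact zero_le
  have hCN := E.CN0
  set y := mv x u (-t) with hy
  have hyt : mv y u t = x := by rw [hy, mv_mv, neg_add_cancel, mv_zero]
  have hcold : 0 < coldn P n y u := by
    by_contra hcon
    exact hcf (ENNReal.ofReal_eq_zero.2 (not_lt.1 hcon))
  have hlow := hs.low t ht.1 y u
  rw [hyt] at hlow
  have hrate : ∀ τ ∈ Ioc 0 t, (DL.rateP N (F τ (mv y u τ)) u).toReal ≤
      (1 / 100 + 3 * CN) + 3 * CN * Hf τ := by
    intro τ hτ
    have hτ1 : τ ∈ Icc 0 t1 := ⟨hτ.1.le, hτ.2.trans ht.2⟩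
    refine C.Deplete_rate E hs ⟨hτ.1.le, hτ1.2.trans ht1.2⟩ ?_ (hH0 τ hτ1)
      (fun v => hH τ hτ1 _ v)
    have e : cf P n τ (mv y u τ) u = ENNReal.ofReal (coldn P n y u) := by
      rw [cf, mv_mv, add_neg_cancel, mv_zero]
    rw [e]
    exact (ENNReal.ofReal_pos.2 hcold).ne'
  have hHt : IntegrableOn Hf (Ioc 0 t) :=
    hHm.mono_set (fun τ hτ => ⟨hτ.1.le, hτ.2.trans ht.2⟩)
  have hci : Integrable (fun _ : ℝ => 1 / 100 + 3 * CN) (volume.restrict (Ioc 0 t)) :=
    integrable_const _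
  have hint : ∫ τ in Ioc 0 t, (DL.rateP N (F τ (mv y u τ)) u).toReal ≤ 1 / 20 := by
    have i1 : ∫ τ in Ioc 0 t, (DL.rateP N (F τ (mv y u τ)) u).toReal ≤
        ∫ τ in Ioc 0 t, ((1 / 100 + 3 * CN) + 3 * CN * Hf τ) := by
      refine integral_mono_of_nonneg (Eventually.of_forall fun τ => ENNReal.toReal_nonneg)
        ?_ ?_
      · exact hci.add (hHt.const_mul _)
      · exact (ae_restrict_iff' measurableSet_Ioc).2 (Eventually.of_forall hrate)
    have i2 : ∫ τ in Ioc 0 t, ((1 / 100 + 3 * CN) + 3 * CN * Hf τ) =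
        t * (1 / 100 + 3 * CN) + 3 * CN * ∫ τ in Ioc 0 t, Hf τ := by
      rw [integral_add hci (hHt.const_mul _), integral_const_mul, setIntegral_const]
      simp only [Real.volume_real_Ioc, sub_zero, ht.1, sup_of_le_left, one_div, smul_eq_mul]
    have i3 : ∫ τ in Ioc 0 t, Hf τ ≤ ε := by
      refine le_trans ?_ hHi
      rw [intervalIntegral.integral_of_le ht1.1]
      refine setIntegral_mono_set (hHm.mono_set Ioc_subset_Icc_self) ?_ ?_
      · exact (ae_restrict_iff' measurableSet_Ioc).2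
          (Eventually.of_forall fun τ hτ => hH0 τ ⟨hτ.1.le, hτ.2⟩)
      · exact (Ioc_subset_Ioc_right ht.2).eventuallyLE
    have i4 : 3 * CN * ∫ τ in Ioc 0 t, Hf τ ≤ 3 * CN * ε :=
      mul_le_mul_of_nonneg_left i3 (by linarith only [hCN])
    have i5 : t * (1 / 100 + 3 * CN) ≤ t0 * (1 / 100 + 3 * CN) :=
      mul_le_mul_of_nonneg_right (ht.2.trans ht1.2) (by linarith only [hCN])
    linarith
  have hexp : 19 / 20 ≤ Real.exp (-∫ τ in Ioc 0 t, (DL.rateP N (F τ (mv y u τ)) u).toReal) := by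
    have := Real.add_one_le_exp (-∫ τ in Ioc 0 t, (DL.rateP N (F τ (mv y u τ)) u).toReal)
    linarith only [hint, this]
  have e : cf P n t x u = ENNReal.ofReal (coldn P n y u) := rfl
  rw [e, ← ENNReal.ofReal_mul (by norm_num)]
  refine ENNReal.ofReal_le_ofReal (le_trans ?_ hlow)
  rw [mul_comm]
  exact mul_le_mul_of_nonneg_left hexp hcold.le

end Vale.Agent.P140.NU.J
end
end

section

open MeasureTheory Set Filter
open scoped ENNReal Topology NNReal

noncomputable section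

namespace Vale.Agent.P140.DL

variable {Ω : Type*} [MeasurableSpace Ω] {μ : Measure Ω}

namespace CL

theorem ae_nuE_pos : ∀ᵐ t ∂nuE, 0 < t := by
  have h1 : nuE ≪ volume.restrict (Ioi (0 : ℝ)) := withDensity_absolutelyContinuous _ _
  exact h1.ae_le (ae_restrict_mem measurableSet_Ioi)

theorem nuE_ac_volume : nuE ≪ (volume : Measure ℝ) :=
  (withDensity_absolutelyContinuous _ _).trans Measure.restrict_le_self.absolutelyContinuous

theorem abs_exp_neg_sub_le {x y : ℝ} (hx : 0 ≤ x) (hy : 0 ≤ y) :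
    |Real.exp (-x) - Real.exp (-y)| ≤ |x - y| := by
  have key : ∀ u v : ℝ, 0 ≤ u → u ≤ v → |Real.exp (-u) - Real.exp (-v)| ≤ |u - v| := by
    intro u v hu huv
    have h1 : Real.exp (-v) = Real.exp (-u) * Real.exp (-(v - u)) := by
      rw [← Real.exp_add]; congr 1; ring
    have h2 : Real.exp (-u) ≤ 1 := Real.exp_le_one_iff.2 (by linarith only [hu])
    have h3 : 1 - Real.exp (-(v - u)) ≤ v - u := by
      have := Real.add_one_le_exp (-(v - u))
      linarith only [this]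
    have h4 : Real.exp (-(v - u)) ≤ 1 := Real.exp_le_one_iff.2 (by linarith only [huv])
    rw [h1, abs_sub_comm u v, abs_of_nonneg (by linarith only [huv] : (0:ℝ) ≤ v - u), abs_of_nonneg]
    · calc Real.exp (-u) - Real.exp (-u) * Real.exp (-(v - u))
          = Real.exp (-u) * (1 - Real.exp (-(v - u))) := by ring
        _ ≤ 1 * (1 - Real.exp (-(v - u))) :=
            mul_le_mul_of_nonneg_right h2 (by linarith only [h4])
        _ ≤ v - u := by linarith only [h3]
    · have := mul_le_of_le_one_right (Real.exp_pos (-u)).le h4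
      linarith only [this]
  rcases le_total x y with h | h
  · exact key x y hx h
  · rw [abs_sub_comm, abs_sub_comm x y]
    exact key y x hy h

/-- accumulated rate between two times -/
def acc (a : ℝ × Ω → ℝ) (s t : ℝ) (p : Ω) : ℝ := ∫ r in Ioc s t, a (r, p)

omit [MeasurableSpace Ω] in
theorem acc_nonneg {a : ℝ × Ω → ℝ} (ha : ∀ q, 0 ≤ a q) (s t : ℝ) (p : Ω) : 0 ≤ acc a s t p :=
  integral_nonneg fun _ => ha _

theorem measurable_acc {a : ℝ × Ω → ℝ} (ma : Measurable a) :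
    Measurable fun x : ℝ × ℝ × Ω => acc a x.2.1 x.1 x.2.2 := by
  have hS : MeasurableSet {y : (ℝ × ℝ × Ω) × ℝ | y.1.2.1 < y.2 ∧ y.2 ≤ y.1.1} := by
    have h1 : Measurable fun y : (ℝ × ℝ × Ω) × ℝ => y.1.2.1 := by fun_prop
    have h2 : Measurable fun y : (ℝ × ℝ × Ω) × ℝ => y.2 := by fun_prop
    have h3 : Measurable fun y : (ℝ × ℝ × Ω) × ℝ => y.1.1 := by fun_prop
    exact (measurableSet_lt h1 h2).inter (measurableSet_le h2 h3)
  have hm : Measurable fun y : (ℝ × ℝ × Ω) × ℝ =>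
      {y : (ℝ × ℝ × Ω) × ℝ | y.1.2.1 < y.2 ∧ y.2 ≤ y.1.1}.indicator
        (fun y => a (y.2, y.1.2.2)) y :=
    (ma.comp (by fun_prop : Measurable fun y : (ℝ × ℝ × Ω) × ℝ => (y.2, y.1.2.2))).indicator hS
  have h2 := (hm.stronglyMeasurable.integral_prod_right' (ν := (volume : Measure ℝ))).measurable
  have h : (fun x : ℝ × ℝ × Ω => acc a x.2.1 x.1 x.2.2)
      = fun x => ∫ r, {y : (ℝ × ℝ × Ω) × ℝ | y.1.2.1 < y.2 ∧ y.2 ≤ y.1.1}.indicator
        (fun y => a (y.2, y.1.2.2)) (x, r) := by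
    funext x
    rw [acc, ← integral_indicator measurableSet_Ioc]
    rfl
  rw [h]
  exact h2

/-- kernel of the exponential form, weighted for the reference measure -/
def ker (χ a : ℝ × Ω → ℝ) (x : ℝ × ℝ × Ω) : ℝ :=
  if 0 < x.2.1 ∧ x.2.1 ≤ x.1 then
    χ (x.1, x.2.2) * (Real.exp x.2.1 * Real.exp (-acc a x.2.1 x.1 x.2.2)) else 0

/-- initial factor of the exponential form -/
def ez (χ a : ℝ × Ω → ℝ) (q : ℝ × Ω) : ℝ := χ q * Real.exp (-acc a 0 q.1 q.2)

/-- source part of the exponential form -/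
def eint (a B : ℝ × Ω → ℝ) (q : ℝ × Ω) : ℝ≥0∞ :=
  ∫⁻ s in Ioc 0 q.1, ENNReal.ofReal (B (s, q.2) * Real.exp (-acc a s q.1 q.2))

/-- test functions supported in a bounded time interval -/
structure IsTst (T : ℝ) (χ : ℝ × Ω → ℝ) : Prop where
  meas : Measurable χ
  nonneg : ∀ q, 0 ≤ χ q
  le_one : ∀ q, χ q ≤ 1
  supp : ∀ q, χ q ≠ 0 → 0 < q.1 ∧ q.1 ≤ T

theorem measurable_ker {χ a : ℝ × Ω → ℝ} (mχ : Measurable χ) (ma : Measurable a) :
    Measurable (ker χ a) := by
  have h1 : Measurable fun x : ℝ × ℝ × Ω => x.2.1 := by fun_prop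
  have h2 : Measurable fun x : ℝ × ℝ × Ω => x.1 := by fun_prop
  refine Measurable.ite ?_ ?_ measurable_const
  · exact (measurableSet_lt measurable_const h1).inter (measurableSet_le h1 h2)
  · exact (mχ.comp (by fun_prop : Measurable fun x : ℝ × ℝ × Ω => (x.1, x.2.2))).mul
      ((by (clear * -; fun_prop) : Measurable fun x : ℝ × ℝ × Ω => Real.exp x.2.1).mul
        (measurable_acc ma).neg.exp)

theorem measurable_ez {χ a : ℝ × Ω → ℝ} (mχ : Measurable χ) (ma : Measurable a) :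
    Measurable (ez χ a) :=
  mχ.mul ((measurable_acc ma).comp
    (by fun_prop : Measurable fun q : ℝ × Ω => (q.1, (0 : ℝ), q.2))).neg.exp

theorem measurable_eint {a B : ℝ × Ω → ℝ} (ma : Measurable a) (mB : Measurable B) :
    Measurable (eint a B) := by
  have hS : MeasurableSet {y : (ℝ × Ω) × ℝ | 0 < y.2 ∧ y.2 ≤ y.1.1} := by
    have h2 : Measurable fun y : (ℝ × Ω) × ℝ => y.2 := by fun_prop
    have h3 : Measurable fun y : (ℝ × Ω) × ℝ => y.1.1 := by fun_prop
    exact (measurableSet_lt measurable_const h2).inter (measurableSet_le h2 h3)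
  have hm : Measurable fun y : (ℝ × Ω) × ℝ =>
      {y : (ℝ × Ω) × ℝ | 0 < y.2 ∧ y.2 ≤ y.1.1}.indicator
        (fun y => ENNReal.ofReal (B (y.2, y.1.2) * Real.exp (-acc a y.2 y.1.1 y.1.2))) y :=
    ((mB.comp (by fun_prop : Measurable fun y : (ℝ × Ω) × ℝ => (y.2, y.1.2))).mul
      ((measurable_acc ma).comp
        (by fun_prop : Measurable fun y : (ℝ × Ω) × ℝ =>
          (y.1.1, y.2, y.1.2))).neg.exp).ennreal_ofReal.indicator hS
  have h2 := hm.lintegral_prod_right' (ν := (volume : Measure ℝ))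
  have h : eint a B
      = fun x => ∫⁻ r, {y : (ℝ × Ω) × ℝ | 0 < y.2 ∧ y.2 ≤ y.1.1}.indicator
        (fun y => ENNReal.ofReal (B (y.2, y.1.2) * Real.exp (-acc a y.2 y.1.1 y.1.2))) (x, r) := by
    funext x
    rw [eint, ← lintegral_indicator measurableSet_Ioc]
    rfl
  rw [h]
  exact h2

omit [MeasurableSpace Ω] in
theorem exp_acc_le {a : ℝ × Ω → ℝ} (ha : ∀ q, 0 ≤ a q) (s t : ℝ) (p : Ω) :
    Real.exp (-acc a s t p) ≤ 1 :=
  Real.exp_le_one_iff.2 (by have := acc_nonneg ha s t p; linarith)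

theorem IsTst.ker_nonneg {T : ℝ} {χ a : ℝ × Ω → ℝ} (h : IsTst T χ) (x : ℝ × ℝ × Ω) :
    0 ≤ ker χ a x := by
  unfold ker
  split_ifs
  · exact mul_nonneg (h.nonneg _) (mul_pos (Real.exp_pos _) (Real.exp_pos _)).le
  · exact le_rfl

theorem IsTst.ker_le {T : ℝ} {χ a : ℝ × Ω → ℝ} (h : IsTst T χ) (ha : ∀ q, 0 ≤ a q)
    (x : ℝ × ℝ × Ω) : ker χ a x ≤ Real.exp T := by
  unfold ker
  split_ifs with h1
  · by_cases h2 : χ (x.1, x.2.2) = 0
    · rw [h2, zero_mul]
      exact (Real.exp_pos T).le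
    · have h3 := (h.supp _ h2).2
      calc χ (x.1, x.2.2) * (Real.exp x.2.1 * Real.exp (-acc a x.2.1 x.1 x.2.2))
          ≤ 1 * (Real.exp T * 1) := by
            refine mul_le_mul (h.le_one _) ?_ (by positivity) zero_le_one
            exact mul_le_mul (Real.exp_le_exp.2 (h1.2.trans h3)) (exp_acc_le ha _ _ _)
              (Real.exp_pos _).le (Real.exp_pos _).le
        _ = Real.exp T := by ring
  · exact (Real.exp_pos T).le

theorem IsTst.abs_ker_le {T : ℝ} {χ a : ℝ × Ω → ℝ} (h : IsTst T χ) (ha : ∀ q, 0 ≤ a q)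
    (x : ℝ × ℝ × Ω) : |ker χ a x| ≤ Real.exp T := by
  rw [abs_of_nonneg (h.ker_nonneg x)]
  exact h.ker_le ha x

theorem IsTst.ez_nonneg {T : ℝ} {χ a : ℝ × Ω → ℝ} (h : IsTst T χ) (q : ℝ × Ω) :
    0 ≤ ez χ a q := mul_nonneg (h.nonneg _) (Real.exp_pos _).le

theorem IsTst.abs_ez_le {T : ℝ} {χ a : ℝ × Ω → ℝ} (h : IsTst T χ) (ha : ∀ q, 0 ≤ a q)
    (q : ℝ × Ω) : |ez χ a q| ≤ 1 := by
  rw [abs_of_nonneg (h.ez_nonneg q)]
  calc ez χ a q ≤ 1 * 1 := mul_le_mul (h.le_one _) (exp_acc_le ha _ _ _) (Real.exp_pos _).le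
        zero_le_one
    _ = 1 := one_mul _

omit [MeasurableSpace Ω] in
theorem acc_sub {a A : ℝ × Ω → ℝ} (ha : ∀ q, 0 ≤ a q) (hA : ∀ q, 0 ≤ A q) {s t T : ℝ}
    (hs : 0 ≤ s) (ht : t ≤ T) {p : Ω} (ia : IntegrableOn (fun r => a (r, p)) (Ioc 0 T))
    (iA : IntegrableOn (fun r => A (r, p)) (Ioc 0 T)) :
    ENNReal.ofReal |Real.exp (-acc a s t p) - Real.exp (-acc A s t p)|
      ≤ ∫⁻ r in Ioc 0 T, ENNReal.ofReal |a (r, p) - A (r, p)| := by
  have hsub : Ioc s t ⊆ Ioc 0 T := Ioc_subset_Ioc hs ht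
  have h1 := abs_exp_neg_sub_le (acc_nonneg ha s t p) (acc_nonneg hA s t p)
  have h2 : acc a s t p - acc A s t p = ∫ r in Ioc s t, (a (r, p) - A (r, p)) := by
    rw [acc, acc, integral_sub (ia.mono_set hsub) (iA.mono_set hsub)]
  calc ENNReal.ofReal |Real.exp (-acc a s t p) - Real.exp (-acc A s t p)|
      ≤ ENNReal.ofReal |acc a s t p - acc A s t p| := ENNReal.ofReal_le_ofReal h1
    _ = ‖∫ r in Ioc s t, (a (r, p) - A (r, p))‖ₑ := by rw [h2, Real.enorm_eq_ofReal_abs]
    _ ≤ ∫⁻ r in Ioc s t, ‖a (r, p) - A (r, p)‖ₑ := enorm_integral_le_lintegral_enorm _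
    _ ≤ ∫⁻ r in Ioc 0 T, ‖a (r, p) - A (r, p)‖ₑ := lintegral_mono_set hsub
    _ = _ := by simp only [Real.enorm_eq_ofReal_abs]

theorem lintegral_Ioc_le [SFinite μ] {f : ℝ × Ω → ℝ≥0∞} (mf : Measurable f) (T : ℝ) :
    ∫⁻ p, (∫⁻ r in Ioc 0 T, f (r, p)) ∂μ
      ≤ ENNReal.ofReal (Real.exp T) * ∫⁻ q, f q ∂(nuE.prod μ) := by
  rw [lintegral_prod_symm' _ mf, ← lintegral_const_mul _ mf.lintegral_prod_left']
  refine lintegral_mono fun p => ?_
  calc ∫⁻ r in Ioc 0 T, f (r, p) ≤ ∫⁻ r, f (r, p) ∂(ENNReal.ofReal (Real.exp T) • nuE) :=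
        lintegral_mono' (restrict_le_nuE T) le_rfl
    _ = _ := by rw [lintegral_smul_measure, smul_eq_mul]

theorem IsTst.ker_sub {T : ℝ} {χ a A : ℝ × Ω → ℝ} (h : IsTst T χ) (ha : ∀ q, 0 ≤ a q)
    (hA : ∀ q, 0 ≤ A q) {x : ℝ × ℝ × Ω}
    (ia : IntegrableOn (fun r => a (r, x.2.2)) (Ioc 0 T))
    (iA : IntegrableOn (fun r => A (r, x.2.2)) (Ioc 0 T)) :
    ENNReal.ofReal |ker χ a x - ker χ A x| ≤ ENNReal.ofReal (Real.exp T) *
      ∫⁻ r in Ioc 0 T, ENNReal.ofReal |a (r, x.2.2) - A (r, x.2.2)| := by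
  unfold ker
  split_ifs with h1
  · by_cases h2 : χ (x.1, x.2.2) = 0
    · rw [h2, zero_mul, zero_mul, sub_zero, abs_zero, ENNReal.ofReal_zero]
      exact zero_le
    · have h3 := (h.supp _ h2).2
      have h4 : |χ (x.1, x.2.2) * (Real.exp x.2.1 * Real.exp (-acc a x.2.1 x.1 x.2.2)) -
          χ (x.1, x.2.2) * (Real.exp x.2.1 * Real.exp (-acc A x.2.1 x.1 x.2.2))|
          ≤ Real.exp T * |Real.exp (-acc a x.2.1 x.1 x.2.2) -
            Real.exp (-acc A x.2.1 x.1 x.2.2)| := by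
        have h5 : χ (x.1, x.2.2) * (Real.exp x.2.1 * Real.exp (-acc a x.2.1 x.1 x.2.2)) -
          χ (x.1, x.2.2) * (Real.exp x.2.1 * Real.exp (-acc A x.2.1 x.1 x.2.2))
          = (χ (x.1, x.2.2) * Real.exp x.2.1) * (Real.exp (-acc a x.2.1 x.1 x.2.2) -
            Real.exp (-acc A x.2.1 x.1 x.2.2)) := by ring
        rw [h5, abs_mul]
        refine mul_le_mul_of_nonneg_right ?_ (abs_nonneg _)
        rw [abs_of_nonneg (mul_nonneg (h.nonneg _) (Real.exp_pos _).le)]
        calc χ (x.1, x.2.2) * Real.exp x.2.1 ≤ 1 * Real.exp T :=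
              mul_le_mul (h.le_one _) (Real.exp_le_exp.2 (h1.2.trans h3))
                (Real.exp_pos _).le zero_le_one
          _ = Real.exp T := one_mul _
      refine (ENNReal.ofReal_le_ofReal h4).trans ?_
      rw [ENNReal.ofReal_mul (Real.exp_pos T).le]
      gcongr
      exact acc_sub ha hA h1.1.le h3 ia iA
  · rw [sub_zero, abs_zero, ENNReal.ofReal_zero]
    exact zero_le

theorem IsTst.ez_sub {T : ℝ} {χ a A : ℝ × Ω → ℝ} (h : IsTst T χ) (ha : ∀ q, 0 ≤ a q)
    (hA : ∀ q, 0 ≤ A q) {q : ℝ × Ω}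
    (ia : IntegrableOn (fun r => a (r, q.2)) (Ioc 0 T))
    (iA : IntegrableOn (fun r => A (r, q.2)) (Ioc 0 T)) :
    ENNReal.ofReal |ez χ a q - ez χ A q| ≤
      ∫⁻ r in Ioc 0 T, ENNReal.ofReal |a (r, q.2) - A (r, q.2)| := by
  unfold ez
  by_cases h2 : χ q = 0
  · rw [h2, zero_mul, zero_mul, sub_zero, abs_zero, ENNReal.ofReal_zero]
    exact zero_le
  · have h3 := (h.supp _ h2).2
    refine le_trans (ENNReal.ofReal_le_ofReal ?_) (acc_sub ha hA le_rfl h3 ia iA)
    rw [← mul_sub, abs_mul, abs_of_nonneg (h.nonneg _)]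
    exact mul_le_of_le_one_left (abs_nonneg _) (h.le_one _)

section
variable [IsProbabilityMeasure μ] {a : ℕ → ℝ × Ω → ℝ} {A : ℝ × Ω → ℝ} {T : ℝ} {χ : ℝ × Ω → ℝ}

theorem IsTst.sconv_ker (h : IsTst T χ) (ma : ∀ n, Measurable (a n)) (mA : Measurable A)
    (ha : ∀ n q, 0 ≤ a n q) (hA : ∀ q, 0 ≤ A q)
    (ia : ∀ n p, IntegrableOn (fun r => a n (r, p)) (Ioc 0 T))
    (iA : ∀ᵐ p ∂μ, IntegrableOn (fun r => A (r, p)) (Ioc 0 T))
    (hc : SConv (nuE.prod μ) a A) :
    SConv (nuE.prod (nuE.prod μ)) (fun n => ker χ (a n)) (ker χ A) := by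
  have hmp : MeasurePreserving (fun x : ℝ × ℝ × Ω => x.2.2) (nuE.prod (nuE.prod μ)) μ :=
    (measurePreserving_snd (μ := nuE) (ν := μ)).comp
      (measurePreserving_snd (μ := nuE) (ν := nuE.prod μ))
  have mD : ∀ n, Measurable fun q => ENNReal.ofReal |a n q - A q| := fun n =>
    ((ma n).sub mA).abs.ennreal_ofReal
  have hb : ∀ n, ∫⁻ x, ENNReal.ofReal |ker χ (a n) x - ker χ A x| ∂(nuE.prod (nuE.prod μ))
      ≤ ENNReal.ofReal (Real.exp T) * (ENNReal.ofReal (Real.exp T) *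
        ∫⁻ q, ENNReal.ofReal |a n q - A q| ∂(nuE.prod μ)) := by
    intro n
    have m1 : Measurable fun p : Ω => ∫⁻ r in Ioc 0 T, ENNReal.ofReal |a n (r, p) - A (r, p)| :=
      (mD n).lintegral_prod_left'
    calc ∫⁻ x, ENNReal.ofReal |ker χ (a n) x - ker χ A x| ∂(nuE.prod (nuE.prod μ))
        ≤ ∫⁻ x : ℝ × ℝ × Ω, (ENNReal.ofReal (Real.exp T) *
          ∫⁻ r in Ioc 0 T, ENNReal.ofReal |a n (r, x.2.2) - A (r, x.2.2)|)
            ∂(nuE.prod (nuE.prod μ)) := by
          refine lintegral_mono_ae ?_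
          filter_upwards [hmp.quasiMeasurePreserving.ae iA] with x hx
          exact h.ker_sub (ha n) hA (ia n _) hx
      _ = ∫⁻ p, (ENNReal.ofReal (Real.exp T) *
          ∫⁻ r in Ioc 0 T, ENNReal.ofReal |a n (r, p) - A (r, p)|) ∂μ :=
          hmp.lintegral_comp (m1.const_mul _)
      _ = ENNReal.ofReal (Real.exp T) * ∫⁻ p,
          (∫⁻ r in Ioc 0 T, ENNReal.ofReal |a n (r, p) - A (r, p)|) ∂μ := lintegral_const_mul _ m1
      _ ≤ _ := by
          gcongr
          exact lintegral_Ioc_le (mD n) T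
  have h0 : Tendsto (fun n => ENNReal.ofReal (Real.exp T) * (ENNReal.ofReal (Real.exp T) *
      ∫⁻ q, ENNReal.ofReal |a n q - A q| ∂(nuE.prod μ))) atTop (𝓝 0) := by
    have h1 := ENNReal.Tendsto.const_mul (a := ENNReal.ofReal (Real.exp T))
      (ENNReal.Tendsto.const_mul (a := ENNReal.ofReal (Real.exp T)) hc
        (Or.inr ENNReal.ofReal_ne_top)) (Or.inr ENNReal.ofReal_ne_top)
    simpa only [mul_zero] using h1
  exact tendsto_of_tendsto_of_tendsto_of_le_of_le tendsto_const_nhds h0 (fun n => zero_le) hb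

theorem IsTst.sconv_ez (h : IsTst T χ) (ma : ∀ n, Measurable (a n)) (mA : Measurable A)
    (ha : ∀ n q, 0 ≤ a n q) (hA : ∀ q, 0 ≤ A q)
    (ia : ∀ n p, IntegrableOn (fun r => a n (r, p)) (Ioc 0 T))
    (iA : ∀ᵐ p ∂μ, IntegrableOn (fun r => A (r, p)) (Ioc 0 T))
    (hc : SConv (nuE.prod μ) a A) :
    SConv (nuE.prod μ) (fun n => ez χ (a n)) (ez χ A) := by
  have hmp : MeasurePreserving (fun x : ℝ × Ω => x.2) (nuE.prod μ) μ :=
    measurePreserving_snd (μ := nuE) (ν := μ)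
  have mD : ∀ n, Measurable fun q => ENNReal.ofReal |a n q - A q| := fun n =>
    ((ma n).sub mA).abs.ennreal_ofReal
  have hb : ∀ n, ∫⁻ x, ENNReal.ofReal |ez χ (a n) x - ez χ A x| ∂(nuE.prod μ)
      ≤ ENNReal.ofReal (Real.exp T) * ∫⁻ q, ENNReal.ofReal |a n q - A q| ∂(nuE.prod μ) := by
    intro n
    have m1 : Measurable fun p : Ω => ∫⁻ r in Ioc 0 T, ENNReal.ofReal |a n (r, p) - A (r, p)| :=
      (mD n).lintegral_prod_left'
    calc ∫⁻ x, ENNReal.ofReal |ez χ (a n) x - ez χ A x| ∂(nuE.prod μ)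
        ≤ ∫⁻ x : ℝ × Ω, (∫⁻ r in Ioc 0 T, ENNReal.ofReal |a n (r, x.2) - A (r, x.2)|)
            ∂(nuE.prod μ) := by
          refine lintegral_mono_ae ?_
          filter_upwards [hmp.quasiMeasurePreserving.ae iA] with x hx
          exact h.ez_sub (ha n) hA (ia n _) hx
      _ = ∫⁻ p, (∫⁻ r in Ioc 0 T, ENNReal.ofReal |a n (r, p) - A (r, p)|) ∂μ :=
          hmp.lintegral_comp m1
      _ ≤ _ := lintegral_Ioc_le (mD n) T
  have h0 : Tendsto (fun n => ENNReal.ofReal (Real.exp T) *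
      ∫⁻ q, ENNReal.ofReal |a n q - A q| ∂(nuE.prod μ)) atTop (𝓝 0) := by
    have h1 := ENNReal.Tendsto.const_mul (a := ENNReal.ofReal (Real.exp T)) hc
        (Or.inr ENNReal.ofReal_ne_top)
    simpa only [mul_zero] using h1
  exact tendsto_of_tendsto_of_tendsto_of_le_of_le tendsto_const_nhds h0 (fun n => zero_le) hb

end

/-- Tonelli for the kernel -/
theorem lintegral_ker [SFinite μ] {χ a B : ℝ × Ω → ℝ} (mχ : Measurable χ) (ma : Measurable a)
    (mB : Measurable B) (nχ : ∀ q, 0 ≤ χ q) :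
    ∫⁻ x, ENNReal.ofReal (B x.2 * ker χ a x) ∂(nuE.prod (nuE.prod μ))
      = ∫⁻ q, ENNReal.ofReal (χ q) * eint a B q ∂(nuE.prod μ) := by
  have mk := measurable_ker mχ ma
  have m1 : Measurable fun x : ℝ × ℝ × Ω => ENNReal.ofReal (B x.2 * ker χ a x) :=
    ((mB.comp measurable_snd).mul mk).ennreal_ofReal
  have m2 : Measurable fun q : ℝ × Ω => ENNReal.ofReal (χ q) * eint a B q :=
    mχ.ennreal_ofReal.mul (measurable_eint ma mB)
  rw [lintegral_prod _ m1.aemeasurable, lintegral_prod _ m2.aemeasurable]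
  refine lintegral_congr fun t => ?_
  have m3 : Measurable fun y : ℝ × Ω => ENNReal.ofReal (B y * ker χ a (t, y)) :=
    m1.comp measurable_prodMk_left
  rw [lintegral_prod_symm' _ m3]
  refine lintegral_congr fun p => ?_
  have m4 : Measurable fun s : ℝ => ENNReal.ofReal (B (s, p) * ker χ a (t, s, p)) :=
    m3.comp measurable_prodMk_right
  rw [lintegral_nuE m4, eint, ← lintegral_const_mul]
  · have h1 : ∀ s : ℝ, s ∈ Ioi (0:ℝ) →
        ENNReal.ofReal (Real.exp (-s)) * ENNReal.ofReal (B (s, p) * ker χ a (t, s, p))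
        = (Iic t).indicator (fun s => ENNReal.ofReal (χ (t, p)) *
          ENNReal.ofReal (B (s, p) * Real.exp (-acc a s t p))) s := by
      intro s hs
      by_cases hst : s ≤ t
      · rw [indicator_of_mem (show s ∈ Iic t from hst)]
        have h2 : ker χ a (t, s, p) = χ (t, p) * (Real.exp s * Real.exp (-acc a s t p)) := by
          unfold ker
          exact if_pos ⟨hs, hst⟩
        rw [h2, ← ENNReal.ofReal_mul (Real.exp_pos _).le, ← ENNReal.ofReal_mul (nχ _)]
        congr 1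
        have h3 : Real.exp (-s) * Real.exp s = 1 := by rw [← Real.exp_add]; simp
        calc Real.exp (-s) * (B (s, p) * (χ (t, p) * (Real.exp s * Real.exp (-acc a s t p))))
            = (Real.exp (-s) * Real.exp s) * (χ (t, p) * (B (s, p) * Real.exp (-acc a s t p))) := by
              ring
          _ = _ := by rw [h3, one_mul]
      · rw [indicator_of_notMem (show s ∉ Iic t from hst)]
        have h2 : ker χ a (t, s, p) = 0 := by
          unfold ker
          exact if_neg fun h => hst h.2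
        rw [h2, mul_zero, ENNReal.ofReal_zero, mul_zero]
    rw [setLIntegral_congr_fun measurableSet_Ioi h1, lintegral_indicator measurableSet_Iic,
      Measure.restrict_restrict measurableSet_Iic, inter_comm, Ioi_inter_Iic]
  · exact ((mB.comp measurable_prodMk_right).mul ((measurable_acc ma).comp
      (by fun_prop : Measurable fun s : ℝ => (t, s, p))).neg.exp).ennreal_ofReal

end CL

open CL

/-- convergence of integrals -/
theorem WConv.tendsto_lintegral_CL {α : Type*} [MeasurableSpace α] {m : Measure α} {u : ℕ → α → ℝ}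
    {U : α → ℝ} (h : WConv m u U) (iu : ∀ n, Integrable (u n) m) (iU : Integrable U m)
    (nu : ∀ n x, 0 ≤ u n x) (nU : ∀ x, 0 ≤ U x) :
    Tendsto (fun n => ∫⁻ x, ENNReal.ofReal (u n x) ∂m) atTop
      (𝓝 (∫⁻ x, ENNReal.ofReal (U x) ∂m)) := by
  have h1 := h (fun _ => 1) measurable_const (fun _ => by simp)
  simp only [mul_one] at h1
  have h2 := (ENNReal.continuous_ofReal.tendsto _).comp h1
  rw [← ofReal_integral_eq_lintegral_ofReal iU (ae_of_all _ nU)]
  refine h2.congr fun n => ?_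
  exact ofReal_integral_eq_lintegral_ofReal (iu n) (ae_of_all _ (nu n))

/-- weak convergence is inherited by products with a probability measure -/
theorem WConv.lift_snd_CL {α β : Type*} [MeasurableSpace α] [MeasurableSpace β] {m : Measure α}
    {m' : Measure β} [IsProbabilityMeasure m'] [SFinite m] {u : ℕ → α → ℝ} {U : α → ℝ}
    (h : WConv m u U) (iu : ∀ n, Integrable (u n) m) (iU : Integrable U m) :
    WConv (m'.prod m) (fun n x => u n x.2) fun x => U x.2 := by
  intro θ mθ bθ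
  have key : ∀ w : α → ℝ, Integrable w m → ∫ x, w x.2 * θ x ∂(m'.prod m)
      = ∫ y, w y * ∫ t, θ (t, y) ∂m' ∂m := by
    intro w iw
    have h1 : Integrable (fun x : β × α => w x.2 * θ x) (m'.prod m) :=
      (iw.comp_snd m').mul_bdd (c := 1) mθ.aestronglyMeasurable
        (ae_of_all _ fun x => by simpa only [Real.norm_eq_abs] using bθ x)
    rw [integral_prod_symm _ h1]
    refine integral_congr_ae (ae_of_all _ fun y => ?_)
    exact integral_const_mul (w y) fun t => θ (t, y)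
  have h2 : Measurable fun y => ∫ t, θ (t, y) ∂m' :=
    (mθ.stronglyMeasurable.integral_prod_left' (μ := m')).measurable
  have h3 := h (fun y => ∫ t, θ (t, y) ∂m') h2 (fun y => by
    have := norm_integral_le_of_norm_le_const (μ := m') (f := fun t => θ (t, y)) (C := 1)
      (ae_of_all _ fun t => by simpa only [Real.norm_eq_abs] using bθ (t, y))
    simpa only [ge_iff_le, Real.norm_eq_abs, probReal_univ, mul_one] using this)
  rw [key U iU]
  refine h3.congr fun n => ?_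
  rw [key (u n) (iu n)]

theorem SConv.lift_snd_CL {α β : Type*} [MeasurableSpace α] [MeasurableSpace β] {m : Measure α}
    {m' : Measure β} [IsProbabilityMeasure m'] [SFinite m] {u : ℕ → α → ℝ} {U : α → ℝ}
    (h : SConv m u U) (mu : ∀ n, Measurable (u n)) (mU : Measurable U) :
    SConv (m'.prod m) (fun n x => u n x.2) fun x => U x.2 := by
  have hmp : MeasurePreserving (fun x : β × α => x.2) (m'.prod m) m := measurePreserving_snd
  refine h.congr fun n => ?_
  exact (hmp.lintegral_comp ((mu n).sub mU).abs.ennreal_ofReal).symm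

theorem CL.integrable_nuE_Ioc {f : ℝ → ℝ} (hf : Integrable f nuE) (T : ℝ) :
    IntegrableOn f (Ioc 0 T) :=
  (hf.smul_measure ENNReal.ofReal_ne_top).mono_measure (restrict_le_nuE T)

section level
variable {g a b : ℕ → ℝ × Ω → ℝ} {g0 : ℕ → Ω → ℝ}

theorem CL.integrableOn_bdd {f : ℝ → ℝ} (mf : Measurable f) {C t : ℝ}
    (hf : ∀ s ∈ Ioc 0 t, |f s| ≤ C) : IntegrableOn f (Ioc 0 t) := by
  refine Measure.integrableOn_of_bounded (M := C) (by simp only [Real.volume_Ioc, sub_zero, ne_eq, ENNReal.ofReal_ne_top, not_false_eq_true]) mf.aestronglyMeasurable ?_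
  filter_upwards [ae_restrict_mem measurableSet_Ioc] with s hs
  simpa only [Real.norm_eq_abs] using hf s hs

theorem CharSeq.bdd_CL (h : CharSeq g a b g0) (n : ℕ) (p : Ω) (T : ℝ) :
    ∃ C : ℝ, 0 ≤ C ∧ ∀ t ∈ Ioc 0 T, |g n (t, p)| ≤ C ∧ |a n (t, p)| ≤ C ∧ |b n (t, p)| ≤ C := by
  obtain ⟨C, hC⟩ := h.bdd n p T
  refine ⟨max C 0, le_max_right _ _, fun t ht => ?_⟩
  have := hC t ⟨ht.1.le, ht.2⟩
  rw [abs_of_nonneg (h.g_nonneg _ _), abs_of_nonneg (h.a_nonneg _ _),
    abs_of_nonneg (h.b_nonneg _ _)]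
  exact ⟨this.1.trans (le_max_left _ _), this.2.1.trans (le_max_left _ _),
    this.2.2.trans (le_max_left _ _)⟩

/-- exponential form at a fixed level -/
theorem CharSeq.expform (h : CharSeq g a b g0) (n : ℕ) {T : ℝ} (hT : 0 ≤ T) (p : Ω) :
    ∀ᵐ t ∂(volume.restrict (Ioc 0 T)), ENNReal.ofReal (g n (t, p))
      = ENNReal.ofReal (g0 n p * Real.exp (-acc (a n) 0 t p)) + eint (a n) (b n) (t, p) := by
  obtain ⟨C, hC0, hC⟩ := h.bdd_CL n p T
  have mg : Measurable fun s => g n (s, p) := (h.mg n).comp measurable_prodMk_right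
  have ma : Measurable fun s => a n (s, p) := (h.ma n).comp measurable_prodMk_right
  have mb : Measurable fun s => b n (s, p) := (h.mb n).comp measurable_prodMk_right
  have ia : IntegrableOn (fun s => a n (s, p)) (Ioc 0 T) :=
    integrableOn_bdd ma fun s hs => (hC s hs).2.1
  have ib : IntegrableOn (fun s => b n (s, p)) (Ioc 0 T) :=
    integrableOn_bdd mb fun s hs => (hC s hs).2.2
  have iag : IntegrableOn (fun s => a n (s, p) * g n (s, p)) (Ioc 0 T) := by
    refine integrableOn_bdd (ma.mul mg) (C := C * C) fun s hs => ?_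
    change |a n (s, p) * g n (s, p)| ≤ C * C
    rw [abs_mul]
    exact mul_le_mul (hC s hs).2.1 (hC s hs).1 (abs_nonneg _) hC0
  have key := exp_of_plain (f := fun s => g n (s, p)) (f0 := g0 n p) hT ib ia iag
    (by filter_upwards [ae_restrict_mem measurableSet_Ioc] with t ht using h.eq n p t ht.1.le)
  filter_upwards [key, ae_restrict_mem measurableSet_Ioc] with t ht htm
  rw [ht, ENNReal.ofReal_add (mul_nonneg (h.g0_nonneg _ _) (Real.exp_pos _).le)
    (integral_nonneg fun s => mul_nonneg (h.b_nonneg _ _) (Real.exp_pos _).le), eint,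
    ofReal_integral_eq_lintegral_ofReal]
  · rfl
  · refine integrableOn_bdd (C := C) (mb.mul ((measurable_acc (h.ma n)).comp
      (by fun_prop : Measurable fun s : ℝ => (t, s, p))).neg.exp) fun s hs => ?_
    change |b n (s, p) * Real.exp (-acc (a n) s t p)| ≤ C
    rw [abs_mul, abs_of_nonneg (Real.exp_pos _).le]
    exact (mul_le_of_le_one_right (abs_nonneg _) (exp_acc_le (h.a_nonneg n) s t p)).trans
      (hC s ⟨hs.1, hs.2.trans htm.2⟩).2.2
  · exact ae_of_all _ fun s => mul_nonneg (h.b_nonneg _ _) (Real.exp_pos _).le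

theorem CharSeq.ae_expform [SFinite μ] (h : CharSeq g a b g0) (n : ℕ) {T : ℝ} (hT : 0 ≤ T) :
    ∀ᵐ q ∂(nuE.prod μ), 0 < q.1 ∧ q.1 ≤ T → ENNReal.ofReal (g n q)
      = ENNReal.ofReal (g0 n q.2 * Real.exp (-acc (a n) 0 q.1 q.2)) + eint (a n) (b n) q := by
  have m1 : Measurable fun q => ENNReal.ofReal (g n q) := (h.mg n).ennreal_ofReal
  have m2 : Measurable fun q : ℝ × Ω =>
      ENNReal.ofReal (g0 n q.2 * Real.exp (-acc (a n) 0 q.1 q.2)) + eint (a n) (b n) q := by
    refine Measurable.add (Measurable.ennreal_ofReal (((h.mg0 n).comp measurable_snd).mul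
      ((measurable_acc (h.ma n)).comp
      (by fun_prop : Measurable fun q : ℝ × Ω => (q.1, (0 : ℝ), q.2))).neg.exp))
      (measurable_eint (h.ma n) (h.mb n))
  have hS : MeasurableSet {q : ℝ × Ω | 0 < q.1 ∧ q.1 ≤ T → ENNReal.ofReal (g n q)
      = ENNReal.ofReal (g0 n q.2 * Real.exp (-acc (a n) 0 q.1 q.2)) + eint (a n) (b n) q} := by
    have h1 : MeasurableSet {q : ℝ × Ω | 0 < q.1 ∧ q.1 ≤ T} :=
      (measurableSet_lt measurable_const measurable_fst).inter
        (measurableSet_le measurable_fst measurable_const)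
    have h2 : MeasurableSet {q : ℝ × Ω | ENNReal.ofReal (g n q)
      = ENNReal.ofReal (g0 n q.2 * Real.exp (-acc (a n) 0 q.1 q.2)) + eint (a n) (b n) q} :=
      measurableSet_eq_fun m1 m2
    exact (h1.compl.union h2).congr (by ext q; simp only [mem_union, mem_compl_iff, mem_ofPred_eq]; (clear * -; tauto))
  rw [Measure.ae_prod_iff_ae_ae hS]
  rw [Measure.ae_ae_comm hS]
  refine ae_of_all _ fun p => ?_
  have h3 := (ae_restrict_iff' measurableSet_Ioc).1 (h.expform n hT p)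
  filter_upwards [nuE_ac_volume.ae_le h3] with t ht ht2
  exact ht ht2

end level

section limit
variable [IsProbabilityMeasure μ] {g a b : ℕ → ℝ × Ω → ℝ} {g0 : ℕ → Ω → ℝ} {G A B : ℝ × Ω → ℝ}
  {G0 : Ω → ℝ}

omit [MeasurableSpace Ω] in
theorem CL.eint_mono {a B B' : ℝ × Ω → ℝ} (h : ∀ q, B q ≤ B' q) (q : ℝ × Ω) :
    eint a B q ≤ eint a B' q :=
  lintegral_mono fun _ => ENNReal.ofReal_le_ofReal
    (mul_le_mul_of_nonneg_right (h _) (Real.exp_pos _).le)

/-- inequality at a fixed level, tested -/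
theorem CharSeq.level (h : CharSeq g a b g0) (n : ℕ) {T : ℝ} (hT : 0 ≤ T) {χ : ℝ × Ω → ℝ}
    (hχ : IsTst T χ) {r : ℝ × Ω → ℝ} (mr : Measurable r) (r1 : ∀ q, r q ≤ 1) :
    ∫⁻ q, ENNReal.ofReal (g0 n q.2 * ez χ (a n) q) ∂(nuE.prod μ)
      + ∫⁻ x, ENNReal.ofReal (b n x.2 * r x.2 * ker χ (a n) x) ∂(nuE.prod (nuE.prod μ))
      ≤ ∫⁻ q, ENNReal.ofReal (g n q * χ q) ∂(nuE.prod μ) := by
  have h1 := lintegral_ker (μ := μ) hχ.meas (h.ma n) ((h.mb n).mul mr) hχ.nonneg
  have h2 : ∫⁻ x, ENNReal.ofReal (b n x.2 * r x.2 * ker χ (a n) x) ∂(nuE.prod (nuE.prod μ))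
      = ∫⁻ q, ENNReal.ofReal (χ q) * eint (a n) (b n * r) q ∂(nuE.prod μ) := h1
  have m1 : Measurable fun q : ℝ × Ω => ENNReal.ofReal (g0 n q.2 * ez χ (a n) q) :=
    (((h.mg0 n).comp measurable_snd).mul (measurable_ez hχ.meas (h.ma n))).ennreal_ofReal
  rw [h2, ← lintegral_add_left m1]
  refine lintegral_mono_ae ?_
  filter_upwards [h.ae_expform n hT (μ := μ)] with q hq
  by_cases h3 : χ q = 0
  · simp only [ez, h3, zero_mul, mul_zero, ENNReal.ofReal_zero, add_zero, Std.le_refl]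
  · rw [mul_comm (g n q), ENNReal.ofReal_mul (hχ.nonneg q), hq (hχ.supp q h3), mul_add]
    gcongr
    · rw [← ENNReal.ofReal_mul (hχ.nonneg q)]
      refine ENNReal.ofReal_le_ofReal (le_of_eq ?_)
      unfold ez
      ring
    · refine eint_mono (fun q => ?_) q
      exact mul_le_of_le_one_right (h.b_nonneg _ _) (r1 q)

theorem CharLim.iA_Ioc (h : CharLim μ g a b g0 G A B G0) (T : ℝ) :
    ∀ᵐ p ∂μ, IntegrableOn (fun r => A (r, p)) (Ioc 0 T) := by
  filter_upwards [h.iA.prod_left_ae] with p hp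
  exact integrable_nuE_Ioc hp T

/-- the tested inequality in the limit, with cutoff -/
theorem CharLim.tested (h : CharLim μ g a b g0 G A B G0) {T : ℝ} (hT : 0 ≤ T) {χ : ℝ × Ω → ℝ}
    (hχ : IsTst T χ) :
    ∫⁻ q, ENNReal.ofReal (G0 q.2 * ez χ A q) ∂(nuE.prod μ)
      + ∫⁻ q, ENNReal.ofReal (χ q) * eint A B q ∂(nuE.prod μ)
      ≤ ∫⁻ q, ENNReal.ofReal (G q * χ q) ∂(nuE.prod μ) := by
  obtain ⟨r, R, mr, mR, br, bR, Rmono, Rlim, scr, ibr, iBR, uibr, wbr⟩ := h.convB
  have ian : ∀ n p, IntegrableOn (fun s => a n (s, p)) (Ioc 0 T) := fun n p => by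
    obtain ⟨C, _, hC⟩ := h.toCharSeq.bdd_CL n p T
    exact integrableOn_bdd ((h.ma n).comp measurable_prodMk_right) fun s hs => (hC s hs).2.1
  have iA := h.iA_Ioc T
  have bχ : ∀ q, |χ q| ≤ 1 := fun q => by
    rw [abs_of_nonneg (hχ.nonneg q)]
    exact hχ.le_one q
  have t1 : Tendsto (fun n => ∫⁻ q, ENNReal.ofReal (g n q * χ q) ∂(nuE.prod μ)) atTop
      (𝓝 (∫⁻ q, ENNReal.ofReal (G q * χ q) ∂(nuE.prod μ))) := by
    refine (h.convG.mul_fixed hχ.meas bχ).tendsto_lintegral_CL (fun n => ?_) ?_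
      (fun n q => mul_nonneg (h.g_nonneg _ _) (hχ.nonneg _))
      (fun q => mul_nonneg (h.G_nonneg _) (hχ.nonneg _))
    · exact (h.ig n).mul_bdd (c := 1) hχ.meas.aestronglyMeasurable
        (ae_of_all _ fun x => by simpa only [Real.norm_eq_abs] using bχ x)
    · exact h.iG.mul_bdd (c := 1) hχ.meas.aestronglyMeasurable
        (ae_of_all _ fun x => by simpa only [Real.norm_eq_abs] using bχ x)
  have iez : ∀ n, Integrable (fun q : ℝ × Ω => g0 n q.2 * ez χ (a n) q) (nuE.prod μ) := fun n =>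
    ((h.ig0 n).comp_snd nuE).mul_bdd (c := 1)
      (measurable_ez hχ.meas (h.ma n)).aestronglyMeasurable
        (ae_of_all _ fun x => by simpa only [Real.norm_eq_abs] using hχ.abs_ez_le (h.a_nonneg n) x)
  have iEz : Integrable (fun q : ℝ × Ω => G0 q.2 * ez χ A q) (nuE.prod μ) :=
    (h.iG0.comp_snd nuE).mul_bdd (c := 1)
      (measurable_ez hχ.meas h.mA).aestronglyMeasurable
        (ae_of_all _ fun x => by simpa only [Real.norm_eq_abs] using hχ.abs_ez_le h.A_nonneg x)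
  have t2 : Tendsto (fun n => ∫⁻ q, ENNReal.ofReal (g0 n q.2 * ez χ (a n) q) ∂(nuE.prod μ)) atTop
      (𝓝 (∫⁻ q, ENNReal.ofReal (G0 q.2 * ez χ A q) ∂(nuE.prod μ))) := by
    have s1 : SConv (nuE.prod μ) (fun n q => g0 n q.2) fun q => G0 q.2 :=
      h.conv0.lift_snd_CL h.mg0 h.mG0
    have s2 := hχ.sconv_ez h.ma h.mA h.a_nonneg h.A_nonneg ian iA h.convA
    have s3 := s1.mul_strong (fun n => (h.mg0 n).comp measurable_snd) (h.mG0.comp measurable_snd)
      (fun n => measurable_ez hχ.meas (h.ma n)) (measurable_ez hχ.meas h.mA)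
      (h.iG0.comp_snd nuE) s2 (B := 1) (fun n q => hχ.abs_ez_le (h.a_nonneg n) q)
      (fun q => hχ.abs_ez_le h.A_nonneg q)
    exact (s3.wconv iez iEz).tendsto_lintegral_CL iez iEz
      (fun n q => mul_nonneg (h.g0_nonneg _ _) (hχ.ez_nonneg _))
      (fun q => mul_nonneg (h.G0_nonneg _) (hχ.ez_nonneg _))
  have t3 : ∀ k, Tendsto (fun n => ∫⁻ x, ENNReal.ofReal (b n x.2 * r k n x.2 * ker χ (a n) x)
      ∂(nuE.prod (nuE.prod μ))) atTop
      (𝓝 (∫⁻ x, ENNReal.ofReal (B x.2 * R k x.2 * ker χ A x) ∂(nuE.prod (nuE.prod μ)))) := by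
    intro k
    have m1 : ∀ n, Measurable fun x : ℝ × ℝ × Ω => b n x.2 * r k n x.2 := fun n =>
      ((h.mb n).comp measurable_snd).mul ((mr k n).comp measurable_snd)
    have m2 : Measurable fun x : ℝ × ℝ × Ω => B x.2 * R k x.2 :=
      (h.mB.comp measurable_snd).mul ((mR k).comp measurable_snd)
    have i1 : ∀ n, Integrable (fun x : ℝ × ℝ × Ω => b n x.2 * r k n x.2)
        (nuE.prod (nuE.prod μ)) := fun n => (ibr k n).comp_snd nuE
    have i2 : Integrable (fun x : ℝ × ℝ × Ω => B x.2 * R k x.2)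
        (nuE.prod (nuE.prod μ)) := (iBR k).comp_snd nuE
    have w1 : WConv (nuE.prod (nuE.prod μ)) (fun n x => b n x.2 * r k n x.2)
        fun x => B x.2 * R k x.2 := (wbr k).lift_snd_CL (ibr k) (iBR k)
    have u1 : UI (nuE.prod (nuE.prod μ)) fun n x => ENNReal.ofReal |b n x.2 * r k n x.2| := by
      refine ((uibr k).comp_mp (fun n => ((h.mb n).mul (mr k n)).ennreal_ofReal)
        (measurePreserving_snd (μ := nuE) (ν := nuE.prod μ))).mono fun n => ae_of_all _ fun x => ?_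
      rw [abs_of_nonneg (mul_nonneg (h.b_nonneg _ _) (br k n _).1)]
    have s1 := hχ.sconv_ker h.ma h.mA h.a_nonneg h.A_nonneg ian iA h.convA
    have w2 := w1.mul m1 u1 m2 i2 (fun n => measurable_ker hχ.meas (h.ma n))
      (measurable_ker hχ.meas h.mA) (C := Real.exp T)
      (fun n x => hχ.abs_ker_le (h.a_nonneg n) x) (fun x => hχ.abs_ker_le h.A_nonneg x) s1
    refine w2.tendsto_lintegral_CL (fun n => ?_) ?_
      (fun n x => mul_nonneg (mul_nonneg (h.b_nonneg _ _) (br k n _).1) (hχ.ker_nonneg _))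
      (fun x => mul_nonneg (mul_nonneg (h.B_nonneg _) (bR k _).1) (hχ.ker_nonneg _))
    · exact (i1 n).mul_bdd (c := Real.exp T) (measurable_ker hχ.meas (h.ma n)).aestronglyMeasurable
        (ae_of_all _ fun x => by simpa only [Real.norm_eq_abs] using hχ.abs_ker_le (h.a_nonneg n) x)
    · exact i2.mul_bdd (c := Real.exp T) (measurable_ker hχ.meas h.mA).aestronglyMeasurable
        (ae_of_all _ fun x => by simpa only [Real.norm_eq_abs] using hχ.abs_ker_le h.A_nonneg x)
  have t4 : ∀ k, ∫⁻ q, ENNReal.ofReal (G0 q.2 * ez χ A q) ∂(nuE.prod μ)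
      + ∫⁻ x, ENNReal.ofReal (B x.2 * R k x.2 * ker χ A x) ∂(nuE.prod (nuE.prod μ))
      ≤ ∫⁻ q, ENNReal.ofReal (G q * χ q) ∂(nuE.prod μ) := fun k =>
    le_of_tendsto_of_tendsto' (t2.add (t3 k)) t1 fun n =>
      h.toCharSeq.level n hT hχ (mr k n) fun q => (br k n q).2
  have t5 : Tendsto (fun k => ∫⁻ x, ENNReal.ofReal (B x.2 * R k x.2 * ker χ A x)
      ∂(nuE.prod (nuE.prod μ))) atTop
      (𝓝 (∫⁻ x, ENNReal.ofReal (B x.2 * ker χ A x) ∂(nuE.prod (nuE.prod μ)))) := by
    refine lintegral_tendsto_of_tendsto_of_monotone (fun k => ?_) (ae_of_all _ fun x => ?_) ?_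
    · exact ((((h.mB.comp measurable_snd).mul ((mR k).comp measurable_snd)).mul
        (measurable_ker hχ.meas h.mA)).ennreal_ofReal).aemeasurable
    · intro k l hkl
      refine ENNReal.ofReal_le_ofReal (mul_le_mul_of_nonneg_right ?_ (hχ.ker_nonneg _))
      exact mul_le_mul_of_nonneg_left (Rmono x.2 hkl) (h.B_nonneg _)
    · have hq := (measurePreserving_snd (μ := nuE) (ν := nuE.prod μ)).quasiMeasurePreserving.ae Rlim
      filter_upwards [hq] with x hx
      have h1 := ((hx.const_mul (B x.2)).mul_const (ker χ A x))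
      rw [mul_one] at h1
      exact (ENNReal.continuous_ofReal.tendsto _).comp h1
  have t6 := le_of_tendsto' (t5.const_add _) t4
  rwa [lintegral_ker hχ.meas h.mA h.mB hχ.nonneg] at t6

/-- the limit is a supersolution in exponential form -/
theorem CharLim.super (h : CharLim μ g a b g0 G A B G0) :
    ∀ᵐ q ∂(nuE.prod μ),
      ENNReal.ofReal (G0 q.2 * Real.exp (-∫ s in Ioc 0 q.1, A (s, q.2)))
        + ∫⁻ s in Ioc 0 q.1, ENNReal.ofReal (B (s, q.2) *
            Real.exp (-∫ r in Ioc s q.1, A (r, q.2)))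
      ≤ ENNReal.ofReal (G q) := by
  have mS : ∀ N : ℕ, MeasurableSet {q : ℝ × Ω | 0 < q.1 ∧ q.1 ≤ (N : ℝ)} := fun N =>
    (measurableSet_lt measurable_const measurable_fst).inter
      (measurableSet_le measurable_fst measurable_const)
  have mF : Measurable fun q : ℝ × Ω =>
      ENNReal.ofReal (G0 q.2 * Real.exp (-acc A 0 q.1 q.2)) + eint A B q :=
    Measurable.add (Measurable.ennreal_ofReal ((h.mG0.comp measurable_snd).mul
      ((measurable_acc h.mA).comp
      (by fun_prop : Measurable fun q : ℝ × Ω => (q.1, (0 : ℝ), q.2))).neg.exp))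
      (measurable_eint h.mA h.mB)
  have key : ∀ N : ℕ, ∀ᵐ q ∂(nuE.prod μ), 0 < q.1 ∧ q.1 ≤ (N : ℝ) →
      ENNReal.ofReal (G0 q.2 * Real.exp (-acc A 0 q.1 q.2)) + eint A B q
        ≤ ENNReal.ofReal (G q) := by
    intro N
    refine (ae_restrict_iff' (mS N)).1 ?_
    refine ae_le_of_forall_setLIntegral_le_of_sigmaFinite mF fun S hS _ => ?_
    rw [Measure.restrict_restrict hS]
    set S' := S ∩ {q : ℝ × Ω | 0 < q.1 ∧ q.1 ≤ (N : ℝ)} with hS'
    have mS' : MeasurableSet S' := hS.inter (mS N)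
    have hχ : IsTst (N : ℝ) (S'.indicator fun _ => (1 : ℝ)) :=
      { meas := measurable_const.indicator mS'
        nonneg := fun q => indicator_nonneg (fun _ _ => zero_le_one) q
        le_one := fun q => indicator_le_self' (fun _ _ => zero_le_one) q
        supp := fun q hq => (mem_of_indicator_ne_zero hq).2 }
    have h1 := h.tested (Nat.cast_nonneg N) hχ
    have e1 : ∫⁻ q, ENNReal.ofReal (G q * S'.indicator (fun _ => (1 : ℝ)) q) ∂(nuE.prod μ)
        = ∫⁻ q in S', ENNReal.ofReal (G q) ∂(nuE.prod μ) := by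
      rw [← lintegral_indicator mS']
      refine lintegral_congr fun q => ?_
      by_cases hq : q ∈ S' <;> simp [hq]
    have m1 : Measurable fun q : ℝ × Ω => ENNReal.ofReal (G0 q.2 *
        ez (S'.indicator fun _ => (1 : ℝ)) A q) :=
      ((h.mG0.comp measurable_snd).mul (measurable_ez hχ.meas h.mA)).ennreal_ofReal
    have e2 : ∫⁻ q, ENNReal.ofReal (G0 q.2 * ez (S'.indicator fun _ => (1 : ℝ)) A q)
          ∂(nuE.prod μ)
        + ∫⁻ q, ENNReal.ofReal (S'.indicator (fun _ => (1 : ℝ)) q) * eint A B q ∂(nuE.prod μ)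
        = ∫⁻ q in S', (ENNReal.ofReal (G0 q.2 * Real.exp (-acc A 0 q.1 q.2)) + eint A B q)
          ∂(nuE.prod μ) := by
      rw [← lintegral_indicator mS', ← lintegral_add_left m1]
      refine lintegral_congr fun q => ?_
      by_cases hq : q ∈ S' <;> simp [hq, ez]
    rwa [e1, e2] at h1
  have hpos : ∀ᵐ q ∂(nuE.prod μ), 0 < q.1 :=
    (measurePreserving_fst (μ := nuE) (ν := μ)).quasiMeasurePreserving.ae ae_nuE_pos
  filter_upwards [ae_all_iff.2 key, hpos] with q hq hq0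
  exact hq ⌈q.1⌉₊ ⟨hq0, Nat.le_ceil _⟩

end limit

end Vale.Agent.P140.DL
end
end

section

/-!
Primitives in time and the measure `exp(-t) dt`.
-/

open MeasureTheory Set Filter
open scoped ENNReal Topology NNReal

noncomputable section

namespace Vale.Agent.P140.DL

theorem lintegral_exp_tail (s : ℝ) :
    ∫⁻ t in Ioi s, ENNReal.ofReal (Real.exp (-t)) = ENNReal.ofReal (Real.exp (-s)) := by
  rw [← ofReal_integral_eq_lintegral_ofReal (integrableOn_exp_neg_Ioi s)
    (Eventually.of_forall fun t => (Real.exp_pos _).le), integral_exp_neg_Ioi]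

/-- the primitive in time is a contraction -/
theorem lintegral_prim {g : ℝ → ℝ≥0∞} (mg : Measurable g) :
    ∫⁻ t, (∫⁻ s in Ioc 0 t, g s) ∂nuE = ∫⁻ s, g s ∂nuE := by
  have m1 : Measurable fun t : ℝ => ∫⁻ s in Ioc 0 t, g s :=
    Monotone.measurable fun a b hab => lintegral_mono_set (Ioc_subset_Ioc_right hab)
  rw [lintegral_nuE m1, lintegral_nuE mg]
  have me : Measurable fun t : ℝ => ENNReal.ofReal (Real.exp (-t)) := by fun_prop
  set h : ℝ → ℝ → ℝ≥0∞ := fun t s => {z : ℝ × ℝ | z.2 < z.1}.indicator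
    (fun z => ENNReal.ofReal (Real.exp (-z.1)) * g z.2) (t, s) with hh
  have mh : Measurable (Function.uncurry h) := by
    refine Measurable.indicator ?_ (measurableSet_lt measurable_snd measurable_fst)
    exact (me.comp measurable_fst).mul (mg.comp measurable_snd)
  have e1 : ∀ t ∈ Ioi (0 : ℝ), ENNReal.ofReal (Real.exp (-t)) * ∫⁻ s in Ioc 0 t, g s
      = ∫⁻ s in Ioi 0, h t s := by
    intro t ht
    rw [← lintegral_const_mul _ mg]
    have e2 : ∀ s, h t s = (Iio t).indicator (fun s => ENNReal.ofReal (Real.exp (-t)) * g s) s := by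
      intro s
      simp only [hh, indicator, mem_ofPred_eq, mem_Iio]
    simp only [e2]
    rw [lintegral_indicator measurableSet_Iio, Measure.restrict_restrict measurableSet_Iio,
      Iio_inter_Ioi]
    exact setLIntegral_congr Ioo_ae_eq_Ioc.symm
  rw [setLIntegral_congr_fun measurableSet_Ioi e1,
    lintegral_lintegral_swap mh.aemeasurable]
  refine setLIntegral_congr_fun measurableSet_Ioi fun s hs => ?_
  have e3 : ∀ t, h t s = (Ioi s).indicator (fun t => ENNReal.ofReal (Real.exp (-t)) * g s) t := by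
    intro t
    simp only [hh, indicator, mem_ofPred_eq, mem_Ioi]
  simp only [e3]
  rw [lintegral_indicator measurableSet_Ioi, Measure.restrict_restrict measurableSet_Ioi,
    Ioi_inter_Ioi, max_eq_left (le_of_lt hs), lintegral_mul_const _ me, lintegral_exp_tail]

theorem integrable_nuE {f : ℝ → ℝ} :
    Integrable f nuE ↔ Integrable (fun t => Real.exp (-t) * f t) (volume.restrict (Ioi 0)) := by
  unfold nuE
  rw [integrable_withDensity_iff_integrable_smul' (by fun_prop)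
    (Eventually.of_forall fun t => ENNReal.ofReal_lt_top)]
  refine integrable_congr (Eventually.of_forall fun t => ?_)
  simp only [smul_eq_mul]
  rw [ENNReal.toReal_ofReal (Real.exp_pos _).le]

/-- duality for the primitive in time -/
theorem integral_prim {f θ : ℝ → ℝ} (hf : Integrable f nuE)
    (mθ : Measurable θ) (bθ : ∀ t, |θ t| ≤ 1) (mf : Measurable f) :
    ∫ t, (∫ s in Ioc 0 t, f s) * θ t ∂nuE = ∫ s, f s * (∫ r, θ (s + r) ∂nuE) ∂nuE := by
  set h : ℝ × ℝ → ℝ := fun z =>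
    if 0 < z.1 ∧ z.1 < z.2 then Real.exp (-z.2) * (f z.1 * θ z.2) else 0 with hh
  have mh : Measurable h := by
    refine Measurable.ite ?_ (by fun_prop) measurable_const
    exact (measurableSet_lt measurable_const measurable_fst).inter
      (measurableSet_lt measurable_fst measurable_snd)
  have mp : MeasurePreserving (fun z : ℝ × ℝ => (z.1, z.1 + z.2))
      ((volume : Measure ℝ).prod volume) ((volume : Measure ℝ).prod volume) :=
    measurePreserving_prod_add volume volume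
  have emb : MeasurableEmbedding (fun z : ℝ × ℝ => (z.1, z.1 + z.2)) :=
    (MeasurableEquiv.shearAddRight ℝ).measurableEmbedding
  have hcomp : ∀ s r, h (s, s + r) = if 0 < s ∧ 0 < r then
      (Real.exp (-s) * f s) * (Real.exp (-r) * θ (s + r)) else 0 := by
    intro s r
    simp only [hh, lt_add_iff_pos_right]
    split_ifs with h1
    · rw [neg_add, Real.exp_add]; ring
    · rfl
  have iF : Integrable (fun s : ℝ => (Ioi (0 : ℝ)).indicator (fun s => Real.exp (-s) * f s) s) := by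
    rw [integrable_indicator_iff measurableSet_Ioi]
    exact integrable_nuE.1 hf
  have iE : Integrable (fun s : ℝ => (Ioi (0 : ℝ)).indicator (fun s => Real.exp (-s)) s) := by
    rw [integrable_indicator_iff measurableSet_Ioi]
    exact integrableOn_exp_neg_Ioi 0
  have ihc : Integrable (h ∘ fun z : ℝ × ℝ => (z.1, z.1 + z.2))
      ((volume : Measure ℝ).prod volume) := by
    refine (iF.mul_prod iE).mono (mh.comp mp.measurable).aestronglyMeasurable ?_
    refine Eventually.of_forall fun z => ?_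
    simp only [Function.comp, hcomp, indicator, mem_Ioi]
    by_cases h1 : 0 < z.1
    · by_cases h2 : 0 < z.2
      · simp only [h1, h2, and_self, if_true, norm_mul, Real.norm_eq_abs]
        have h3 := bθ (z.1 + z.2)
        have h4 : 0 ≤ |Real.exp (-z.1)| * |f z.1| := by (clear * -; positivity)
        have h5 : 0 ≤ |Real.exp (-z.2)| := by positivity
        calc |Real.exp (-z.1)| * |f z.1| * (|Real.exp (-z.2)| * |θ (z.1 + z.2)|)
            ≤ |Real.exp (-z.1)| * |f z.1| * (|Real.exp (-z.2)| * 1) := by (clear * - h3; gcongr)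
          _ = _ := by rw [mul_one]
      · simp only [h2, and_false, ↓reduceIte, norm_zero, mul_zero, Std.le_refl]
    · simp only [h1, false_and, ↓reduceIte, norm_zero, mul_ite, zero_mul, mul_zero, ite_self, Std.le_refl]
  have ih : Integrable h ((volume : Measure ℝ).prod volume) :=
    (mp.integrable_comp_emb emb).1 ihc
  have key := mp.integral_comp emb h
  -- left hand side
  have L : ∫ t, (∫ s in Ioc 0 t, f s) * θ t ∂nuE = ∫ z, h z ∂((volume : Measure ℝ).prod volume) := by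
    rw [integral_nuE, integral_prod_symm _ ih, ← integral_indicator measurableSet_Ioi]
    refine integral_congr_ae (Eventually.of_forall fun t => ?_)
    simp only [indicator, mem_Ioi]
    split_ifs with ht
    · have e : ∀ s, h (s, t) = (Ioo 0 t).indicator (fun s => Real.exp (-t) * θ t * f s) s := by
        intro s
        simp only [hh, indicator, mem_Ioo]
        split_ifs <;> ring
      simp only [e]
      rw [integral_indicator measurableSet_Ioo, integral_const_mul,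
        setIntegral_congr_set (Ioo_ae_eq_Ioc (a := (0 : ℝ)) (b := t))]
      ring
    · have e : ∀ s, h (s, t) = 0 := by
        intro s
        simp only [hh]
        rw [if_neg]
        rintro ⟨h1, h2⟩
        exact ht (h1.trans h2)
      simp [e]
  have R : ∫ s, f s * (∫ r, θ (s + r) ∂nuE) ∂nuE =
      ∫ z, h (z.1, z.1 + z.2) ∂((volume : Measure ℝ).prod volume) := by
    have ihc' : Integrable (fun z : ℝ × ℝ => h (z.1, z.1 + z.2))
      ((volume : Measure ℝ).prod volume) := ihc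
    rw [integral_nuE, integral_prod _ ihc', ← integral_indicator measurableSet_Ioi]
    refine integral_congr_ae (Eventually.of_forall fun s => ?_)
    simp only [indicator, mem_Ioi]
    split_ifs with hs
    · rw [integral_nuE, ← integral_indicator measurableSet_Ioi]
      have e : ∀ r, h (s, s + r) = (Real.exp (-s) * f s) *
          (Ioi (0 : ℝ)).indicator (fun r => Real.exp (-r) * θ (s + r)) r := by
        intro r
        rw [hcomp]
        simp only [indicator, mem_Ioi, hs, true_and]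
        split_ifs <;> ring
      simp only [e]
      rw [integral_const_mul]
      simp only [indicator, mem_Ioi]
      ring
    · have e : ∀ r, h (s, s + r) = 0 := by
        intro r
        rw [hcomp, if_neg]
        exact fun h1 => hs h1.1
      simp [e]
  rw [L, R, ← key]

section omega

variable {Ω : Type*} [MeasurableSpace Ω] {μ : Measure Ω}

/-- primitive in time -/
def prim (f : ℝ × Ω → ℝ) (q : ℝ × Ω) : ℝ := ∫ s in Ioc 0 q.1, f (s, q.2)

/-- the dual of the primitive -/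
def dprim (θ : ℝ × Ω → ℝ) (q : ℝ × Ω) : ℝ := ∫ r, θ (q.1 + r, q.2) ∂nuE

theorem measurable_prim {f : ℝ × Ω → ℝ} (mf : Measurable f) : Measurable (prim f) := by
  have e : prim f = fun q : ℝ × Ω => ∫ s, (if 0 < s ∧ s ≤ q.1 then f (s, q.2) else 0) := by
    funext q
    unfold prim
    rw [← integral_indicator measurableSet_Ioc]
    refine integral_congr_ae (Eventually.of_forall fun s => ?_)
    simp only [indicator, mem_Ioc]
  rw [e]
  refine (StronglyMeasurable.integral_prod_right' (f := fun z : (ℝ × Ω) × ℝ =>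
    if 0 < z.2 ∧ z.2 ≤ z.1.1 then f (z.2, z.1.2) else 0) ?_).measurable
  refine Measurable.stronglyMeasurable (Measurable.ite ?_ (by fun_prop) measurable_const)
  exact (measurableSet_lt measurable_const measurable_snd).inter
    (measurableSet_le measurable_snd measurable_fst.fst)

theorem measurable_dprim {θ : ℝ × Ω → ℝ} (mθ : Measurable θ) : Measurable (dprim θ) := by
  refine (StronglyMeasurable.integral_prod_right' (f := fun z : (ℝ × Ω) × ℝ =>
    θ (z.1.1 + z.2, z.1.2)) ?_).measurable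
  exact Measurable.stronglyMeasurable (by fun_prop)

omit [MeasurableSpace Ω] in
theorem dprim_bdd {θ : ℝ × Ω → ℝ} (bθ : ∀ q, |θ q| ≤ 1) (q : ℝ × Ω) : |dprim θ q| ≤ 1 := by
  unfold dprim
  have h := norm_integral_le_of_norm_le_const (μ := nuE) (f := fun r => θ (q.1 + r, q.2)) (C := 1)
    (Eventually.of_forall fun r => by rw [Real.norm_eq_abs]; exact bθ _)
  simpa only [ge_iff_le, Real.norm_eq_abs, probReal_univ, mul_one] using h

theorem integrable_prim [SFinite μ] {f : ℝ × Ω → ℝ} (mf : Measurable f)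
    (hf : Integrable f (nuE.prod μ)) : Integrable (prim f) (nuE.prod μ) := by
  refine ⟨(measurable_prim mf).aestronglyMeasurable, ?_⟩
  have h1 : ∫⁻ q, ‖prim f q‖ₑ ∂(nuE.prod μ) ≤ ∫⁻ q, ‖f q‖ₑ ∂(nuE.prod μ) := by
    rw [lintegral_prod_symm' _ (measurable_prim mf).enorm, lintegral_prod_symm' _ mf.enorm]
    refine lintegral_mono fun p => ?_
    have mg : Measurable fun s : ℝ => ‖f (s, p)‖ₑ := by (clear * - mf; measurability)
    rw [← lintegral_prim mg]
    exact lintegral_mono fun t => enorm_integral_le_lintegral_enorm _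
  exact h1.trans_lt hf.2

theorem integral_prim_mul [SFinite μ] {f θ : ℝ × Ω → ℝ} (mf : Measurable f)
    (hf : Integrable f (nuE.prod μ)) (mθ : Measurable θ) (bθ : ∀ q, |θ q| ≤ 1) :
    ∫ q, prim f q * θ q ∂(nuE.prod μ) = ∫ q, f q * dprim θ q ∂(nuE.prod μ) := by
  have i1 : Integrable (fun q => prim f q * θ q) (nuE.prod μ) :=
    (integrable_prim mf hf).mul_bdd (c := 1) mθ.aestronglyMeasurable
      (Eventually.of_forall fun q => by rw [Real.norm_eq_abs]; exact bθ q)
  have i2 : Integrable (fun q => f q * dprim θ q) (nuE.prod μ) :=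
    hf.mul_bdd (c := 1) (measurable_dprim mθ).aestronglyMeasurable
      (Eventually.of_forall fun q => by rw [Real.norm_eq_abs]; exact dprim_bdd bθ q)
  rw [integral_prod_symm _ i1, integral_prod_symm _ i2]
  refine integral_congr_ae ?_
  filter_upwards [hf.prod_left_ae] with p hp
  exact integral_prim hp (by fun_prop) (fun t => bθ _) (by fun_prop)

theorem WConv.prim [SFinite μ] {f : ℕ → ℝ × Ω → ℝ} {F : ℝ × Ω → ℝ}
    (hf : WConv (nuE.prod μ) f F) (mf : ∀ n, Measurable (f n)) (mF : Measurable F)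
    (jf : ∀ n, Integrable (f n) (nuE.prod μ)) (jF : Integrable F (nuE.prod μ)) :
    WConv (nuE.prod μ) (fun n => DL.prim (f n)) (DL.prim F) := by
  intro θ mθ bθ
  have h := hf (dprim θ) (measurable_dprim mθ) (dprim_bdd bθ)
  rw [integral_prim_mul mF jF mθ bθ]
  refine h.congr fun n => ?_
  rw [integral_prim_mul (mf n) (jf n) mθ bθ]

end omega

theorem ren_hasDerivAt (j : ℕ) {z : ℝ} (hz : 0 ≤ z) :
    HasDerivAt (ren j) (1 / (1 + z / ((j : ℝ) + 1)) ^ 2) z := by
  have hj : (0 : ℝ) < (j : ℝ) + 1 := by (clear * -; positivity)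
  have hd : (1 + z / ((j : ℝ) + 1)) ≠ 0 := by positivity
  have h1 : HasDerivAt (fun z : ℝ => 1 + z / ((j : ℝ) + 1)) (1 / ((j : ℝ) + 1)) z :=
    ((hasDerivAt_id z).div_const _).const_add 1
  have h2 := (hasDerivAt_id z).fun_div h1 hd
  refine h2.congr_deriv ?_
  simp only [id]
  field_simp
  ring

theorem ren_lip (j : ℕ) {x y : ℝ} (hx : 0 ≤ x) (hy : 0 ≤ y) :
    |ren j x - ren j y| ≤ |x - y| := by
  have hj : (0 : ℝ) < (j : ℝ) + 1 := by positivity
  have e : ren j x - ren j y =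
      (x - y) / ((1 + x / ((j : ℝ) + 1)) * (1 + y / ((j : ℝ) + 1))) := by
    unfold ren
    field_simp
    ring
  rw [e, abs_div]
  refine div_le_self (abs_nonneg _) ?_
  rw [abs_of_nonneg (by positivity)]
  have h1 : 1 ≤ 1 + x / ((j : ℝ) + 1) := by
    have : 0 ≤ x / ((j : ℝ) + 1) := by positivity
    linarith only [this]
  have h2 : 1 ≤ 1 + y / ((j : ℝ) + 1) := by
    have : 0 ≤ y / ((j : ℝ) + 1) := by (clear * - hy; positivity)
    linarith only [this]
  nlinarith only [h1, h2]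

/-- chain rule for the renormalization of a primitive -/
theorem ren_primitive {r : ℝ → ℝ} {T : ℝ} (hT : 0 ≤ T) (hr : IntervalIntegrable r volume 0 T)
    (c : ℝ) (h0 : ∀ t ∈ Icc 0 T, 0 ≤ c + ∫ s in (0:ℝ)..t, r s) (j : ℕ) :
    ren j (c + ∫ s in (0:ℝ)..T, r s) = ren j c
      + ∫ t in (0:ℝ)..T, r t / (1 + (c + ∫ s in (0:ℝ)..t, r s) / ((j : ℝ) + 1)) ^ 2 := by
  have hac := ac_primitive hr c
  have hu : uIcc 0 T = Icc 0 T := uIcc_of_le hT
  have hK : LipschitzOnWith 1 (ren j) ((fun t => c + ∫ s in (0:ℝ)..t, r s) '' uIcc 0 T) := by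
    rw [hu]
    refine LipschitzOnWith.of_dist_le_mul ?_
    rintro _ ⟨x, hx, rfl⟩ _ ⟨y, hy, rfl⟩
    simp only [NNReal.coe_one, one_mul, Real.dist_eq]
    exact ren_lip j (h0 x hx) (h0 y hy)
  have hac2 := ac_comp hac hK
  have h := hac2.integral_deriv_eq_sub
  have h2 : ∫ x in (0:ℝ)..T, deriv (fun t => ren j (c + ∫ s in (0:ℝ)..t, r s)) x
      = ∫ t in (0:ℝ)..T, r t / (1 + (c + ∫ s in (0:ℝ)..t, r s) / ((j : ℝ) + 1)) ^ 2 := by
    apply intervalIntegral.integral_congr_ae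
    filter_upwards [ae_hasDerivAt_primitive hr c] with t ht hmem
    have hm : t ∈ uIcc 0 T := uIoc_subset_uIcc hmem
    have h3 := (ren_hasDerivAt j (h0 t (hu ▸ hm))).comp t (ht hm)
    have h4 : deriv (fun t => ren j (c + ∫ s in (0:ℝ)..t, r s)) t =
        1 / (1 + (c + ∫ s in (0:ℝ)..t, r s) / ((j : ℝ) + 1)) ^ 2 * r t := h3.deriv
    rw [h4]
    ring
  rw [h2] at h
  simp only [intervalIntegral.integral_same, add_zero] at h
  (clear * - h; linarith)

end Vale.Agent.P140.DL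
end
end

section

open MeasureTheory Set Filter
open scoped ENNReal Topology NNReal

noncomputable section

namespace Vale.Agent.P140.DL

variable {Ω : Type*} [MeasurableSpace Ω] [MeasurableSpace.CountablyGenerated Ω]
  {μ : Measure Ω} [IsProbabilityMeasure μ]
  {g a b : ℕ → ℝ × Ω → ℝ} {g0 : ℕ → Ω → ℝ} {G A B : ℝ × Ω → ℝ} {G0 : Ω → ℝ}

theorem ren_nn (j : ℕ) {z : ℝ} (hz : 0 ≤ z) : 0 ≤ ren j z := by
  unfold ren
  positivity

theorem ren_le_id (j : ℕ) {z : ℝ} (hz : 0 ≤ z) : ren j z ≤ z := by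
  unfold ren
  refine div_le_self hz ?_
  have : 0 ≤ z / ((j : ℝ) + 1) := by positivity
  linarith

theorem ren_le_succ (j : ℕ) {z : ℝ} (hz : 0 ≤ z) : ren j z ≤ (j : ℝ) + 1 := by
  unfold ren
  have hj : (0 : ℝ) < (j : ℝ) + 1 := by positivity
  rw [div_le_iff₀ (by positivity)]
  have : ((j : ℝ) + 1) * (1 + z / ((j : ℝ) + 1)) = (j : ℝ) + 1 + z := by
    field_simp
  linarith

/-- `z ren_j'(z)` -/
def hR (j : ℕ) (z : ℝ) : ℝ := z / (1 + z / ((j : ℝ) + 1)) ^ 2

theorem hR_nonneg (j : ℕ) {z : ℝ} (hz : 0 ≤ z) : 0 ≤ hR j z := by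
  unfold hR
  positivity

theorem hR_le_ren (j : ℕ) {z : ℝ} (hz : 0 ≤ z) : hR j z ≤ ren j z := by
  unfold hR ren
  have h0 : 0 ≤ z / ((j : ℝ) + 1) := by (clear * - hz; positivity)
  refine div_le_div_of_nonneg_left hz (by (clear * - hz; positivity)) ?_
  nlinarith

theorem hR_mono (j : ℕ) {z : ℝ} (hz : 0 ≤ z) : hR j z ≤ hR (j + 1) z := by
  unfold hR
  have h0 : 0 ≤ z / (((j + 1 : ℕ) : ℝ) + 1) := by (clear * - hz; positivity)
  have h1 : z / (((j + 1 : ℕ) : ℝ) + 1) ≤ z / ((j : ℝ) + 1) := by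
    refine div_le_div_of_nonneg_left hz (by (clear * -; positivity)) ?_
    push_cast
    linarith only []
  refine div_le_div_of_nonneg_left hz (by positivity) ?_
  gcongr

theorem sub_hR_le (j : ℕ) {z K : ℝ} (hz : 0 ≤ z) (hK : 0 ≤ K) :
    z - hR j z ≤ 8 * K ^ 2 / ((j : ℝ) + 1) + 2 * max (z - K) 0 := by
  have hj : (0 : ℝ) < (j : ℝ) + 1 := by positivity
  rcases le_total z (2 * K) with h | h
  · have h1 : z * (1 - 2 * (z / ((j : ℝ) + 1))) ≤ hR j z := by
      unfold hR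
      rw [le_div_iff₀ (by positivity)]
      have h0 : 0 ≤ z / ((j : ℝ) + 1) := by positivity
      set x := z / ((j : ℝ) + 1) with hx
      have h2 : (1 - 2 * x) * (1 + x) ^ 2 ≤ 1 := by nlinarith only [h0, sq_nonneg x]
      calc z * (1 - 2 * x) * (1 + x) ^ 2 = z * ((1 - 2 * x) * (1 + x) ^ 2) := by ring
        _ ≤ z * 1 := mul_le_mul_of_nonneg_left h2 hz
        _ = z := mul_one z
    have h3 : z - hR j z ≤ 2 * z ^ 2 / ((j : ℝ) + 1) := by
      have e : z * (1 - 2 * (z / ((j : ℝ) + 1))) = z - 2 * z ^ 2 / ((j : ℝ) + 1) := by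
        (clear * -; field_simp)
      (clear * - h1 e; linarith)
    have h4 : 2 * z ^ 2 / ((j : ℝ) + 1) ≤ 8 * K ^ 2 / ((j : ℝ) + 1) := by
      apply div_le_div_of_nonneg_right _ hj.le
      linarith only [mul_nonneg (sub_nonneg.2 h) (sub_nonneg.2 h), mul_nonneg (sub_nonneg.2 hz) (sub_nonneg.2 h)]
    have h5 : 0 ≤ 2 * max (z - K) 0 := by (clear * -; positivity)
    linarith only [h5, h4, h3]
  · have h1 := hR_nonneg j hz
    have h2 : z - K ≤ max (z - K) 0 := le_max_left _ _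
    have h3 : 0 ≤ 8 * K ^ 2 / ((j : ℝ) + 1) := by positivity
    linarith

theorem ofReal_sub_hR_le (j : ℕ) {z : ℝ} (hz : 0 ≤ z) (K : ℝ≥0) :
    ENNReal.ofReal |z - hR j z| ≤
      ENNReal.ofReal (8 * (K : ℝ) ^ 2 / ((j : ℝ) + 1)) + 2 * (ENNReal.ofReal z - K) := by
  have h1 : 0 ≤ z - hR j z := by
    have := (hR_le_ren j hz).trans (ren_le_id j hz)
    linarith only [this]
  rw [abs_of_nonneg h1]
  have h2 : (ENNReal.ofReal z - (K : ℝ≥0∞)) = ENNReal.ofReal (max (z - K) 0) := by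
    rw [← ENNReal.ofReal_coe_nnreal, ← ENNReal.ofReal_sub z K.coe_nonneg]
    rcases le_total (z - K) 0 with h | h
    · rw [max_eq_right h, ENNReal.ofReal_of_nonpos h, ENNReal.ofReal_zero]
    · rw [max_eq_left h]
  rw [h2, show (2 : ℝ≥0∞) = ENNReal.ofReal 2 by simp, ← ENNReal.ofReal_mul (by norm_num),
    ← ENNReal.ofReal_add (by positivity) (by (clear * -; positivity))]
  exact ENNReal.ofReal_le_ofReal (sub_hR_le j hz K.2)

theorem ae_pos_prod (μ : Measure Ω) [SFinite μ] : ∀ᵐ q ∂(nuE.prod μ), 0 < q.1 := by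
  have h1 : ∀ᵐ t ∂nuE, 0 < t := by
    have h2 : nuE ≪ volume.restrict (Ioi (0 : ℝ)) := withDensity_absolutelyContinuous _ _
    exact h2.ae_le (ae_restrict_mem measurableSet_Ioi)
  exact Measure.quasiMeasurePreserving_fst.ae h1

theorem measurable_ren (j : ℕ) : Measurable (ren j) := by
  unfold ren
  fun_prop

theorem measurable_hR (j : ℕ) : Measurable (hR j) := by
  unfold hR
  fun_prop

theorem integrable_of_UI {α : Type*} [MeasurableSpace α] {P : Measure α} [IsFiniteMeasure P]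
    {f : ℕ → α → ℝ} (mf : ∀ n, Measurable (f n)) (h0 : ∀ n q, 0 ≤ f n q)
    (ui : UI P fun n q => ENNReal.ofReal (f n q)) (n : ℕ) : Integrable (f n) P := by
  obtain ⟨C, hC⟩ := ui.lintegral_le
  refine ⟨(mf n).aestronglyMeasurable, ?_⟩
  rw [hasFiniteIntegral_iff_ofReal (Eventually.of_forall (h0 n))]
  exact (hC n).trans_lt ENNReal.coe_lt_top

theorem integrable_of_bdd {α : Type*} [MeasurableSpace α] {P : Measure α} [IsFiniteMeasure P]
    {f : α → ℝ} (mf : Measurable f) {C : ℝ} (h : ∀ q, |f q| ≤ C) : Integrable f P :=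
  Integrable.of_bound mf.aestronglyMeasurable C
    (Eventually.of_forall fun q => by rw [Real.norm_eq_abs]; exact h q)

omit [MeasurableSpace.CountablyGenerated Ω] in
/-- the renormalized equation at level `n` -/
theorem CharSeq.ren_eq (h : CharSeq g a b g0) (j n : ℕ) {q : ℝ × Ω} (hq : 0 < q.1) :
    DL.ren j (g n q) = DL.ren j (g0 n q.2) + prim (fun q =>
      b n q / (1 + g n q / ((j : ℝ) + 1)) ^ 2 - hR j (g n q) * a n q) q := by
  obtain ⟨t, p⟩ := q
  simp only at hq ⊢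
  obtain ⟨C, hC⟩ := h.bdd n p t
  have mr : Measurable fun s : ℝ => b n (s, p) - a n (s, p) * g n (s, p) := by
    have h1 := h.mb n
    have h2 := h.ma n
    have h3 := h.mg n
    fun_prop
  have hr : IntervalIntegrable (fun s : ℝ => b n (s, p) - a n (s, p) * g n (s, p)) volume 0 t := by
    rw [intervalIntegrable_iff_integrableOn_Ioc_of_le hq.le]
    refine Measure.integrableOn_of_bounded (M := C + C * C) (by simp only [Real.volume_Ioc, sub_zero, ne_eq, ENNReal.ofReal_ne_top, not_false_eq_true]) mr.aestronglyMeasurable ?_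
    filter_upwards [ae_restrict_mem measurableSet_Ioc] with s hs
    obtain ⟨h1, h2, h3⟩ := hC s ⟨hs.1.le, hs.2⟩
    have h4 := h.g_nonneg n (s, p)
    have h5 := h.a_nonneg n (s, p)
    have h6 := h.b_nonneg n (s, p)
    have h7 : a n (s, p) * g n (s, p) ≤ C * C := mul_le_mul h2 h1 h4 (h5.trans h2)
    have h8 : 0 ≤ a n (s, p) * g n (s, p) := mul_nonneg h5 h4
    have h9 : 0 ≤ C * C := h8.trans h7
    have h10 : 0 ≤ C := h4.trans h1
    rw [Real.norm_eq_abs, abs_le]
    constructor <;> linarith only [h1, h4, h6, h7, h3, h8]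
  have heq : ∀ s ∈ Icc 0 t, g n (s, p) = g0 n p +
      ∫ r in (0:ℝ)..s, (b n (r, p) - a n (r, p) * g n (r, p)) := by
    intro s hs
    rw [intervalIntegral.integral_of_le hs.1]
    exact h.eq n p s hs.1
  have key := ren_primitive hq.le hr (g0 n p)
    (fun s hs => by rw [← heq s hs]; exact h.g_nonneg n (s, p)) j
  rw [← heq t ⟨hq.le, le_rfl⟩] at key
  rw [key, intervalIntegral.integral_of_le hq.le]
  unfold prim
  congr 1
  refine setIntegral_congr_fun measurableSet_Ioc fun s hs => ?_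
  simp only
  rw [← heq s ⟨hs.1.le, hs.2⟩]
  unfold hR
  ring

/-- equations for the weak limits of the renormalizations -/
theorem CharLim.ren (h : CharLim μ g a b g0 G A B G0) :
    ∃ U H Q : ℕ → ℝ × Ω → ℝ, (∀ j, Measurable (U j)) ∧ (∀ j, Measurable (H j)) ∧
      (∀ j, Measurable (Q j)) ∧ (∀ j q, 0 ≤ U j q) ∧ (∀ j q, 0 ≤ H j q) ∧ (∀ j q, 0 ≤ Q j q) ∧
      (∀ j q, U j q ≤ (j : ℝ) + 1) ∧ (∀ j, Integrable (Q j) (nuE.prod μ)) ∧
      (∀ j, ∀ᵐ q ∂(nuE.prod μ), H j q ≤ U j q ∧ U j q ≤ G q ∧ H j q ≤ H (j + 1) q ∧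
        Q j q ≤ B q) ∧
      Tendsto (fun j => ∫⁻ q, ENNReal.ofReal (G q - H j q) ∂(nuE.prod μ)) atTop (𝓝 0) ∧
      ∀ j, ∀ᵐ q ∂(nuE.prod μ), U j q = ren j (G0 q.2)
        + ∫ s in Ioc 0 q.1, (Q j (s, q.2) - A (s, q.2) * H j (s, q.2)) := by
  have mg := h.mg
  have ma := h.ma
  have mb := h.mb
  have mg0 := h.mg0
  have mA := h.mA
  have mG := h.mG
  have mG0 := h.mG0
  have gn := h.g_nonneg
  -- the three sequences
  set uu : ℕ → ℕ → ℝ × Ω → ℝ := fun j n q => DL.ren j (g n q) with huu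
  set hh : ℕ → ℕ → ℝ × Ω → ℝ := fun j n q => hR j (g n q) with hhh
  set qq : ℕ → ℕ → ℝ × Ω → ℝ := fun j n q => b n q / (1 + g n q / ((j : ℝ) + 1)) ^ 2 with hqq
  have muu : ∀ j n, Measurable (uu j n) := fun j n => (measurable_ren j).comp (mg n)
  have mhh : ∀ j n, Measurable (hh j n) := fun j n => (measurable_hR j).comp (mg n)
  have mqq : ∀ j n, Measurable (qq j n) := fun j n => by
    have h1 := mb n
    have h2 := mg n
    simp only [hqq]
    fun_prop
  have uu0 : ∀ j n q, 0 ≤ uu j n q := fun j n q => ren_nn j (gn n q)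
  have hh0 : ∀ j n q, 0 ≤ hh j n q := fun j n q => hR_nonneg j (gn n q)
  have qq0 : ∀ j n q, 0 ≤ qq j n q := fun j n q => by
    have h1 := gn n q
    have h2 := h.b_nonneg n q
    simp only [hqq]
    (clear * - h2 h1; positivity)
  have uu1 : ∀ j n q, uu j n q ≤ (j : ℝ) + 1 := fun j n q => ren_le_succ j (gn n q)
  have hu : ∀ j n q, hh j n q ≤ uu j n q := fun j n q => hR_le_ren j (gn n q)
  have ug : ∀ j n q, uu j n q ≤ g n q := fun j n q => ren_le_id j (gn n q)
  have uiu : ∀ j, UI (nuE.prod μ) fun n q => ENNReal.ofReal (uu j n q) := fun j =>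
    h.uiG.mono fun n => Eventually.of_forall fun q => ENNReal.ofReal_le_ofReal (ug j n q)
  have uih : ∀ j, UI (nuE.prod μ) fun n q => ENNReal.ofReal (hh j n q) := fun j =>
    h.uiG.mono fun n => Eventually.of_forall fun q =>
      ENNReal.ofReal_le_ofReal ((hu j n q).trans (ug j n q))
  have uiq : ∀ j, UI (nuE.prod μ) fun n q => ENNReal.ofReal (qq j n q) := fun j => h.uiB j
  -- weak limits
  set fam : ℕ → ℕ → ℝ × Ω → ℝ := fun m =>
    if m % 3 = 0 then uu (m / 3) else if m % 3 = 1 then hh (m / 3) else qq (m / 3) with hfam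
  have f0 : ∀ j, fam (3 * j) = uu j := fun j => by
    have h1 : 3 * j % 3 = 0 := by omega
    have h2 : 3 * j / 3 = j := by omega
    simp only [hfam, h1, h2, if_true]
  have f1 : ∀ j, fam (3 * j + 1) = hh j := fun j => by
    have h1 : (3 * j + 1) % 3 = 1 := by (clear * -; omega)
    have h2 : (3 * j + 1) / 3 = j := by omega
    simp only [hfam, h1, one_ne_zero, h2, if_true, if_false]
  have f2 : ∀ j, fam (3 * j + 2) = qq j := fun j => by
    have h1 : (3 * j + 2) % 3 = 2 := by omega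
    have h2 : (3 * j + 2) / 3 = j := by omega
    simp only [hfam, h1, h2]
    norm_num
  have hcases : ∀ m, ∃ j, fam m = uu j ∨ fam m = hh j ∨ fam m = qq j := by
    intro m
    refine ⟨m / 3, ?_⟩
    simp only [hfam]
    split_ifs
    · exact Or.inl rfl
    · exact Or.inr (Or.inl rfl)
    · exact Or.inr (Or.inr rfl)
  obtain ⟨φ, hφ, L, mL, L0, iL, cL⟩ := exists_weak_limit (nuE.prod μ) fam
    (fun m n => by
      obtain ⟨j, e | e | e⟩ := hcases m <;> rw [e]
      · exact muu j n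
      · exact mhh j n
      · exact mqq j n)
    (fun m n q => by
      obtain ⟨j, e | e | e⟩ := hcases m <;> rw [e]
      · exact uu0 j n q
      · exact hh0 j n q
      · exact qq0 j n q)
    (fun m => by
      obtain ⟨j, e | e | e⟩ := hcases m <;> rw [e]
      · exact uiu j
      · exact uih j
      · exact uiq j)
  have hφt : Tendsto φ atTop atTop := hφ.tendsto_atTop
  have cu : ∀ j, WConv (nuE.prod μ) (fun n => uu j (φ n)) (L (3 * j)) := fun j => by
    have := cL (3 * j)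
    rwa [f0] at this
  have ch : ∀ j, WConv (nuE.prod μ) (fun n => hh j (φ n)) (L (3 * j + 1)) := fun j => by
    have := cL (3 * j + 1)
    rwa [f1] at this
  have cq : ∀ j, WConv (nuE.prod μ) (fun n => qq j (φ n)) (L (3 * j + 2)) := fun j => by
    have := cL (3 * j + 2)
    rwa [f2] at this
  have iuu : ∀ j n, Integrable (uu j n) (nuE.prod μ) := fun j n =>
    integrable_of_bdd (muu j n) (C := (j : ℝ) + 1) fun q => by
      rw [abs_of_nonneg (uu0 j n q)]; exact uu1 j n q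
  have ihh : ∀ j n, Integrable (hh j n) (nuE.prod μ) := fun j n =>
    integrable_of_bdd (mhh j n) (C := (j : ℝ) + 1) fun q => by
      rw [abs_of_nonneg (hh0 j n q)]; exact (hu j n q).trans (uu1 j n q)
  have iqq : ∀ j n, Integrable (qq j n) (nuE.prod μ) := fun j n =>
    integrable_of_UI (mqq j) (qq0 j) (uiq j) n
  -- cut off versions
  set U : ℕ → ℝ × Ω → ℝ := fun j q => min (L (3 * j) q) ((j : ℝ) + 1) with hU
  set H : ℕ → ℝ × Ω → ℝ := fun j q => min (L (3 * j + 1) q) ((j : ℝ) + 1) with hH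
  set Q : ℕ → ℝ × Ω → ℝ := fun j => L (3 * j + 2) with hQ
  have mU : ∀ j, Measurable (U j) := fun j => (mL _).min measurable_const
  have mH : ∀ j, Measurable (H j) := fun j => (mL _).min measurable_const
  have mQ : ∀ j, Measurable (Q j) := fun j => mL _
  have hj0 : ∀ j : ℕ, (0 : ℝ) ≤ (j : ℝ) + 1 := fun j => by (clear * -; positivity)
  have U0 : ∀ j q, 0 ≤ U j q := fun j q => le_min (L0 _ q) (hj0 j)
  have H0 : ∀ j q, 0 ≤ H j q := fun j q => le_min (L0 _ q) (hj0 j)
  have U1 : ∀ j q, U j q ≤ (j : ℝ) + 1 := fun j q => min_le_right _ _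
  have H1 : ∀ j q, H j q ≤ (j : ℝ) + 1 := fun j q => min_le_right _ _
  have eU : ∀ j, ∀ᵐ q ∂(nuE.prod μ), L (3 * j) q = U j q := fun j => by
    have h1 := (cu j).ae_bdd (fun n => iuu j (φ n)) (iL _) (B := (j : ℝ) + 1)
      (fun n => Eventually.of_forall fun q => by
        rw [abs_of_nonneg (uu0 j _ q)]; exact uu1 j _ q)
    filter_upwards [h1] with q hq
    simp only [hU]
    rw [min_eq_left ((le_abs_self _).trans hq)]
  have eH : ∀ j, ∀ᵐ q ∂(nuE.prod μ), L (3 * j + 1) q = H j q := fun j => by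
    have h1 := (ch j).ae_bdd (fun n => ihh j (φ n)) (iL _) (B := (j : ℝ) + 1)
      (fun n => Eventually.of_forall fun q => by
        rw [abs_of_nonneg (hh0 j _ q)]; exact (hu j _ q).trans (uu1 j _ q))
    filter_upwards [h1] with q hq
    simp only [hH]
    rw [min_eq_left ((le_abs_self _).trans hq)]
  have wU : ∀ j, WConv (nuE.prod μ) (fun n => uu j (φ n)) (U j) := fun j =>
    (cu j).congr (fun n => Eventually.of_forall fun q => rfl) (eU j)
  have wH : ∀ j, WConv (nuE.prod μ) (fun n => hh j (φ n)) (H j) := fun j =>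
    (ch j).congr (fun n => Eventually.of_forall fun q => rfl) (eH j)
  have wQ : ∀ j, WConv (nuE.prod μ) (fun n => qq j (φ n)) (Q j) := cq
  have iU : ∀ j, Integrable (U j) (nuE.prod μ) := fun j =>
    integrable_of_bdd (mU j) (C := (j : ℝ) + 1) fun q => by
      rw [abs_of_nonneg (U0 j q)]; exact U1 j q
  have iH : ∀ j, Integrable (H j) (nuE.prod μ) := fun j =>
    integrable_of_bdd (mH j) (C := (j : ℝ) + 1) fun q => by
      rw [abs_of_nonneg (H0 j q)]; exact H1 j q
  have iQ : ∀ j, Integrable (Q j) (nuE.prod μ) := fun j => iL _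
  have wG : WConv (nuE.prod μ) (fun n => g (φ n)) G := h.convG.comp_sub hφt
  refine ⟨U, H, Q, mU, mH, mQ, U0, H0, fun j q => L0 _ q, U1, iQ, ?_, ?_, ?_⟩
  · -- order relations
    intro j
    have r1 := (wH j).ae_le (wU j) (fun n => ihh j (φ n)) (fun n => iuu j (φ n)) (iH j) (iU j)
      (fun n => Eventually.of_forall fun q => hu j _ q)
    have r2 := (wU j).ae_le wG (fun n => iuu j (φ n)) (fun n => h.ig (φ n)) (iU j) h.iG
      (fun n => Eventually.of_forall fun q => ug j _ q)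
    have r3 := (wH j).ae_le (wH (j + 1)) (fun n => ihh j (φ n)) (fun n => ihh (j + 1) (φ n))
      (iH j) (iH (j + 1)) (fun n => Eventually.of_forall fun q => hR_mono j (gn _ q))
    have r4 : ∀ᵐ q ∂(nuE.prod μ), Q j q ≤ B q := by
      obtain ⟨r, R, mr, mR, br, bR, Rmono, Rlim, cR, ibr, iBR, uibr, cBR⟩ := h.convB
      have hk : ∀ k, ∀ᵐ q ∂(nuE.prod μ), Q j q * R k q ≤ B q * R k q := by
        intro k
        have br' : ∀ n q, |r k n q| ≤ 1 := fun n q => by
          rw [abs_of_nonneg (br k n q).1]; exact (br k n q).2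
        have bR' : ∀ q, |R k q| ≤ 1 := fun q => by
          rw [abs_of_nonneg (bR k q).1]; exact (bR k q).2
        have uiq' : UI (nuE.prod μ) fun n q => ENNReal.ofReal |qq j (φ n) q| := by
          have h1 := (uiq j).reindex φ
          refine h1.mono fun n => Eventually.of_forall fun q => ?_
          rw [abs_of_nonneg (qq0 j _ q)]
        have w1 : WConv (nuE.prod μ) (fun n q => qq j (φ n) q * r k (φ n) q)
            fun q => Q j q * R k q :=
          (wQ j).mul (fun n => mqq j (φ n)) uiq' (mQ j) (iQ j) (fun n => mr k (φ n)) (mR k)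
            (fun n q => br' (φ n) q) bR' ((cR k).comp_sub hφt)
        have w2 : WConv (nuE.prod μ) (fun n q => b (φ n) q * r k (φ n) q)
            fun q => B q * R k q := (cBR k).comp_sub hφt
        refine w1.ae_le w2 (fun n => ?_) (fun n => ibr k (φ n)) ?_ (iBR k)
          (fun n => Eventually.of_forall fun q => ?_)
        · exact (iqq j (φ n)).mul_bdd (c := 1) (mr k (φ n)).aestronglyMeasurable
            (Eventually.of_forall fun q => by rw [Real.norm_eq_abs]; exact br' _ q)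
        · exact (iQ j).mul_bdd (c := 1) (mR k).aestronglyMeasurable
            (Eventually.of_forall fun q => by rw [Real.norm_eq_abs]; exact bR' q)
        · refine mul_le_mul_of_nonneg_right ?_ (br k (φ n) q).1
          refine div_le_self (h.b_nonneg _ q) ?_
          have h1 : 0 ≤ g (φ n) q / ((j : ℝ) + 1) := div_nonneg (gn _ q) (hj0 j)
          nlinarith only [h1]
      filter_upwards [ae_all_iff.2 hk, Rlim] with q h1 h2
      have h3 : ∀ᶠ k in atTop, (0 : ℝ) < R k q := h2.eventually_const_lt zero_lt_one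
      obtain ⟨k, h4⟩ := h3.exists
      exact le_of_mul_le_mul_right (h1 k) h4
    filter_upwards [r1, r2, r3, r4] with q h1 h2 h3 h4
    exact ⟨h1, h2, h3, h4⟩
  · -- convergence
    rw [ENNReal.tendsto_atTop_zero]
    intro ε hε
    have hε4 : 0 < ε / 4 := ENNReal.div_pos hε.ne' (by norm_num)
    obtain ⟨K, hK⟩ := h.uiG (ε / 4) hε4
    have hlim : Tendsto (fun j : ℕ => ENNReal.ofReal (8 * (K : ℝ) ^ 2 / ((j : ℝ) + 1))) atTop
        (𝓝 0) := by
      have h1 : Tendsto (fun j : ℕ => 8 * (K : ℝ) ^ 2 / ((j : ℝ) + 1)) atTop (𝓝 0) :=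
        Tendsto.const_div_atTop
          (tendsto_atTop_add_const_right _ _ tendsto_natCast_atTop_atTop) _
      have h2 := ENNReal.tendsto_ofReal h1
      rwa [ENNReal.ofReal_zero] at h2
    obtain ⟨N, hN⟩ := (ENNReal.tendsto_atTop_zero.1 hlim) (ε / 2) (ENNReal.half_pos hε.ne')
    refine ⟨N, fun j hj => ?_⟩
    have w1 : WConv (nuE.prod μ) (fun n q => g (φ n) q - hh j (φ n) q) fun q => G q - H j q :=
      wG.sub (wH j) (fun n => h.ig (φ n)) (fun n => ihh j (φ n)) h.iG (iH j)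
    have h1 := w1.lintegral_le (fun n => (h.ig (φ n)).sub (ihh j (φ n))) (mG.sub (mH j))
      (h.iG.sub (iH j))
    calc ∫⁻ q, ENNReal.ofReal (G q - H j q) ∂(nuE.prod μ)
        ≤ ∫⁻ q, ENNReal.ofReal |G q - H j q| ∂(nuE.prod μ) :=
          lintegral_mono fun q => ENNReal.ofReal_le_ofReal (le_abs_self _)
      _ ≤ liminf (fun n => ∫⁻ q, ENNReal.ofReal |g (φ n) q - hh j (φ n) q| ∂(nuE.prod μ))
          atTop := h1
      _ ≤ ε := by
          refine liminf_le_of_frequently_le' (Eventually.of_forall fun n => ?_).frequently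
          have me : Measurable fun q => ENNReal.ofReal (g (φ n) q) - (K : ℝ≥0∞) :=
            (ENNReal.measurable_ofReal.comp (mg (φ n))).sub_const _
          calc ∫⁻ q, ENNReal.ofReal |g (φ n) q - hh j (φ n) q| ∂(nuE.prod μ)
              ≤ ∫⁻ q, (ENNReal.ofReal (8 * (K : ℝ) ^ 2 / ((j : ℝ) + 1)) +
                2 * (ENNReal.ofReal (g (φ n) q) - K)) ∂(nuE.prod μ) :=
                lintegral_mono fun q => ofReal_sub_hR_le j (gn _ q) K
            _ = ENNReal.ofReal (8 * (K : ℝ) ^ 2 / ((j : ℝ) + 1)) +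
                2 * ∫⁻ q, (ENNReal.ofReal (g (φ n) q) - K) ∂(nuE.prod μ) := by
                rw [lintegral_add_left measurable_const, lintegral_const_mul _ me]
                simp only [lintegral_const, measure_univ, mul_one]
            _ ≤ ε / 2 + 2 * (ε / 4) := by
                gcongr
                · exact hN j hj
                · exact hK (φ n)
            _ = ε := by
                have e1 : 2 * (ε / 4) = ε / 2 := by
                  rw [ENNReal.div_eq_inv_mul, ENNReal.div_eq_inv_mul, ← mul_assoc]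
                  congr 1
                  rw [show (4 : ℝ≥0∞) = 2 * 2 by norm_num,
                    ENNReal.mul_inv (by norm_num) (by norm_num), ← mul_assoc,
                    ENNReal.mul_inv_cancel (by norm_num) (by norm_num), one_mul]
                rw [e1, ENNReal.add_halves]
  · -- the equation
    intro j
    have bh : ∀ n q, |hh j n q| ≤ (j : ℝ) + 1 := fun n q => by
      rw [abs_of_nonneg (hh0 j n q)]; exact (hu j n q).trans (uu1 j n q)
    have bH : ∀ q, |H j q| ≤ (j : ℝ) + 1 := fun q => by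
      rw [abs_of_nonneg (H0 j q)]; exact H1 j q
    have w1 : WConv (nuE.prod μ) (fun n q => hh j (φ n) q * a (φ n) q) fun q => H j q * A q :=
      (wH j).mul_of_bdd (fun n => mhh j (φ n)) (mH j) (fun n q => bh (φ n) q) bH
        (h.convA.comp_sub hφt) (fun n => h.ia (φ n)) h.iA
    have iha : ∀ n, Integrable (fun q => hh j n q * a n q) (nuE.prod μ) := fun n =>
      (h.ia n).bdd_mul (c := (j : ℝ) + 1) (mhh j n).aestronglyMeasurable
        (Eventually.of_forall fun q => by rw [Real.norm_eq_abs]; exact bh n q)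
    have iHA : Integrable (fun q => H j q * A q) (nuE.prod μ) :=
      h.iA.bdd_mul (c := (j : ℝ) + 1) (mH j).aestronglyMeasurable
        (Eventually.of_forall fun q => by rw [Real.norm_eq_abs]; exact bH q)
    have w2 := (wQ j).sub w1 (fun n => iqq j (φ n)) (fun n => iha (φ n)) (iQ j) iHA
    have mf : ∀ n, Measurable fun q => qq j n q - hh j n q * a n q := fun n =>
      (mqq j n).sub ((mhh j n).mul (ma n))
    have mF : Measurable fun q => Q j q - H j q * A q := (mQ j).sub ((mH j).mul mA)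
    have jf : ∀ n, Integrable (fun q => qq j n q - hh j n q * a n q) (nuE.prod μ) := fun n =>
      (iqq j n).sub (iha n)
    have jF : Integrable (fun q => Q j q - H j q * A q) (nuE.prod μ) := (iQ j).sub iHA
    have w3 := w2.prim (fun n => mf (φ n)) mF (fun n => jf (φ n)) jF
    -- the initial data
    have s0 : SConv (nuE.prod μ) (fun n q => DL.ren j (g0 n q.2)) fun q => DL.ren j (G0 q.2) := by
      have h1 : ∀ n, ∫⁻ q, ENNReal.ofReal |DL.ren j (g0 n q.2) - DL.ren j (G0 q.2)|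
          ∂(nuE.prod μ) ≤ ∫⁻ p, ENNReal.ofReal |g0 n p - G0 p| ∂μ := by
        intro n
        have h2 : Measurable fun p => ENNReal.ofReal |g0 n p - G0 p| := by
          have h3 := mg0 n
          fun_prop
        calc ∫⁻ q, ENNReal.ofReal |DL.ren j (g0 n q.2) - DL.ren j (G0 q.2)| ∂(nuE.prod μ)
            ≤ ∫⁻ q, ENNReal.ofReal |g0 n q.2 - G0 q.2| ∂(nuE.prod μ) :=
              lintegral_mono fun q => ENNReal.ofReal_le_ofReal
                (ren_lip j (h.g0_nonneg n _) (h.G0_nonneg _))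
          _ = ∫⁻ p, ENNReal.ofReal |g0 n p - G0 p| ∂μ :=
              (measurePreserving_snd (μ := nuE) (ν := μ)).lintegral_comp h2
      exact tendsto_of_tendsto_of_tendsto_of_le_of_le tendsto_const_nhds h.conv0
        (fun n => bot_le) h1
    have i0 : ∀ n, Integrable (fun q : ℝ × Ω => DL.ren j (g0 n q.2)) (nuE.prod μ) := fun n =>
      integrable_of_bdd ((measurable_ren j).comp ((mg0 n).comp measurable_snd))
        (C := (j : ℝ) + 1) fun q => by
          rw [abs_of_nonneg (ren_nn j (h.g0_nonneg n _))]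
          exact ren_le_succ j (h.g0_nonneg n _)
    have I0 : Integrable (fun q : ℝ × Ω => DL.ren j (G0 q.2)) (nuE.prod μ) :=
      integrable_of_bdd ((measurable_ren j).comp (mG0.comp measurable_snd))
        (C := (j : ℝ) + 1) fun q => by
          rw [abs_of_nonneg (ren_nn j (h.G0_nonneg _))]
          exact ren_le_succ j (h.G0_nonneg _)
    have w4 := (s0.comp_sub hφt).wconv (fun n => i0 (φ n)) I0
    have w5 := w4.add w3 (fun n => i0 (φ n)) (fun n => integrable_prim (mf (φ n)) (jf (φ n)))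
      I0 (integrable_prim mF jF)
    have w6 := w5.congr (g' := fun n => uu j (φ n)) (G' := fun q => DL.ren j (G0 q.2) +
        DL.prim (fun q => Q j q - H j q * A q) q) (fun n => by
      filter_upwards [ae_pos_prod μ] with q hq
      exact (h.toCharSeq.ren_eq j (φ n) hq).symm) (Eventually.of_forall fun q => rfl)
    have w7 := (wU j).unique w6 (iU j) (I0.add (integrable_prim mF jF))
    filter_upwards [w7] with q hq
    rw [hq]
    unfold DL.prim
    congr 1
    refine setIntegral_congr_fun measurableSet_Ioc fun s _ => ?_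
    simp only
    ring

end Vale.Agent.P140.DL
end
end

section

open MeasureTheory Set Filter
open scoped ENNReal Topology NNReal

noncomputable section

namespace Vale.Agent.P140.DL

theorem restrict_absCont_nuE : (volume : Measure ℝ).restrict (Ioi 0) ≪ nuE := by
  unfold nuE
  refine withDensity_absolutelyContinuous' (by fun_prop) (ae_of_all _ fun t => ?_)
  simp only [ne_eq, ENNReal.ofReal_eq_zero, not_le, Real.exp_pos]

theorem ae_slices_nuE {Ω : Type*} [MeasurableSpace Ω] {μ : Measure Ω} [IsProbabilityMeasure μ]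
    {P : ℝ × Ω → Prop} (h : ∀ᵐ q ∂(nuE.prod μ), P q) :
    ∀ᵐ p ∂μ, ∀ᵐ t ∂(volume.restrict (Ioi (0 : ℝ))), P (t, p) := by
  have h1 : ∀ᵐ z ∂(μ.prod nuE), P (Prod.swap z) :=
    (Measure.measurePreserving_swap (μ := μ) (ν := nuE)).quasiMeasurePreserving.ae h
  have h2 := Measure.ae_ae_of_ae_prod h1
  filter_upwards [h2] with p hp
  exact restrict_absCont_nuE.ae_le hp

theorem slices_lintegral {Ω : Type*} [MeasurableSpace Ω] {μ : Measure Ω} [IsProbabilityMeasure μ]
    {f : ℝ × Ω → ℝ} (pf : ∀ q, 0 ≤ f q) (hf : Integrable f (nuE.prod μ)) :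
    ∀ᵐ p ∂μ, ∀ T : ℝ, ∫⁻ s in Ioc 0 T, ENNReal.ofReal (f (s, p)) < ⊤ := by
  filter_upwards [hf.prod_left_ae] with p hp T
  have h1 : ∫⁻ s, ENNReal.ofReal (f (s, p)) ∂nuE < ⊤ := by
    have := hp.2
    rwa [hasFiniteIntegral_iff_ofReal (ae_of_all _ fun t => pf (t, p))] at this
  refine lt_of_le_of_lt (lintegral_mono' (restrict_le_nuE T) le_rfl) ?_
  rw [lintegral_smul_measure]
  exact ENNReal.mul_lt_top ENNReal.ofReal_lt_top h1

variable {Ω : Type*} [MeasurableSpace Ω] [MeasurableSpace.CountablyGenerated Ω]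
  {μ : Measure Ω} [IsProbabilityMeasure μ]
  {g a b : ℕ → ℝ × Ω → ℝ} {g0 : ℕ → Ω → ℝ} {G A B : ℝ × Ω → ℝ} {G0 : Ω → ℝ}

/-- the limit solves the limit equation -/
theorem CharLim.limit_eq (h : CharLim μ g a b g0 G A B G0) :
    (∀ᵐ p ∂μ, ∀ T : ℝ, ∫⁻ s in Ioc 0 T, ENNReal.ofReal (A (s, p)) < ⊤) ∧
    (∀ᵐ p ∂μ, ∀ T : ℝ, ∫⁻ s in Ioc 0 T, ENNReal.ofReal (B (s, p)) < ⊤) ∧
    (∀ᵐ p ∂μ, ∀ T : ℝ, ∫⁻ s in Ioc 0 T, ENNReal.ofReal (A (s, p) * G (s, p)) < ⊤) ∧
    ∀ᵐ p ∂μ, ∀ᵐ t ∂(volume.restrict (Ioi (0 : ℝ))),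
      G (t, p) = G0 p + ∫ s in Ioc 0 t, (B (s, p) - A (s, p) * G (s, p)) := by
  obtain ⟨U, H, Q, mU, mH, mQ, pU, pH, pQ, bU, iQ, hle, hlim, heq⟩ := h.ren
  have hA := slices_lintegral h.A_nonneg h.iA
  have hle' : ∀ᵐ p ∂μ, ∀ j, ∀ᵐ t ∂(volume.restrict (Ioi (0 : ℝ))),
      H j (t, p) ≤ U j (t, p) ∧ U j (t, p) ≤ G (t, p) ∧ Q j (t, p) ≤ B (t, p) :=
    ae_all_iff.2 fun j => ae_slices_nuE (P := fun q => H j q ≤ U j q ∧ U j q ≤ G q ∧ Q j q ≤ B q)
      ((hle j).mono fun q hq => ⟨hq.1, hq.2.1, hq.2.2.2⟩)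
  have hlim' := ae_slices_nuE (tendsto_of_lintegral h.mG mH
    (fun j => (hle j).mono fun q hq => ⟨hq.1.trans hq.2.1, hq.2.2.1⟩) hlim)
  have heq' : ∀ᵐ p ∂μ, ∀ j, ∀ᵐ t ∂(volume.restrict (Ioi (0 : ℝ))), U j (t, p) = DL.ren j (G0 p)
        + ∫ s in Ioc 0 t, (Q j (s, p) - A (s, p) * H j (s, p)) :=
    ae_all_iff.2 fun j => ae_slices_nuE (P := fun q => U j q = DL.ren j (G0 q.2)
        + ∫ s in Ioc 0 q.1, (Q j (s, q.2) - A (s, q.2) * H j (s, q.2))) (heq j)
  have hsup := ae_slices_nuE h.super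
  have key : ∀ᵐ p ∂μ, (∀ T : ℝ, ∫⁻ s in Ioc 0 T, ENNReal.ofReal (B (s, p)) < ⊤) ∧
      (∀ T : ℝ, ∫⁻ s in Ioc 0 T, ENNReal.ofReal (A (s, p) * G (s, p)) < ⊤) ∧
      ∀ᵐ t ∂(volume.restrict (Ioi (0 : ℝ))),
        G (t, p) = G0 p + ∫ s in Ioc 0 t, (B (s, p) - A (s, p) * G (s, p)) := by
    filter_upwards [hA, hle', hlim', heq', hsup] with p h1 h2 h3 h4 h5
    exact path_eq (G := fun t => G (t, p)) (A := fun t => A (t, p)) (B := fun t => B (t, p))
      (U := fun j t => U j (t, p)) (H := fun j t => H j (t, p)) (Q := fun j t => Q j (t, p))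
      (G0 := G0 p) (h.mG.comp measurable_prodMk_right) (h.mA.comp measurable_prodMk_right)
      (h.mB.comp measurable_prodMk_right) (fun j => (mH j).comp measurable_prodMk_right)
      (fun j => (mQ j).comp measurable_prodMk_right) (h.G0_nonneg p) (fun t => h.G_nonneg _)
      (fun t => h.A_nonneg _) (fun t => h.B_nonneg _) (fun j t => pU j _) (fun j t => pH j _)
      (fun j t => pQ j _) (fun j t => bU j _) h1 h2 h3 h4 h5
  exact ⟨hA, key.mono fun p hp => hp.1, key.mono fun p hp => hp.2.1, key.mono fun p hp => hp.2.2⟩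

end Vale.Agent.P140.DL
end
end
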