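import Vale.Agent.P140.MathlibUsed
import Vale.Agent.P140.Bd3.B15
import Vale.Agent.P140.Bd3.B9
import Vale.Agent.P140.Bd3.B11
import Vale.Agent.P140.Bd3.B13
import Vale.Agent.P140.Bd3.B10
import Vale.Agent.P140.Bd3.B1
import Vale.Agent.P140.Bd3.B4

set_option linter.all false

attribute [local instance 5000] Vale.Agent.P140.Sc.a01 Vale.Agent.P140.Sc.a02 Vale.Agent.P140.Sc.a03 Vale.Agent.P140.Sc.a04 Vale.Agent.P140.Sc.a05 Vale.Agent.P140.Sc.a06 Vale.Agent.P140.Sc.a07 Vale.Agent.P140.Sc.a08 Vale.Agent.P140.Sc.a09 Vale.Agent.P140.Sc.a10 Vale.Agent.P140.Sc.a11 Vale.Agent.P140.Sc.a12 Vale.Agent.P140.Sc.a13 Vale.Agent.P140.Sc.a14 Vale.Agent.P140.Sc.a15 Vale.Agent.P140.Sc.a16 Vale.Agent.P140.Sc.a17 Vale.Agent.P140.Sc.a18 Vale.Agent.P140.Sc.a19 Vale.Agent.P140.Sc.a20 Vale.Agent.P140.Sc.a21 Vale.Agent.P140.Sc.a22 Vale.Agent.P140.Sc.a23 Vale.Agent.P140.Sc.a24 Vale.Agent.P140.Sc.a25 Vale.Agent.P140.Sc.a26 Vale.Agent.P140.Sc.a27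 Vale.Agent.P140.Sc.a28 Vale.Agent.P140.Sc.a29 Vale.Agent.P140.Sc.a30 Vale.Agent.P140.Sc.a31 Vale.Agent.P140.Sc.a32 Vale.Agent.P140.Sc.a33 Vale.Agent.P140.Sc.r01 Vale.Agent.P140.Sc.r02 Vale.Agent.P140.Sc.r03 Vale.Agent.P140.Sc.r04 Vale.Agent.P140.Sc.r05 Vale.Agent.P140.Sc.r06 Vale.Agent.P140.Sc.r07 Vale.Agent.P140.Sc.r08 Vale.Agent.P140.Sc.r09 Vale.Agent.P140.Sc.r10 Vale.Agent.P140.Sc.r11 Vale.Agent.P140.Sc.r12 Vale.Agent.P140.Sc.r13 Vale.Agent.P140.Sc.r14 Vale.Agent.P140.Sc.r15 Vale.Agent.P140.Sc.r16 Vale.Agent.P140.Sc.r17 Vale.Agent.P140.Sc.r18 Vale.Agent.P140.Sc.a34 Vale.Agent.P140.Sc.a35 Vale.Agent.P140.Sc.a36 Vale.Agent.P140.Sc.a37 Vale.Agent.P140.Sc.a38 Vale.Agent.P140.Sc.a39 Vale.Agent.P140.Sc.a40 Vale.Agent.P140.Sc.a42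

section

/-!
P140, module S: three collisions after a regular velocity.
-/

open MeasureTheory Set Filter
open scoped ENNReal Topology

noncomputable section

namespace Vale.Agent.P140.NU.S

theorem meas_lab (P : Par) (c : ℝ) : MeasurableSet {p : T3 × V × ℝ × ℝ |
    0 ≤ rr (mv p.1 p.2.1 p.2.2.1) - P.w * p.2.2.2 ∧
      rr (mv p.1 p.2.1 p.2.2.1) - P.w * p.2.2.2 < c} := by
  have h1 : Measurable fun p : T3 × V × ℝ × ℝ => mv p.1 p.2.1 p.2.2.1 := by
    have h : Measurable fun p : T3 × V × ℝ × ℝ => ((p.1, p.2.1, p.2.2.1) : T3 × V × ℝ) :=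
      measurable_fst.prodMk (measurable_snd.fst.prodMk measurable_snd.snd.fst)
    exact (measurable_mv3.comp h :)
  have h2 : Measurable fun p : T3 × V × ℝ × ℝ =>
      rr (mv p.1 p.2.1 p.2.2.1) - P.w * p.2.2.2 :=
    (measurable_rr.comp h1).sub (measurable_snd.snd.snd.const_mul _)
  exact (measurableSet_le measurable_const h2).inter (measurableSet_lt h2 measurable_const)

/-- indicator of small labels at time `τ` on the flight `(x, w)` starting at time `τ1` -/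
def sl (P : Par) (c τ1 : ℝ) (x : T3) (w : V) (τ : ℝ) : ℝ≥0∞ :=
  ind (0 ≤ rr (mv x w (τ - τ1)) - P.w * τ ∧ rr (mv x w (τ - τ1)) - P.w * τ < c)

theorem meas_sl (P : Par) (c τ1 : ℝ) (x : T3) :
    Measurable fun p : V × ℝ => sl P c τ1 x p.1 p.2 := by
  have h : Measurable fun p : V × ℝ => ((x, p.1, p.2 - τ1, p.2) : T3 × V × ℝ × ℝ) :=
    measurable_const.prodMk (measurable_fst.prodMk
      ((measurable_snd.sub_const _).prodMk measurable_snd))
  exact meas_ind (h (meas_lab P c))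

theorem meas_sl' (P : Par) (c τ1 : ℝ) (x : T3) (w : V) :
    Measurable fun τ : ℝ => sl P c τ1 x w τ := by
  have h : Measurable fun τ : ℝ => ((w, τ) : V × ℝ) := measurable_const.prodMk measurable_id
  have h2 := (meas_sl P c τ1 x).comp h
  exact h2

/-- velocities in a ball -/
theorem KG_ball {P : Par} (hP : Nice P) {ρ V0 M : ℝ} (hρ : 0 < ρ) (hM : 0 < M) :
    ∃ C : ℝ, 0 < C ∧ ∀ᶠ t0 in 𝓝[>] (0 : ℝ), ∀ n, P.ss n ≤ t0 → ∀ t ∈ Icc 0 t0, ∀ x,
      rr x ≤ M * P.TT n t → ∀ v, Reg ρ v →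
      KG P n t x v (fun _ w => ind (‖w‖ ≤ V0)) ≤ ENNReal.ofReal (C / P.TT n t) := by
  obtain ⟨C, hC, h⟩ := reg_total hP hρ hM
  refine ⟨Real.exp (V0 ^ 2 / 8) * C, by positivity, ?_⟩
  filter_upwards [h] with t0 h n hn t ht x hx v hv
  have hle : ∀ w : V, ind (‖w‖ ≤ V0) ≤ ENNReal.ofReal (Real.exp (V0 ^ 2 / 8)) * Ph P x w := by
    intro w
    by_cases hw : ‖w‖ ≤ V0
    · rw [ind_of hw]
      unfold Ph Ga
      have h1 : (1 : ℝ≥0∞) ≤ Wt (us P 1 x) (us P (-1) x) w := le_add_right le_rfl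
      calc (1 : ℝ≥0∞) = ENNReal.ofReal (Real.exp (V0 ^ 2 / 8)) *
            (ENNReal.ofReal (Real.exp (-(V0 ^ 2 / 8))) * 1) := by
            rw [mul_one, ← ENNReal.ofReal_mul (by positivity), ← Real.exp_add]
            simp
        _ ≤ _ := by
            gcongr
    · rw [ind_of_not hw]
      exact zero_le
  calc KG P n t x v (fun _ w => ind (‖w‖ ≤ V0))
      ≤ KG P n t x v (fun _ w => ENNReal.ofReal (Real.exp (V0 ^ 2 / 8)) * Ph P x w) :=
        KG_mono fun u w _ => hle w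
    _ = ENNReal.ofReal (Real.exp (V0 ^ 2 / 8)) * KG P n t x v (fun _ w => Ph P x w) :=
        KG_const_mul _ (meas_Ph2 P x)
    _ ≤ ENNReal.ofReal (Real.exp (V0 ^ 2 / 8)) * ENNReal.ofReal (C / P.TT n t) := by
        gcongr
        exact h n hn t ht x hx v hv
    _ = _ := by
        rw [← ENNReal.ofReal_mul (by positivity)]
        congr 1
        ring

theorem meas_ball2 (V0 : ℝ) : Measurable fun p : V × V => ind (‖p.2‖ ≤ V0) :=
  meas_ind (measurableSet_le measurable_snd.norm measurable_const)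

/-- the third layer -/
theorem layer3 {P : Par} {n : ℕ} {g : Gp} {T t1 τ2 η3 V3 a3 b3 : ℝ}
    {f : ℝ → T3 → V → ℝ≥0∞} {H : ℝ≥0∞} {v u1 w1 u2 w2 : V} {s1 : ℝ} {x2 : T3} (hV3 : V3 ≤ g.Vm)
    (h3 : ∀ D : ℝ → V, UK P n t1 f τ2 x2 w2 ≤
      (∫⁻ τ3 in Icc t1 (τ2 - g.k * T), KG P n τ3 (mv x2 w2 (τ3 - τ2)) w2
        fun u w => ind (GR V3 a3 b3 g.l (D τ3) w2 u w) * f τ3 (mv x2 w2 (τ3 - τ2)) w) +
        ENNReal.ofReal η3 * H) :
    UK P n t1 f τ2 x2 w2 ≤ good3 P n g T t1 f v u1 w1 u2 w2 s1 τ2 x2 + ENNReal.ofReal η3 * H := by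
  refine (h3 fun τ3 => dd s1 (τ2 - τ3) v u1 w1 u2 w2).trans ?_
  gcongr
  unfold good3
  refine setLIntegral_mono' measurableSet_Icc fun τ3 _ => KG_mono fun u w _ => ?_
  by_cases h : GR V3 a3 b3 g.l (dd s1 (τ2 - τ3) v u1 w1 u2 w2) w2 u w
  · have h' : R3 g (dd s1 (τ2 - τ3) v u1 w1 u2 w2) w2 u w := ⟨h.1.trans hV3, h.2.2.2⟩
    rw [ind_of h, ind_of h']
  · rw [ind_of_not h, zero_mul]
    exact zero_le

/-- the second layer, at a fixed time, good labels -/
theorem layer2_good {P : Par} {n : ℕ} {g : Gp} {T t1 τ2 η3 V2 a2 V3 a3 b3 l2 E2 s1 : ℝ}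
    {f : ℝ → T3 → V → ℝ≥0∞} {H : ℝ≥0∞} {v u1 w1 : V} {x2 : T3} (hV2 : V2 ≤ g.Vm)
    (hV3 : V3 ≤ g.Vm) (ha2 : g.a ≤ a2) (hη3 : 0 ≤ η3)
    (h3 : ∀ w2, ‖w2‖ ≤ V2 → Reg a2 w2 → ∀ D : ℝ → V, UK P n t1 f τ2 x2 w2 ≤
      (∫⁻ τ3 in Icc t1 (τ2 - g.k * T), KG P n τ3 (mv x2 w2 (τ3 - τ2)) w2
        fun u w => ind (GR V3 a3 b3 g.l (D τ3) w2 u w) * f τ3 (mv x2 w2 (τ3 - τ2)) w) +
        ENNReal.ofReal η3 * H)
    (hball : KG P n τ2 x2 w1 (fun _ w => ind (‖w‖ ≤ V2)) ≤ ENNReal.ofReal (E2 / T)) :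
    KG P n τ2 x2 w1 (fun u w => ind (GR V2 a2 g.b l2 0 w1 u w) * UK P n t1 f τ2 x2 w) ≤
      KG P n τ2 x2 w1 (fun u2 w2 => ind (R2 g w2) *
          good3 P n g T t1 f v u1 w1 u2 w2 s1 τ2 x2) + H * ENNReal.ofReal (η3 * E2 / T) := by
  have e1 : KG P n τ2 x2 w1
      (fun u w => ind (GR V2 a2 g.b l2 0 w1 u w) * UK P n t1 f τ2 x2 w) ≤
      KG P n τ2 x2 w1 (fun u2 w2 =>
        (ENNReal.ofReal η3 * H) * ind (‖w2‖ ≤ V2) + ind (R2 g w2) *
          good3 P n g T t1 f v u1 w1 u2 w2 s1 τ2 x2) := by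
    refine KG_mono fun u w _ => ?_
    by_cases hg : GR V2 a2 g.b l2 0 w1 u w
    · have hR : R2 g w := ⟨hg.1.trans hV2, ⟨ha2.trans hg.2.1.1, ha2.trans hg.2.1.2⟩,
        hg.2.2.1⟩
      rw [ind_of hg, ind_of hR, ind_of hg.1, one_mul, mul_one, one_mul, add_comm]
      exact layer3 hV3 fun D => h3 w hg.1 hg.2.1 D
    · rw [ind_of_not hg, zero_mul]
      exact zero_le
  have e2 : KG P n τ2 x2 w1 (fun u2 w2 =>
        (ENNReal.ofReal η3 * H) * ind (‖w2‖ ≤ V2) + ind (R2 g w2) *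
          good3 P n g T t1 f v u1 w1 u2 w2 s1 τ2 x2) =
      (ENNReal.ofReal η3 * H) * KG P n τ2 x2 w1 (fun _ w => ind (‖w‖ ≤ V2)) +
      KG P n τ2 x2 w1 (fun u2 w2 => ind (R2 g w2) *
          good3 P n g T t1 f v u1 w1 u2 w2 s1 τ2 x2) := by
    rw [KG_add ((meas_ball2 V2).const_mul _), KG_const_mul _ (meas_ball2 V2)]
  have e3 : ENNReal.ofReal η3 * H * KG P n τ2 x2 w1 (fun _ w => ind (‖w‖ ≤ V2)) ≤
      H * ENNReal.ofReal (η3 * E2 / T) := by
    calc ENNReal.ofReal η3 * H * KG P n τ2 x2 w1 (fun _ w => ind (‖w‖ ≤ V2))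
        ≤ ENNReal.ofReal η3 * H * ENNReal.ofReal (E2 / T) := by gcongr
      _ = H * ENNReal.ofReal (η3 * E2 / T) := by
          rw [mul_comm (ENNReal.ofReal η3), mul_assoc, ← ENNReal.ofReal_mul hη3]
          congr 2
          ring
  rw [e2, add_comm] at e1
  exact e1.trans (add_le_add le_rfl e3)

/-- the second layer, at a fixed time, small labels -/
theorem layer2_bad {P : Par} (hP : Nice P) {n : ℕ} {g : Gp} {T t1 τ1 τ2 V2 a2 l2 C2 : ℝ}
    {f : ℝ → T3 → V → ℝ≥0∞} {H : ℝ≥0∞} {w1 : V} {x1 : T3}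
    (hl : ¬ g.e * T ≤ rr (mv x1 w1 (τ2 - τ1)) - P.w * τ2)
    (htot : KG P n τ2 (mv x1 w1 (τ2 - τ1)) w1
      (fun _ w => UK P n t1 f τ2 (mv x1 w1 (τ2 - τ1)) w) ≤ H * ENNReal.ofReal (C2 / T))
    (hnear : ∀ u, cf P n τ2 (mv x1 w1 (τ2 - τ1)) u ≠ 0 →
      P.w * P.TT n τ2 ≤ rr (mv x1 w1 (τ2 - τ1))) :
    KG P n τ2 (mv x1 w1 (τ2 - τ1)) w1
      (fun u w => ind (GR V2 a2 g.b l2 0 w1 u w) * UK P n t1 f τ2 (mv x1 w1 (τ2 - τ1)) w) ≤
      H * ENNReal.ofReal (C2 / T) * sl P (g.e * T) τ1 x1 w1 τ2 := by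
  by_cases hc : ∀ u, cf P n τ2 (mv x1 w1 (τ2 - τ1)) u = 0
  · have h0 : KG P n τ2 (mv x1 w1 (τ2 - τ1)) w1
      (fun u w => ind (GR V2 a2 g.b l2 0 w1 u w) * UK P n t1 f τ2 (mv x1 w1 (τ2 - τ1)) w)
        = 0 := by
      unfold KG
      simp [hc]
    rw [h0]
    exact zero_le
  · push Not at hc hl
    obtain ⟨u, hu⟩ := hc
    have e := hnear u hu
    have hs : sl P (g.e * T) τ1 x1 w1 τ2 = 1 := by
      unfold sl
      apply ind_of
      refine ⟨?_, hl⟩
      have : P.w * τ2 ≤ P.w * P.TT n τ2 := by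
        apply mul_le_mul_of_nonneg_left _ hP.w0.le
        unfold Par.TT
        linarith [hP.ss0 n]
      linarith
    rw [hs, mul_one]
    refine le_trans (KG_mono fun u w _ => ?_) htot
    calc _ ≤ 1 * UK P n t1 f τ2 (mv x1 w1 (τ2 - τ1)) w := by
          gcongr
          exact ind_le_oneS _
      _ = _ := one_mul _

/-- hypotheses on the second layer -/
structure L2H (P : Par) (n : ℕ) (g : Gp) (T t1 t A η2 η3 V1 a1 V2 a2 V3 a3 b3 l2 E2 C2 M1 : ℝ)
    (f : ℝ → T3 → V → ℝ≥0∞) (H : ℝ≥0∞) : Prop where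
  hV2 : V2 ≤ g.Vm
  hV3 : V3 ≤ g.Vm
  ha2 : g.a ≤ a2
  hT : 0 < T
  hV1 : 0 ≤ V1
  hA : 0 ≤ A
  hη2 : 0 ≤ η2
  hη3 : 0 ≤ η3
  hE2 : 0 ≤ E2
  hgk : 0 ≤ g.k
  ht1 : 0 ≤ t1
  htT : t ≤ T
  h2 : ∀ τ1 ∈ Icc t1 t, ∀ x1, rr x1 ≤ M1 * T → ∀ w1, ‖w1‖ ≤ V1 → Reg a1 w1 →
    UK P n t1 (UK P n t1 f) τ1 x1 w1 ≤
      (∫⁻ τ2 in Icc t1 (τ1 - g.k * T), KG P n τ2 (mv x1 w1 (τ2 - τ1)) w1
        fun u w => ind (GR V2 a2 g.b l2 0 w1 u w) * UK P n t1 f τ2 (mv x1 w1 (τ2 - τ1)) w) +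
        ENNReal.ofReal η2 * (ENNReal.ofReal A * H)
  h3 : ∀ τ2 ∈ Icc t1 t, ∀ x2, rr x2 ≤ (M1 + V1) * T → ∀ w2, ‖w2‖ ≤ V2 → Reg a2 w2 →
      ∀ D : ℝ → V, UK P n t1 f τ2 x2 w2 ≤
      (∫⁻ τ3 in Icc t1 (τ2 - g.k * T), KG P n τ3 (mv x2 w2 (τ3 - τ2)) w2
        fun u w => ind (GR V3 a3 b3 g.l (D τ3) w2 u w) * f τ3 (mv x2 w2 (τ3 - τ2)) w) +
        ENNReal.ofReal η3 * H
  hball : ∀ τ2 ∈ Icc t1 t, ∀ x2, rr x2 ≤ (M1 + V1) * T → ∀ w1, Reg a1 w1 →
      KG P n τ2 x2 w1 (fun _ w => ind (‖w‖ ≤ V2)) ≤ ENNReal.ofReal (E2 / T)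
  htot : ∀ τ2 ∈ Icc t1 t, ∀ x2, rr x2 ≤ (M1 + V1) * T → ∀ w1, Reg a1 w1 →
      KG P n τ2 x2 w1 (fun _ w => UK P n t1 f τ2 x2 w) ≤ H * ENNReal.ofReal (C2 / T)
  hnear : ∀ τ ∈ Icc t1 t, ∀ x, rr x ≤ (M1 + V1) * T → ∀ u, cf P n τ x u ≠ 0 →
      P.w * P.TT n τ ≤ rr x

/-- the second layer, at a fixed time -/
theorem layer2_key {P : Par} (hP : Nice P) {n : ℕ} {g : Gp}
    {T t1 t τ1 A η2 η3 V1 a1 V2 a2 V3 a3 b3 l2 E2 C2 M1 : ℝ}
    {f : ℝ → T3 → V → ℝ≥0∞} {H : ℝ≥0∞}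
    (h : L2H P n g T t1 t A η2 η3 V1 a1 V2 a2 V3 a3 b3 l2 E2 C2 M1 f H) (v u1 : V) {w1 : V}
    {x1 : T3} (hτ1 : τ1 ∈ Icc t1 t) (hx1 : rr x1 ≤ M1 * T) (hw1 : ‖w1‖ ≤ V1)
    (hr1 : Reg a1 w1) {τ2 : ℝ} (hτ : τ2 ∈ Icc t1 (τ1 - g.k * T)) :
    KG P n τ2 (mv x1 w1 (τ2 - τ1)) w1
      (fun u w => ind (GR V2 a2 g.b l2 0 w1 u w) * UK P n t1 f τ2 (mv x1 w1 (τ2 - τ1)) w) ≤
      ind (g.e * T ≤ rr (mv x1 w1 (τ2 - τ1)) - P.w * τ2) *
        KG P n τ2 (mv x1 w1 (τ2 - τ1)) w1 (fun u2 w2 => ind (R2 g w2) *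
          good3 P n g T t1 f v u1 w1 u2 w2 (τ1 - τ2) τ2 (mv x1 w1 (τ2 - τ1))) +
      (H * ENNReal.ofReal (η3 * E2 / T) + H * ENNReal.ofReal (C2 / T) *
        sl P (g.e * T) τ1 x1 w1 τ2) := by
  have hkT : 0 ≤ g.k * T := mul_nonneg h.hgk h.hT.le
  have hτ2 : τ2 ∈ Icc t1 t := ⟨hτ.1, by linarith [hτ.2, hτ1.2]⟩
  have hx2 : rr (mv x1 w1 (τ2 - τ1)) ≤ (M1 + V1) * T := by
    have e3 := rr_mv_le' x1 w1 (τ2 - τ1)
    have e4 : |τ2 - τ1| ≤ T := by
      rw [abs_sub_comm, abs_of_nonneg (by linarith [hτ.2])]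
      linarith [hτ.1, hτ1.2, h.ht1, h.htT]
    have e5 : |τ2 - τ1| * ‖w1‖ ≤ T * V1 := mul_le_mul e4 hw1 (norm_nonneg _) h.hT.le
    linarith only [e5, e3, hx1]
  by_cases hl : g.e * T ≤ rr (mv x1 w1 (τ2 - τ1)) - P.w * τ2
  · rw [ind_of hl, one_mul, ← add_assoc]
    exact (layer2_good h.hV2 h.hV3 h.ha2 h.hη3 (fun w2 c1 c2 D => h.h3 τ2 hτ2 _ hx2 w2 c1 c2 D)
      (h.hball τ2 hτ2 _ hx2 w1 hr1)).trans (le_add_right le_rfl)
  · exact (layer2_bad hP hl (h.htot τ2 hτ2 _ hx2 w1 hr1) (h.hnear τ2 hτ2 _ hx2)).trans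
      (le_add_left (le_add_left le_rfl))

/-- the second layer -/
theorem layer2 {P : Par} (hP : Nice P) {n : ℕ} {g : Gp}
    {T t1 t τ1 A η2 η3 V1 a1 V2 a2 V3 a3 b3 l2 E2 C2 M1 : ℝ}
    {f : ℝ → T3 → V → ℝ≥0∞} {H : ℝ≥0∞}
    (h : L2H P n g T t1 t A η2 η3 V1 a1 V2 a2 V3 a3 b3 l2 E2 C2 M1 f H) (v u1 : V) {w1 : V}
    {x1 : T3} (hτ1 : τ1 ∈ Icc t1 t) (hx1 : rr x1 ≤ M1 * T) (hw1 : ‖w1‖ ≤ V1)
    (hr1 : Reg a1 w1) :
    UK P n t1 (UK P n t1 f) τ1 x1 w1 ≤ good2 P n g T t1 f v u1 w1 τ1 x1 +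
      (H * ENNReal.ofReal (η3 * E2 + η2 * A) + H * ENNReal.ofReal (C2 / T) *
        ∫⁻ τ in Icc t1 (τ1 - g.k * T), sl P (g.e * T) τ1 x1 w1 τ) := by
  have hms := meas_sl' P (g.e * T) τ1 x1 w1
  have hkT : 0 ≤ g.k * T := mul_nonneg h.hgk h.hT.le
  have hT := h.hT
  have e0 : UK P n t1 (UK P n t1 f) τ1 x1 w1
      ≤ (∫⁻ τ2 in Icc t1 (τ1 - g.k * T),
          (ind (g.e * T ≤ rr (mv x1 w1 (τ2 - τ1)) - P.w * τ2) *
        KG P n τ2 (mv x1 w1 (τ2 - τ1)) w1 (fun u2 w2 => ind (R2 g w2) *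
          good3 P n g T t1 f v u1 w1 u2 w2 (τ1 - τ2) τ2 (mv x1 w1 (τ2 - τ1))) +
      (H * ENNReal.ofReal (η3 * E2 / T) + H * ENNReal.ofReal (C2 / T) *
        sl P (g.e * T) τ1 x1 w1 τ2))) + ENNReal.ofReal η2 * (ENNReal.ofReal A * H) :=
    (h.h2 τ1 hτ1 x1 hx1 w1 hw1 hr1).trans (add_le_add (setLIntegral_mono' measurableSet_Icc
      fun τ2 hτ => layer2_key hP h v u1 hτ1 hx1 hw1 hr1 hτ) le_rfl)
  have e1 : (∫⁻ τ2 in Icc t1 (τ1 - g.k * T),
          (ind (g.e * T ≤ rr (mv x1 w1 (τ2 - τ1)) - P.w * τ2) *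
        KG P n τ2 (mv x1 w1 (τ2 - τ1)) w1 (fun u2 w2 => ind (R2 g w2) *
          good3 P n g T t1 f v u1 w1 u2 w2 (τ1 - τ2) τ2 (mv x1 w1 (τ2 - τ1))) +
      (H * ENNReal.ofReal (η3 * E2 / T) + H * ENNReal.ofReal (C2 / T) *
        sl P (g.e * T) τ1 x1 w1 τ2))) = good2 P n g T t1 f v u1 w1 τ1 x1 +
        (H * ENNReal.ofReal (η3 * E2 / T) *
          ENNReal.ofReal (τ1 - g.k * T - t1) + H * ENNReal.ofReal (C2 / T) *
          ∫⁻ τ in Icc t1 (τ1 - g.k * T), sl P (g.e * T) τ1 x1 w1 τ) := by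
    have hm2 : Measurable fun τ => H * ENNReal.ofReal (η3 * E2 / T) +
        H * ENNReal.ofReal (C2 / T) * sl P (g.e * T) τ1 x1 w1 τ :=
      measurable_const.add (hms.const_mul _)
    rw [lintegral_add_right _ hm2,
      lintegral_add_left measurable_const, setLIntegral_const, Real.volume_Icc,
      lintegral_const_mul _ hms]
    rfl
  have e2 : H * ENNReal.ofReal (η3 * E2 / T) * ENNReal.ofReal (τ1 - g.k * T - t1) ≤
      H * ENNReal.ofReal (η3 * E2) := by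
    have h1 : 0 ≤ η3 * E2 / T := div_nonneg (mul_nonneg h.hη3 h.hE2) hT.le
    rw [mul_assoc, ← ENNReal.ofReal_mul h1]
    have h2 : τ1 - g.k * T - t1 ≤ T := by linarith [hτ1.2, h.ht1, h.htT]
    refine mul_le_mul_right (ENNReal.ofReal_le_ofReal ?_) H
    calc η3 * E2 / T * (τ1 - g.k * T - t1) ≤ η3 * E2 / T * T :=
          mul_le_mul_of_nonneg_left h2 h1
      _ = η3 * E2 := by field_simp
  have e3 : ENNReal.ofReal η2 * (ENNReal.ofReal A * H) = H * ENNReal.ofReal (η2 * A) := by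
    rw [← mul_assoc, ← ENNReal.ofReal_mul h.hη2, mul_comm]
  rw [e1, e3] at e0
  refine e0.trans ?_
  rw [ENNReal.ofReal_add (mul_nonneg h.hη3 h.hE2) (mul_nonneg h.hη2 h.hA), mul_add]
  calc _ ≤ good2 P n g T t1 f v u1 w1 τ1 x1 + (H * ENNReal.ofReal (η3 * E2) +
        H * ENNReal.ofReal (C2 / T) *
          ∫⁻ τ in Icc t1 (τ1 - g.k * T), sl P (g.e * T) τ1 x1 w1 τ) +
          H * ENNReal.ofReal (η2 * A) := by gcongr
    _ = _ := by ring

theorem meas_lint_sl (P : Par) (c τ1 : ℝ) (x : T3) (S : Set ℝ) :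
    Measurable fun p : V × V => ∫⁻ τ in S, sl P c τ1 x p.2 τ := by
  have h : Measurable fun w : V => ∫⁻ τ in S, sl P c τ1 x w τ :=
    (meas_sl P c τ1 x).lintegral_prod_right'
  have h1 : Measurable fun p : V × V => p.2 := measurable_snd
  have h2 := h.comp h1
  exact h2

/-- the first layer, at a fixed time -/
theorem layer1_key {P : Par} (hP : Nice P) {n : ℕ} {g : Gp}
    {T t1 t τ1 A η2 η3 η4 V1 a1 b1 l1 V2 a2 V3 a3 b3 l2 E1 E2 C2 M1 : ℝ}
    {f : ℝ → T3 → V → ℝ≥0∞} {H : ℝ≥0∞}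
    (h : L2H P n g T t1 t A η2 η3 V1 a1 V2 a2 V3 a3 b3 l2 E2 C2 M1 f H) (hV1 : V1 ≤ g.Vm)
    (ha1 : g.a ≤ a1) (hE1 : 0 ≤ E1) (hC2 : 0 ≤ C2) (hη4 : 0 ≤ η4) {v : V} {y : T3}
    (hτ1 : τ1 ∈ Icc t1 t)
    (hy : rr y ≤ M1 * T)
    (hball : KG P n τ1 y v (fun _ w => ind (‖w‖ ≤ V1)) ≤ ENNReal.ofReal (E1 / T))
    (hlab : KG P n τ1 y v (fun _ w => ind (‖w‖ ≤ V1) *
      ∫⁻ τ in Icc t1 (τ1 - g.k * T), sl P (g.e * T) τ1 y w τ) ≤ ENNReal.ofReal η4) :
    KG P n τ1 y v (fun u w => ind (GR V1 a1 b1 l1 0 v u w) * UK P n t1 (UK P n t1 f) τ1 y w) ≤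
      KG P n τ1 y v (fun u1 w1 => ind (R1 g w1) * good2 P n g T t1 f v u1 w1 τ1 y) +
      H * ENNReal.ofReal (((η3 * E2 + η2 * A) * E1 + C2 * η4) / T) := by
  have hT := h.hT
  have hc : 0 ≤ η3 * E2 + η2 * A :=
    add_nonneg (mul_nonneg h.hη3 h.hE2) (mul_nonneg h.hη2 h.hA)
  have m1 : Measurable fun p : V × V => H * ENNReal.ofReal (η3 * E2 + η2 * A) *
      ind (‖p.2‖ ≤ V1) := (meas_ball2 V1).const_mul _
  have m2 : Measurable fun p : V × V => ind (‖p.2‖ ≤ V1) *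
      ∫⁻ τ in Icc t1 (τ1 - g.k * T), sl P (g.e * T) τ1 y p.2 τ :=
    (meas_ball2 V1).mul (meas_lint_sl P _ τ1 y _)
  have m3 : Measurable fun p : V × V => H * ENNReal.ofReal (C2 / T) * (ind (‖p.2‖ ≤ V1) *
      ∫⁻ τ in Icc t1 (τ1 - g.k * T), sl P (g.e * T) τ1 y p.2 τ) := m2.const_mul _
  have e1 : KG P n τ1 y v
      (fun u w => ind (GR V1 a1 b1 l1 0 v u w) * UK P n t1 (UK P n t1 f) τ1 y w) ≤
      KG P n τ1 y v (fun u w => (H * ENNReal.ofReal (η3 * E2 + η2 * A) * ind (‖w‖ ≤ V1) +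
        H * ENNReal.ofReal (C2 / T) * (ind (‖w‖ ≤ V1) *
          ∫⁻ τ in Icc t1 (τ1 - g.k * T), sl P (g.e * T) τ1 y w τ)) +
        ind (R1 g w) * good2 P n g T t1 f v u w τ1 y) := by
    refine KG_mono fun u w _ => ?_
    by_cases hg : GR V1 a1 b1 l1 0 v u w
    · have hR : R1 g w := ⟨hg.1.trans hV1, ⟨ha1.trans hg.2.1.1, ha1.trans hg.2.1.2⟩⟩
      rw [ind_of hg, ind_of hR, ind_of hg.1, one_mul, one_mul, one_mul, mul_one, add_comm]
      exact layer2 hP h v u hτ1 hy hg.1 hg.2.1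
    · rw [ind_of_not hg, zero_mul]
      exact zero_le
  have e2 : KG P n τ1 y v (fun u w =>
        (H * ENNReal.ofReal (η3 * E2 + η2 * A) * ind (‖w‖ ≤ V1) +
        H * ENNReal.ofReal (C2 / T) * (ind (‖w‖ ≤ V1) *
          ∫⁻ τ in Icc t1 (τ1 - g.k * T), sl P (g.e * T) τ1 y w τ)) +
        ind (R1 g w) * good2 P n g T t1 f v u w τ1 y) =
      (H * ENNReal.ofReal (η3 * E2 + η2 * A) * KG P n τ1 y v (fun _ w => ind (‖w‖ ≤ V1)) +
        H * ENNReal.ofReal (C2 / T) * KG P n τ1 y v (fun _ w => ind (‖w‖ ≤ V1) *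
          ∫⁻ τ in Icc t1 (τ1 - g.k * T), sl P (g.e * T) τ1 y w τ)) +
      KG P n τ1 y v (fun u w => ind (R1 g w) * good2 P n g T t1 f v u w τ1 y) := by
    rw [KG_add (m1.add m3), KG_add m1, KG_const_mul _ (meas_ball2 V1), KG_const_mul _ m2]
  have e3 : H * ENNReal.ofReal (η3 * E2 + η2 * A) *
        KG P n τ1 y v (fun _ w => ind (‖w‖ ≤ V1)) +
        H * ENNReal.ofReal (C2 / T) * KG P n τ1 y v (fun _ w => ind (‖w‖ ≤ V1) *
          ∫⁻ τ in Icc t1 (τ1 - g.k * T), sl P (g.e * T) τ1 y w τ) ≤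
      H * ENNReal.ofReal (((η3 * E2 + η2 * A) * E1 + C2 * η4) / T) := by
    calc _ ≤ H * ENNReal.ofReal (η3 * E2 + η2 * A) * ENNReal.ofReal (E1 / T) +
          H * ENNReal.ofReal (C2 / T) * ENNReal.ofReal η4 :=
          add_le_add (mul_le_mul_right hball _) (mul_le_mul_right hlab _)
      _ = H * ENNReal.ofReal (((η3 * E2 + η2 * A) * E1 + C2 * η4) / T) := by
          have h1 : 0 ≤ (η3 * E2 + η2 * A) * (E1 / T) := mul_nonneg hc (div_nonneg hE1 hT.le)
          have h2 : 0 ≤ C2 / T := div_nonneg hC2 hT.le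
          rw [mul_assoc, mul_assoc, ← ENNReal.ofReal_mul hc, ← ENNReal.ofReal_mul h2, ← mul_add,
            ← ENNReal.ofReal_add h1 (mul_nonneg h2 hη4)]
          congr 2
          ring
  rw [e2, add_comm] at e1
  exact e1.trans (add_le_add le_rfl e3)

/-- the first layer -/
theorem layer1 {P : Par} (hP : Nice P) {n : ℕ} {g : Gp}
    {T t1 t A η1 η2 η3 η4 V1 a1 b1 l1 V2 a2 V3 a3 b3 l2 E1 E2 C2 M1 : ℝ}
    {f : ℝ → T3 → V → ℝ≥0∞} {H : ℝ≥0∞}
    (h : L2H P n g T t1 t A η2 η3 V1 a1 V2 a2 V3 a3 b3 l2 E2 C2 M1 f H) (hV1 : V1 ≤ g.Vm)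
    (ha1 : g.a ≤ a1) (hE1 : 0 ≤ E1) (hC2 : 0 ≤ C2) (hη1 : 0 ≤ η1) (hη4 : 0 ≤ η4) {x : T3} {v : V}
    (hy : ∀ τ1 ∈ Icc t1 t, rr (mv x v (τ1 - t)) ≤ M1 * T)
    (hball : ∀ τ1 ∈ Icc t1 t, KG P n τ1 (mv x v (τ1 - t)) v (fun _ w => ind (‖w‖ ≤ V1)) ≤
      ENNReal.ofReal (E1 / T))
    (hlab : ∀ τ1 ∈ Icc t1 t, KG P n τ1 (mv x v (τ1 - t)) v (fun _ w => ind (‖w‖ ≤ V1) *
      ∫⁻ τ in Icc t1 (τ1 - g.k * T), sl P (g.e * T) τ1 (mv x v (τ1 - t)) w τ) ≤
      ENNReal.ofReal η4)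
    (h1 : UK P n t1 (UK P n t1 (UK P n t1 f)) t x v ≤
      (∫⁻ τ1 in Icc t1 (t - g.k * T), KG P n τ1 (mv x v (τ1 - t)) v fun u w =>
        ind (GR V1 a1 b1 l1 0 v u w) * UK P n t1 (UK P n t1 f) τ1 (mv x v (τ1 - t)) w) +
      ENNReal.ofReal η1 * (ENNReal.ofReal A * (ENNReal.ofReal A * H))) :
    UK P n t1 (UK P n t1 (UK P n t1 f)) t x v ≤ good1 P n g T t1 f t x v +
      H * ENNReal.ofReal ((η3 * E2 + η2 * A) * E1 + C2 * η4 + η1 * A ^ 2) := by
  have hT := h.hT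
  have hkT : 0 ≤ g.k * T := mul_nonneg h.hgk h.hT.le
  have hc : 0 ≤ (η3 * E2 + η2 * A) * E1 + C2 * η4 :=
    add_nonneg (mul_nonneg (add_nonneg (mul_nonneg h.hη3 h.hE2) (mul_nonneg h.hη2 h.hA)) hE1)
      (mul_nonneg hC2 hη4)
  refine h1.trans ?_
  have e1 : (∫⁻ τ1 in Icc t1 (t - g.k * T), KG P n τ1 (mv x v (τ1 - t)) v fun u w =>
        ind (GR V1 a1 b1 l1 0 v u w) * UK P n t1 (UK P n t1 f) τ1 (mv x v (τ1 - t)) w) ≤
      ∫⁻ τ1 in Icc t1 (t - g.k * T), (KG P n τ1 (mv x v (τ1 - t)) v (fun u1 w1 =>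
        ind (R1 g w1) * good2 P n g T t1 f v u1 w1 τ1 (mv x v (τ1 - t))) +
      H * ENNReal.ofReal (((η3 * E2 + η2 * A) * E1 + C2 * η4) / T)) := by
    refine setLIntegral_mono' measurableSet_Icc fun τ1 hτ => ?_
    have hτ1 : τ1 ∈ Icc t1 t := ⟨hτ.1, by linarith [hτ.2]⟩
    exact layer1_key hP h hV1 ha1 hE1 hC2 hη4 hτ1 (hy τ1 hτ1) (hball τ1 hτ1) (hlab τ1 hτ1)
  have e2 : (∫⁻ τ1 in Icc t1 (t - g.k * T), (KG P n τ1 (mv x v (τ1 - t)) v (fun u1 w1 =>
        ind (R1 g w1) * good2 P n g T t1 f v u1 w1 τ1 (mv x v (τ1 - t))) +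
      H * ENNReal.ofReal (((η3 * E2 + η2 * A) * E1 + C2 * η4) / T))) ≤
      good1 P n g T t1 f t x v + H * ENNReal.ofReal ((η3 * E2 + η2 * A) * E1 + C2 * η4) := by
    rw [lintegral_add_right _ measurable_const, setLIntegral_const, Real.volume_Icc]
    refine add_le_add ?_ ?_
    · unfold good1
      exact lintegral_mono_set (Icc_subset_Icc le_rfl (by linarith))
    · have h2 : t - g.k * T - t1 ≤ T := by linarith [h.ht1, h.htT]
      have h3 : 0 ≤ ((η3 * E2 + η2 * A) * E1 + C2 * η4) / T := div_nonneg hc hT.le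
      rw [mul_assoc, ← ENNReal.ofReal_mul h3]
      refine mul_le_mul_right (ENNReal.ofReal_le_ofReal ?_) H
      calc ((η3 * E2 + η2 * A) * E1 + C2 * η4) / T * (t - g.k * T - t1) ≤
          ((η3 * E2 + η2 * A) * E1 + C2 * η4) / T * T := mul_le_mul_of_nonneg_left h2 h3
        _ = _ := by field_simp
  have e3 : ENNReal.ofReal η1 * (ENNReal.ofReal A * (ENNReal.ofReal A * H)) =
      H * ENNReal.ofReal (η1 * A ^ 2) := by
    have hA := h.hA
    rw [← mul_assoc, ← mul_assoc, ← ENNReal.ofReal_mul hη1, ← ENNReal.ofReal_mul (by positivity),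
      mul_comm]
    congr 2
    ring
  calc _ ≤ (good1 P n g T t1 f t x v +
        H * ENNReal.ofReal ((η3 * E2 + η2 * A) * E1 + C2 * η4)) + H * ENNReal.ofReal (η1 * A ^ 2) :=
        add_le_add (e1.trans e2) e3.le
    _ = _ := by
        rw [ENNReal.ofReal_add hc (by positivity), mul_add, add_assoc]

/-- iterated bounds on the profile -/
theorem UK_le {P : Par} {A : ℝ} {n : ℕ} {γ t1 t : ℝ}
    (hU : ∀ τ, t1 ≤ τ → τ ≤ t → ∀ H : ℝ≥0∞, ∀ x v,
      UK P n t1 (fun τ x v => H * Pi P n γ τ x v) τ x v ≤ ENNReal.ofReal A * H * Pi P n γ τ x v)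
    {f : ℝ → T3 → V → ℝ≥0∞} {H : ℝ≥0∞}
    (hf : ∀ τ ∈ Icc t1 t, ∀ x v, f τ x v ≤ H * Pi P n γ τ x v) :
    ∀ τ ∈ Icc t1 t, ∀ x v, UK P n t1 f τ x v ≤ (ENNReal.ofReal A * H) * Pi P n γ τ x v := by
  intro τ hτ x v
  refine (UK_mono fun τ' h' x v => hf τ' ⟨h'.1, h'.2.trans hτ.2⟩ x v).trans ?_
  exact hU τ hτ.1 hτ.2 H x v

/-- three collisions after a regular velocity -/
theorem three {P : Par} (hP : Nice P) {η ρ Vm M : ℝ} (hη : 0 < η) (hρ : 0 < ρ) (hV : 0 < Vm)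
    (hM : 0 < M) : ∃ C : ℝ, 0 < C ∧ ∀ᶠ t0 in 𝓝[>] (0 : ℝ), ∀ n, P.j0 ≤ n → P.ss n ≤ t0 →
      ∀ γ ∈ Icc (1 / 8 : ℝ) (1 / 6), ∀ t1 t, 0 ≤ t1 → t1 ≤ t → t ≤ t0 →
      P.TT n t ≤ 2 * P.TT n t1 → ∀ f : ℝ → T3 → V → ℝ≥0∞,
      (Measurable fun p : ℝ × T3 × V => f p.1 p.2.1 p.2.2) →
      (∀ τ ∈ Icc t1 t, ∀ x v a, f τ (zsh x a) v = f τ x v) → ∀ H Nm : ℝ≥0∞,
      (∀ τ ∈ Icc t1 t, ∀ x v, f τ x v ≤ H * Pi P n γ τ x v) →
      (∀ τ ∈ Icc t1 t, ∫⁻ x, ∫⁻ v, f τ x v ≤ Nm) →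
      ∀ x, rr x ≤ M * P.TT n t → ∀ v, ‖v‖ ≤ Vm → Reg ρ v →
      (UK P n t1)^[3] f t x v ≤
        ENNReal.ofReal η * H + ENNReal.ofReal (C / P.TT n t ^ 2) * Nm := by
  obtain ⟨A, hA, hUP⟩ := hP.upi
  obtain ⟨V1, a1, b1, l1, k1, hV1, ha1, hb1, hl1, hk1, s1⟩ :=
    step hP (show 0 < η / (4 * A ^ 2) by positivity) hρ hV hM
  obtain ⟨E1, hE1, hball1⟩ := KG_ball hP (V0 := V1) hρ (show 0 < 2 * (M + Vm) by positivity)
  obtain ⟨V2, a2, b2, l2, k2, hV2, ha2, hb2, hl2, hk2, s2⟩ :=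
    step hP (show 0 < η / (4 * A * (2 * E1)) by positivity) ha1 hV1
      (show 0 < M + Vm by positivity)
  obtain ⟨E2, hE2, hball2⟩ := KG_ball hP (V0 := V2) ha1
    (show 0 < 2 * (M + Vm + V1) by positivity)
  obtain ⟨C2, hC2, htot2⟩ := reg_total hP ha1 (show 0 < 2 * (M + Vm + V1) by positivity)
  obtain ⟨V3, a3, b3, l3, k3, hV3, ha3, hb3, hl3, hk3, s3⟩ :=
    step hP (show 0 < η / (4 * (2 * E2) * (2 * E1)) by positivity) ha2 hV2
      (show 0 < M + Vm + V1 by positivity)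
  have hk : 0 < min k1 (min k2 k3) := lt_min hk1 (lt_min hk2 hk3)
  obtain ⟨e, he, hlab⟩ := bad_label hP (show 0 < η / (4 * (A * (2 * C2))) by positivity) hρ hV1
    (show 0 < M + Vm by positivity) hk
  set g : Gp := ⟨max Vm (max V1 (max V2 V3)), min ρ (min a1 a2), b2, min k1 (min k2 k3), e, l3⟩
    with hg
  have hgp : g.Pos := ⟨lt_max_of_lt_left hV, lt_min hρ (lt_min ha1 ha2), hb2, hk, he, hl3⟩
  obtain ⟨C, hC, hgood⟩ := good1_le hP g hgp hM
  refine ⟨C, hC, ?_⟩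
  filter_upwards [hUP, s1, hball1, s2, hball2, htot2, s3, hlab, hgood,
    cold_near hP one_pos (show 0 < 2 * (M + Vm + V1) by positivity)] with t0 hUP s1 hball1 s2
    hball2 htot2 s3 hlab hgood hnear
  intro n hj hn γ hγ t1 t ht1 h1t ht hT f hf hfz H Nm hfH hfN x hx v hv hreg
  set T := P.TT n t with hTd
  have hT0 : 0 < T := by
    have := hP.ss0 n
    rw [hTd]
    unfold Par.TT
    linarith only [this, h1t, ht1]
  have hw := hP.w0
  have htT : t ≤ T := by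
    have := hP.ss0 n
    rw [hTd]
    unfold Par.TT
    linarith only [this]
  have hTT : ∀ τ ∈ Icc t1 t, τ ∈ Icc 0 t0 ∧ P.TT n τ ≤ T ∧ T ≤ 2 * P.TT n τ ∧ 0 < P.TT n τ := by
    intro τ h
    have e1 : P.TT n t1 ≤ P.TT n τ := TT_mono P n h.1
    have e2 : P.TT n τ ≤ T := TT_mono P n h.2
    refine ⟨⟨ht1.trans h.1, h.2.trans ht⟩, e2, by linarith, by linarith only [e1, hT0, hT]⟩
  have hU : ∀ τ, t1 ≤ τ → τ ≤ t → ∀ H : ℝ≥0∞, ∀ x v,
      UK P n t1 (fun τ x v => H * Pi P n γ τ x v) τ x v ≤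
        ENNReal.ofReal A * H * Pi P n γ τ x v := by
    intro τ h1 h2 H x v
    exact hUP n hj γ hγ t1 τ ht1 h1 (h2.trans ht) (((hTT τ ⟨h1, h2⟩).2.1).trans hT) H x v
  have hU1 := UK_le hU hfH
  have hU2 := UK_le hU hU1
  have hf1 := meas_UK (P := P) (n := n) (t1 := t1) hf
  have hf2 := meas_UK (P := P) (n := n) (t1 := t1) hf1
  have hrr : ∀ {c : ℝ}, 0 ≤ c → ∀ τ ∈ Icc t1 t, ∀ y, rr y ≤ c * T → rr y ≤ 2 * c * P.TT n τ := by
    intro c hc τ hτ y hy
    have := (hTT τ hτ).2.2.1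
    linarith only [mul_nonneg (sub_nonneg.2 hc) (sub_nonneg.2 this), hy]
  have hkk : ∀ {c : ℝ}, min k1 (min k2 k3) ≤ c → g.k ∈ Ioc 0 c := fun h => ⟨hk, h⟩
  have hfix : ∀ τ ∈ Icc t1 t, rr (mv x v (τ - t)) ≤ (M + Vm) * T := fun τ hτ =>
    (fix_facts hP ht1 le_rfl hT hx hv hτ).2.2.1
  have hL : L2H P n g T t1 t A (η / (4 * A * (2 * E1))) (η / (4 * (2 * E2) * (2 * E1))) V1 a1 V2 a2
      V3 a3 b3 l2 (2 * E2) (A * (2 * C2)) (M + Vm) f H := by
    refine ⟨(le_max_left _ _).trans ((le_max_right _ _).trans (le_max_right _ _)),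
      (le_max_right _ _).trans ((le_max_right _ _).trans (le_max_right _ _)),
      (min_le_right _ _).trans (min_le_right _ _), hT0, hV1.le, hA.le, by positivity,
      by positivity, by positivity, hk.le, ht1, htT, ?_, ?_, ?_, ?_, ?_⟩
    · intro τ1 hτ1 x1 hx1 w1 hw1 hr1
      exact s2 n hn γ hγ t1 τ1 T ht1 hτ1.1 (hTT τ1 hτ1).1.2 (hTT τ1 hτ1).2.1 hT g.k
        (hkk ((min_le_right _ _).trans (min_le_left _ _))) (UK P n t1 f) hf1
        (ENNReal.ofReal A * H) (fun τ' h' => hU1 τ' ⟨h'.1, h'.2.trans hτ1.2⟩) x1 hx1 w1 hw1 hr1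
        (fun _ => 0)
    · intro τ2 hτ2 x2 hx2 w2 hw2 hr2 D
      exact s3 n hn γ hγ t1 τ2 T ht1 hτ2.1 (hTT τ2 hτ2).1.2 (hTT τ2 hτ2).2.1 hT g.k
        (hkk ((min_le_right _ _).trans (min_le_right _ _))) f hf
        H (fun τ' h' => hfH τ' ⟨h'.1, h'.2.trans hτ2.2⟩) x2 hx2 w2 hw2 hr2 D
    · intro τ2 hτ2 x2 hx2 w1 hr1
      exact (hball2 n hn τ2 (hTT τ2 hτ2).1 x2 (hrr (by positivity) τ2 hτ2 x2 hx2) w1 hr1).trans
        (ofReal_div_TT (hTT τ2 hτ2).2.2.1 (hTT τ2 hτ2).2.2.2 hT0 hE2.le)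
    · intro τ2 hτ2 x2 hx2 w1 hr1
      have hx2' := hrr (by positivity) τ2 hτ2 x2 hx2
      calc KG P n τ2 x2 w1 (fun _ w => UK P n t1 f τ2 x2 w)
          ≤ KG P n τ2 x2 w1 (fun _ w => (ENNReal.ofReal A * H) * Ph P x2 w) := by
            refine KG_mono fun u w hu => (hU1 τ2 hτ2 x2 w).trans (mul_le_mul_right ?_ _)
            have e := (hnear n hn τ2 (hTT τ2 hτ2).1 x2 hx2' u hu).1
            have : 0 < P.w * P.TT n τ2 := mul_pos hw (hTT τ2 hτ2).2.2.2
            exact Pi_le_Ph hP hγ.1 (hTT τ2 hτ2).1.1 (by linarith only [this, e]) w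
        _ = (ENNReal.ofReal A * H) * KG P n τ2 x2 w1 (fun _ w => Ph P x2 w) :=
            KG_const_mul _ (meas_Ph2 P x2)
        _ ≤ (ENNReal.ofReal A * H) * ENNReal.ofReal (2 * C2 / T) :=
            mul_le_mul_right ((htot2 n hn τ2 (hTT τ2 hτ2).1 x2 hx2' w1 hr1).trans
              (ofReal_div_TT (hTT τ2 hτ2).2.2.1 (hTT τ2 hτ2).2.2.2 hT0 hC2.le)) _
        _ = H * ENNReal.ofReal (A * (2 * C2) / T) := by
            rw [mul_comm (ENNReal.ofReal A), mul_assoc, ← ENNReal.ofReal_mul hA.le]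
            congr 2
            ring
    · intro τ hτ y hy u hu
      exact (hnear n hn τ (hTT τ hτ).1 y (hrr (by positivity) τ hτ y hy) u hu).1
  have hstep1 := s1 n hn γ hγ t1 t T ht1 h1t ht le_rfl hT g.k (hkk (min_le_left _ _))
    (UK P n t1 (UK P n t1 f)) hf2 (ENNReal.ofReal A * (ENNReal.ofReal A * H)) hU2 x hx v hv hreg
    (fun _ => 0)
  have hfin := layer1 hP hL ((le_max_left _ _).trans (le_max_right _ _))
    ((min_le_right _ _).trans (min_le_left _ _)) (show 0 ≤ 2 * E1 by positivity)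
    (show 0 ≤ A * (2 * C2) by positivity) (show 0 ≤ η / (4 * A ^ 2) by positivity)
    (show 0 ≤ η / (4 * (A * (2 * C2))) by positivity) hfix ?_ ?_ hstep1
  · calc (UK P n t1)^[3] f t x v = UK P n t1 (UK P n t1 (UK P n t1 f)) t x v := rfl
      _ ≤ _ := hfin
      _ ≤ ENNReal.ofReal (C / T ^ 2) * Nm + H * ENNReal.ofReal η := by
          refine add_le_add ?_ (mul_le_mul_right (ENNReal.ofReal_le_ofReal (le_of_eq ?_)) _)
          · refine hgood n hn t ⟨ht1.trans h1t, ht⟩ t1 ⟨ht1, h1t⟩ hT f hf hfz Nm hfN x hx v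
              (hv.trans (le_max_left _ _)) ?_
            exact ⟨(min_le_left _ _).trans hreg.1, (min_le_left _ _).trans hreg.2⟩
          · field_simp
            ring
      _ = _ := by ring
  · intro τ1 hτ1
    exact (hball1 n hn τ1 (hTT τ1 hτ1).1 _ (hrr (by positivity) τ1 hτ1 _ (hfix τ1 hτ1)) v
      hreg).trans (ofReal_div_TT (hTT τ1 hτ1).2.2.1 (hTT τ1 hτ1).2.2.2 hT0 hE1.le)
  · intro τ1 hτ1
    exact hlab n hn τ1 (hTT τ1 hτ1).1 t1 ⟨ht1, hτ1.1⟩ T (hTT τ1 hτ1).2.1 hT _ (hfix τ1 hτ1) v hreg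

end Vale.Agent.P140.NU.S
end
end

section

set_option linter.all false

/-!
P140, module S: smoothing.
-/

open MeasureTheory Set Filter
open scoped ENNReal Topology

noncomputable section

namespace Vale.Agent.P140.NU

namespace S

theorem nice : EvP Nice := by
  obtain ⟨CK1, hCK1, h1⟩ := KK_Pi
  obtain ⟨CA, hCA, h2⟩ := UK_Pi
  obtain ⟨CK2, hCK2, h3⟩ := KK_small
  refine ((((EvP.basic.and cf_support).and (cf_mass_le.and box_mass)).and (h1.and h2)).and
    (h3.and Pi_mono)).mono ?_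
  rintro P ⟨⟨⟨⟨⟨c1, l0, l1, -, k0, -, j0⟩, supp⟩, ⟨mass, box⟩⟩, ⟨kpi, upi⟩⟩, ⟨ksm, pmono⟩⟩
  have hc : 0 < P.c := by linarith only [l1, l0, c1]
  exact
    { c1 := c1
      lam0 := by linarith only [l1, l0]
      lam1 := l1
      kdel0 := k0
      j0 := j0
      supp := supp
      mass := mass
      box := box
      kpi := ⟨CK1, hCK1, kpi⟩
      ksm := ⟨CK2, hCK2, ksm⟩
      pmono := pmono
      upi := ⟨CA * P.c ^ 3, by positivity, upi⟩ }

theorem Main_w {P : Par} (hP : Nice P) : 0 < P.w := by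
  have := hP.c1
  unfold Par.w
  positivity

theorem Main_ss {P : Par} (hP : Nice P) (n : ℕ) : 0 < P.ss n :=
  div_pos (pow_pos hP.lam0 _) (Main_w hP)

theorem Main_KK_mono {P : Par} {n : ℕ} {t : ℝ} {f g : T3 → V → ℝ≥0∞} {x : T3} {v : V}
    (h : ∀ w, f x w ≤ g x w) : KK P n t f x v ≤ KK P n t g x v := by
  unfold KK Gam
  gcongr with w ω
  exact h _

theorem Main_KK_mul {P : Par} {n : ℕ} {t : ℝ} {f : T3 → V → ℝ≥0∞} {x : T3} {v : V}
    (hf : Measurable (f x)) (c : ℝ≥0∞) :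
    KK P n t (fun x v => c * f x v) x v = c * KK P n t f x v := by
  rw [KK_KG hf, KK_KG (f := fun x v => c * f x v) (hf.const_mul c)]
  exact KG_const_mul c (hf.comp measurable_snd)

theorem Main_meas {P : Par} {n : ℕ} {t1 : ℝ} {f : ℝ → T3 → V → ℝ≥0∞}
    (hf : Measurable fun p : ℝ × T3 × V => f p.1 p.2.1 p.2.2) (k : ℕ) :
    Measurable fun p : ℝ × T3 × V => (UK P n t1)^[k] f p.1 p.2.1 p.2.2 := by
  induction k with
  | zero => exact hf
  | succ k ih =>
    rw [Function.iterate_succ_apply']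
    exact meas_UK ih

/-- lower bound for the profile -/
theorem Main_Pi_ge {P : Par} (hP : Nice P) {n : ℕ} {γ t M2 V2 : ℝ} (hγ : γ ≤ 1 / 6) (hγ0 : 0 ≤ γ)
    (hT : 0 < P.TT n t) (hM2 : 0 ≤ M2) {x : T3} {v : V} (hx : rr x ≤ M2 * P.TT n t)
    (hv : ‖v‖ ≤ V2) :
    ENNReal.ofReal (Real.exp (-(2 * M2) - V2 ^ 2 / 6)) ≤ Pi P n γ t x v := by
  have h1 : yy P n t x v ≤ M2 := by
    unfold yy
    rw [div_le_iff₀ hT]
    refine max_le ?_ (by positivity)
    have := mul_nonneg (norm_nonneg v) hT.le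
    linarith only [this, hx]
  have h2 : γ * ‖v‖ ^ 2 ≤ V2 ^ 2 / 6 := by
    have h3 : ‖v‖ ^ 2 ≤ V2 ^ 2 := pow_le_pow_left₀ (norm_nonneg _) hv 2
    have h4 : γ * ‖v‖ ^ 2 ≤ 1 / 6 * ‖v‖ ^ 2 := mul_le_mul_of_nonneg_right hγ (by positivity)
    linarith only [h4, h3]
  unfold Pi
  have h5 : (1 : ℝ≥0∞) ≤ WW P t x v := by
    unfold WW
    exact le_self_add
  calc ENNReal.ofReal (Real.exp (-(2 * M2) - V2 ^ 2 / 6))
      ≤ ENNReal.ofReal (Real.exp (-(2 * yy P n t x v) - γ * ‖v‖ ^ 2)) * 1 := by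
        rw [mul_one]
        exact ENNReal.ofReal_le_ofReal (Real.exp_le_exp.2 (by linarith [h2, h1]))
    _ ≤ _ := by gcongr

theorem Main_meas_Ga (a b : V) : Measurable fun w : V => Ga a b w := by
  have h : Measurable fun w : V => ((a, b, w) : V × V × V) :=
    measurable_const.prodMk (measurable_const.prodMk measurable_id)
  have h2 := meas_Ga.comp h
  exact h2

/-- the gain of the indicator function of a ball -/
theorem Main_ball {P : Par} (hP : Nice P) {ρ M : ℝ} (hρ : 0 < ρ) (hM : 0 < M) (V' : ℝ) :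
    ∃ C : ℝ, 0 < C ∧ ∀ᶠ t0 in 𝓝[>] (0 : ℝ), ∀ n, P.ss n ≤ t0 → ∀ t ∈ Icc 0 t0, ∀ x,
      rr x ≤ M * P.TT n t → ∀ v, ρ ≤ ‖v - us P 1 x‖ → ρ ≤ ‖v - us P (-1) x‖ →
      KG P n t x v (fun _ w => ind (‖w‖ ≤ V')) ≤ ENNReal.ofReal (C / P.TT n t) := by
  obtain ⟨CG, hCG, hG⟩ := KG_le hP
  obtain ⟨Cp, hCp, hp⟩ := pl_total
  have hE : 0 < Real.exp (V' ^ 2 / 8) * (Cp / (ρ / 2)) := by positivity
  refine ⟨CG * (Real.exp (V' ^ 2 / 8) * (Cp / (ρ / 2))), by positivity, ?_⟩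
  filter_upwards [hG, cold_near hP (show 0 < ρ / 2 by positivity) hM] with t0 hG' hN n hn t ht x hx
    v hv1 hv2
  refine (hG' n t ht x v _ (ENNReal.ofReal (Real.exp (V' ^ 2 / 8) * (Cp / (ρ / 2)))) ?_).trans
    (le_of_eq ?_)
  · intro u hu hne
    have h1 : ρ / 2 ≤ ‖v - u‖ := by
      rcases (hN n hn t ht x hx u hu).2 with h | h
      · have h2 : ‖v - us P 1 x‖ ≤ ‖v - u‖ + ‖u - us P 1 x‖ := by
          have := norm_add_le (v - u) (u - us P 1 x)
          rwa [sub_add_sub_cancel] at this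
        linarith only [h2, h, hv1]
      · have h2 : ‖v - us P (-1) x‖ ≤ ‖v - u‖ + ‖u - us P (-1) x‖ := by
          have := norm_add_le (v - u) (u - us P (-1) x)
          rwa [sub_add_sub_cancel] at this
        linarith only [h2, h, hv2]
    have h3 : ∀ w : V, ind (‖w‖ ≤ V') ≤
        ENNReal.ofReal (Real.exp (V' ^ 2 / 8)) * Ga (us P 1 x) (us P (-1) x) w := by
      intro w
      unfold ind
      split_ifs with h
      · unfold Ga
        rw [← mul_assoc, ← ENNReal.ofReal_mul (Real.exp_pos _).le, ← Real.exp_add]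
        have h4 : 0 ≤ V' ^ 2 / 8 + -(‖w‖ ^ 2 / 8) := by
          have := pow_le_pow_left₀ (norm_nonneg w) h 2
          linarith only [this]
        have h5 : (1 : ℝ≥0∞) ≤ Wt (us P 1 x) (us P (-1) x) w := le_self_add
        calc (1 : ℝ≥0∞) = 1 * 1 := (one_mul 1).symm
          _ ≤ _ := mul_le_mul' (by
            rw [← ENNReal.ofReal_one]
            exact ENNReal.ofReal_le_ofReal (Real.one_le_exp h4)) h5
      · exact zero_le
    have hmeas := Main_meas_Ga (us P 1 x) (us P (-1) x)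
    refine (pl_mono h3).trans ?_
    rw [pl_const_mul _ hmeas, ENNReal.ofReal_mul (Real.exp_pos _).le]
    refine mul_le_mul' le_rfl ((hp v u _ _ hne).trans (ENNReal.ofReal_le_ofReal ?_))
    exact div_le_div_of_nonneg_left hCp.le (by positivity) h1
  · rw [← ENNReal.ofReal_mul' hE.le]
    congr 1
    ring

theorem Main_it {P : Par} {n : ℕ} {t1 t γ A : ℝ}
    (hA : ∀ t', t1 ≤ t' → t' ≤ t → ∀ H : ℝ≥0∞, ∀ x v,
      UK P n t1 (fun τ x v => H * Pi P n γ τ x v) t' x v ≤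
        ENNReal.ofReal A * H * Pi P n γ t' x v) {f : ℝ → T3 → V → ℝ≥0∞} {H : ℝ≥0∞}
    (hf : ∀ τ ∈ Icc t1 t, ∀ x v, f τ x v ≤ H * Pi P n γ τ x v) (k : ℕ) :
    ∀ τ ∈ Icc t1 t, ∀ x v, (UK P n t1)^[k] f τ x v ≤
      ENNReal.ofReal A ^ k * H * Pi P n γ τ x v := by
  induction k with
  | zero =>
    intro τ hτ x v
    rw [pow_zero, one_mul]
    exact hf τ hτ x v
  | succ k ih =>
    intro τ hτ x v
    rw [Function.iterate_succ_apply']
    refine (UK_mono (g := fun τ x v => (ENNReal.ofReal A ^ k * H) * Pi P n γ τ x v)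
      fun τ' hτ' x' v' => ih τ' ⟨hτ'.1, hτ'.2.trans hτ.2⟩ x' v').trans ?_
    refine (hA τ hτ.1 hτ.2 _ x v).trans (le_of_eq ?_)
    rw [pow_succ]
    ring

theorem Main_simple {P : Par} {n : ℕ} {γ τ A κ q : ℝ} (hA : 0 ≤ A) (hq : A ^ 3 * κ ≤ q)
    {g : T3 → V → ℝ≥0∞} {H Pt : ℝ≥0∞} {x0 : T3} {v : V}
    (hg : ∀ w, g x0 w ≤ ENNReal.ofReal A ^ 3 * H * Pi P n γ τ x0 w)
    (hK : KK P n τ (Pi P n γ τ) x0 v ≤ ENNReal.ofReal κ * Pi P n γ τ x0 v)
    (hm : Pi P n γ τ x0 v ≤ Pt) : KK P n τ g x0 v ≤ ENNReal.ofReal q * H * Pt := by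
  have hmeas : Measurable (Pi P n γ τ x0) := by
    have h := (measurable_Pi P n γ).comp
      (measurable_const.prodMk (measurable_const.prodMk measurable_id) :
        Measurable fun w : V => ((τ, x0, w) : ℝ × T3 × V))
    exact h
  calc KK P n τ g x0 v
      ≤ KK P n τ (fun x v => (ENNReal.ofReal A ^ 3 * H) * Pi P n γ τ x v) x0 v := Main_KK_mono hg
    _ = (ENNReal.ofReal A ^ 3 * H) * KK P n τ (Pi P n γ τ) x0 v := Main_KK_mul hmeas _
    _ ≤ (ENNReal.ofReal A ^ 3 * H) * (ENNReal.ofReal κ * Pt) :=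
        mul_le_mul' le_rfl (hK.trans (mul_le_mul' le_rfl hm))
    _ = ENNReal.ofReal (A ^ 3 * κ) * (H * Pt) := by
        rw [ENNReal.ofReal_mul (by positivity), ENNReal.ofReal_pow hA]
        ring
    _ ≤ ENNReal.ofReal q * (H * Pt) := mul_le_mul' (ENNReal.ofReal_le_ofReal hq) le_rfl
    _ = ENNReal.ofReal q * H * Pt := (mul_assoc _ _ _).symm

theorem Main_reg {P : Par} (hP : Nice P) {n : ℕ} {γ τ V' a' κ1 κ2 : ℝ} (hγ : 1 / 8 ≤ γ)
    (hτ : 0 ≤ τ) {g : T3 → V → ℝ≥0∞} {H3 B0 : ℝ≥0∞} {x0 : T3} {v : V} (hx0 : rr x0 ≠ 0)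
    (hgm : Measurable (g x0)) (hg : ∀ w, g x0 w ≤ H3 * Pi P n γ τ x0 w)
    (hgood : ∀ w, ‖w‖ ≤ V' → Reg a' w → g x0 w ≤ B0)
    (hbad : KG P n τ x0 v (fun _ w => ind (V' < ‖w‖ ∨ ¬ Reg a' w) * Ph P x0 w) ≤
      ENNReal.ofReal κ1)
    (hball : KG P n τ x0 v (fun _ w => ind (‖w‖ ≤ V')) ≤ ENNReal.ofReal κ2) :
    KK P n τ g x0 v ≤ B0 * ENNReal.ofReal κ2 + H3 * ENNReal.ofReal κ1 := by
  have m1 : Measurable fun p : V × V => ind (‖p.2‖ ≤ V') :=
    meas_ind (measurableSet_le measurable_snd.norm measurable_const)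
  have hReg : MeasurableSet {p : V × V | Reg a' p.2} := by
    have hz : Measurable fun p : V × V => p.2 2 := (measurable_coord 2).comp measurable_snd
    exact (measurableSet_le measurable_const (hz.sub_const 1).abs).inter
      (measurableSet_le measurable_const (hz.add_const 1).abs)
  have m2 : Measurable fun p : V × V => ind (V' < ‖p.2‖ ∨ ¬ Reg a' p.2) * Ph P x0 p.2 := by
    refine Measurable.mul (meas_ind ?_) ?_
    · exact (measurableSet_lt measurable_const measurable_snd.norm).union hReg.compl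
    · have h := (meas_Ph P).comp (measurable_const.prodMk measurable_snd :
        Measurable fun p : V × V => ((x0, p.2) : T3 × V))
      exact h
  rw [KK_KG hgm]
  calc KG P n τ x0 v (fun _ w => g x0 w)
      ≤ KG P n τ x0 v (fun _ w => B0 * ind (‖w‖ ≤ V') +
          H3 * (ind (V' < ‖w‖ ∨ ¬ Reg a' w) * Ph P x0 w)) := by
        refine KG_mono fun u w _ => ?_
        by_cases hb : V' < ‖w‖ ∨ ¬ Reg a' w
        · refine ((hg w).trans ?_).trans le_add_self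
          have e : ind (V' < ‖w‖ ∨ ¬ Reg a' w) = 1 := if_pos hb
          rw [e, one_mul]
          exact mul_le_mul' le_rfl (Pi_le_Ph hP hγ hτ hx0 w)
        · push Not at hb
          refine (hgood w hb.1 hb.2).trans (le_trans (le_of_eq ?_) le_self_add)
          have e : ind (‖w‖ ≤ V') = 1 := if_pos hb.1
          rw [e, mul_one]
    _ = B0 * KG P n τ x0 v (fun _ w => ind (‖w‖ ≤ V')) +
          H3 * KG P n τ x0 v (fun _ w => ind (V' < ‖w‖ ∨ ¬ Reg a' w) * Ph P x0 w) := by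
        rw [KG_add (m1.const_mul B0), KG_const_mul B0 m1, KG_const_mul H3 m2]
    _ ≤ _ := add_le_add (mul_le_mul' le_rfl hball) (mul_le_mul' le_rfl hbad)

/-- `c / r ≤ 2 c / (w T)` -/
theorem Main_cr {c w T T' r : ℝ} (hc : 0 < c) (hw : 0 < w) (hT : 0 < T) (hT' : T / 2 ≤ T')
    (hr : w * T' ≤ r) : c / r ≤ 2 / T * (c / w) := by
  have h1 : w * (T / 2) ≤ r := (mul_le_mul_of_nonneg_left hT' hw.le).trans hr
  have h2 : 0 < w * (T / 2) := by positivity
  refine (div_le_div_of_nonneg_left hc.le h2 h1).trans (le_of_eq ?_)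
  field_simp

/-- combination of the bounds in the regular case -/
theorem Main_comb {A η k CB C3 T T' : ℝ} (hA : 0 < A) (hη : 0 < η) (hk : 0 < k) (hCB : 0 < CB)
    (hC3 : 0 < C3) (hT : 0 < T) (hT' : T / 2 ≤ T') (H Nm : ℝ≥0∞) :
    (ENNReal.ofReal (k * η / (3 * CB)) * H + ENNReal.ofReal (C3 / T' ^ 2) * Nm) *
        ENNReal.ofReal (CB / T') +
      ENNReal.ofReal A ^ 3 * H * ENNReal.ofReal (k * η / (3 * A ^ 3) / T') ≤
    ENNReal.ofReal (2 / T) * ((ENNReal.ofReal η * H +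
      ENNReal.ofReal (4 * CB * C3 / k / T ^ 2) * Nm) * ENNReal.ofReal k) := by
  have hT'0 : 0 < T' := lt_of_lt_of_le (by positivity) hT'
  have hi : 1 / T' ≤ 2 / T := by
    rw [div_le_div_iff₀ hT'0 hT]
    linarith
  have hi0 : 0 < 1 / T' := by positivity
  have r1 : k * η / (3 * CB) * (CB / T') ≤ 2 / T * (η / 3) * k := by
    have e : k * η / (3 * CB) * (CB / T') = 1 / T' * ((η / 3) * k) := by
      field_simp
    rw [e, mul_assoc]
    exact mul_le_mul_of_nonneg_right hi (by positivity)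
  have r2 : A ^ 3 * (k * η / (3 * A ^ 3) / T') ≤ 2 / T * (η / 3) * k := by
    have e : A ^ 3 * (k * η / (3 * A ^ 3) / T') = 1 / T' * ((η / 3) * k) := by
      field_simp
    rw [e, mul_assoc]
    exact mul_le_mul_of_nonneg_right hi (by positivity)
  have r3 : C3 / T' ^ 2 * (CB / T') ≤ 2 / T * (4 * CB * C3 / k / T ^ 2) * k := by
    have e : C3 / T' ^ 2 * (CB / T') = (1 / T') ^ 3 * (C3 * CB) := by
      field_simp
    have e2 : 2 / T * (4 * CB * C3 / k / T ^ 2) * k = (2 / T) ^ 3 * (C3 * CB) := by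
      field_simp
      ring
    rw [e, e2]
    exact mul_le_mul_of_nonneg_right (pow_le_pow_left₀ hi0.le hi 3) (by positivity)
  have r4 : 2 / T * (η / 3) * k + 2 / T * (η / 3) * k ≤ 2 / T * η * k := by
    have : 0 ≤ 2 / T * (η / 3) * k := by positivity
    have e : 2 / T * η * k = 3 * (2 / T * (η / 3) * k) := by ring
    linarith only [this]
  calc (ENNReal.ofReal (k * η / (3 * CB)) * H + ENNReal.ofReal (C3 / T' ^ 2) * Nm) *
        ENNReal.ofReal (CB / T') +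
      ENNReal.ofReal A ^ 3 * H * ENNReal.ofReal (k * η / (3 * A ^ 3) / T')
      = ENNReal.ofReal (k * η / (3 * CB) * (CB / T')) * H +
        ENNReal.ofReal (C3 / T' ^ 2 * (CB / T')) * Nm +
        ENNReal.ofReal (A ^ 3 * (k * η / (3 * A ^ 3) / T')) * H := by
        rw [ENNReal.ofReal_mul (by positivity), ENNReal.ofReal_mul (by positivity),
          ENNReal.ofReal_mul (p := A ^ 3) (by positivity), ENNReal.ofReal_pow hA.le]
        ring
    _ ≤ ENNReal.ofReal (2 / T * (η / 3) * k) * H +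
        ENNReal.ofReal (2 / T * (4 * CB * C3 / k / T ^ 2) * k) * Nm +
        ENNReal.ofReal (2 / T * (η / 3) * k) * H := by
        gcongr
    _ = ENNReal.ofReal (2 / T * (η / 3) * k + 2 / T * (η / 3) * k) * H +
        ENNReal.ofReal (2 / T * (4 * CB * C3 / k / T ^ 2) * k) * Nm := by
        rw [ENNReal.ofReal_add (by positivity) (by positivity)]
        ring
    _ ≤ ENNReal.ofReal (2 / T * η * k) * H +
        ENNReal.ofReal (2 / T * (4 * CB * C3 / k / T ^ 2) * k) * Nm := by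
        gcongr
    _ = _ := by
        rw [ENNReal.ofReal_mul (p := 2 / T * η) (by positivity),
          ENNReal.ofReal_mul (p := 2 / T) (q := η) (by positivity),
          ENNReal.ofReal_mul (p := 2 / T * (4 * CB * C3 / k / T ^ 2)) (by positivity),
          ENNReal.ofReal_mul (p := 2 / T) (q := 4 * CB * C3 / k / T ^ 2) (by positivity)]
        ring

/-- smoothing for fixed parameters -/
theorem smoothing_nice {P : Par} (hP : Nice P) : ∀ η : ℝ, 0 < η → ∃ C : ℝ, 0 < C ∧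
    ∀ᶠ t0 in 𝓝[>] (0 : ℝ),
    ∀ n, P.j0 ≤ n → P.ss n ≤ t0 → ∀ γ ∈ Icc (1 / 8 : ℝ) (1 / 6), ∀ t1 t, 0 ≤ t1 → t1 ≤ t → t ≤ t0 →
    P.TT n t ≤ 2 * P.TT n t1 → ∀ f : ℝ → T3 → V → ℝ≥0∞,
    (Measurable fun p : ℝ × T3 × V => f p.1 p.2.1 p.2.2) →
    (∀ τ ∈ Icc t1 t, ∀ x v a, f τ (zsh x a) v = f τ x v) → ∀ H Nm : ℝ≥0∞,
    (∀ τ ∈ Icc t1 t, ∀ x v, f τ x v ≤ H * Pi P n γ τ x v) →
    (∀ τ ∈ Icc t1 t, ∫⁻ x, ∫⁻ v, f τ x v ≤ Nm) → ∀ x v,
    (UK P n t1)^[4] f t x v ≤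
      (ENNReal.ofReal η * H + ENNReal.ofReal (C / P.TT n t ^ 2) * Nm) * Pi P n γ t x v := by
  intro η hη
  have hc : 0 < P.c := lt_of_lt_of_le one_pos hP.c1
  have hw := Main_w hP
  obtain ⟨A, hA, hupi⟩ := hP.upi
  obtain ⟨CK, hCK, hkpi⟩ := hP.kpi
  obtain ⟨CS, hCS, hksm⟩ := hP.ksm
  obtain ⟨D, hD⟩ : ∃ D, D = A ^ 3 * CK * P.c := ⟨_, rfl⟩
  have hD0 : 0 < D := by rw [hD]; positivity
  obtain ⟨V2, hV2⟩ : ∃ V2, V2 = D / (P.w * η) := ⟨_, rfl⟩
  have hV20 : 0 < V2 := by rw [hV2]; positivity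
  obtain ⟨M2, hM2⟩ : ∃ M2, M2 = V2 + D / η := ⟨_, rfl⟩
  have hM20 : 0 < M2 := by rw [hM2]; positivity
  obtain ⟨M, hM⟩ : ∃ M, M = 2 * (M2 + V2) := ⟨_, rfl⟩
  have hM0 : 0 < M := by rw [hM]; positivity
  obtain ⟨B, hB⟩ : ∃ B, B = A ^ 3 * CS * (P.c / P.w) := ⟨_, rfl⟩
  have hB0 : 0 < B := by rw [hB]; positivity
  obtain ⟨ρ, hρ⟩ : ∃ ρ, ρ = (η / (3 * B)) ^ 2 := ⟨_, rfl⟩
  have hρ0 : 0 < ρ := by rw [hρ]; positivity
  have hsρ : √ρ = η / (3 * B) := by rw [hρ]; exact Real.sqrt_sq (by positivity)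
  obtain ⟨k, hk⟩ : ∃ k, k = Real.exp (-(2 * M2) - V2 ^ 2 / 6) := ⟨_, rfl⟩
  have hk0 : 0 < k := by rw [hk]; exact Real.exp_pos _
  obtain ⟨V', a', hV', ha', hbad⟩ := bad_vel hP (η := k * η / (3 * A ^ 3)) (ρ := ρ) (Vm := V2)
    (M := M) (by positivity) hρ0 hV20 hM0
  obtain ⟨CB, hCB, hball⟩ := Main_ball hP hρ0 hM0 V'
  obtain ⟨C3, hC3, hthree⟩ := three hP (η := k * η / (3 * CB)) (ρ := a') (Vm := V') (M := M)
    (by positivity) ha' hV' hM0
  refine ⟨4 * CB * C3 / k, by (clear * - hCB hC3 hk0; positivity), ?_⟩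
  filter_upwards [hupi, hkpi, hksm ρ hρ0 M hM0, hP.pmono, hbad, hball, hthree] with t0 upi kpi ksm
    pmono bad ball thr
  intro n hn hss γ hγ t1 t ht1 ht1t htt0 hTT f hf hinv H Nm hfH hfN x v
  have hss0 := Main_ss hP n
  have ht0 : 0 ≤ t := ht1.trans ht1t
  have hTe : ∀ τ, P.TT n τ = τ + P.ss n := fun _ => rfl
  have hT : 0 < P.TT n t := by rw [hTe]; linarith only [ht0, hss0]
  have hTlow : ∀ τ ∈ Icc t1 t, P.TT n t / 2 ≤ P.TT n τ := by
    intro τ hτ
    rw [hTe t1] at hTT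
    rw [hTe τ]
    linarith only [hτ.1, hTT]
  have hTup : ∀ τ ∈ Icc t1 t, P.TT n τ ≤ P.TT n t := by
    intro τ hτ
    rw [hTe τ, hTe t]
    linarith only [hτ.2]
  have hlen : ∀ τ ∈ Icc t1 t, t - τ ≤ P.TT n t / 2 := by
    intro τ hτ
    have h1 := hTlow t1 ⟨le_rfl, ht1t⟩
    rw [hTe t1] at h1
    rw [hTe t] at h1 ⊢
    linarith only [hτ.1, h1]
  have hit := Main_it (fun t' h1 h2 H x v => upi n hn γ hγ t1 t' ht1 h1 (h2.trans htt0)
    ((hTup t' ⟨h1, h2⟩).trans hTT) H x v) hfH 3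
  have hgm := Main_meas (P := P) (n := n) (t1 := t1) hf 3
  generalize hg : (UK P n t1)^[3] f = g at hit hgm
  have hpt : ∀ τ ∈ Icc t1 t, KK P n τ (g τ) (mv x v (τ - t)) v ≤
      ENNReal.ofReal (2 / P.TT n t) * ((ENNReal.ofReal η * H +
        ENNReal.ofReal (4 * CB * C3 / k / P.TT n t ^ 2) * Nm) * Pi P n γ t x v) := by
    intro τ hτ
    have hτ0 : 0 ≤ τ := ht1.trans hτ.1
    have hTτ : 0 < P.TT n τ := by rw [hTe]; linarith only [hτ0, hss0]
    have hTl := hTlow τ hτ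
    have hx0 : mv (mv x v (τ - t)) v (t - τ) = x := by
      rw [mv_mv]
      have : τ - t + (t - τ) = 0 := by ring
      rw [this, mv_zero]
    have hpm : Pi P n γ τ (mv x v (τ - t)) v ≤ Pi P n γ t x v := by
      have h := pmono n γ τ ⟨hτ0, by linarith only [hτ.2, hss0, htt0, hss]⟩ t ⟨hτ.2, by linarith only [hss0, htt0, hss]⟩ (mv x v (τ - t)) v
      rwa [hx0] at h
    have hr1 : rr (mv x v (τ - t)) ≤ rr x + P.TT n t / 2 * ‖v‖ := by
      refine (rr_mv_le' x v (τ - t)).trans (add_le_add le_rfl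
        (mul_le_mul_of_nonneg_right ?_ (norm_nonneg v)))
      rw [abs_sub_comm, abs_of_nonneg (by linarith only [hτ.2])]
      exact hlen τ hτ
    have hr2 : rr x ≤ rr (mv x v (τ - t)) + P.TT n t / 2 * ‖v‖ := by
      refine (rr_le_mv x v (τ - t)).trans (add_le_add le_rfl ?_)
      refine mul_le_mul ?_ (vp_le_norm v) (vp_nonneg v) (by positivity)
      rw [abs_sub_comm, abs_of_nonneg (by linarith only [hτ.2])]
      exact hlen τ hτ
    have hgτ : ∀ w, g τ (mv x v (τ - t)) w ≤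
        ENNReal.ofReal A ^ 3 * H * Pi P n γ τ (mv x v (τ - t)) w := fun w => hit τ hτ _ w
    have hfin : ∀ X : ℝ≥0∞, X ≤ ENNReal.ofReal (2 / P.TT n t * η) * H * Pi P n γ t x v →
        X ≤ ENNReal.ofReal (2 / P.TT n t) * ((ENNReal.ofReal η * H +
          ENNReal.ofReal (4 * CB * C3 / k / P.TT n t ^ 2) * Nm) * Pi P n γ t x v) := by
      intro X hX
      refine hX.trans ?_
      rw [ENNReal.ofReal_mul (by positivity), mul_assoc, mul_assoc]
      refine mul_le_mul' le_rfl ?_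
      rw [← mul_assoc]
      exact mul_le_mul' le_self_add le_rfl
    generalize mv x v (τ - t) = x0 at *
    obtain ⟨hk1, hk2⟩ := kpi n hn γ hγ τ ⟨hτ0, by linarith only [hτ.2, hss0, htt0, hss]⟩ x0 v
    by_cases hr : P.w * P.TT n τ ≤ rr x0
    swap
    · have h0 : KK P n τ (Pi P n γ τ) x0 v = 0 := by
        by_contra h
        exact hr (hk2 h)
      refine hfin _ (Main_simple (κ := 0) hA.le (by rw [mul_zero]; (clear * - hT hη; positivity)) hgτ ?_ hpm)
      rw [h0]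
      exact zero_le
    have hr0 : 0 < rr x0 := lt_of_lt_of_le (by (clear * - hw hTτ; positivity)) hr
    have hcr : P.c / rr x0 ≤ 2 / P.TT n t * (P.c / P.w) := Main_cr hc hw hT hTl hr
    by_cases hv : V2 < ‖v‖
    · -- large velocities
      refine hfin _ (Main_simple (κ := CK * (P.c / rr x0) / (1 + ‖v‖)) hA.le ?_ hgτ hk1 hpm)
      have h1 : CK * (P.c / rr x0) / (1 + ‖v‖) ≤ CK * (2 / P.TT n t * (P.c / P.w)) / V2 := by
        refine div_le_div₀ (by (clear * - hCK hT hc hw; positivity)) (mul_le_mul_of_nonneg_left hcr hCK.le) hV20 ?_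
        linarith only [hv]
      have h2 : A ^ 3 * (CK * (2 / P.TT n t * (P.c / P.w)) / V2) = 2 / P.TT n t * η := by
        rw [hV2, hD]
        field_simp
      rw [← h2]
      exact mul_le_mul_of_nonneg_left h1 (by positivity)
    push Not at hv
    by_cases hx : M2 * P.TT n t ≤ rr x
    · -- far from the line
      refine hfin _ (Main_simple (κ := CK * (P.c / rr x0) / (1 + ‖v‖)) hA.le ?_ hgτ hk1 hpm)
      have h0 : P.TT n t / 2 * ‖v‖ ≤ P.TT n t * V2 := by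
        have := mul_le_mul_of_nonneg_left hv hT.le
        have h3 := mul_nonneg hT.le (norm_nonneg v)
        linarith only [h3, this]
      have h1 : D / η * P.TT n t ≤ rr x0 := by
        have e : M2 * P.TT n t = P.TT n t * V2 + D / η * P.TT n t := by rw [hM2]; ring
        linarith only [e, h0, hx, hr2]
      have h2 : P.c / rr x0 ≤ P.c / (D / η * P.TT n t) :=
        div_le_div_of_nonneg_left hc.le (by positivity) h1
      have h3 : CK * (P.c / rr x0) / (1 + ‖v‖) ≤ CK * (P.c / (D / η * P.TT n t)) := by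
        refine (div_le_self (by positivity) ?_).trans (mul_le_mul_of_nonneg_left h2 hCK.le)
        linarith only [norm_nonneg v]
      have h4 : A ^ 3 * (CK * (P.c / (D / η * P.TT n t))) = 1 / P.TT n t * η := by
        rw [hD]
        field_simp
      have h5 : 1 / P.TT n t * η ≤ 2 / P.TT n t * η :=
        mul_le_mul_of_nonneg_right (div_le_div_of_nonneg_right (by norm_num) hT.le) hη.le
      refine (mul_le_mul_of_nonneg_left h3 (by positivity)).trans ?_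
      rw [h4]
      exact h5
    push Not at hx
    have hx0M : rr x0 ≤ M * P.TT n τ := by
      have h0 : P.TT n t / 2 * ‖v‖ ≤ P.TT n t * V2 := by
        have := mul_le_mul_of_nonneg_left hv hT.le
        have h3 := mul_nonneg hT.le (norm_nonneg v)
        linarith
      have h1 : (M2 + V2) * P.TT n t ≤ M * P.TT n τ := by
        have := mul_le_mul_of_nonneg_left hTl (show 0 ≤ M by positivity)
        rw [hM] at this ⊢
        linarith only [this]
      linarith only [h1, h0, hx, hr1]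
    by_cases hs : SS P 1 x0 v ≤ ρ ^ 2 ∨ SS P (-1) x0 v ≤ ρ ^ 2
    · -- close to a cold velocity
      have hk3 := ksm n hn hss γ hγ τ ⟨hτ0, hτ.2.trans htt0⟩ x0 v hx0M hs
      refine hfin _ (Main_simple (κ := CS * (P.c / rr x0) * √ρ) hA.le ?_ hgτ hk3 hpm)
      have h1 : CS * (P.c / rr x0) * √ρ ≤ CS * (2 / P.TT n t * (P.c / P.w)) * √ρ :=
        mul_le_mul_of_nonneg_right (mul_le_mul_of_nonneg_left hcr hCS.le) (Real.sqrt_nonneg _)
      have h2 : A ^ 3 * (CS * (2 / P.TT n t * (P.c / P.w)) * √ρ) = 2 / P.TT n t * η / 3 := by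
        rw [hsρ, hB]
        field_simp
      have h3 : 2 / P.TT n t * η / 3 ≤ 2 / P.TT n t * η :=
        div_le_self (by positivity) (by norm_num)
      refine (mul_le_mul_of_nonneg_left h1 (by positivity)).trans ?_
      rw [h2]
      exact h3
    push Not at hs
    have hus : ∀ s, ρ ^ 2 < SS P s x0 v → ρ ≤ ‖v - us P s x0‖ := by
      intro s h
      rw [← norm_sub_us P hr0.ne'] at h
      exact (lt_of_pow_lt_pow_left₀ 2 (norm_nonneg _) h).le
    have hreg := Main_reg hP (V' := V') (a' := a') (κ1 := k * η / (3 * A ^ 3) / P.TT n τ)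
      (κ2 := CB / P.TT n τ) (B0 := ENNReal.ofReal (k * η / (3 * CB)) * H +
        ENNReal.ofReal (C3 / P.TT n τ ^ 2) * Nm) hγ.1 hτ0 (g := g τ) (x0 := x0) (v := v) hr0.ne'
      (by
        have h := hgm.comp (measurable_const.prodMk (measurable_const.prodMk measurable_id) :
          Measurable fun w : V => ((τ, x0, w) : ℝ × T3 × V))
        exact h) hgτ
      (by
        intro w hw1 hw2
        have h := thr n hn hss γ hγ t1 τ ht1 hτ.1 (hτ.2.trans htt0) ((hTup τ hτ).trans hTT) f hf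
          (fun τ' hτ' => hinv τ' ⟨hτ'.1, hτ'.2.trans hτ.2⟩) H Nm
          (fun τ' hτ' => hfH τ' ⟨hτ'.1, hτ'.2.trans hτ.2⟩)
          (fun τ' hτ' => hfN τ' ⟨hτ'.1, hτ'.2.trans hτ.2⟩) x0 hx0M w hw1 hw2
        rw [hg] at h
        exact h)
      (bad n hss τ ⟨hτ0, hτ.2.trans htt0⟩ x0 hx0M v hv (hus 1 hs.1) (hus (-1) hs.2))
      (ball n hss τ ⟨hτ0, hτ.2.trans htt0⟩ x0 hx0M v (hus 1 hs.1) (hus (-1) hs.2))
    refine hreg.trans ((Main_comb hA hη hk0 hCB hC3 hT hTl H Nm).trans ?_)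
    refine mul_le_mul' le_rfl (mul_le_mul' le_rfl ?_)
    rw [hk]
    exact Main_Pi_ge hP hγ.2 (by linarith only [hγ.1]) hT hM20.le hx.le hv
  have hstep : (UK P n t1)^[4] f = UK P n t1 g := by
    rw [← hg]
    exact Function.iterate_succ_apply' (UK P n t1) 3 f
  rw [hstep]
  have h2T : 0 ≤ 2 / P.TT n t := by (clear * - hT; positivity)
  calc UK P n t1 g t x v = ∫⁻ τ in Icc t1 t, KK P n τ (g τ) (mv x v (τ - t)) v := rfl
    _ ≤ ∫⁻ τ in Icc t1 t, ENNReal.ofReal (2 / P.TT n t) * ((ENNReal.ofReal η * H +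
        ENNReal.ofReal (4 * CB * C3 / k / P.TT n t ^ 2) * Nm) * Pi P n γ t x v) :=
        setLIntegral_mono' measurableSet_Icc hpt
    _ = ENNReal.ofReal (2 / P.TT n t) * ENNReal.ofReal (t - t1) * ((ENNReal.ofReal η * H +
        ENNReal.ofReal (4 * CB * C3 / k / P.TT n t ^ 2) * Nm) * Pi P n γ t x v) := by
        rw [setLIntegral_const, Real.volume_Icc]
        ring
    _ ≤ 1 * ((ENNReal.ofReal η * H +
        ENNReal.ofReal (4 * CB * C3 / k / P.TT n t ^ 2) * Nm) * Pi P n γ t x v) := by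
        refine mul_le_mul' ?_ le_rfl
        rw [← ENNReal.ofReal_mul h2T, ← ENNReal.ofReal_one]
        refine ENNReal.ofReal_le_ofReal ?_
        have h1 := hlen t1 ⟨le_rfl, ht1t⟩
        rw [div_mul_eq_mul_div, div_le_one hT]
        linarith only [h1]
    _ = _ := one_mul _

end S

theorem smoothing : EvP fun P => ∀ η : ℝ, 0 < η → ∃ C : ℝ, 0 < C ∧ ∀ᶠ t0 in 𝓝[>] (0 : ℝ),
    ∀ n, P.j0 ≤ n → P.ss n ≤ t0 → ∀ γ ∈ Icc (1 / 8 : ℝ) (1 / 6), ∀ t1 t, 0 ≤ t1 → t1 ≤ t → t ≤ t0 →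
    P.TT n t ≤ 2 * P.TT n t1 → ∀ f : ℝ → T3 → V → ℝ≥0∞,
    (Measurable fun p : ℝ × T3 × V => f p.1 p.2.1 p.2.2) →
    (∀ τ ∈ Icc t1 t, ∀ x v a, f τ (zsh x a) v = f τ x v) → ∀ H Nm : ℝ≥0∞,
    (∀ τ ∈ Icc t1 t, ∀ x v, f τ x v ≤ H * Pi P n γ τ x v) →
    (∀ τ ∈ Icc t1 t, ∫⁻ x, ∫⁻ v, f τ x v ≤ Nm) → ∀ x v,
    (UK P n t1)^[4] f t x v ≤
      (ENNReal.ofReal η * H + ENNReal.ofReal (C / P.TT n t ^ 2) * Nm) * Pi P n γ t x v :=
  S.nice.mono fun _ hP => S.smoothing_nice hP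

end Vale.Agent.P140.NU
end
end

section

open MeasureTheory Set Filter
open scoped ENNReal Topology NNReal

noncomputable section

namespace Vale.Agent.P140.DL

variable {N : ℕ → ℕ} {F0 : ℕ → T3 → V → ℝ} {F : ℕ → ℝ → T3 → V → ℝ} {C : ℝ≥0}
  {L : ℝ → T3 → V → ℝ}

instance : IsFiniteMeasure P3 := by
  unfold P3
  infer_instance

/-- `F / M` on `(ℝ × T3) × V` -/
def ggP (F : ℝ → T3 → V → ℝ) (a : (ℝ × T3) × V) : ℝ := F a.1.1 a.1.2 a.2 / Maxw a.2

theorem meas_F2P {F : ℝ → T3 → V → ℝ}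
    (hF : Measurable fun q : ℝ × T3 × V => F q.1 q.2.1 q.2.2) :
    Measurable fun q : (ℝ × T3) × V => F q.1.1 q.1.2 q.2 :=
  hF.comp (measurable_fst.fst.prodMk (measurable_fst.snd.prodMk measurable_snd))

theorem meas_ggP {F : ℝ → T3 → V → ℝ}
    (hF : Measurable fun q : ℝ × T3 × V => F q.1 q.2.1 q.2.2) : Measurable (ggP F) :=
  (meas_F2P hF).div (measurable_Maxw.comp measurable_snd)

theorem meas_dkP (k : ℕ) {F : ℝ → T3 → V → ℝ}
    (hF : Measurable fun q : ℝ × T3 × V => F q.1 q.2.1 q.2.2) :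
    Measurable fun z : ℝ × T3 => dk k (F z.1 z.2) :=
  measurable_dk (α := ℝ × T3) k (f := fun z => F z.1 z.2) (meas_F2P hF)

theorem ggP_nonneg {F : ℝ → T3 → V → ℝ} (hF : ∀ t x v, 0 ≤ F t x v) (a : (ℝ × T3) × V) :
    0 ≤ ggP F a := div_nonneg (hF _ _ _) (Maxw_pos _).le

theorem xN_eqP (k : ℕ) (F : ℝ → T3 → V → ℝ) (q : (ℝ × T3) × V × V) :
    xN k F q = (dk k (F q.1.1 q.1.2)).toReal * (ggP F (q.1, q.2.1) * ggP F (q.1, q.2.2)) := rfl

theorem measurable_xN (k : ℕ) {F : ℝ → T3 → V → ℝ}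
    (hF : Measurable fun q : ℝ × T3 × V => F q.1 q.2.1 q.2.2) : Measurable (xN k F) := by
  have h1 := ((meas_dkP k hF).comp
    (measurable_fst : Measurable fun q : (ℝ × T3) × V × V => q.1)).ennreal_toReal
  have h2 := (meas_ggP hF).comp (by fun_prop : Measurable fun q : (ℝ × T3) × V × V => (q.1, q.2.1))
  have h3 := (meas_ggP hF).comp (by fun_prop : Measurable fun q : (ℝ × T3) × V × V => (q.1, q.2.2))
  exact h1.mul (h2.mul h3)

theorem xN_nonneg (k : ℕ) {F : ℝ → T3 → V → ℝ} (hF : ∀ t x v, 0 ≤ F t x v)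
    (q : (ℝ × T3) × V × V) : 0 ≤ xN k F q := by
  rw [xN_eqP]
  exact mul_nonneg ENNReal.toReal_nonneg (mul_nonneg (ggP_nonneg hF _) (ggP_nonneg hF _))

theorem mp_assocP : MeasurePreserving (MeasurableEquiv.prodAssoc : (ℝ × T3) × V ≃ᵐ ℝ × T3 × V)
    (zet.prod mV) PP := by
  unfold zet PP muM
  exact measurePreserving_prodAssoc _ _ _

theorem mp_assoc3P :
    MeasurePreserving (MeasurableEquiv.prodAssoc : ((ℝ × T3) × V) × V ≃ᵐ (ℝ × T3) × V × V)
    ((zet.prod mV).prod mV) P3 := by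
  unfold P3
  exact measurePreserving_prodAssoc _ _ _

theorem ae_nuE_posP1 : ∀ᵐ t ∂nuE, 0 < t := by
  unfold nuE
  exact (withDensity_absolutelyContinuous _ _).ae_le (ae_restrict_mem measurableSet_Ioi)

theorem lint_ggP {F : ℝ → T3 → V → ℝ}
    (hF : Measurable fun q : ℝ × T3 × V => F q.1 q.2.1 q.2.2) (z : ℝ × T3) :
    ∫⁻ w, ENNReal.ofReal (ggP F (z, w)) ∂mV = rhoE (F z.1 z.2) := by
  have h1 : Measurable fun w : V => ENNReal.ofReal (ggP F (z, w)) :=
    ((meas_ggP hF).comp (by fun_prop : Measurable fun w : V => (z, w))).ennreal_ofReal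
  rw [lintegral_mV h1]
  unfold rhoE
  refine lintegral_congr fun w => ?_
  rw [← ENNReal.ofReal_mul (Maxw_pos w).le]
  congr 1
  unfold ggP
  field_simp [(Maxw_pos w).ne']

/-- energy bound of the approximations -/
theorem energy_apxP1 (h : ASeq N F0 F C) (n : ℕ) :
    ∫⁻ q : ℝ × T3 × V, ENNReal.ofReal (1 + ‖q.2.2‖ ^ 2) * ENNReal.ofReal (den (F n) q) ∂PP ≤ C := by
  have hm := (h.apx n).meas
  have h1 : Measurable fun q : ℝ × T3 × V =>
      ENNReal.ofReal (1 + ‖q.2.2‖ ^ 2) * ENNReal.ofReal (den (F n) q) := by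
    have h2 : Measurable (den (F n)) := hm.div (measurable_Maxw.comp measurable_snd.snd)
    exact (by fun_prop : Measurable fun q : ℝ × T3 × V =>
      ENNReal.ofReal (1 + ‖q.2.2‖ ^ 2)).mul h2.ennreal_ofReal
  unfold PP
  rw [lintegral_prod _ h1.aemeasurable]
  calc ∫⁻ t, ∫⁻ p, ENNReal.ofReal (1 + ‖p.2‖ ^ 2) * ENNReal.ofReal (den (F n) (t, p)) ∂muM ∂nuE
      ≤ ∫⁻ _t, (C : ℝ≥0∞) ∂nuE := by
        refine lintegral_mono_ae ?_
        filter_upwards [ae_nuE_posP1] with t ht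
        have h3 : Measurable fun p : T3 × V => F n t p.1 p.2 :=
          hm.comp (by fun_prop : Measurable fun p : T3 × V => (t, p.1, p.2))
        have h4 := lintegral_den0 h3 measurable_psi2
        have h5 : ∫⁻ p, ENNReal.ofReal (1 + ‖p.2‖ ^ 2) * ENNReal.ofReal (den (F n) (t, p)) ∂muM
            = wInt psi2 (F n t) := h4
        rw [h5, (h.apx n).energy t ht.le]
        exact h.mom n
    _ = C := by simp

theorem int_denP (h : ASeq N F0 F C) (n : ℕ) : Integrable (den (F n)) PP := by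
  have hm := (h.apx n).meas
  have h2 : Measurable (den (F n)) := hm.div (measurable_Maxw.comp measurable_snd.snd)
  have hnn : ∀ q, 0 ≤ den (F n) q := fun q => div_nonneg ((h.apx n).nonneg _ _ _) (Maxw_pos _).le
  refine ⟨h2.aestronglyMeasurable, ?_⟩
  rw [hasFiniteIntegral_iff_ofReal (ae_of_all _ hnn)]
  refine lt_of_le_of_lt ?_ (ENNReal.coe_lt_top (r := C))
  refine le_trans (lintegral_mono fun q => ?_) (energy_apxP1 h n)
  calc ENNReal.ofReal (den (F n) q) = 1 * ENNReal.ofReal (den (F n) q) := (one_mul _).symm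
    _ ≤ ENNReal.ofReal (1 + ‖q.2.2‖ ^ 2) * ENNReal.ofReal (den (F n) q) := by
      gcongr
      rw [ENNReal.one_le_ofReal]
      have := sq_nonneg ‖q.2.2‖
      linarith

/-- energy bound of the limit -/
theorem Lim1.energy (h : Lim1 N F0 F C L) :
    ∫⁻ q : ℝ × T3 × V, ENNReal.ofReal ((1 + ‖q.2.2‖ ^ 2) * den L q) ∂PP ≤ C := by
  have h1 := h.wden.lintegral_weight_le (int_denP h.toASeq)
    (fun n q => div_nonneg ((h.apx n).nonneg _ _ _) (Maxw_pos _).le) h.int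
    (ae_of_all _ fun q => div_nonneg (h.nonneg _ _ _) (Maxw_pos _).le)
    (w := fun q => ENNReal.ofReal (1 + ‖q.2.2‖ ^ 2)) (by fun_prop) (fun q => ENNReal.ofReal_ne_top)
  have h2 : ∫⁻ q : ℝ × T3 × V, ENNReal.ofReal ((1 + ‖q.2.2‖ ^ 2) * den L q) ∂PP =
      ∫⁻ q, ENNReal.ofReal (1 + ‖q.2.2‖ ^ 2) * ENNReal.ofReal (den L q) ∂PP := by
    refine lintegral_congr fun q => ?_
    rw [ENNReal.ofReal_mul (by positivity)]
  rw [h2]
  refine h1.trans ?_
  refine (liminf_le_liminf (Eventually.of_forall fun n => energy_apxP1 h.toASeq n)).trans ?_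
  simp

/-- the weighted density -/
def AaP (F : ℝ → T3 → V → ℝ) (a : (ℝ × T3) × V) : ℝ≥0∞ :=
  ENNReal.ofReal ((1 + ‖a.2‖) * ggP F a)

/-- the normalized density -/
def BbP (k : ℕ) (F : ℝ → T3 → V → ℝ) (a : (ℝ × T3) × V) : ℝ≥0∞ :=
  dk k (F a.1.1 a.1.2) * ENNReal.ofReal (ggP F a)

theorem meas_AaP {F : ℝ → T3 → V → ℝ}
    (hF : Measurable fun q : ℝ × T3 × V => F q.1 q.2.1 q.2.2) : Measurable (AaP F) :=
  ((by fun_prop : Measurable fun a : (ℝ × T3) × V => 1 + ‖a.2‖).mul (meas_ggP hF)).ennreal_ofReal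

theorem meas_BbP (k : ℕ) {F : ℝ → T3 → V → ℝ}
    (hF : Measurable fun q : ℝ × T3 × V => F q.1 q.2.1 q.2.2) : Measurable (BbP k F) :=
  ((meas_dkP k hF).comp measurable_fst).mul (meas_ggP hF).ennreal_ofReal

theorem ofReal_gg_leP {F : ℝ → T3 → V → ℝ} (hF : ∀ t x v, 0 ≤ F t x v) (a : (ℝ × T3) × V) :
    ENNReal.ofReal (ggP F a) ≤ AaP F a := by
  refine ENNReal.ofReal_le_ofReal ?_
  have h1 := ggP_nonneg hF a
  have h2 := norm_nonneg a.2
  linarith [mul_nonneg (sub_nonneg.2 h1) (sub_nonneg.2 h2)]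

theorem Bb_leP (k : ℕ) {F : ℝ → T3 → V → ℝ} (hF : ∀ t x v, 0 ≤ F t x v) (a : (ℝ × T3) × V) :
    BbP k F a ≤ AaP F a := by
  refine le_trans ?_ (ofReal_gg_leP hF a)
  calc BbP k F a ≤ 1 * ENNReal.ofReal (ggP F a) := by
        unfold BbP
        gcongr
        exact dk_le_one _ _
    _ = _ := one_mul _

theorem lint_BbP (k : ℕ) {F : ℝ → T3 → V → ℝ}
    (hF : Measurable fun q : ℝ × T3 × V => F q.1 q.2.1 q.2.2) (z : ℝ × T3) :
    ∫⁻ w, BbP k F (z, w) ∂mV ≤ (k : ℝ≥0∞) + 1 := by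
  have hm : Measurable fun w : V => ENNReal.ofReal (ggP F (z, w)) :=
    ((meas_ggP hF).comp (by fun_prop : Measurable fun w : V => (z, w))).ennreal_ofReal
  have h1 : ∫⁻ w, BbP k F (z, w) ∂mV = ∫⁻ w, dk k (F z.1 z.2) * ENNReal.ofReal (ggP F (z, w)) ∂mV :=
    rfl
  rw [h1, lintegral_const_mul _ hm, lint_ggP hF]
  exact dk_mul_rhoE _ _

/-- product structure -/
theorem lint_P3P {a b : (ℝ × T3) × V → ℝ≥0∞} (ha : Measurable a) (hb : Measurable b) :
    ∫⁻ q, a (q.1, q.2.1) * b (q.1, q.2.2) ∂P3 =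
      ∫⁻ z, (∫⁻ v, a (z, v) ∂mV) * (∫⁻ w, b (z, w) ∂mV) ∂zet := by
  have h1 : Measurable fun q : (ℝ × T3) × V × V => a (q.1, q.2.1) * b (q.1, q.2.2) :=
    (ha.comp (by fun_prop : Measurable fun q : (ℝ × T3) × V × V => (q.1, q.2.1))).mul
      (hb.comp (by fun_prop : Measurable fun q : (ℝ × T3) × V × V => (q.1, q.2.2)))
  unfold P3
  rw [lintegral_prod _ h1.aemeasurable]
  refine lintegral_congr fun z => ?_
  exact lintegral_prod_mul (ha.comp (by fun_prop : Measurable fun v : V => (z, v))).aemeasurable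
    (hb.comp (by fun_prop : Measurable fun v : V => (z, v))).aemeasurable

theorem lint_P3_leP (k : ℕ) {a : (ℝ × T3) × V → ℝ≥0∞} (ha : Measurable a)
    {F : ℝ → T3 → V → ℝ} (hF : Measurable fun q : ℝ × T3 × V => F q.1 q.2.1 q.2.2) :
    ∫⁻ q, a (q.1, q.2.1) * BbP k F (q.1, q.2.2) ∂P3 ≤
      ((k : ℝ≥0∞) + 1) * ∫⁻ x, a x ∂(zet.prod mV) := by
  rw [lint_P3P ha (meas_BbP k hF), lintegral_prod _ ha.aemeasurable,
    ← lintegral_const_mul _ ha.lintegral_prod_right']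
  refine lintegral_mono fun z => ?_
  rw [mul_comm]
  gcongr
  exact lint_BbP k hF z

theorem AB_eqP (k : ℕ) {F : ℝ → T3 → V → ℝ} (hF : ∀ t x v, 0 ≤ F t x v)
    (z : ℝ × T3) (v w : V) :
    AaP F (z, v) * BbP k F (z, w) = ENNReal.ofReal ((1 + ‖v‖) * xN k F (z, v, w)) := by
  unfold AaP BbP
  have h1 : dk k (F z.1 z.2) = ENNReal.ofReal (dk k (F z.1 z.2)).toReal :=
    (ENNReal.ofReal_toReal (ne_top_of_le_ne_top ENNReal.one_ne_top (dk_le_one _ _))).symm
  have h2 := ggP_nonneg hF (z, v)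
  have h3 := ggP_nonneg hF (z, w)
  have h4 : (0 : ℝ) ≤ (dk k (F z.1 z.2)).toReal := ENNReal.toReal_nonneg
  simp only
  rw [h1, ← ENNReal.ofReal_mul h4, ← ENNReal.ofReal_mul (by positivity), xN_eqP]
  congr 1
  ring

/-- the weighted density on time and phase space -/
def CcP (F : ℝ → T3 → V → ℝ) (t : ℝ) (p : T3 × V) : ℝ≥0∞ :=
  ENNReal.ofReal ((1 + ‖p.2‖) * den0 (F t) p)

theorem meas_CcP {F : ℝ → T3 → V → ℝ}
    (hF : Measurable fun q : ℝ × T3 × V => F q.1 q.2.1 q.2.2) :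
    Measurable fun q : ℝ × T3 × V => CcP F q.1 q.2 := by
  have h2 : Measurable fun q : ℝ × T3 × V => F q.1 q.2.1 q.2.2 / Maxw q.2.2 :=
    hF.div (measurable_Maxw.comp measurable_snd.snd)
  exact ((by fun_prop : Measurable fun q : ℝ × T3 × V => 1 + ‖q.2.2‖).mul h2).ennreal_ofReal

theorem AaP_eq_CcP (F : ℝ → T3 → V → ℝ) (a : (ℝ × T3) × V) :
    AaP F a = CcP F (MeasurableEquiv.prodAssoc a).1 (MeasurableEquiv.prodAssoc a).2 := rfl

theorem ui_AaP (h : ASeq N F0 F C) : UI (zet.prod mV) fun n a => AaP (F n) a := by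
  have h0 : UI muM fun (i : ℕ × Ici (0 : ℝ)) p => CcP (F i.1) i.2 p := h.ui_time_weight
  have hS : ∀ᵐ t ∂nuE, t ∈ Ici (0 : ℝ) := by
    filter_upwards [ae_nuE_posP1] with t ht using le_of_lt ht
  have h1 : UI (nuE.prod muM) fun (n : ℕ) q => CcP (F n) q.1 q.2 :=
    UI.of_slices (g := fun (n : ℕ) (t : ℝ) (p : T3 × V) => CcP (F n) t p) hS h0
      (fun n => meas_CcP (h.apx n).meas)
  have h2 := UI.comp_mp (μ := PP) h1 (fun n => meas_CcP (h.apx n).meas) mp_assocP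
  exact h2.mono fun n => ae_of_all _ fun a => (AaP_eq_CcP (F n) a).le

theorem ui_prodP (h : ASeq N F0 F C) (k : ℕ) :
    UI P3 fun n q => AaP (F n) (q.1, q.2.1) * BbP k (F n) (q.1, q.2.2) := by
  have hA := ui_AaP h
  have hB : UI (zet.prod mV) fun n a => BbP k (F n) a :=
    hA.mono fun n => ae_of_all _ fun a => Bb_leP k (h.apx n).nonneg a
  refine UI.of_split fun ε hε => ?_
  have hk0 : ((k : ℝ≥0∞) + 1) ≠ ⊤ := by simp
  have hε2 : ε / 2 ≠ 0 := (ENNReal.div_pos hε.ne' (by simp)).ne'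
  obtain ⟨K, hK⟩ := hA (ε / 2 / ((k : ℝ≥0∞) + 1)) (ENNReal.div_pos hε2 hk0)
  obtain ⟨K', hK'⟩ := hB (ε / 2 / ((K : ℝ≥0∞) + 1)) (ENNReal.div_pos hε2 (by simp))
  refine ⟨fun _ => (K : ℝ≥0∞) * K', measurable_const, ?_,
    fun n q => (AaP (F n) (q.1, q.2.1) - K) * BbP k (F n) (q.1, q.2.2) +
      (K : ℝ≥0∞) * (BbP k (F n) (q.1, q.2.2) - K'), ?_, ?_⟩
  · rw [lintegral_const]
    exact ENNReal.mul_lt_top (ENNReal.mul_lt_top ENNReal.coe_lt_top ENNReal.coe_lt_top)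
      (measure_lt_top _ _)
  · intro n
    refine ae_of_all _ fun q => ?_
    set a := AaP (F n) (q.1, q.2.1)
    set b := BbP k (F n) (q.1, q.2.2)
    have h1 : a ≤ (a - K) + K := le_tsub_add
    have h2 : b ≤ (b - K') + K' := le_tsub_add
    calc a * b ≤ ((a - K) + K) * b := by gcongr
      _ = (a - K) * b + K * b := by rw [add_mul]
      _ ≤ (a - K) * b + K * ((b - K') + K') := by gcongr
      _ = (K : ℝ≥0∞) * K' + ((a - K) * b + K * (b - K')) := by ring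
  · intro n
    have hm := (h.apx n).meas
    have mA : Measurable fun a => AaP (F n) a - K := (meas_AaP hm).sub measurable_const
    have mB : Measurable fun a => BbP k (F n) a - K' := (meas_BbP k hm).sub measurable_const
    have mAB : Measurable fun q : (ℝ × T3) × V × V =>
        (AaP (F n) (q.1, q.2.1) - K) * BbP k (F n) (q.1, q.2.2) :=
      (mA.comp (by fun_prop : Measurable fun q : (ℝ × T3) × V × V => (q.1, q.2.1))).mul
        ((meas_BbP k hm).comp (by fun_prop :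
          Measurable fun q : (ℝ × T3) × V × V => (q.1, q.2.2)))
    have mB2 : Measurable fun q : (ℝ × T3) × V × V => BbP k (F n) (q.1, q.2.2) - K' :=
      mB.comp (by fun_prop : Measurable fun q : (ℝ × T3) × V × V => (q.1, q.2.2))
    show ∫⁻ q, ((AaP (F n) (q.1, q.2.1) - K) * BbP k (F n) (q.1, q.2.2) +
      (K : ℝ≥0∞) * (BbP k (F n) (q.1, q.2.2) - K')) ∂P3 ≤ ε
    rw [lintegral_add_left mAB]
    have e1 : ∫⁻ q, (AaP (F n) (q.1, q.2.1) - K) * BbP k (F n) (q.1, q.2.2) ∂P3 ≤ ε / 2 := by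
      refine (lint_P3_leP k mA hm).trans ?_
      calc ((k : ℝ≥0∞) + 1) * ∫⁻ x, (AaP (F n) x - K) ∂(zet.prod mV)
          ≤ ((k : ℝ≥0∞) + 1) * (ε / 2 / ((k : ℝ≥0∞) + 1)) := by
            gcongr
            exact hK n
        _ ≤ ε / 2 := ENNReal.mul_div_le
    have e2 : ∫⁻ q, (K : ℝ≥0∞) * (BbP k (F n) (q.1, q.2.2) - K') ∂P3 ≤ ε / 2 := by
      have h3 : ∫⁻ q, (BbP k (F n) (q.1, q.2.2) - K') ∂P3 =
          ∫⁻ x, (BbP k (F n) x - K') ∂(zet.prod mV) := by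
        have h4 := lint_P3P (a := fun _ => 1) measurable_const mB
        simp only [one_mul, lintegral_one, measure_univ] at h4
        rw [h4, lintegral_prod _ mB.aemeasurable]
      rw [lintegral_const_mul _ mB2, h3]
      calc (K : ℝ≥0∞) * ∫⁻ x, (BbP k (F n) x - K') ∂(zet.prod mV)
          ≤ ((K : ℝ≥0∞) + 1) * (ε / 2 / ((K : ℝ≥0∞) + 1)) := by
            gcongr
            · exact le_self_add
            · exact hK' n
        _ ≤ ε / 2 := ENNReal.mul_div_le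
    exact (add_le_add e1 e2).trans (ENNReal.add_halves ε).le

/-- exchange of the velocities -/
theorem mp_swapP : MeasurePreserving (fun q : (ℝ × T3) × V × V => (q.1, q.2.2, q.2.1)) P3 P3 := by
  unfold P3
  exact (MeasurePreserving.id zet).prod Measure.measurePreserving_swap

theorem weight_leP (k : ℕ) {F : ℝ → T3 → V → ℝ} (hF : ∀ t x v, 0 ≤ F t x v)
    (q : (ℝ × T3) × V × V) :
    ENNReal.ofReal ((1 + ‖q.2.1‖ + ‖q.2.2‖) * xN k F q) ≤
      AaP F (q.1, q.2.1) * BbP k F (q.1, q.2.2) + AaP F (q.1, q.2.2) * BbP k F (q.1, q.2.1) := by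
  rw [AB_eqP k hF, AB_eqP k hF]
  have h1 : xN k F (q.1, q.2.2, q.2.1) = xN k F q := by
    rw [xN_eqP, xN_eqP]
    simp only
    ring
  have h0 := xN_nonneg k hF q
  have h2 : xN k F (q.1, q.2.1, q.2.2) = xN k F q := rfl
  rw [h1, h2, ← ENNReal.ofReal_add (by positivity) (by positivity)]
  refine ENNReal.ofReal_le_ofReal ?_
  linarith only [h0]

/-- uniform integrability of the normalized products with weight -/
theorem ASeq.ui_xN (h : ASeq N F0 F C) (k : ℕ) :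
    UI P3 fun n q => ENNReal.ofReal ((1 + ‖q.2.1‖ + ‖q.2.2‖) * xN k (F n) q) := by
  have h1 := ui_prodP h k
  have mm : ∀ n, Measurable fun q : (ℝ × T3) × V × V =>
      AaP (F n) (q.1, q.2.1) * BbP k (F n) (q.1, q.2.2) := fun n =>
    ((meas_AaP (h.apx n).meas).comp (by fun_prop :
        Measurable fun q : (ℝ × T3) × V × V => (q.1, q.2.1))).mul
      ((meas_BbP k (h.apx n).meas).comp (by fun_prop :
        Measurable fun q : (ℝ × T3) × V × V => (q.1, q.2.2)))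
  have h2 := h1.comp_mp mm mp_swapP
  exact (h1.add h2 mm).mono fun n => ae_of_all _ fun q => weight_leP k (h.apx n).nonneg q

theorem lint_Aa_limP (h : Lim1 N F0 F C L) : ∫⁻ a, AaP L a ∂(zet.prod mV) < ⊤ := by
  have hm : Measurable (den L) := h.meas.div (measurable_Maxw.comp measurable_snd.snd)
  have h1 : ∫⁻ a, AaP L a ∂(zet.prod mV) =
      ∫⁻ q : ℝ × T3 × V, ENNReal.ofReal ((1 + ‖q.2.2‖) * den L q) ∂PP := by
    have h2 : Measurable fun q : ℝ × T3 × V => ENNReal.ofReal ((1 + ‖q.2.2‖) * den L q) :=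
      ((by fun_prop : Measurable fun q : ℝ × T3 × V => 1 + ‖q.2.2‖).mul hm).ennreal_ofReal
    rw [← mp_assocP.lintegral_comp h2]
    rfl
  rw [h1]
  have h3 : ∫⁻ q : ℝ × T3 × V, ENNReal.ofReal ((1 + ‖q.2.2‖) * den L q) ∂PP ≤
      2 * ∫⁻ q : ℝ × T3 × V, ENNReal.ofReal ((1 + ‖q.2.2‖ ^ 2) * den L q) ∂PP := by
    rw [← lintegral_const_mul' _ _ (by norm_num)]
    refine lintegral_mono fun q => ?_
    have h4 : 0 ≤ den L q := div_nonneg (h.nonneg _ _ _) (Maxw_pos _).le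
    have h5 : 1 + ‖q.2.2‖ ≤ 2 * (1 + ‖q.2.2‖ ^ 2) := by nlinarith [sq_nonneg (‖q.2.2‖ - 1)]
    have h6 : (1 + ‖q.2.2‖) * den L q ≤ 2 * ((1 + ‖q.2.2‖ ^ 2) * den L q) := by
      calc (1 + ‖q.2.2‖) * den L q ≤ 2 * (1 + ‖q.2.2‖ ^ 2) * den L q := by gcongr
        _ = _ := by ring
    refine (ENNReal.ofReal_le_ofReal h6).trans (le_of_eq ?_)
    rw [ENNReal.ofReal_mul (by norm_num : (0 : ℝ) ≤ 2), ENNReal.ofReal_ofNat]
  refine h3.trans_lt ?_
  exact ENNReal.mul_lt_top (by norm_num) (h.energy.trans_lt ENNReal.coe_lt_top)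

theorem Lim1.int_xN (h : Lim1 N F0 F C L) (k : ℕ) :
    Integrable (fun q => (1 + ‖q.2.1‖ + ‖q.2.2‖) * xN k L q) P3 := by
  have hx := measurable_xN k h.meas
  refine ⟨((by fun_prop : Measurable fun q : (ℝ × T3) × V × V =>
    1 + ‖q.2.1‖ + ‖q.2.2‖).mul hx).aestronglyMeasurable, ?_⟩
  rw [hasFiniteIntegral_iff_ofReal (ae_of_all _ fun q =>
    mul_nonneg (by positivity) (xN_nonneg k h.nonneg q))]
  refine (lintegral_mono fun q => weight_leP k h.nonneg q).trans_lt ?_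
  have mm : Measurable fun q : (ℝ × T3) × V × V => AaP L (q.1, q.2.1) * BbP k L (q.1, q.2.2) :=
    ((meas_AaP h.meas).comp (by fun_prop :
        Measurable fun q : (ℝ × T3) × V × V => (q.1, q.2.1))).mul
      ((meas_BbP k h.meas).comp (by fun_prop :
        Measurable fun q : (ℝ × T3) × V × V => (q.1, q.2.2)))
  rw [lintegral_add_left mm]
  have h1 : ∫⁻ q, AaP L (q.1, q.2.1) * BbP k L (q.1, q.2.2) ∂P3 < ⊤ :=
    (lint_P3_leP k (meas_AaP h.meas) h.meas).trans_lt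
      (ENNReal.mul_lt_top (by simp) (lint_Aa_limP h))
  have h2 : ∫⁻ q : (ℝ × T3) × V × V, AaP L (q.1, q.2.2) * BbP k L (q.1, q.2.1) ∂P3 =
      ∫⁻ q, AaP L (q.1, q.2.1) * BbP k L (q.1, q.2.2) ∂P3 := by
    rw [← mp_swapP.lintegral_comp mm]
  rw [h2]
  exact ENNReal.add_lt_top.2 ⟨h1, h1⟩

theorem meas_denP1 {F : ℝ → T3 → V → ℝ}
    (hF : Measurable fun q : ℝ × T3 × V => F q.1 q.2.1 q.2.2) : Measurable (den F) :=
  hF.div (measurable_Maxw.comp measurable_snd.snd)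

theorem ae_rho_finP {F : ℝ → T3 → V → ℝ}
    (hF : Measurable fun q : ℝ × T3 × V => F q.1 q.2.1 q.2.2)
    (hi : Integrable (den F) PP) : ∀ᵐ z ∂zet, rhoE (F z.1 z.2) < ⊤ := by
  have h1 : ∫⁻ z, rhoE (F z.1 z.2) ∂zet < ⊤ := by
    have h2 : ∫⁻ z, rhoE (F z.1 z.2) ∂zet = ∫⁻ a, ENNReal.ofReal (ggP F a) ∂(zet.prod mV) := by
      rw [lintegral_prod _ (meas_ggP hF).ennreal_ofReal.aemeasurable]
      exact lintegral_congr fun z => (lint_ggP hF z).symm
    have h3 : ∫⁻ a, ENNReal.ofReal (ggP F a) ∂(zet.prod mV) = ∫⁻ q, ENNReal.ofReal (den F q) ∂PP := by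
      rw [← mp_assocP.lintegral_comp (meas_denP1 hF).ennreal_ofReal]
      rfl
    rw [h2, h3]
    exact hi.lintegral_lt_top
  exact ae_lt_top (measurable_rhoE (α := ℝ × T3) (f := fun z => F z.1 z.2) (meas_F2P hF)) h1.ne

theorem dk_realP (k : ℕ) {g : V → ℝ} (hg : Measurable g) (h0 : ∀ v, 0 ≤ g v)
    (hf : rhoE g < ⊤) :
    (dk k g).toReal = (1 + max (∫ v, g v) 0 / ((k : ℝ) + 1))⁻¹ := by
  have h1 : ∫ v, g v = (rhoE g).toReal :=
    integral_eq_lintegral_of_nonneg_ae (ae_of_all _ h0) hg.aestronglyMeasurable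
  rw [h1, max_eq_left ENNReal.toReal_nonneg]
  unfold dk
  have h2 : rhoE g / ((k : ℝ≥0∞) + 1) ≠ ⊤ := (ENNReal.div_lt_top hf.ne (by simp)).ne
  rw [ENNReal.toReal_inv, ENNReal.toReal_add ENNReal.one_ne_top h2, ENNReal.toReal_div]
  congr 2

theorem dk_lipP (k : ℕ) (x y : ℝ) : |(1 + max x 0 / ((k : ℝ) + 1))⁻¹ -
    (1 + max y 0 / ((k : ℝ) + 1))⁻¹| ≤ 1 * |x - y| := by
  have hk : (1 : ℝ) ≤ (k : ℝ) + 1 := by
    have : (0 : ℝ) ≤ k := Nat.cast_nonneg k
    linarith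
  have hk0 : (0 : ℝ) < (k : ℝ) + 1 := by linarith
  set a := max x 0 / ((k : ℝ) + 1) with ha
  set b := max y 0 / ((k : ℝ) + 1) with hb
  have ha0 : 0 ≤ a := div_nonneg (le_max_right _ _) hk0.le
  have hb0 : 0 ≤ b := div_nonneg (le_max_right _ _) hk0.le
  have h1 : |a - b| ≤ |x - y| := by
    rw [ha, hb, ← sub_div, abs_div, abs_of_pos hk0, div_le_iff₀ hk0]
    have h2 : |max x 0 - max y 0| ≤ |x - y| := abs_max_sub_max_le_abs x y 0
    have h3 : 0 ≤ |x - y| := abs_nonneg _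
    nlinarith
  have h4 : (1 + a)⁻¹ - (1 + b)⁻¹ = (b - a) * ((1 + a)⁻¹ * (1 + b)⁻¹) := by
    field_simp
    ring
  have h5 : (1 + a)⁻¹ * (1 + b)⁻¹ ≤ 1 := by
    rw [← mul_inv]
    apply inv_le_one_of_one_le₀
    linarith only [mul_nonneg (sub_nonneg.2 ha0) (sub_nonneg.2 hb0), hb0, ha0]
  have h6 : 0 ≤ (1 + a)⁻¹ * (1 + b)⁻¹ := by (clear * -; positivity)
  rw [h4, abs_mul, abs_of_nonneg h6, one_mul, abs_sub_comm b a]
  have h7 : 0 ≤ |a - b| := abs_nonneg _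
  linarith only [mul_nonneg (sub_nonneg.2 h5) (sub_nonneg.2 h7), mul_nonneg (sub_nonneg.2 h1) (sub_nonneg.2 h6), mul_nonneg (sub_nonneg.2 h1) (sub_nonneg.2 h5)]

theorem SConv.congrP {α : Type*} [MeasurableSpace α] {μ : Measure α} {g g' : ℕ → α → ℝ}
    {G G' : α → ℝ} (hg : SConv μ g G) (h : ∀ n, ∀ᵐ a ∂μ, g n a = g' n a)
    (h' : ∀ᵐ a ∂μ, G a = G' a) : SConv μ g' G' := by
  unfold SConv at *
  refine hg.congr fun n => lintegral_congr_ae ?_
  filter_upwards [h n, h'] with a h1 h2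
  rw [h1, h2]

theorem SConv.liftP {θ : ℕ → ℝ × T3 → ℝ} {Θ : ℝ × T3 → ℝ} (h : SConv zet θ Θ)
    (mθ : ∀ n, Measurable (θ n)) (mΘ : Measurable Θ) :
    SConv (zet.prod mV) (fun n a => θ n a.1) fun a => Θ a.1 := by
  unfold SConv at *
  refine h.congr fun n => ?_
  have h1 : Measurable fun z => ENNReal.ofReal |θ n z - Θ z| :=
    ((mθ n).sub mΘ).abs.ennreal_ofReal
  exact ((measurePreserving_fst (μ := zet) (ν := mV)).lintegral_comp h1).symm

theorem Lim1.dk_conv (h : Lim1 N F0 F C L) (k : ℕ) :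
    SConv zet (fun n z => (dk k (F n z.1 z.2)).toReal) fun z => (dk k (L z.1 z.2)).toReal := by
  have h1 := (h.avg (ψ := fun _ => 1) measurable_const (by simp)).lip
    (f := fun x => (1 + max x 0 / ((k : ℝ) + 1))⁻¹) (L := 1) (dk_lipP k)
  refine h1.congrP (fun n => ?_) ?_
  · filter_upwards [ae_rho_finP (h.apx n).meas (int_denP h.toASeq n)] with z hz
    have hm : Measurable (F n z.1 z.2) :=
      (meas_F2P (h.apx n).meas).comp (by fun_prop : Measurable fun v : V => (z, v))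
    simp only [mul_one]
    rw [dk_realP k hm ((h.apx n).nonneg _ _) hz]
  · filter_upwards [ae_rho_finP h.meas h.int] with z hz
    have hm : Measurable (L z.1 z.2) :=
      (meas_F2P h.meas).comp (by fun_prop : Measurable fun v : V => (z, v))
    simp only [mul_one]
    rw [dk_realP k hm (h.nonneg _ _) hz]

/-- local density of the velocities in t -/
def RtP (t : Set V) (F : ℝ → T3 → V → ℝ) (z : ℝ × T3) : ℝ :=
  ∫ v, F z.1 z.2 v * t.indicator (fun _ => (1 : ℝ)) v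

theorem set_int_ggP {t : Set V} (ht : MeasurableSet t) (F : ℝ → T3 → V → ℝ) (z : ℝ × T3) :
    ∫ w in t, ggP F (z, w) ∂mV = RtP t F z := by
  rw [← integral_indicator ht, integral_mV]
  unfold RtP
  refine integral_congr_ae (ae_of_all _ fun w => ?_)
  by_cases hw : w ∈ t
  · simp only [indicator_of_mem hw, ggP, mul_one]
    field_simp [(Maxw_pos w).ne']
  · simp only [indicator_of_notMem hw, mul_zero]

theorem meas_RtP {t : Set V} (ht : MeasurableSet t) {F : ℝ → T3 → V → ℝ}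
    (hF : Measurable fun q : ℝ × T3 × V => F q.1 q.2.1 q.2.2) : Measurable (RtP t F) := by
  have h1 : Measurable fun q : (ℝ × T3) × V =>
      F q.1.1 q.1.2 q.2 * t.indicator (fun _ => (1 : ℝ)) q.2 :=
    (meas_F2P hF).mul ((measurable_const.indicator ht).comp measurable_snd)
  exact h1.stronglyMeasurable.integral_prod_right'.measurable

theorem RtP_bound (t : Set V) (k : ℕ) {F : ℝ → T3 → V → ℝ} (h0 : ∀ t x v, 0 ≤ F t x v)
    (z : ℝ × T3) : |(dk k (F z.1 z.2)).toReal * RtP t F z| ≤ (k : ℝ) + 1 := by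
  rw [abs_mul, abs_of_nonneg ENNReal.toReal_nonneg]
  by_cases hf : rhoE (F z.1 z.2) = ⊤
  · have h1 : dk k (F z.1 z.2) = 0 := by
      unfold dk
      rw [hf, ENNReal.top_div_of_ne_top (by simp)]
      simp
    rw [h1, ENNReal.toReal_zero, zero_mul]
    positivity
  · have h1 : |RtP t F z| ≤ (rhoE (F z.1 z.2)).toReal := by
      have h2 := norm_integral_le_lintegral_norm (μ := (volume : Measure V))
        (fun v => F z.1 z.2 v * t.indicator (fun _ => (1 : ℝ)) v)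
      refine h2.trans (ENNReal.toReal_mono hf ?_)
      unfold rhoE
      refine lintegral_mono fun v => ENNReal.ofReal_le_ofReal ?_
      rw [Real.norm_eq_abs, abs_mul, abs_of_nonneg (h0 _ _ _)]
      by_cases hv : v ∈ t
      · simp [indicator_of_mem hv]
      · simp [indicator_of_notMem hv, h0]
    calc (dk k (F z.1 z.2)).toReal * |RtP t F z|
        ≤ (dk k (F z.1 z.2)).toReal * (rhoE (F z.1 z.2)).toReal := by
          gcongr
      _ = (dk k (F z.1 z.2) * rhoE (F z.1 z.2)).toReal := ENNReal.toReal_mul.symm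
      _ ≤ (((k : ℝ≥0∞) + 1)).toReal := ENNReal.toReal_mono (by simp) (dk_mul_rhoE _ _)
      _ = (k : ℝ) + 1 := by
        rw [ENNReal.toReal_add (by simp) (by simp)]
        simp

theorem dk_real_leP (k : ℕ) (g : V → ℝ) : |(dk k g).toReal| ≤ 1 := by
  rw [abs_of_nonneg ENNReal.toReal_nonneg]
  have := ENNReal.toReal_mono ENNReal.one_ne_top (dk_le_one k g)
  simpa using this

theorem int_ggP {F : ℝ → T3 → V → ℝ} (hi : Integrable (den F) PP) :
    Integrable (ggP F) (zet.prod mV) :=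
  (mp_assocP.integrable_comp_of_integrable hi :)

theorem rect_xNP (k : ℕ) {s : Set ((ℝ × T3) × V)} {t : Set V} (hs : MeasurableSet s)
    (ht : MeasurableSet t) {F : ℝ → T3 → V → ℝ}
    (hi : Integrable (fun b : ((ℝ × T3) × V) × V => xN k F (b.1.1, b.1.2, b.2))
      ((zet.prod mV).prod mV)) :
    ∫ p in s ×ˢ t, xN k F (p.1.1, p.1.2, p.2) ∂((zet.prod mV).prod mV) =
      ∫ a, (ggP F a * ((dk k (F a.1.1 a.1.2)).toReal * RtP t F a.1)) *
        s.indicator (fun _ => (1 : ℝ)) a ∂(zet.prod mV) := by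
  rw [setIntegral_prod _ hi.integrableOn, ← integral_indicator hs]
  refine integral_congr_ae (ae_of_all _ fun a => ?_)
  by_cases ha : a ∈ s
  · simp only [indicator_of_mem ha, mul_one]
    have h1 : ∀ w : V, xN k F (a.1, a.2, w) =
        ((dk k (F a.1.1 a.1.2)).toReal * ggP F a) * ggP F (a.1, w) := by
      intro w
      rw [xN_eqP]
      simp only
      ring
    have h2 : ∫ w in t, xN k F (a.1, a.2, w) ∂mV =
        ((dk k (F a.1.1 a.1.2)).toReal * ggP F a) * ∫ w in t, ggP F (a.1, w) ∂mV := by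
      rw [← integral_const_mul]
      exact integral_congr_ae (ae_of_all _ fun w => h1 w)
    rw [h2, set_int_ggP ht]
    ring
  · simp only [indicator_of_notMem ha, mul_zero]

/-- reassociated product -/
def xAP (k : ℕ) (F : ℝ → T3 → V → ℝ) (b : ((ℝ × T3) × V) × V) : ℝ :=
  xN k F (b.1.1, b.1.2, b.2)

theorem xN_le_weightP (k : ℕ) {F : ℝ → T3 → V → ℝ} (hF : ∀ t x v, 0 ≤ F t x v)
    (q : (ℝ × T3) × V × V) : xN k F q ≤ (1 + ‖q.2.1‖ + ‖q.2.2‖) * xN k F q := by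
  have h1 := xN_nonneg k hF q
  linarith only [mul_nonneg (norm_nonneg q.2.2) h1, mul_nonneg (norm_nonneg q.2.1) h1]

theorem ui_xN_absP (h : ASeq N F0 F C) (k : ℕ) :
    UI P3 fun n q => ENNReal.ofReal |xN k (F n) q| :=
  (h.ui_xN k).mono fun n => ae_of_all _ fun q => by
    rw [abs_of_nonneg (xN_nonneg k (h.apx n).nonneg q)]
    exact ENNReal.ofReal_le_ofReal (xN_le_weightP k (h.apx n).nonneg q)

theorem meas_xAP (k : ℕ) {F : ℝ → T3 → V → ℝ}
    (hF : Measurable fun q : ℝ × T3 × V => F q.1 q.2.1 q.2.2) : Measurable (xAP k F) :=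
  (measurable_xN k hF).comp (by fun_prop :
      Measurable fun b : ((ℝ × T3) × V) × V => (b.1.1, b.1.2, b.2))

theorem xAP_eq (k : ℕ) (F : ℝ → T3 → V → ℝ) (b : ((ℝ × T3) × V) × V) :
    xAP k F b = xN k F (MeasurableEquiv.prodAssoc b) := rfl

theorem ui_xAP (h : ASeq N F0 F C) (k : ℕ) :
    UI ((zet.prod mV).prod mV) fun n b => ENNReal.ofReal |xAP k (F n) b| := by
  have h1 := UI.comp_mp (μ := P3) (ui_xN_absP h k)
    (fun n => (measurable_xN k (h.apx n).meas).abs.ennreal_ofReal) mp_assoc3P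
  refine h1.mono fun n => ae_of_all _ fun b => ?_
  rw [xAP_eq]

theorem Lim1.int_xAP (h : Lim1 N F0 F C L) (k : ℕ) :
    Integrable (xAP k L) ((zet.prod mV).prod mV) := by
  have iX3 : Integrable (xN k L) P3 := by
    refine (h.int_xN k).mono' (measurable_xN k h.meas).aestronglyMeasurable
      (ae_of_all _ fun q => ?_)
    rw [Real.norm_eq_abs, abs_of_nonneg (xN_nonneg k h.nonneg q)]
    exact xN_le_weightP k h.nonneg q
  exact mp_assoc3P.integrable_comp_of_integrable iX3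

theorem int_xAP_apx (h : ASeq N F0 F C) (k n : ℕ) :
    Integrable (xAP k (F n)) ((zet.prod mV).prod mV) := by
  obtain ⟨D, hD⟩ := (ui_xAP h k).lintegral_le
  refine ⟨(meas_xAP k (h.apx n).meas).aestronglyMeasurable, ?_⟩
  rw [hasFiniteIntegral_iff_norm]
  exact (hD n).trans_lt ENNReal.coe_lt_top

theorem abs_indP1 {α : Type*} (s : Set α) (a : α) :
    |s.indicator (fun _ => (1 : ℝ)) a| ≤ 1 := by
  by_cases hv : a ∈ s
  · simp [indicator_of_mem hv]
  · simp [indicator_of_notMem hv]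

theorem Lim1.int_RtP (h : Lim1 N F0 F C L) {t : Set V} (ht : MeasurableSet t) :
    Integrable (RtP t L) zet := by
  have h1 : Integrable (ggP L) ((zet.prod mV).restrict (univ ×ˢ t)) :=
    (int_ggP h.int).restrict
  rw [← Measure.prod_restrict, Measure.restrict_univ] at h1
  have h2 := h1.integral_prod_left
  have h3 : (fun z => ∫ w, ggP L (z, w) ∂(mV.restrict t)) = RtP t L := by
    funext z
    exact set_int_ggP ht L z
  rwa [h3] at h2

/-- the coefficient of the first velocity -/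
def thP (k : ℕ) (t : Set V) (F : ℝ → T3 → V → ℝ) (z : ℝ × T3) : ℝ :=
  (dk k (F z.1 z.2)).toReal * RtP t F z

theorem meas_thP (k : ℕ) {t : Set V} (ht : MeasurableSet t) {F : ℝ → T3 → V → ℝ}
    (hF : Measurable fun q : ℝ × T3 × V => F q.1 q.2.1 q.2.2) : Measurable (thP k t F) :=
  (meas_dkP k hF).ennreal_toReal.mul (meas_RtP ht hF)

theorem Lim1.conv_thP (h : Lim1 N F0 F C L) (k : ℕ) {t : Set V} (ht : MeasurableSet t) :
    SConv zet (fun n => thP k t (F n)) (thP k t L) := by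
  have c1 : SConv zet (fun n z => RtP t (F n) z) fun z => RtP t L z :=
    h.avg (measurable_const.indicator ht) (abs_indP1 t)
  have c2 : SConv zet (fun n z => RtP t (F n) z * (dk k (F n z.1 z.2)).toReal)
      fun z => RtP t L z * (dk k (L z.1 z.2)).toReal :=
    SConv.mul_strong (fun n => meas_RtP ht (h.apx n).meas) (meas_RtP ht h.meas)
      (fun n => (meas_dkP k (h.apx n).meas).ennreal_toReal) (meas_dkP k h.meas).ennreal_toReal
      (h.int_RtP ht) c1 (h.dk_conv k) (fun n z => dk_real_leP k _) (fun z => dk_real_leP k _)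
  exact c2.congrP (fun n => ae_of_all _ fun z => mul_comm _ _) (ae_of_all _ fun z => mul_comm _ _)

theorem Lim1.wconv_ggP (h : Lim1 N F0 F C L) :
    WConv (zet.prod mV) (fun n a => ggP (F n) a) fun a => ggP L a :=
  h.wden.comp_equiv MeasurableEquiv.prodAssoc mp_assocP

theorem ui_gg_absP (h : ASeq N F0 F C) :
    UI (zet.prod mV) fun n a => ENNReal.ofReal |ggP (F n) a| :=
  (ui_AaP h).mono fun n => ae_of_all _ fun a => by
    rw [abs_of_nonneg (ggP_nonneg (h.apx n).nonneg a)]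
    exact ofReal_gg_leP (h.apx n).nonneg a

theorem Lim1.wconv_gg_thP (h : Lim1 N F0 F C L) (k : ℕ) {t : Set V} (ht : MeasurableSet t) :
    WConv (zet.prod mV) (fun n a => ggP (F n) a * thP k t (F n) a.1)
      fun a => ggP L a * thP k t L a.1 :=
  h.wconv_ggP.mul (fun n => meas_ggP (h.apx n).meas) (ui_gg_absP h.toASeq) (meas_ggP h.meas)
    (int_ggP h.int) (fun n => (meas_thP k ht (h.apx n).meas).comp measurable_fst)
    ((meas_thP k ht h.meas).comp measurable_fst) (C := (k : ℝ) + 1)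
    (fun n a => RtP_bound t k (h.apx n).nonneg a.1) (fun a => RtP_bound t k h.nonneg a.1)
    ((h.conv_thP k ht).liftP (fun n => meas_thP k ht (h.apx n).meas) (meas_thP k ht h.meas))

theorem rect_xAP (k : ℕ) {s : Set ((ℝ × T3) × V)} {t : Set V} (hs : MeasurableSet s)
    (ht : MeasurableSet t) {F : ℝ → T3 → V → ℝ}
    (hi : Integrable (xAP k F) ((zet.prod mV).prod mV)) :
    ∫ p in s ×ˢ t, xAP k F p ∂((zet.prod mV).prod mV) =
      ∫ a, (ggP F a * thP k t F a.1) * s.indicator (fun _ => (1 : ℝ)) a ∂(zet.prod mV) :=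
  rect_xNP k hs ht hi

theorem Lim1.conv_xAP (h : Lim1 N F0 F C L) (k : ℕ) :
    WConv ((zet.prod mV).prod mV) (fun n => xAP k (F n)) (xAP k L) := by
  refine WConv.of_rect (fun n => meas_xAP k (h.apx n).meas) (meas_xAP k h.meas) (h.int_xAP k)
    (ui_xAP h.toASeq k) fun s t hs ht => ?_
  rw [rect_xAP k hs ht (h.int_xAP k)]
  have e1 : (fun n => ∫ p in s ×ˢ t, xAP k (F n) p ∂((zet.prod mV).prod mV)) = fun n =>
      ∫ a, (ggP (F n) a * thP k t (F n) a.1) * s.indicator (fun _ => (1 : ℝ)) a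
        ∂(zet.prod mV) := by
    funext n
    exact rect_xAP k hs ht (int_xAP_apx h.toASeq k n)
  rw [e1]
  exact h.wconv_gg_thP k ht _ (measurable_const.indicator hs) (abs_indP1 s)

/-- the inverse association -/
def asP : (ℝ × T3) × V × V ≃ᵐ ((ℝ × T3) × V) × V :=
  (MeasurableEquiv.prodAssoc : ((ℝ × T3) × V) × V ≃ᵐ (ℝ × T3) × V × V).symm

theorem mp_asP : MeasurePreserving asP P3 ((zet.prod mV).prod mV) := mp_assoc3P.symm

theorem xAP_asP (k : ℕ) (F : ℝ → T3 → V → ℝ) (q : (ℝ × T3) × V × V) :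
    xAP k F (asP q) = xN k F q := by
  rw [xAP_eq, asP, MeasurableEquiv.apply_symm_apply]

theorem Lim1.conv_xN (h : Lim1 N F0 F C L) (k : ℕ) :
    WConv P3 (fun n => xN k (F n)) (xN k L) := by
  have h1 := (h.conv_xAP k).comp_equiv asP mp_asP
  exact h1.congr (fun n => ae_of_all _ fun q => xAP_asP k (F n) q)
    (ae_of_all _ fun q => xAP_asP k L q)

end Vale.Agent.P140.DL
end
end

section

open MeasureTheory Set Filter
open scoped ENNReal Topology NNReal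

noncomputable section

namespace Vale.Agent.P140.DL

variable {N : ℕ → ℕ} {F0 : ℕ → T3 → V → ℝ} {F : ℕ → ℝ → T3 → V → ℝ} {C : ℝ≥0}
  {L : ℝ → T3 → V → ℝ}

section general

variable {α : Type*} [MeasurableSpace α] {μ : Measure α}

/-- approximation criterion for weak convergence -/
theorem WConv.of_approx_p2 {g : ℕ → α → ℝ} {G : α → ℝ} (ig : ∀ n, Integrable (g n) μ)
    (iG : Integrable G μ)
    (h : ∀ ε : ℝ, 0 < ε → ∃ g' : ℕ → α → ℝ, ∃ G' : α → ℝ, (∀ n, Integrable (g' n) μ) ∧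
      Integrable G' μ ∧ WConv μ g' G' ∧ (∀ n, ∫⁻ a, ENNReal.ofReal |g n a - g' n a| ∂μ
        ≤ ENNReal.ofReal ε) ∧ ∫⁻ a, ENNReal.ofReal |G a - G' a| ∂μ ≤ ENNReal.ofReal ε) :
    WConv μ g G := by
  intro θ mθ bθ
  rw [Metric.tendsto_atTop]
  intro ε hε
  obtain ⟨g', G', ig', iG', hw, hg, hG⟩ := h (ε / 4) (by positivity)
  have key : ∀ f f' : α → ℝ, Integrable f μ → Integrable f' μ →
      ∫⁻ a, ENNReal.ofReal |f a - f' a| ∂μ ≤ ENNReal.ofReal (ε / 4) →
      |∫ a, f a * θ a ∂μ - ∫ a, f' a * θ a ∂μ| ≤ ε / 4 := by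
    intro f f' hf hf' hff
    have i1 : Integrable (fun a => f a * θ a) μ := by
      refine (hf.norm).mono' (hf.aestronglyMeasurable.mul mθ.aestronglyMeasurable) ?_
      filter_upwards with a
      rw [norm_mul, Real.norm_eq_abs (θ a)]
      exact mul_le_of_le_one_right (norm_nonneg _) (bθ a)
    have i2 : Integrable (fun a => f' a * θ a) μ := by
      refine (hf'.norm).mono' (hf'.aestronglyMeasurable.mul mθ.aestronglyMeasurable) ?_
      filter_upwards with a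
      rw [norm_mul, Real.norm_eq_abs (θ a)]
      exact mul_le_of_le_one_right (norm_nonneg _) (bθ a)
    rw [← integral_sub i1 i2]
    have h1 : |∫ a, (f a * θ a - f' a * θ a) ∂μ| ≤ ∫ a, |f a - f' a| ∂μ := by
      refine (abs_integral_le_integral_abs).trans ?_
      refine integral_mono_of_nonneg (Eventually.of_forall fun a => abs_nonneg _)
        (hf.sub hf').abs (Eventually.of_forall fun a => ?_)
      change |f a * θ a - f' a * θ a| ≤ |f a - f' a|
      rw [← sub_mul, abs_mul]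
      exact mul_le_of_le_one_right (abs_nonneg _) (bθ a)
    refine h1.trans ?_
    have h7 : Integrable (fun a => |f a - f' a|) μ := (hf.sub hf').abs
    rw [integral_eq_lintegral_of_nonneg_ae (Eventually.of_forall fun a => abs_nonneg _)
      h7.aestronglyMeasurable]
    exact ENNReal.toReal_le_of_le_ofReal (by positivity) hff
  have h3 := (Metric.tendsto_atTop.1 (hw θ mθ bθ)) (ε / 4) (by positivity)
  obtain ⟨N, hN⟩ := h3
  refine ⟨N, fun n hn => ?_⟩
  have h4 := hN n hn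
  have h5 := key (g n) (g' n) (ig n) (ig' n) (hg n)
  have h6 := key G G' iG iG' hG
  rw [Real.dist_eq] at h4 ⊢
  rw [abs_lt] at h4 ⊢
  rw [abs_le] at h5 h6
  constructor <;> linarith [h4.1, h4.2, h5.1, h5.2, h6.1, h6.2]

/-- approximation criterion for strong convergence -/
theorem SConv.of_approx_p2 {g : ℕ → α → ℝ} {G : α → ℝ} (mg : ∀ n, AEMeasurable (g n) μ)
    (h : ∀ ε : ℝ≥0∞, 0 < ε → ∃ g' : ℕ → α → ℝ, ∃ G' : α → ℝ, (∀ n, AEMeasurable (g' n) μ) ∧
      AEMeasurable G' μ ∧ SConv μ g' G' ∧ (∀ n, ∫⁻ a, ENNReal.ofReal |g n a - g' n a| ∂μ ≤ ε) ∧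
      ∫⁻ a, ENNReal.ofReal |G a - G' a| ∂μ ≤ ε) : SConv μ g G := by
  unfold SConv
  rw [ENNReal.tendsto_atTop_zero]
  intro ε hε
  rcases eq_or_ne ε ⊤ with rfl | hεt
  · exact ⟨0, fun n _ => le_top⟩
  obtain ⟨g', G', mg', mG', hw, hg, hG⟩ := h (ε / 3) (ENNReal.div_pos hε.ne' (by norm_num))
  obtain ⟨N, hN⟩ := (ENNReal.tendsto_atTop_zero.1 hw) (ε / 3) (ENNReal.div_pos hε.ne' (by norm_num))
  refine ⟨N, fun n hn => ?_⟩
  have m1 : AEMeasurable (fun a => ENNReal.ofReal |g n a - g' n a|) μ :=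
    ((continuous_abs.measurable.comp_aemeasurable ((mg n).sub (mg' n)))).ennreal_ofReal
  have m2 : AEMeasurable (fun a => ENNReal.ofReal |g' n a - G' a|) μ :=
    ((continuous_abs.measurable.comp_aemeasurable ((mg' n).sub mG'))).ennreal_ofReal
  calc ∫⁻ a, ENNReal.ofReal |g n a - G a| ∂μ
      ≤ ∫⁻ a, (ENNReal.ofReal |g n a - g' n a| + (ENNReal.ofReal |g' n a - G' a|
        + ENNReal.ofReal |G a - G' a|)) ∂μ := by
        refine lintegral_mono fun a => ?_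
        rw [← ENNReal.ofReal_add (abs_nonneg _) (abs_nonneg _),
          ← ENNReal.ofReal_add (abs_nonneg _) (by (clear * -; positivity))]
        refine ENNReal.ofReal_le_ofReal ?_
        have h1 := abs_add_le (g n a - g' n a) (g' n a - G' a)
        have h2 := abs_add_le (g n a - g' n a + (g' n a - G' a)) (G' a - G a)
        have h3 : g n a - g' n a + (g' n a - G' a) + (G' a - G a) = g n a - G a := by ring
        rw [h3, abs_sub_comm (G' a) (G a)] at h2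
        linarith
    _ = ∫⁻ a, ENNReal.ofReal |g n a - g' n a| ∂μ + (∫⁻ a, ENNReal.ofReal |g' n a - G' a| ∂μ
        + ∫⁻ a, ENNReal.ofReal |G a - G' a| ∂μ) := by
        rw [lintegral_add_left' m1, lintegral_add_left' m2]
    _ ≤ ε / 3 + (ε / 3 + ε / 3) := add_le_add (hg n) (add_le_add (hN n hn) hG)
    _ = ε := by
        rw [← add_assoc]
        exact ENNReal.add_thirds ε

end general


/-- regrouping of the variables -/
theorem mp_P4_p2 : MeasurePreserving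
    (fun q : (ℝ × T3) × V × V × S2 => (((q.1, q.2.1, q.2.2.1), q.2.2.2) : ((ℝ × T3) × V × V) × S2))
    P4 (P3.prod surf) := by
  unfold P4 P3
  have h1 := (MeasurePreserving.id zet).prod
    ((measurePreserving_prodAssoc mV mV surf).symm MeasurableEquiv.prodAssoc)
  have h2 := (measurePreserving_prodAssoc zet (mV.prod mV) surf).symm MeasurableEquiv.prodAssoc
  exact h2.comp h1

theorem measurable_yN (k n : ℕ) {F : ℝ → T3 → V → ℝ}
    (hF : Measurable fun q : ℝ × T3 × V => F q.1 q.2.1 q.2.2) : Measurable (yN k n F) := by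
  have h0 : Measurable fun q : (ℝ × T3) × V => F q.1.1 q.1.2 q.2 :=
    hF.comp (by fun_prop : Measurable fun q : (ℝ × T3) × V => (q.1.1, q.1.2, q.2))
  have h1 : Measurable fun z : ℝ × T3 => pfN n (F z.1 z.2) :=
    measurable_pfN n (f := fun z : ℝ × T3 => F z.1 z.2) h0
  have h2 : Measurable fun q : (ℝ × T3) × V × V × S2 => (pfN n (F q.1.1 q.1.2)).toReal :=
    h1.ennreal_toReal.comp measurable_fst
  have h3 : Measurable fun q : (ℝ × T3) × V × V × S2 => bN n q.2.1 q.2.2.1 q.2.2.2 :=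
    (measurable_bN n).comp measurable_snd
  have h4 : Measurable fun q : (ℝ × T3) × V × V × S2 => xN k F (q.1, q.2.1, q.2.2.1) :=
    (measurable_xN k hF).comp
      (by fun_prop : Measurable fun q : (ℝ × T3) × V × V × S2 => (q.1, q.2.1, q.2.2.1))
  exact (h2.mul h3).mul h4

theorem measurable_yL (k : ℕ) {F : ℝ → T3 → V → ℝ}
    (hF : Measurable fun q : ℝ × T3 × V => F q.1 q.2.1 q.2.2) : Measurable (yL k F) := by
  have h3 : Measurable fun q : (ℝ × T3) × V × V × S2 => |relA q.2.1 q.2.2.1 q.2.2.2| :=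
    continuous_abs.measurable.comp (measurable_relA.comp measurable_snd)
  have h4 : Measurable fun q : (ℝ × T3) × V × V × S2 => xN k F (q.1, q.2.1, q.2.2.1) :=
    (measurable_xN k hF).comp
      (by fun_prop : Measurable fun q : (ℝ × T3) × V × V × S2 => (q.1, q.2.1, q.2.2.1))
  exact h3.mul h4

theorem yN_nonneg (k n : ℕ) {F : ℝ → T3 → V → ℝ} (hF : ∀ t x v, 0 ≤ F t x v)
    (q : (ℝ × T3) × V × V × S2) : 0 ≤ yN k n F q :=
  mul_nonneg (mul_nonneg ENNReal.toReal_nonneg (bN_nonneg _ _ _ _)) (xN_nonneg k hF _)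

theorem yL_nonneg (k : ℕ) {F : ℝ → T3 → V → ℝ} (hF : ∀ t x v, 0 ≤ F t x v)
    (q : (ℝ × T3) × V × V × S2) : 0 ≤ yL k F q :=
  mul_nonneg (abs_nonneg _) (xN_nonneg k hF _)

theorem pfN_toReal_le_one_p2 (n : ℕ) (g : V → ℝ) : (pfN n g).toReal ≤ 1 :=
  ENNReal.toReal_le_of_le_ofReal zero_le_one (by simpa using pfN_le_one n g)

theorem yN_le_p2 (k n : ℕ) {F : ℝ → T3 → V → ℝ} (hF : ∀ t x v, 0 ≤ F t x v)
    (q : (ℝ × T3) × V × V × S2) : yN k n F q ≤
      (1 + ‖q.2.1‖ + ‖q.2.2.1‖) * xN k F (q.1, q.2.1, q.2.2.1) := by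
  unfold yN
  refine mul_le_mul_of_nonneg_right ?_ (xN_nonneg k hF _)
  have h1 := bN_le n q.2.1 q.2.2.1 q.2.2.2
  have h2 := abs_relA_le q.2.1 q.2.2.1 q.2.2.2
  have h3 := mul_le_mul (pfN_toReal_le_one_p2 n (F q.1.1 q.1.2)) h1
    (bN_nonneg _ _ _ _) zero_le_one
  linarith

theorem yL_le_p2 (k : ℕ) {F : ℝ → T3 → V → ℝ} (hF : ∀ t x v, 0 ≤ F t x v)
    (q : (ℝ × T3) × V × V × S2) : yL k F q ≤
      (1 + ‖q.2.1‖ + ‖q.2.2.1‖) * xN k F (q.1, q.2.1, q.2.2.1) := by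
  unfold yL
  refine mul_le_mul_of_nonneg_right ?_ (xN_nonneg k hF _)
  have h2 := abs_relA_le q.2.1 q.2.2.1 q.2.2.2
  linarith

theorem measurable_wxN_p2 (k : ℕ) {F : ℝ → T3 → V → ℝ}
    (hF : Measurable fun q : ℝ × T3 × V => F q.1 q.2.1 q.2.2) : Measurable
      fun q : (ℝ × T3) × V × V => (1 + ‖q.2.1‖ + ‖q.2.2‖) * xN k F q :=
  (by fun_prop : Measurable fun q : (ℝ × T3) × V × V => 1 + ‖q.2.1‖ + ‖q.2.2‖).mul
    (measurable_xN k hF)

theorem ASeq.ui_wx4_p2 (h : ASeq N F0 F C) (k : ℕ) :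
    UI P4 fun n q => ENNReal.ofReal
      ((1 + ‖q.2.1‖ + ‖q.2.2.1‖) * xN k (F n) (q.1, q.2.1, q.2.2.1)) := by
  have m1 : ∀ n, Measurable fun q : (ℝ × T3) × V × V =>
      ENNReal.ofReal ((1 + ‖q.2.1‖ + ‖q.2.2‖) * xN k (F n) q) :=
    fun n => (measurable_wxN_p2 k (h.apx n).meas).ennreal_ofReal
  have h1 := (h.ui_xN k).prod_mul (ν := surf) m1 (f := fun _ => 1) measurable_const
    (by simp [measure_lt_top])
  have h2 := h1.comp_mp (fun n => ((m1 n).comp measurable_fst).mul measurable_const) mp_P4_p2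
  simpa using h2

theorem ASeq.ui_yN (h : ASeq N F0 F C) (k : ℕ) :
    UI P4 fun n q => ENNReal.ofReal (yN k (N n) (F n) q) :=
  (h.ui_wx4_p2 k).mono fun n => Eventually.of_forall fun q =>
    ENNReal.ofReal_le_ofReal (yN_le_p2 k (N n) (h.apx n).nonneg q)

theorem ASeq.int_yN (h : ASeq N F0 F C) (k n : ℕ) : Integrable (yN k (N n) (F n)) P4 := by
  obtain ⟨K, hK⟩ := (h.ui_yN k).lintegral_le
  refine ⟨(measurable_yN k (N n) (h.apx n).meas).aestronglyMeasurable, ?_⟩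
  rw [hasFiniteIntegral_iff_ofReal (Eventually.of_forall (yN_nonneg k (N n) (h.apx n).nonneg))]
  exact (hK n).trans_lt ENNReal.coe_lt_top

theorem Lim1.int_wx4_p2 (h : Lim1 N F0 F C L) (k : ℕ) :
    Integrable (fun q => (1 + ‖q.2.1‖ + ‖q.2.2.1‖) * xN k L (q.1, q.2.1, q.2.2.1)) P4 := by
  have h1 := (h.int_xN k).comp_fst surf
  exact mp_P4_p2.integrable_comp_of_integrable h1

theorem Lim1.int_yL (h : Lim1 N F0 F C L) (k : ℕ) : Integrable (yL k L) P4 := by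
  refine (h.int_wx4_p2 k).mono' (measurable_yL k h.meas).aestronglyMeasurable ?_
  filter_upwards with q
  rw [Real.norm_of_nonneg (yL_nonneg k h.nonneg q)]
  exact yL_le_p2 k h.nonneg q


theorem measurable_den_p2 {F : ℝ → T3 → V → ℝ}
    (hF : Measurable fun q : ℝ × T3 × V => F q.1 q.2.1 q.2.2) : Measurable (den F) :=
  hF.div (measurable_Maxw.comp (measurable_snd.comp measurable_snd))

/-- weighted velocity integrals -/
theorem lintegral_den_weight_p2 {F : ℝ → T3 → V → ℝ}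
    (hF : Measurable fun q : ℝ × T3 × V => F q.1 q.2.1 q.2.2) {ψ : V → ℝ≥0∞}
    (hψ : Measurable ψ) :
    ∫⁻ q, ψ q.2.2 * ENNReal.ofReal (den F q) ∂PP =
      ∫⁻ z, (∫⁻ w, ψ w * ENNReal.ofReal (F z.1 z.2 w)) ∂zet := by
  have hm : Measurable fun q : ℝ × T3 × V => ψ q.2.2 * ENNReal.ofReal (den F q) :=
    (hψ.comp (measurable_snd.comp measurable_snd)).mul (measurable_den_p2 hF).ennreal_ofReal
  rw [lintegral_PP_assoc hm]
  refine lintegral_congr fun z => lintegral_congr fun w => ?_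
  have h1 : ENNReal.ofReal (Maxw w) * ENNReal.ofReal (den F (z.1, z.2, w)) =
      ENNReal.ofReal (F z.1 z.2 w) := by
    rw [← ENNReal.ofReal_mul (Maxw_pos w).le]
    congr 1
    unfold den
    have := (Maxw_pos w).ne'
    field_simp
  change ENNReal.ofReal (Maxw w) * (ψ w * ENNReal.ofReal (den F (z.1, z.2, w))) = _
  rw [mul_left_comm, h1]

theorem ASeq.energy_PP_p2 (h : ASeq N F0 F C) (n : ℕ) :
    ∫⁻ q : ℝ × T3 × V, ENNReal.ofReal (1 + ‖q.2.2‖ ^ 2) * ENNReal.ofReal (den (F n) q) ∂PP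
      ≤ C := by
  have hm := measurable_den_p2 (h.apx n).meas
  have h0 : Measurable fun q : ℝ × T3 × V => ENNReal.ofReal (1 + ‖q.2.2‖ ^ 2) *
      ENNReal.ofReal (den (F n) q) := by
    have : Measurable fun q : ℝ × T3 × V => ENNReal.ofReal (1 + ‖q.2.2‖ ^ 2) := by fun_prop
    exact this.mul hm.ennreal_ofReal
  unfold PP
  rw [lintegral_prod _ h0.aemeasurable]
  have h1 : ∀ᵐ t ∂nuE, ∫⁻ p : T3 × V, ENNReal.ofReal (1 + ‖p.2‖ ^ 2) *
      ENNReal.ofReal (den (F n) (t, p)) ∂muM ≤ C := by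
    have h2 : ∀ᵐ t ∂nuE, 0 < t := by
      unfold nuE
      refine (withDensity_absolutelyContinuous _ _).ae_le ?_
      exact ae_restrict_mem measurableSet_Ioi
    filter_upwards [h2] with t ht
    have h3 := lintegral_den0 (f := F n t) ((h.apx n).meas.comp
      (by fun_prop : Measurable fun p : T3 × V => (t, p.1, p.2))) measurable_psi2
    have h4 : ∫⁻ p : T3 × V, ENNReal.ofReal (1 + ‖p.2‖ ^ 2) *
        ENNReal.ofReal (den (F n) (t, p)) ∂muM = wInt psi2 (F n t) := h3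
    rw [h4, (h.apx n).energy t ht.le]
    exact h.mom n
  calc _ ≤ ∫⁻ _, (C : ℝ≥0∞) ∂nuE := lintegral_mono_ae h1
    _ = C := by simp

theorem ASeq.energy_zet_p2 (h : ASeq N F0 F C) (n : ℕ) :
    ∫⁻ z, (∫⁻ w, ENNReal.ofReal (1 + ‖w‖ ^ 2) * ENNReal.ofReal (F n z.1 z.2 w)) ∂zet ≤ C := by
  rw [← lintegral_den_weight_p2 (h.apx n).meas (ψ := fun w => ENNReal.ofReal (1 + ‖w‖ ^ 2))
    (by fun_prop)]
  exact h.energy_PP_p2 n

theorem Lim1.energy_zet_p2 (h : Lim1 N F0 F C L) :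
    ∫⁻ z, (∫⁻ w, ENNReal.ofReal (1 + ‖w‖ ^ 2) * ENNReal.ofReal (L z.1 z.2 w)) ∂zet ≤ C := by
  rw [← lintegral_den_weight_p2 h.meas (ψ := fun w => ENNReal.ofReal (1 + ‖w‖ ^ 2)) (by fun_prop)]
  refine le_trans (le_of_eq (lintegral_congr fun q => ?_)) h.energy
  rw [← ENNReal.ofReal_mul (by positivity)]

theorem ASeq.rho_zet_p2 (h : ASeq N F0 F C) (n : ℕ) :
    ∫⁻ z, rhoE (F n z.1 z.2) ∂zet ≤ C := by
  refine le_trans (lintegral_mono fun z => lintegral_mono fun w => ?_) (h.energy_zet_p2 n)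
  have h1 : (1 : ℝ≥0∞) ≤ ENNReal.ofReal (1 + ‖w‖ ^ 2) := by
    rw [← ENNReal.ofReal_one]
    exact ENNReal.ofReal_le_ofReal (by linarith only [sq_nonneg ‖w‖])
  calc ENNReal.ofReal (F n z.1 z.2 w) = 1 * ENNReal.ofReal (F n z.1 z.2 w) := (one_mul _).symm
    _ ≤ _ := mul_le_mul_left h1 _

theorem one_sub_pf_p2 (n : ℕ) (g : V → ℝ) :
    ENNReal.ofReal |(pfN n g).toReal - 1| ≤ rhoE g / (n : ℝ≥0∞) := by
  have h1 : rhoN n g ≤ rhoE g := setLIntegral_le_lintegral _ _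
  refine le_trans ?_ (ENNReal.div_le_div_right h1 _)
  unfold pfN
  rcases eq_or_ne (rhoN n g / (n : ℝ≥0∞)) ⊤ with h2 | h2
  · rw [h2]
    exact le_top
  · obtain ⟨r, hr⟩ : ∃ r : ℝ≥0, rhoN n g / (n : ℝ≥0∞) = r := ⟨_, (ENNReal.coe_toNNReal h2).symm⟩
    rw [hr]
    have h3 : ((1 + (r : ℝ≥0∞))⁻¹).toReal = (1 + (r : ℝ))⁻¹ := by
      rw [ENNReal.toReal_inv, ENNReal.toReal_add (by simp) (by simp)]
      simp
    rw [h3]
    have h4 : (0 : ℝ) < 1 + r := by positivity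
    have h5 : |(1 + (r : ℝ))⁻¹ - 1| ≤ r := by
      have h6 : (1 + (r : ℝ))⁻¹ - 1 = - (r / (1 + r)) := by
        field_simp
        ring
      rw [h6, abs_neg, abs_of_nonneg (by positivity)]
      exact div_le_self r.coe_nonneg (by linarith only [r.coe_nonneg])
    calc ENNReal.ofReal |(1 + (r : ℝ))⁻¹ - 1| ≤ ENNReal.ofReal (r : ℝ) :=
          ENNReal.ofReal_le_ofReal h5
      _ = r := ENNReal.ofReal_coe_nnreal

/-- the prefactors converge to one -/
theorem ASeq.pf_conv (h : ASeq N F0 F C) :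
    SConv zet (fun n z => (pfN (N n) (F n z.1 z.2)).toReal) fun _ => 1 := by
  unfold SConv
  have h1 : ∀ n, ∫⁻ z, ENNReal.ofReal |(pfN (N n) (F n z.1 z.2)).toReal - 1| ∂zet
      ≤ C / (N n : ℝ≥0∞) := by
    intro n
    calc _ ≤ ∫⁻ z, rhoE (F n z.1 z.2) / (N n : ℝ≥0∞) ∂zet :=
          lintegral_mono fun z => one_sub_pf_p2 _ _
      _ = (∫⁻ z, rhoE (F n z.1 z.2) ∂zet) / (N n : ℝ≥0∞) := by
          simp only [div_eq_mul_inv]
          refine lintegral_mul_const _ ?_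
          exact measurable_rhoE (f := fun z : ℝ × T3 => F n z.1 z.2)
            ((h.apx n).meas.comp (by fun_prop : Measurable fun q : (ℝ × T3) × V =>
              (q.1.1, q.1.2, q.2)))
      _ ≤ _ := ENNReal.div_le_div_right (h.rho_zet_p2 n) _
  have h2 : Tendsto (fun n => (C : ℝ≥0∞) / (N n : ℝ≥0∞)) atTop (𝓝 0) := by
    have h3 : Tendsto (fun n => ((N n : ℝ≥0∞))⁻¹) atTop (𝓝 0) :=
      ENNReal.tendsto_inv_nat_nhds_zero.comp h.tend
    have h4 := ENNReal.Tendsto.const_mul (a := (C : ℝ≥0∞)) h3 (Or.inr ENNReal.coe_ne_top)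
    simpa [div_eq_mul_inv] using h4
  exact tendsto_of_tendsto_of_tendsto_of_le_of_le tendsto_const_nhds h2 (fun n => bot_le) h1

section general

variable {α β : Type*} [MeasurableSpace α] [MeasurableSpace β] {μ : Measure α} {ν : Measure β}

theorem WConv.liftfst_p2 [IsFiniteMeasure μ] [IsFiniteMeasure ν] {g : ℕ → α → ℝ} {G : α → ℝ}
    (hg : WConv μ g G) (ig : ∀ n, Integrable (g n) μ) (iG : Integrable G μ) :
    WConv (μ.prod ν) (fun n p => g n p.1) fun p => G p.1 := by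
  intro θ mθ bθ
  have mΘ : Measurable fun a => ∫ b, θ (a, b) ∂ν :=
    (mθ.stronglyMeasurable.integral_prod_right' (ν := ν)).measurable
  have bΘ : ∀ a, |∫ b, θ (a, b) ∂ν| ≤ ν.real univ := by
    intro a
    have h1 := norm_integral_le_of_norm_le_const (μ := ν) (f := fun b => θ (a, b)) (C := 1)
      (Eventually.of_forall fun b => bθ (a, b))
    simpa using h1
  have h2 := hg.test mΘ bΘ
  have key : ∀ f : α → ℝ, Integrable f μ →
      ∫ p, f p.1 * θ p ∂(μ.prod ν) = ∫ a, f a * ∫ b, θ (a, b) ∂ν ∂μ := by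
    intro f hf
    have h3 : Integrable (fun p : α × β => f p.1 * θ p) (μ.prod ν) := by
      have h4 := hf.comp_fst ν
      refine h4.norm.mono' (h4.aestronglyMeasurable.mul mθ.aestronglyMeasurable) ?_
      filter_upwards with p
      rw [norm_mul, Real.norm_eq_abs (θ p)]
      exact mul_le_of_le_one_right (norm_nonneg _) (bθ p)
    rw [integral_prod _ h3]
    refine integral_congr_ae (Eventually.of_forall fun a => ?_)
    exact integral_const_mul (f a) fun b => θ (a, b)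
  simp only [key _ (ig _), key _ iG]
  exact h2

theorem SConv.liftfst_p2 [IsFiniteMeasure μ] [IsFiniteMeasure ν] {g : ℕ → α → ℝ} {G : α → ℝ}
    (mg : ∀ n, Measurable (g n)) (mG : Measurable G) (hg : SConv μ g G) :
    SConv (μ.prod ν) (fun n p => g n p.1) fun p => G p.1 := by
  unfold SConv at hg ⊢
  have h1 : ∀ n, ∫⁻ p : α × β, ENNReal.ofReal |g n p.1 - G p.1| ∂(μ.prod ν) =
      (∫⁻ a, ENNReal.ofReal |g n a - G a| ∂μ) * ν univ := by
    intro n
    have m1 : Measurable fun a => ENNReal.ofReal |g n a - G a| :=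
      (continuous_abs.measurable.comp ((mg n).sub mG)).ennreal_ofReal
    have h2 := lintegral_prod_mul (μ := μ) (ν := ν) (f := fun a => ENNReal.ofReal |g n a - G a|)
      (g := fun _ => 1) m1.aemeasurable aemeasurable_const
    simpa using h2
  simp only [h1]
  have h3 := ENNReal.Tendsto.mul_const (b := ν univ) hg (Or.inr (measure_ne_top ν univ))
  simpa using h3

theorem exists_small_tail_p2 [IsFiniteMeasure μ] {f : α → ℝ} (hf : Measurable f) {δ : ℝ≥0∞}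
    (hδ : 0 < δ) : ∃ R : ℕ, μ {a | (R : ℝ) < f a} ≤ δ := by
  have h1 := tendsto_measure_iInter_atTop (μ := μ) (s := fun R : ℕ => {a | (R : ℝ) < f a})
    (fun R => (measurableSet_lt measurable_const hf).nullMeasurableSet)
    (fun m n hmn a (ha : (n : ℝ) < f a) => by
      change (m : ℝ) < f a
      have : (m : ℝ) ≤ n := by exact_mod_cast hmn
      linarith) ⟨0, measure_ne_top _ _⟩
  have h2 : (⋂ R : ℕ, {a | (R : ℝ) < f a}) = ∅ := by
    ext a
    simp only [mem_iInter, mem_ofPred_eq, mem_empty_iff_false, iff_false, not_forall, not_lt]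
    exact exists_nat_ge (f a)
  rw [h2, measure_empty] at h1
  obtain ⟨R, hR⟩ := ((ENNReal.tendsto_atTop_zero.1 h1) δ hδ)
  exact ⟨R, hR R le_rfl⟩

end general


/-- regrouping of the variables, as an equivalence -/
def eP4_p2 : ((ℝ × T3) × V × V × S2) ≃ᵐ (((ℝ × T3) × V × V) × S2) :=
  ((MeasurableEquiv.refl _).prodCongr MeasurableEquiv.prodAssoc.symm).trans
    MeasurableEquiv.prodAssoc.symm

theorem mp_eP4_p2 : MeasurePreserving eP4_p2 P4 (P3.prod surf) := mp_P4_p2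

theorem integrable_xN_of_weight_p2 {k : ℕ} {F : ℝ → T3 → V → ℝ} (hF0 : ∀ t x v, 0 ≤ F t x v)
    (hF : Measurable fun q : ℝ × T3 × V => F q.1 q.2.1 q.2.2)
    (h : Integrable (fun q => (1 + ‖q.2.1‖ + ‖q.2.2‖) * xN k F q) P3) :
    Integrable (xN k F) P3 := by
  refine h.mono' (measurable_xN k hF).aestronglyMeasurable ?_
  filter_upwards with q
  have h0 := xN_nonneg k hF0 q
  rw [Real.norm_of_nonneg h0]
  have h1 : 0 ≤ (‖q.2.1‖ + ‖q.2.2‖) * xN k F q := by positivity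
  linarith

theorem ASeq.int_xN3_p2 (h : ASeq N F0 F C) (k n : ℕ) : Integrable (xN k (F n)) P3 := by
  obtain ⟨K, hK⟩ := (h.ui_xN k).lintegral_le
  refine integrable_xN_of_weight_p2 (h.apx n).nonneg (h.apx n).meas ?_
  refine ⟨(measurable_wxN_p2 k (h.apx n).meas).aestronglyMeasurable, ?_⟩
  rw [hasFiniteIntegral_iff_ofReal (Eventually.of_forall fun q => by
    have h0 := xN_nonneg k (h.apx n).nonneg q
    change 0 ≤ (1 + ‖q.2.1‖ + ‖q.2.2‖) * xN k (F n) q
    positivity)]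
  exact (hK n).trans_lt ENNReal.coe_lt_top

theorem Lim1.int_xN3_p2 (h : Lim1 N F0 F C L) (k : ℕ) : Integrable (xN k L) P3 :=
  integrable_xN_of_weight_p2 h.nonneg h.meas (h.int_xN k)

/-- normalized products as functions of all variables -/
def x4_p2 (k : ℕ) (F : ℝ → T3 → V → ℝ) (q : (ℝ × T3) × V × V × S2) : ℝ :=
  xN k F (q.1, q.2.1, q.2.2.1)

theorem measurable_x4_p2 (k : ℕ) {F : ℝ → T3 → V → ℝ}
    (hF : Measurable fun q : ℝ × T3 × V => F q.1 q.2.1 q.2.2) : Measurable (x4_p2 k F) :=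
  (measurable_xN k hF).comp
      (by fun_prop : Measurable fun q : (ℝ × T3) × V × V × S2 => (q.1, q.2.1, q.2.2.1))

theorem x4_nonneg_p2 (k : ℕ) {F : ℝ → T3 → V → ℝ} (hF : ∀ t x v, 0 ≤ F t x v)
    (q : (ℝ × T3) × V × V × S2) : 0 ≤ x4_p2 k F q := xN_nonneg k hF _

theorem Lim1.conv_x4_p2 (h : Lim1 N F0 F C L) (k : ℕ) :
    WConv P4 (fun n => x4_p2 k (F n)) (x4_p2 k L) := by
  have h1 := (h.conv_xN k).liftfst_p2 (ν := surf) (fun n => h.toASeq.int_xN3_p2 k n) (h.int_xN3_p2 k)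
  exact h1.comp_equiv eP4_p2 mp_eP4_p2

theorem Lim1.int_x4_p2 (h : Lim1 N F0 F C L) (k : ℕ) : Integrable (x4_p2 k L) P4 :=
  mp_P4_p2.integrable_comp_of_integrable ((h.int_xN3_p2 k).comp_fst surf)

theorem ASeq.ui_x4_p2 (h : ASeq N F0 F C) (k : ℕ) :
    UI P4 fun n q => ENNReal.ofReal |x4_p2 k (F n) q| := by
  refine (h.ui_wx4_p2 k).mono fun n => Eventually.of_forall fun q => ENNReal.ofReal_le_ofReal ?_
  have h0 : 0 ≤ xN k (F n) (q.1, q.2.1, q.2.2.1) := xN_nonneg k (h.apx n).nonneg _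
  rw [abs_of_nonneg (x4_nonneg_p2 k (h.apx n).nonneg q)]
  change xN k (F n) (q.1, q.2.1, q.2.2.1) ≤ _
  have h1 : 0 ≤ (‖q.2.1‖ + ‖q.2.2.1‖) * xN k (F n) (q.1, q.2.1, q.2.2.1) := by positivity
  linarith


theorem bN_eventually_p2 {N : ℕ → ℕ} (hN : Tendsto N atTop atTop) (v w : V) (o : S2) :
    ∀ᶠ n in atTop, bN (N n) v w o = |relA v w o| := by
  by_cases ha : relA v w o = 0
  · filter_upwards with n
    have h1 := bN_le (N n) v w o
    have h2 := bN_nonneg (N n) v w o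
    rw [ha, abs_zero] at h1 ⊢
    exact le_antisymm h1 h2
  · have ha' : 0 < |relA v w o| := abs_pos.2 ha
    obtain ⟨m1, hm1⟩ := exists_nat_ge (‖v‖ ^ 2 + ‖w‖ ^ 2)
    obtain ⟨m2, hm2⟩ := exists_nat_ge (|relA v w o|⁻¹)
    filter_upwards [hN.eventually_ge_atTop (max (m1 + 1) m2)] with n hn
    have h1 : ((m1 : ℝ) + 1) ≤ (N n : ℝ) := by exact_mod_cast (le_max_left _ _).trans hn
    have h2 : (m2 : ℝ) ≤ (N n : ℝ) := by exact_mod_cast (le_max_right _ _).trans hn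
    unfold bN
    rw [if_pos]
    have h3 : (0 : ℝ) ≤ m1 := Nat.cast_nonneg _
    refine ⟨by nlinarith, ?_⟩
    calc (1 : ℝ) = |relA v w o|⁻¹ * |relA v w o| := (inv_mul_cancel₀ ha'.ne').symm
      _ ≤ (N n : ℝ) * |relA v w o| := mul_le_mul_of_nonneg_right (hm2.trans h2) ha'.le

/-- velocity cut-off -/
def cutV_p2 (R : ℝ) (q : (ℝ × T3) × V × V × S2) : ℝ := if ‖q.2.1‖ + ‖q.2.2.1‖ ≤ R then 1 else 0

theorem measurable_cutV_p2 (R : ℝ) : Measurable (cutV_p2 R) := by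
  unfold cutV_p2
  refine Measurable.ite (measurableSet_le ?_ measurable_const) measurable_const measurable_const
  fun_prop

theorem cutV_nonneg_p2 (R : ℝ) (q : (ℝ × T3) × V × V × S2) : 0 ≤ cutV_p2 R q := by
  unfold cutV_p2
  split_ifs <;> norm_num

theorem relA_cut_le_p2 {R : ℝ} (hR : 0 ≤ R) (q : (ℝ × T3) × V × V × S2) :
    |relA q.2.1 q.2.2.1 q.2.2.2| * cutV_p2 R q ≤ R := by
  unfold cutV_p2
  split_ifs with h
  · rw [mul_one]
    exact (abs_relA_le _ _ _).trans h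
  · rw [mul_zero]
    exact hR

theorem measurable_bN4_p2 (n : ℕ) : Measurable fun q : (ℝ × T3) × V × V × S2 =>
    bN n q.2.1 q.2.2.1 q.2.2.2 := (measurable_bN n).comp measurable_snd

theorem measurable_relA4_p2 : Measurable fun q : (ℝ × T3) × V × V × S2 =>
    |relA q.2.1 q.2.2.1 q.2.2.2| :=
  continuous_abs.measurable.comp (measurable_relA.comp measurable_snd)

theorem measurable_pf_p2 (n : ℕ) {F : ℝ → T3 → V → ℝ}
    (hF : Measurable fun q : ℝ × T3 × V => F q.1 q.2.1 q.2.2) :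
    Measurable fun z : ℝ × T3 => (pfN n (F z.1 z.2)).toReal :=
  (measurable_pfN n (f := fun z : ℝ × T3 => F z.1 z.2)
    (hF.comp (by fun_prop : Measurable fun q : (ℝ × T3) × V => (q.1.1, q.1.2, q.2)))).ennreal_toReal

theorem ASeq.pf_conv4_p2 (h : ASeq N F0 F C) :
    SConv P4 (fun n q => (pfN (N n) (F n q.1.1 q.1.2)).toReal) fun _ => (1 : ℝ) :=
  SConv.liftfst_p2 (μ := zet) (ν := mV.prod (mV.prod surf))
    (g := fun n z => (pfN (N n) (F n z.1 z.2)).toReal) (G := fun _ => 1)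
    (fun n => measurable_pf_p2 (N n) (h.apx n).meas) measurable_const h.pf_conv

theorem ASeq.bN_conv4_p2 (h : ASeq N F0 F C) {R : ℝ} (hR0 : 0 ≤ R) :
    SConv P4 (fun n q => bN (N n) q.2.1 q.2.2.1 q.2.2.2 * cutV_p2 R q)
      fun q => |relA q.2.1 q.2.2.1 q.2.2.2| * cutV_p2 R q := by
  refine SConv.of_ae (fun n => (measurable_bN4_p2 (N n)).mul (measurable_cutV_p2 R))
    (measurable_relA4_p2.mul (measurable_cutV_p2 R)) (B := R) (fun n q => ?_)
    (Eventually.of_forall fun q => ?_)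
  · rw [abs_of_nonneg (mul_nonneg (bN_nonneg _ _ _ _) (cutV_nonneg_p2 R q))]
    exact (mul_le_mul_of_nonneg_right (bN_le _ _ _ _) (cutV_nonneg_p2 R q)).trans
      (relA_cut_le_p2 hR0 q)
  · refine tendsto_const_nhds.congr' ?_
    filter_upwards [bN_eventually_p2 h.tend q.2.1 q.2.2.1 q.2.2.2] with n hn
    rw [hn]

theorem ASeq.kernel_conv_p2 (h : ASeq N F0 F C) {R : ℝ} (hR : 1 ≤ R) :
    SConv P4 (fun n q => (pfN (N n) (F n q.1.1 q.1.2)).toReal *
      (bN (N n) q.2.1 q.2.2.1 q.2.2.2 * cutV_p2 R q))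
      fun q => 1 * (|relA q.2.1 q.2.2.1 q.2.2.2| * cutV_p2 R q) := by
  have hR0 : 0 ≤ R := by linarith
  refine SConv.mul_bdd (B := R) (g := fun n q => (pfN (N n) (F n q.1.1 q.1.2)).toReal)
    (G := fun _ => 1) (k := fun n q => bN (N n) q.2.1 q.2.2.1 q.2.2.2 * cutV_p2 R q)
    (K := fun q => |relA q.2.1 q.2.2.1 q.2.2.2| * cutV_p2 R q)
    (fun n => (measurable_pf_p2 (N n) (h.apx n).meas).comp measurable_fst)
    measurable_const (fun n => (measurable_bN4_p2 (N n)).mul (measurable_cutV_p2 R))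
    (measurable_relA4_p2.mul (measurable_cutV_p2 R)) h.pf_conv4_p2 (h.bN_conv4_p2 hR0) (fun n q => ?_)
    fun q => ?_
  · rw [abs_of_nonneg ENNReal.toReal_nonneg]
    exact (pfN_toReal_le_one_p2 _ _).trans hR
  · rw [abs_of_nonneg (mul_nonneg (abs_nonneg _) (cutV_nonneg_p2 R q))]
    exact relA_cut_le_p2 hR0 q

theorem Lim1.conv_cut_p2 (h : Lim1 N F0 F C L) (k : ℕ) {R : ℝ} (hR : 1 ≤ R) :
    WConv P4 (fun n q => yN k (N n) (F n) q * cutV_p2 R q) fun q => yL k L q * cutV_p2 R q := by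
  have hR0 : 0 ≤ R := by linarith
  have h1 := (h.conv_x4_p2 k).mul (fun n => measurable_x4_p2 k (h.apx n).meas) (h.toASeq.ui_x4_p2 k)
    (measurable_x4_p2 k h.meas) (h.int_x4_p2 k)
    (θ := fun n q => (pfN (N n) (F n q.1.1 q.1.2)).toReal *
      (bN (N n) q.2.1 q.2.2.1 q.2.2.2 * cutV_p2 R q))
    (Θ := fun q => 1 * (|relA q.2.1 q.2.2.1 q.2.2.2| * cutV_p2 R q)) (C := R)
    (fun n => ((measurable_pf_p2 (N n) (h.apx n).meas).comp measurable_fst).mul
      ((measurable_bN4_p2 (N n)).mul (measurable_cutV_p2 R)))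
    (measurable_const.mul (measurable_relA4_p2.mul (measurable_cutV_p2 R)))
    (fun n q => by
      have h2 : 0 ≤ bN (N n) q.2.1 q.2.2.1 q.2.2.2 * cutV_p2 R q :=
        mul_nonneg (bN_nonneg _ _ _ _) (cutV_nonneg_p2 R q)
      rw [abs_of_nonneg (mul_nonneg ENNReal.toReal_nonneg h2)]
      have h3 := mul_le_mul_of_nonneg_right (bN_le (N n) q.2.1 q.2.2.1 q.2.2.2) (cutV_nonneg_p2 R q)
      exact (mul_le_of_le_one_left h2 (pfN_toReal_le_one_p2 _ _)).trans
        (h3.trans (relA_cut_le_p2 hR0 q)))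
    (fun q => by
      rw [one_mul, abs_of_nonneg (mul_nonneg (abs_nonneg _) (cutV_nonneg_p2 R q))]
      exact relA_cut_le_p2 hR0 q)
    (h.toASeq.kernel_conv_p2 hR)
  refine h1.congr (fun n => Eventually.of_forall fun q => ?_) (Eventually.of_forall fun q => ?_)
  · change xN k (F n) (q.1, q.2.1, q.2.2.1) * _ = _
    unfold yN
    ring
  · change xN k L (q.1, q.2.1, q.2.2.1) * _ = _
    unfold yL
    ring

theorem lintegral_cut_compl_p2 {f : (ℝ × T3) × V × V × S2 → ℝ} (h0 : ∀ q, 0 ≤ f q) (R : ℝ) :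
    ∫⁻ q, ENNReal.ofReal |f q - f q * cutV_p2 R q| ∂P4 =
      ∫⁻ q in {q | R < ‖q.2.1‖ + ‖q.2.2.1‖}, ENNReal.ofReal (f q) ∂P4 := by
  rw [← lintegral_indicator (measurableSet_lt measurable_const (by fun_prop))]
  refine lintegral_congr fun q => ?_
  unfold cutV_p2
  by_cases h : ‖q.2.1‖ + ‖q.2.2.1‖ ≤ R
  · rw [if_pos h, indicator_of_notMem (by simpa using h)]
    simp
  · rw [if_neg h, indicator_of_mem (by simpa using h)]
    simp [abs_of_nonneg (h0 q)]

theorem integrable_mul_cut_p2 {f : (ℝ × T3) × V × V × S2 → ℝ} (hf : Integrable f P4) (R : ℝ) :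
    Integrable (fun q => f q * cutV_p2 R q) P4 := by
  refine hf.norm.mono' (hf.aestronglyMeasurable.mul (measurable_cutV_p2 R).aestronglyMeasurable) ?_
  filter_upwards with q
  rw [norm_mul]
  refine mul_le_of_le_one_right (norm_nonneg _) ?_
  rw [Real.norm_of_nonneg (cutV_nonneg_p2 R q)]
  unfold cutV_p2
  split_ifs <;> norm_num

theorem Lim1.conv_yN (h : Lim1 N F0 F C L) (k : ℕ) :
    WConv P4 (fun n => yN k (N n) (F n)) (yL k L) := by
  refine WConv.of_approx_p2 (fun n => h.toASeq.int_yN k n) (h.int_yL k) fun ε hε => ?_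
  have hε' : 0 < ENNReal.ofReal ε := ENNReal.ofReal_pos.2 hε
  obtain ⟨δ1, hδ1, H1⟩ := (h.toASeq.ui_yN k).small_set hε'
  have hfin : ∫⁻ q, ENNReal.ofReal (yL k L q) ∂P4 < ⊤ := by
    have h1 := (h.int_yL k).2
    rwa [hasFiniteIntegral_iff_ofReal (Eventually.of_forall (yL_nonneg k h.nonneg))] at h1
  obtain ⟨δ2, hδ2, H2⟩ := (UI.const (ι := Unit) (measurable_yL k h.meas).ennreal_ofReal
    hfin).small_set hε'
  obtain ⟨R, hR⟩ := exists_small_tail_p2 (μ := P4) (f := fun q => ‖q.2.1‖ + ‖q.2.2.1‖)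
    (by fun_prop) (lt_min hδ1 hδ2)
  have hs : P4 {q | ((R : ℝ) + 1) < ‖q.2.1‖ + ‖q.2.2.1‖} ≤ min δ1 δ2 := by
    refine (measure_mono fun q (hq : (R : ℝ) + 1 < _) => ?_).trans hR
    change (R : ℝ) < _
    linarith
  have ms : MeasurableSet {q : (ℝ × T3) × V × V × S2 | ((R : ℝ) + 1) < ‖q.2.1‖ + ‖q.2.2.1‖} :=
    measurableSet_lt measurable_const (by fun_prop)
  have hR1 : (1 : ℝ) ≤ (R : ℝ) + 1 := by
    have : (0 : ℝ) ≤ R := Nat.cast_nonneg _
    linarith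
  refine ⟨fun n q => yN k (N n) (F n) q * cutV_p2 (R + 1) q, fun q => yL k L q * cutV_p2 (R + 1) q,
    fun n => integrable_mul_cut_p2 (h.toASeq.int_yN k n) _, integrable_mul_cut_p2 (h.int_yL k) _,
    h.conv_cut_p2 k hR1, fun n => ?_, ?_⟩
  · rw [lintegral_cut_compl_p2 (yN_nonneg k (N n) (h.apx n).nonneg)]
    exact H1 n _ ms (hs.trans (min_le_left _ _))
  · rw [lintegral_cut_compl_p2 (yL_nonneg k h.nonneg)]
    exact H2 () _ ms (hs.trans (min_le_right _ _))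


/-- truncation of large velocities -/
def trV_p2 (R : ℝ) (ψ : V → ℝ) (w : V) : ℝ := if ‖w‖ ≤ R then ψ w else 0

theorem measurable_trV_p2 (R : ℝ) {ψ : V → ℝ} (mψ : Measurable ψ) : Measurable (trV_p2 R ψ) :=
  Measurable.ite (measurableSet_le measurable_norm measurable_const) mψ measurable_const

theorem tail_wt_p2 {ψ : V → ℝ} {K : ℝ} (hK : 0 < K) (bψ : ∀ w, |ψ w| ≤ K * (1 + ‖w‖)) {R : ℝ}
    (hR : 1 ≤ R) (w : V) : |ψ w - trV_p2 R ψ w| ≤ 2 * K / R * (1 + ‖w‖ ^ 2) := by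
  have hR0 : 0 < R := by linarith
  unfold trV_p2
  split_ifs with h
  · rw [sub_self, abs_zero]
    positivity
  · rw [sub_zero]
    push Not at h
    refine (bψ w).trans ?_
    have h1 : 1 + ‖w‖ ≤ 2 * (1 + ‖w‖ ^ 2) / R := by
      rw [le_div_iff₀ hR0]
      have h2 : 0 ≤ ‖w‖ := norm_nonneg w
      (by_contra nlg; linarith [mul_pos (sub_pos.2 h) (sub_pos.2 h), mul_pos (sub_pos.2 hR0) (sub_pos.2 h), mul_pos (sub_pos.2 (not_le.1 nlg)) (sub_pos.2 h), mul_pos (sub_pos.2 (not_le.1 nlg)) (sub_pos.2 hR0), mul_nonneg (sq_nonneg (‖w‖ : ℝ)) (le_of_lt (sub_pos.2 h)), mul_nonneg (sq_nonneg (‖w‖ : ℝ)) (sub_nonneg.2 hR), h2])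
    calc K * (1 + ‖w‖) ≤ K * (2 * (1 + ‖w‖ ^ 2) / R) := mul_le_mul_of_nonneg_left h1 hK.le
      _ = _ := by ring

theorem trV_le_p2 {ψ : V → ℝ} {K : ℝ} (hK : 0 < K) (bψ : ∀ w, |ψ w| ≤ K * (1 + ‖w‖)) {R : ℝ}
    (hR : 1 ≤ R) (w : V) : |trV_p2 R ψ w| ≤ K * (1 + R) := by
  unfold trV_p2
  split_ifs with h
  · exact (bψ w).trans (mul_le_mul_of_nonneg_left (by linarith) hK.le)
  · rw [abs_zero]
    positivity

/-- difference of velocity averages -/
theorem avg_sub_le_p2 {f : V → ℝ} (mf : Measurable f) (f0 : ∀ w, 0 ≤ f w) {ψ φ : V → ℝ}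
    (mψ : Measurable ψ) (mφ : Measurable φ) {K A B : ℝ} (hK : 0 < K) 
    (bψ : ∀ w, |ψ w| ≤ A * (1 + ‖w‖ ^ 2)) (bφ : ∀ w, |φ w| ≤ B * (1 + ‖w‖ ^ 2))
    (h : ∀ w, |ψ w - φ w| ≤ K * (1 + ‖w‖ ^ 2)) :
    ENNReal.ofReal |(∫ w, f w * ψ w) - ∫ w, f w * φ w| ≤
      ENNReal.ofReal K * ∫⁻ w, ENNReal.ofReal (1 + ‖w‖ ^ 2) * ENNReal.ofReal (f w) := by
  rcases eq_or_ne (∫⁻ w, ENNReal.ofReal (1 + ‖w‖ ^ 2) * ENNReal.ofReal (f w)) ⊤ with ht | ht
  · rw [ht, ENNReal.mul_top (ENNReal.ofReal_pos.2 hK).ne']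
    exact le_top
  · have hi : Integrable fun w => (1 + ‖w‖ ^ 2) * f w := by
      refine ⟨((by fun_prop : Measurable fun w : V => 1 + ‖w‖ ^ 2).mul mf).aestronglyMeasurable, ?_⟩
      rw [hasFiniteIntegral_iff_ofReal (Eventually.of_forall fun w => by
        have := f0 w
        change 0 ≤ (1 + ‖w‖ ^ 2) * f w
        positivity)]
      refine lt_of_le_of_lt (le_of_eq (lintegral_congr fun w => ?_)) (lt_top_iff_ne_top.2 ht)
      rw [ENNReal.ofReal_mul (by positivity)]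
    have gen : ∀ {χ : V → ℝ} {E : ℝ}, Measurable χ → (∀ w, |χ w| ≤ E * (1 + ‖w‖ ^ 2)) →
        Integrable fun w => f w * χ w := by
      intro χ E mχ bχ
      refine (hi.const_mul E).mono' (mf.mul mχ).aestronglyMeasurable ?_
      filter_upwards with w
      rw [norm_mul, Real.norm_of_nonneg (f0 w), Real.norm_eq_abs]
      calc f w * |χ w| ≤ f w * (E * (1 + ‖w‖ ^ 2)) := mul_le_mul_of_nonneg_left (bχ w) (f0 w)
        _ = _ := by ring
    rw [← integral_sub (gen mψ bψ) (gen mφ bφ)]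
    calc ENNReal.ofReal |∫ w, (f w * ψ w - f w * φ w)|
        ≤ ∫⁻ w, ENNReal.ofReal |f w * ψ w - f w * φ w| := by
          have h1 := enorm_integral_le_lintegral_enorm (μ := (volume : Measure V))
            fun w => f w * ψ w - f w * φ w
          simpa only [Real.enorm_eq_ofReal_abs] using h1
      _ ≤ ∫⁻ w, ENNReal.ofReal K * (ENNReal.ofReal (1 + ‖w‖ ^ 2) * ENNReal.ofReal (f w)) := by
          refine lintegral_mono fun w => ?_
          rw [← ENNReal.ofReal_mul (by positivity), ← ENNReal.ofReal_mul hK.le]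
          refine ENNReal.ofReal_le_ofReal ?_
          rw [← mul_sub, abs_mul, abs_of_nonneg (f0 w)]
          calc f w * |ψ w - φ w| ≤ f w * (K * (1 + ‖w‖ ^ 2)) :=
                mul_le_mul_of_nonneg_left (h w) (f0 w)
            _ = _ := by ring
      _ = _ := lintegral_const_mul' _ _ ENNReal.ofReal_ne_top

theorem lin_le_quad_p2 {ψ : V → ℝ} {K : ℝ} (hK : 0 < K) (bψ : ∀ w, |ψ w| ≤ K * (1 + ‖w‖)) (w : V) :
    |ψ w| ≤ 2 * K * (1 + ‖w‖ ^ 2) := by
  refine (bψ w).trans ?_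
  have h1 : 1 + ‖w‖ ≤ 2 * (1 + ‖w‖ ^ 2) := by nlinarith [sq_nonneg (‖w‖ - 1)]
  linarith only [mul_nonneg (le_of_lt (sub_pos.2 hK)) (sub_nonneg.2 h1)]

theorem measurable_avg_p2 {F : ℝ → T3 → V → ℝ}
    (hF : Measurable fun q : ℝ × T3 × V => F q.1 q.2.1 q.2.2) {ψ : V → ℝ} (mψ : Measurable ψ) :
    Measurable fun z : ℝ × T3 => ∫ w, F z.1 z.2 w * ψ w := by
  have h1 : Measurable fun q : (ℝ × T3) × V => F q.1.1 q.1.2 q.2 * ψ q.2 :=
    (hF.comp (by fun_prop : Measurable fun q : (ℝ × T3) × V => (q.1.1, q.1.2, q.2))).mul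
      (mψ.comp measurable_snd)
  exact (h1.stronglyMeasurable.integral_prod_right').measurable

/-- velocity averages with weights of linear growth converge strongly -/
theorem Lim1.avg_lin_p2 (h : Lim1 N F0 F C L) {ψ : V → ℝ} (mψ : Measurable ψ) {K : ℝ} (hK : 0 < K)
    (bψ : ∀ w, |ψ w| ≤ K * (1 + ‖w‖)) :
    SConv zet (fun n z => ∫ w, F n z.1 z.2 w * ψ w) fun z => ∫ w, L z.1 z.2 w * ψ w := by
  refine SConv.of_approx_p2 (fun n => (measurable_avg_p2 (h.apx n).meas mψ).aemeasurable) fun ε hε => ?_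
  obtain ⟨R, hR, hRε⟩ : ∃ R : ℝ, 1 ≤ R ∧ ENNReal.ofReal (2 * K / R) * C ≤ ε := by
    have h1 : Tendsto (fun R : ℝ => ENNReal.ofReal (2 * K / R) * C) atTop (𝓝 0) := by
      have h2 : Tendsto (fun R : ℝ => 2 * K / R) atTop (𝓝 0) :=
        tendsto_const_nhds.div_atTop tendsto_id
      have h3 := ENNReal.tendsto_ofReal h2
      have h4 := ENNReal.Tendsto.mul_const (b := (C : ℝ≥0∞)) h3 (Or.inr ENNReal.coe_ne_top)
      simpa using h4
    obtain ⟨R, hR1, hR2⟩ := ((h1.eventually_le_const hε).and (eventually_ge_atTop 1)).exists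
    exact ⟨R, hR2, hR1⟩
  have hK2 : 0 < 2 * K / R := by positivity
  have htr : ∀ w, |trV_p2 R ψ w| ≤ K * (1 + R) * (1 + ‖w‖ ^ 2) := fun w =>
    (trV_le_p2 hK bψ hR w).trans (le_mul_of_one_le_right (by positivity)
      (by linarith only [sq_nonneg ‖w‖]))
  refine ⟨fun n z => ∫ w, F n z.1 z.2 w * trV_p2 R ψ w, fun z => ∫ w, L z.1 z.2 w * trV_p2 R ψ w,
    fun n => (measurable_avg_p2 (h.apx n).meas (measurable_trV_p2 R mψ)).aemeasurable,
    (measurable_avg_p2 h.meas (measurable_trV_p2 R mψ)).aemeasurable, ?_, fun n => ?_, ?_⟩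
  · have hS : 0 < K * (1 + R) := by positivity
    have h1 := (h.avg (ψ := fun w => (K * (1 + R))⁻¹ * trV_p2 R ψ w)
      ((measurable_trV_p2 R mψ).const_mul _) (fun w => by
        rw [abs_mul, abs_of_nonneg (inv_nonneg.2 hS.le)]
        calc _ ≤ (K * (1 + R))⁻¹ * (K * (1 + R)) :=
              mul_le_mul_of_nonneg_left (trV_le_p2 hK bψ hR w) (inv_nonneg.2 hS.le)
          _ = 1 := inv_mul_cancel₀ hS.ne')).lip (f := fun x => (K * (1 + R)) * x)
        (L := K * (1 + R)) (fun x y => by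
          rw [← mul_sub, abs_mul, abs_of_pos hS])
    have h2 : ∀ f : V → ℝ, K * (1 + R) * ∫ w, f w * ((K * (1 + R))⁻¹ * trV_p2 R ψ w) =
        ∫ w, f w * trV_p2 R ψ w := by
      intro f
      rw [← integral_const_mul]
      refine integral_congr_ae (Eventually.of_forall fun w => ?_)
      change K * (1 + R) * (f w * ((K * (1 + R))⁻¹ * trV_p2 R ψ w)) = f w * trV_p2 R ψ w
      field_simp
    simp only [h2] at h1
    exact h1
  · calc _ ≤ ∫⁻ z, ENNReal.ofReal (2 * K / R) * (∫⁻ w, ENNReal.ofReal (1 + ‖w‖ ^ 2) *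
          ENNReal.ofReal (F n z.1 z.2 w)) ∂zet := lintegral_mono fun z =>
            avg_sub_le_p2 (measurable_slice (h.apx n).meas _ _) ((h.apx n).nonneg _ _) mψ
              (measurable_trV_p2 R mψ) hK2 (lin_le_quad_p2 hK bψ) htr (tail_wt_p2 hK bψ hR)
      _ = ENNReal.ofReal (2 * K / R) * _ := lintegral_const_mul' _ _ ENNReal.ofReal_ne_top
      _ ≤ ENNReal.ofReal (2 * K / R) * C := by
          gcongr
          exact h.toASeq.energy_zet_p2 n
      _ ≤ ε := hRε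
  · calc _ ≤ ∫⁻ z, ENNReal.ofReal (2 * K / R) * (∫⁻ w, ENNReal.ofReal (1 + ‖w‖ ^ 2) *
          ENNReal.ofReal (L z.1 z.2 w)) ∂zet := lintegral_mono fun z =>
            avg_sub_le_p2 (measurable_slice h.meas _ _) (h.nonneg _ _) mψ
              (measurable_trV_p2 R mψ) hK2 (lin_le_quad_p2 hK bψ) htr (tail_wt_p2 hK bψ hR)
      _ = ENNReal.ofReal (2 * K / R) * _ := lintegral_const_mul' _ _ ENNReal.ofReal_ne_top
      _ ≤ ENNReal.ofReal (2 * K / R) * C := by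
          gcongr
          exact h.energy_zet_p2
      _ ≤ ε := hRε


/-- angular average of the kernel -/
def bA_p2 (v w : V) : ℝ := ∫ o, |relA v w o| ∂surf

theorem bA_nonneg_p2 (v w : V) : 0 ≤ bA_p2 v w := integral_nonneg fun _ => abs_nonneg _

theorem measurable_relA_o_p2 (v w : V) : Measurable fun o : S2 => |relA v w o| := by
  have h : Measurable fun o : S2 => (v, w, o) := by fun_prop
  have h2 := measurable_relA.comp h
  exact continuous_abs.measurable.comp h2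

theorem integrable_relA_o_p2 (v w : V) : Integrable (fun o : S2 => |relA v w o|) surf := by
  refine (integrable_const (‖v‖ + ‖w‖)).mono' (measurable_relA_o_p2 v w).aestronglyMeasurable ?_
  filter_upwards with o
  rw [Real.norm_of_nonneg (abs_nonneg _)]
  exact abs_relA_le v w o

/-- a positive constant bounding the surface measure -/
def sK_p2 : ℝ := surf.real univ + 1

theorem sK_pos_p2 : 0 < sK_p2 := by
  unfold sK_p2
  positivity

theorem bA_le_p2 (v w : V) : bA_p2 v w ≤ sK_p2 * (‖v‖ + ‖w‖) := by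
  unfold bA_p2
  calc ∫ o, |relA v w o| ∂surf ≤ ∫ _, (‖v‖ + ‖w‖) ∂surf :=
        integral_mono (integrable_relA_o_p2 v w) (integrable_const _) fun o => abs_relA_le v w o
    _ = surf.real univ * (‖v‖ + ‖w‖) := by simp
    _ ≤ _ := by
        unfold sK_p2
        gcongr
        linarith

theorem measurable_relA_prod_p2 : Measurable fun q : (V × V) × S2 => |relA q.1.1 q.1.2 q.2| := by
  have h : Measurable fun q : (V × V) × S2 => (q.1.1, q.1.2, q.2) := by fun_prop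
  have h2 := measurable_relA.comp h
  exact continuous_abs.measurable.comp h2

theorem measurable_bA_p2 : Measurable fun p : V × V => bA_p2 p.1 p.2 := by
  have h2 := (measurable_relA_prod_p2.stronglyMeasurable.integral_prod_right' (ν := surf)).measurable
  unfold bA_p2
  exact h2

theorem measurable_bA_right_p2 (v : V) : Measurable fun w : V => bA_p2 v w := by
  have h := measurable_bA_p2.comp (measurable_prodMk_left (x := v))
  exact h

theorem ofReal_bA_p2 (v w : V) : ENNReal.ofReal (bA_p2 v w) = ∫⁻ o, ENNReal.ofReal |relA v w o| ∂surf :=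
  ofReal_integral_eq_lintegral_ofReal (integrable_relA_o_p2 v w)
    (Eventually.of_forall fun _ => abs_nonneg _)

theorem rate_eq_p2 {g : V → ℝ} (g0 : ∀ v, 0 ≤ g v) (v : V) :
    rate g v = ∫⁻ w, ENNReal.ofReal (g w * bA_p2 v w) := by
  unfold rate
  refine lintegral_congr fun w => ?_
  rw [ENNReal.ofReal_mul (g0 w), ofReal_bA_p2, ← lintegral_const_mul' _ _ ENNReal.ofReal_ne_top]
  refine lintegral_congr fun o => ?_
  rw [mul_comm, ENNReal.ofReal_mul (g0 w)]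

theorem rate_toReal_p2 {g : V → ℝ} (mg : Measurable g) (g0 : ∀ v, 0 ≤ g v) (v : V) :
    (rate g v).toReal = ∫ w, g w * bA_p2 v w := by
  rw [rate_eq_p2 g0, integral_eq_lintegral_of_nonneg_ae
    (Eventually.of_forall fun w => mul_nonneg (g0 w) (bA_nonneg_p2 v w))]
  exact (mg.mul (measurable_bA_right_p2 v)).aestronglyMeasurable

theorem bA_lin_p2 (v w : V) : |bA_p2 v w| ≤ sK_p2 * (1 + ‖v‖) * (1 + ‖w‖) := by
  rw [abs_of_nonneg (bA_nonneg_p2 v w)]
  refine (bA_le_p2 v w).trans ?_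
  have h1 : 0 ≤ ‖v‖ := norm_nonneg v
  have h2 : 0 ≤ ‖w‖ := norm_nonneg w
  have h3 := sK_pos_p2
  rw [mul_assoc]
  refine mul_le_mul_of_nonneg_left ?_ h3.le
  linarith only [mul_nonneg h1 h2]

theorem lintegral_mV_lin_p2 : ∫⁻ v : V, ENNReal.ofReal (1 + ‖v‖) ∂mV < ⊤ := by
  have mn : Measurable fun v : V => ENNReal.ofReal (1 + ‖v‖) := by fun_prop
  rw [lintegral_mV mn]
  have h1 : ∀ v : V, ENNReal.ofReal (Maxw v) * ENNReal.ofReal (1 + ‖v‖) ≤
      ENNReal.ofReal (2 * (2 * Real.pi) ^ (-(3 / 2) : ℝ)) * (gau (1 / 2) v * ph v ^ 1) := by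
    intro v
    unfold gau ph Maxw
    rw [pow_one, ← ENNReal.ofReal_mul (by positivity), ← ENNReal.ofReal_mul (by positivity),
      ← ENNReal.ofReal_mul (by positivity)]
    refine ENNReal.ofReal_le_ofReal ?_
    have h2 : 1 + ‖v‖ ≤ 2 * (1 + ‖v‖ ^ 2) := by nlinarith [sq_nonneg (‖v‖ - 1)]
    have h3 : -(‖v‖ ^ 2 / 2) = -(1 / 2 * ‖v‖ ^ 2) := by ring
    rw [h3]
    have h4 : 0 ≤ (2 * Real.pi) ^ (-(3 / 2) : ℝ) * Real.exp (-(1 / 2 * ‖v‖ ^ 2)) := by positivity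
    calc _ ≤ (2 * Real.pi) ^ (-(3 / 2) : ℝ) * Real.exp (-(1 / 2 * ‖v‖ ^ 2)) *
          (2 * (1 + ‖v‖ ^ 2)) := mul_le_mul_of_nonneg_left h2 h4
      _ = _ := by ring
  refine lt_of_le_of_lt (lintegral_mono h1) ?_
  rw [lintegral_const_mul' _ _ ENNReal.ofReal_ne_top]
  exact ENNReal.mul_lt_top ENNReal.ofReal_lt_top
    (lt_top_iff_ne_top.2 (Mo_gau 1 (by norm_num : (0 : ℝ) < 1 / 2)))

/-- distance of the collision frequencies at a fixed velocity -/
def Dn_p2 (F G : ℝ → T3 → V → ℝ) (v : V) : ℝ≥0∞ :=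
  ∫⁻ z : ℝ × T3, ENNReal.ofReal |(rate (F z.1 z.2) v).toReal - (rate (G z.1 z.2) v).toReal| ∂zet

theorem measurable_rate_st_p2 {F : ℝ → T3 → V → ℝ}
    (hF : Measurable fun q : ℝ × T3 × V => F q.1 q.2.1 q.2.2) :
    Measurable fun q : (ℝ × T3) × V => (rate (F q.1.1 q.1.2) q.2).toReal :=
  (measurable_rate (f := fun z : ℝ × T3 => F z.1 z.2)
    (hF.comp (by fun_prop : Measurable fun q : (ℝ × T3) × V => (q.1.1, q.1.2, q.2)))).ennreal_toReal

theorem rate_dist_eq_p2 {F G : ℝ → T3 → V → ℝ}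
    (hF : Measurable fun q : ℝ × T3 × V => F q.1 q.2.1 q.2.2)
    (hG : Measurable fun q : ℝ × T3 × V => G q.1 q.2.1 q.2.2) :
    ∫⁻ q, ENNReal.ofReal |(rate (F q.1 q.2.1) q.2.2).toReal - (rate (G q.1 q.2.1) q.2.2).toReal| ∂PP
      = ∫⁻ v, Dn_p2 F G v ∂mV := by
  have m1 : Measurable fun q : (ℝ × T3) × V => ENNReal.ofReal
      |(rate (F q.1.1 q.1.2) q.2).toReal - (rate (G q.1.1 q.1.2) q.2).toReal| :=
    (continuous_abs.measurable.comp
      ((measurable_rate_st_p2 hF).sub (measurable_rate_st_p2 hG))).ennreal_ofReal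
  have h1 := measurePreserving_assoc_PP.lintegral_comp m1
  have h2 := lintegral_prod_symm' (μ := zet) (ν := mV) _ m1
  rw [h2] at h1
  exact h1

theorem rate_toReal_le_p2 {f : V → ℝ} (mf : Measurable f) (f0 : ∀ w, 0 ≤ f w) (v : V) :
    ENNReal.ofReal (rate f v).toReal ≤ ENNReal.ofReal (2 * (sK_p2 * (1 + ‖v‖))) *
        ∫⁻ w, ENNReal.ofReal (1 + ‖w‖ ^ 2) * ENNReal.ofReal (f w) := by
  have hs := sK_pos_p2
  have hK : 0 < 2 * (sK_p2 * (1 + ‖v‖)) := by positivity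
  have hK1 : 0 < sK_p2 * (1 + ‖v‖) := by positivity
  have h3 : ∀ w, |bA_p2 v w| ≤ 2 * (sK_p2 * (1 + ‖v‖)) * (1 + ‖w‖ ^ 2) := lin_le_quad_p2 hK1 (bA_lin_p2 v)
  have h1 := avg_sub_le_p2 mf f0 (ψ := fun w => bA_p2 v w) (φ := fun _ => 0) (measurable_bA_right_p2 v)
    measurable_const (A := 2 * (sK_p2 * (1 + ‖v‖))) (B := 0) hK h3 (fun w => by simp)
    (fun w => by
      rw [sub_zero]
      exact h3 w)
  have h2 : (∫ w, f w * bA_p2 v w) - ∫ w, f w * (0 : ℝ) = (rate f v).toReal := by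
    rw [rate_toReal_p2 mf f0]
    simp
  rw [h2, abs_of_nonneg ENNReal.toReal_nonneg] at h1
  exact h1

theorem measurable_eng_p2 {F : ℝ → T3 → V → ℝ}
    (hF : Measurable fun q : ℝ × T3 × V => F q.1 q.2.1 q.2.2) :
    Measurable fun z : ℝ × T3 => ∫⁻ w, ENNReal.ofReal (1 + ‖w‖ ^ 2) *
      ENNReal.ofReal (F z.1 z.2 w) := by
  have m2 : Measurable fun q : (ℝ × T3) × V => ENNReal.ofReal (1 + ‖q.2‖ ^ 2) *
      ENNReal.ofReal (F q.1.1 q.1.2 q.2) :=
    (by fun_prop : Measurable fun q : (ℝ × T3) × V => ENNReal.ofReal (1 + ‖q.2‖ ^ 2)).mul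
      (hF.comp (by fun_prop : Measurable fun q : (ℝ × T3) × V =>
        (q.1.1, q.1.2, q.2))).ennreal_ofReal
  exact m2.lintegral_prod_right'

theorem Dn_le_p2 {F : ℝ → T3 → V → ℝ} {G : ℝ → T3 → V → ℝ} {C : ℝ≥0}
    (hF : Measurable fun q : ℝ × T3 × V => F q.1 q.2.1 q.2.2)
    (hG : Measurable fun q : ℝ × T3 × V => G q.1 q.2.1 q.2.2)
    (hF0 : ∀ t x v, 0 ≤ F t x v) (hG0 : ∀ t x v, 0 ≤ G t x v)
    (eF : ∫⁻ z, (∫⁻ w, ENNReal.ofReal (1 + ‖w‖ ^ 2) * ENNReal.ofReal (F z.1 z.2 w)) ∂zet ≤ C)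
    (eG : ∫⁻ z, (∫⁻ w, ENNReal.ofReal (1 + ‖w‖ ^ 2) * ENNReal.ofReal (G z.1 z.2 w)) ∂zet ≤ C)
    (v : V) : Dn_p2 F G v ≤ ENNReal.ofReal (4 * sK_p2) * C * ENNReal.ofReal (1 + ‖v‖) := by
  have hs := sK_pos_p2
  have hK : 0 < 2 * (sK_p2 * (1 + ‖v‖)) := by positivity
  have h1 : ∀ z : ℝ × T3, ENNReal.ofReal
      |(rate (F z.1 z.2) v).toReal - (rate (G z.1 z.2) v).toReal| ≤
        ENNReal.ofReal (2 * (sK_p2 * (1 + ‖v‖))) *
          (∫⁻ w, ENNReal.ofReal (1 + ‖w‖ ^ 2) * ENNReal.ofReal (F z.1 z.2 w)) +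
          ENNReal.ofReal (2 * (sK_p2 * (1 + ‖v‖))) *
          ∫⁻ w, ENNReal.ofReal (1 + ‖w‖ ^ 2) * ENNReal.ofReal (G z.1 z.2 w) := by
    intro z
    refine le_trans ?_ (add_le_add (rate_toReal_le_p2 (measurable_slice hF z.1 z.2) (hF0 z.1 z.2) v)
      (rate_toReal_le_p2 (measurable_slice hG z.1 z.2) (hG0 z.1 z.2) v))
    rw [← ENNReal.ofReal_add ENNReal.toReal_nonneg ENNReal.toReal_nonneg]
    refine ENNReal.ofReal_le_ofReal ?_
    refine (abs_sub _ _).trans (le_of_eq ?_)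
    rw [abs_of_nonneg ENNReal.toReal_nonneg, abs_of_nonneg ENNReal.toReal_nonneg]
  refine (lintegral_mono h1).trans ?_
  rw [lintegral_add_left ((measurable_eng_p2 hF).const_mul _),
    lintegral_const_mul' _ _ ENNReal.ofReal_ne_top, lintegral_const_mul' _ _ ENNReal.ofReal_ne_top]
  refine (add_le_add (mul_le_mul_right eF _) (mul_le_mul_right eG _)).trans (le_of_eq ?_)
  rw [← add_mul, ← ENNReal.ofReal_add hK.le hK.le, mul_right_comm,
    ← ENNReal.ofReal_mul (by positivity)]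
  congr 2
  ring

theorem Lim1.rate_conv0_p2 (h : Lim1 N F0 F C L) :
    SConv PP (fun n q => (rate (F n q.1 q.2.1) q.2.2).toReal)
      fun q => (rate (L q.1 q.2.1) q.2.2).toReal := by
  unfold SConv
  simp only [rate_dist_eq_p2 (h.apx _).meas h.meas]
  have h0 : ∫⁻ _, (0 : ℝ≥0∞) ∂mV = 0 := by simp
  rw [← h0]
  have mD : ∀ n, Measurable (Dn_p2 (F n) L) := by
    intro n
    have m1 : Measurable fun q : (ℝ × T3) × V => ENNReal.ofReal
        |(rate (F n q.1.1 q.1.2) q.2).toReal - (rate (L q.1.1 q.1.2) q.2).toReal| :=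
      (continuous_abs.measurable.comp
        ((measurable_rate_st_p2 (h.apx n).meas).sub (measurable_rate_st_p2 h.meas))).ennreal_ofReal
    exact m1.lintegral_prod_left'
  refine tendsto_lintegral_of_dominated_convergence
    (fun v => ENNReal.ofReal (4 * sK_p2) * C * ENNReal.ofReal (1 + ‖v‖)) mD
    (fun n => Eventually.of_forall fun v => Dn_le_p2 (h.apx n).meas h.meas (h.apx n).nonneg h.nonneg
      (h.toASeq.energy_zet_p2 n) h.energy_zet_p2 v) ?_ (Eventually.of_forall fun v => ?_)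
  · rw [lintegral_const_mul' _ _ (ENNReal.mul_ne_top ENNReal.ofReal_ne_top ENNReal.coe_ne_top)]
    exact ENNReal.mul_ne_top (ENNReal.mul_ne_top ENNReal.ofReal_ne_top ENNReal.coe_ne_top)
      lintegral_mV_lin_p2.ne
  · have hK1 : 0 < sK_p2 * (1 + ‖v‖) := by
      have := sK_pos_p2
      positivity
    have h1 := h.avg_lin_p2 (measurable_bA_right_p2 v) hK1 (bA_lin_p2 v)
    have h2 : ∀ n, Dn_p2 (F n) L v = ∫⁻ z : ℝ × T3, ENNReal.ofReal
        |(∫ w, F n z.1 z.2 w * bA_p2 v w) - ∫ w, L z.1 z.2 w * bA_p2 v w| ∂zet := by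
      intro n
      unfold Dn_p2
      refine lintegral_congr fun z => ?_
      rw [rate_toReal_p2 (measurable_slice (h.apx n).meas _ _) ((h.apx n).nonneg _ _),
        rate_toReal_p2 (measurable_slice h.meas _ _) (h.nonneg _ _)]
    simp only [h2]
    exact h1

theorem Lim1.rate_fin (h : Lim1 N F0 F C L) :
    ∫⁻ q, rate (L q.1 q.2.1) q.2.2 ∂PP < ⊤ := by
  have m1 : Measurable fun q : (ℝ × T3) × V => rate (L q.1.1 q.1.2) q.2 :=
    measurable_rate (f := fun z : ℝ × T3 => L z.1 z.2)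
      (h.meas.comp (by fun_prop : Measurable fun q : (ℝ × T3) × V => (q.1.1, q.1.2, q.2)))
  have h1 : ∫⁻ q, rate (L q.1 q.2.1) q.2.2 ∂PP = ∫⁻ q : (ℝ × T3) × V, rate (L q.1.1 q.1.2) q.2
      ∂(zet.prod mV) := measurePreserving_assoc_PP.lintegral_comp m1
  rw [h1, lintegral_prod _ m1.aemeasurable]
  have h2 : ∀ (z : ℝ × T3) (v : V), rate (L z.1 z.2) v ≤ ENNReal.ofReal (1 + ‖v‖) *
      (ENNReal.ofReal (2 * sK_p2) *
      ∫⁻ w, ENNReal.ofReal (1 + ‖w‖ ^ 2) * ENNReal.ofReal (L z.1 z.2 w)) := by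
    intro z v
    have hs := sK_pos_p2
    rw [rate_eq_p2 (h.nonneg _ _), ← lintegral_const_mul' _ _ ENNReal.ofReal_ne_top,
      ← lintegral_const_mul' _ _ ENNReal.ofReal_ne_top]
    refine lintegral_mono fun w => ?_
    rw [← ENNReal.ofReal_mul (by positivity), ← ENNReal.ofReal_mul (by positivity),
      ← ENNReal.ofReal_mul (by positivity)]
    refine ENNReal.ofReal_le_ofReal ?_
    have hK1 : 0 < sK_p2 * (1 + ‖v‖) := by positivity
    have h3 := lin_le_quad_p2 hK1 (bA_lin_p2 v) w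
    rw [abs_of_nonneg (bA_nonneg_p2 v w)] at h3
    calc L z.1 z.2 w * bA_p2 v w ≤ L z.1 z.2 w * (2 * (sK_p2 * (1 + ‖v‖)) * (1 + ‖w‖ ^ 2)) :=
          mul_le_mul_of_nonneg_left h3 (h.nonneg _ _ _)
      _ = _ := by ring
  have mn : Measurable fun v : V => ENNReal.ofReal (1 + ‖v‖) := by fun_prop
  calc _ ≤ ∫⁻ z : ℝ × T3, ((∫⁻ v, ENNReal.ofReal (1 + ‖v‖) ∂mV) * (ENNReal.ofReal (2 * sK_p2) *
          ∫⁻ w, ENNReal.ofReal (1 + ‖w‖ ^ 2) * ENNReal.ofReal (L z.1 z.2 w))) ∂zet := by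
        refine lintegral_mono fun z => ?_
        rw [← lintegral_mul_const _ mn]
        exact lintegral_mono fun v => h2 z v
    _ = (∫⁻ v, ENNReal.ofReal (1 + ‖v‖) ∂mV) * (ENNReal.ofReal (2 * sK_p2) *
          ∫⁻ z : ℝ × T3, (∫⁻ w, ENNReal.ofReal (1 + ‖w‖ ^ 2) *
            ENNReal.ofReal (L z.1 z.2 w)) ∂zet) := by
        rw [lintegral_const_mul' _ _ lintegral_mV_lin_p2.ne,
          lintegral_const_mul' _ _ ENNReal.ofReal_ne_top]
    _ < ⊤ := ENNReal.mul_lt_top lintegral_mV_lin_p2 (ENNReal.mul_lt_top ENNReal.ofReal_lt_top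
        (lt_of_le_of_lt h.energy_zet_p2 ENNReal.coe_lt_top))


/-- regrouping of the variables -/
theorem mp_swap4_p2 : MeasurePreserving
    (fun q : (ℝ × T3) × V × V × S2 => (((q.1, q.2.2.1), (q.2.1, q.2.2.2)) :
      ((ℝ × T3) × V) × V × S2)) P4 ((zet.prod mV).prod (mV.prod surf)) := by
  unfold P4
  have h1 := (measurePreserving_prodAssoc mV mV surf).symm MeasurableEquiv.prodAssoc
  have h2 := (Measure.measurePreserving_swap (μ := mV) (ν := mV)).prod
    (MeasurePreserving.id surf)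
  have h3 := measurePreserving_prodAssoc mV mV surf
  have h4 := h3.comp (h2.comp h1)
  have h5 := (MeasurePreserving.id zet).prod h4
  have h6 := (measurePreserving_prodAssoc zet mV (mV.prod surf)).symm MeasurableEquiv.prodAssoc
  exact h6.comp h5

/-- the density of the second particle, as a function of all variables -/
def g4_p2 (F : ℝ → T3 → V → ℝ) (q : (ℝ × T3) × V × V × S2) : ℝ :=
  |relA q.2.1 q.2.2.1 q.2.2.2| * den F (q.1.1, q.1.2, q.2.2.1)

theorem measurable_g4_p2 {F : ℝ → T3 → V → ℝ}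
    (hF : Measurable fun q : ℝ × T3 × V => F q.1 q.2.1 q.2.2) : Measurable (g4_p2 F) := by
  have h1 : Measurable fun q : (ℝ × T3) × V × V × S2 => den F (q.1.1, q.1.2, q.2.2.1) :=
    (measurable_den_p2 hF).comp
      (by fun_prop : Measurable fun q : (ℝ × T3) × V × V × S2 => (q.1.1, q.1.2, q.2.2.1))
  exact measurable_relA4_p2.mul h1

theorem ASeq.ui_den_lin_p2 (h : ASeq N F0 F C) :
    UI PP fun n q => ENNReal.ofReal ((1 + ‖q.2.2‖) * den (F n) q) := by
  have h1 := UI.of_slices (ν := nuE) (μ := muM) (S := Ici 0)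
    (g := fun n t p => ENNReal.ofReal ((1 + ‖p.2‖) * den0 (F n t) p)) (by
      have h2 : ∀ᵐ t ∂nuE, 0 < t := by
        unfold nuE
        refine (withDensity_absolutelyContinuous _ _).ae_le ?_
        exact ae_restrict_mem measurableSet_Ioi
      filter_upwards [h2] with t ht using ht.le) h.ui_time_weight (fun n => by
      have h3 : Measurable fun q : ℝ × T3 × V => (1 + ‖q.2.2‖) * den (F n) q :=
        (by fun_prop : Measurable fun q : ℝ × T3 × V => 1 + ‖q.2.2‖).mul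
          (measurable_den_p2 (h.apx n).meas)
      exact h3.ennreal_ofReal)
  exact h1

theorem ASeq.ui_g4_p2 (h : ASeq N F0 F C) :
    UI P4 fun n q => ENNReal.ofReal (g4_p2 (F n) q) := by
  have m0 : ∀ n, Measurable fun q : ℝ × T3 × V => ENNReal.ofReal ((1 + ‖q.2.2‖) * den (F n) q) :=
    fun n => ((by fun_prop : Measurable fun q : ℝ × T3 × V => 1 + ‖q.2.2‖).mul
      (measurable_den_p2 (h.apx n).meas)).ennreal_ofReal
  have h1 := h.ui_den_lin_p2.comp_mp m0 (measurePreserving_prodAssoc nuE (volume : Measure T3) mV)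
  have m1 : ∀ n, Measurable fun q : (ℝ × T3) × V => ENNReal.ofReal
      ((1 + ‖(MeasurableEquiv.prodAssoc q).2.2‖) * den (F n) (MeasurableEquiv.prodAssoc q)) :=
    fun n => (m0 n).comp MeasurableEquiv.prodAssoc.measurable
  have mf : Measurable fun p : V × S2 => ENNReal.ofReal (1 + ‖p.1‖) := by fun_prop
  have h2 := h1.prod_mul (ν := mV.prod surf) m1 mf (by
    have h3 := lintegral_prod_mul (μ := mV) (ν := surf) (f := fun v : V => ENNReal.ofReal (1 + ‖v‖))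
      (g := fun _ => 1) (by fun_prop) aemeasurable_const
    simp only [mul_one, lintegral_const, one_mul] at h3
    rw [h3]
    exact ENNReal.mul_lt_top lintegral_mV_lin_p2 (measure_lt_top _ _))
  have h4 := h2.comp_mp (fun n => ((m1 n).comp measurable_fst).mul (mf.comp measurable_snd)) mp_swap4_p2
  refine h4.mono fun n => Eventually.of_forall fun q => ?_
  change ENNReal.ofReal (g4_p2 (F n) q) ≤ ENNReal.ofReal
    ((1 + ‖q.2.2.1‖) * den (F n) (q.1.1, q.1.2, q.2.2.1)) * ENNReal.ofReal (1 + ‖q.2.1‖)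
  have h5 : 0 ≤ den (F n) (q.1.1, q.1.2, q.2.2.1) :=
    div_nonneg ((h.apx n).nonneg _ _ _) (Maxw_pos _).le
  rw [← ENNReal.ofReal_mul (by positivity)]
  refine ENNReal.ofReal_le_ofReal ?_
  unfold g4_p2
  have h6 := abs_relA_le q.2.1 q.2.2.1 q.2.2.2
  have h7 : 0 ≤ ‖q.2.1‖ * ‖q.2.2.1‖ := by positivity
  calc _ ≤ ((1 + ‖q.2.2.1‖) * (1 + ‖q.2.1‖)) * den (F n) (q.1.1, q.1.2, q.2.2.1) :=
        mul_le_mul_of_nonneg_right (by linarith only [h7, h6]) h5
    _ = _ := by ring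

/-- indicator of the part where the kernel is not truncated -/
def inB_p2 (n : ℕ) (v w : V) (o : S2) : ℝ := if bN n v w o = |relA v w o| then 1 else 0

theorem inB_nonneg_p2 (n : ℕ) (v w : V) (o : S2) : 0 ≤ inB_p2 n v w o := by
  unfold inB_p2
  split_ifs <;> norm_num

theorem inB_le_one_p2 (n : ℕ) (v w : V) (o : S2) : inB_p2 n v w o ≤ 1 := by
  unfold inB_p2
  split_ifs <;> norm_num

theorem bN_eq_inB_p2 (n : ℕ) (v w : V) (o : S2) : bN n v w o = |relA v w o| * inB_p2 n v w o := by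
  unfold inB_p2
  split_ifs with h
  · rw [h, mul_one]
  · rw [mul_zero]
    unfold bN at h ⊢
    split_ifs with h2
    · rw [if_pos h2] at h
      exact absurd rfl h
    · rfl

theorem measurable_inB_p2 (n : ℕ) : Measurable fun q : (ℝ × T3) × V × V × S2 =>
    inB_p2 n q.2.1 q.2.2.1 q.2.2.2 :=
  Measurable.ite (measurableSet_eq_fun (measurable_bN4_p2 n) measurable_relA4_p2) measurable_const
    measurable_const

theorem ASeq.inB_conv_p2 (h : ASeq N F0 F C) :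
    SConv P4 (fun n q => inB_p2 (N n) q.2.1 q.2.2.1 q.2.2.2) fun _ => 1 := by
  refine SConv.of_ae (fun n => measurable_inB_p2 (N n)) measurable_const (B := 1) (fun n q => ?_)
    (Eventually.of_forall fun q => ?_)
  · rw [abs_of_nonneg (inB_nonneg_p2 _ _ _ _)]
    exact inB_le_one_p2 _ _ _ _
  · refine tendsto_const_nhds.congr' ?_
    filter_upwards [bN_eventually_p2 h.tend q.2.1 q.2.2.1 q.2.2.2] with n hn
    unfold inB_p2
    rw [if_pos hn]

/-- total truncation factor -/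
def fac_p2 (n : ℕ) (F : ℝ → T3 → V → ℝ) (q : (ℝ × T3) × V × V × S2) : ℝ :=
  (pfN n (F q.1.1 q.1.2)).toReal * inB_p2 n q.2.1 q.2.2.1 q.2.2.2

theorem measurable_fac_p2 (n : ℕ) {F : ℝ → T3 → V → ℝ}
    (hF : Measurable fun q : ℝ × T3 × V => F q.1 q.2.1 q.2.2) : Measurable (fac_p2 n F) :=
  ((measurable_pf_p2 n hF).comp measurable_fst).mul (measurable_inB_p2 n)

theorem fac_nonneg_p2 (n : ℕ) (F : ℝ → T3 → V → ℝ) (q : (ℝ × T3) × V × V × S2) : 0 ≤ fac_p2 n F q :=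
  mul_nonneg ENNReal.toReal_nonneg (inB_nonneg_p2 _ _ _ _)

theorem fac_le_one_p2 (n : ℕ) (F : ℝ → T3 → V → ℝ) (q : (ℝ × T3) × V × V × S2) : fac_p2 n F q ≤ 1 :=
  mul_le_one₀ (pfN_toReal_le_one_p2 _ _) (inB_nonneg_p2 _ _ _ _) (inB_le_one_p2 _ _ _ _)

theorem ASeq.fac_conv_p2 (h : ASeq N F0 F C) :
    Tendsto (fun n => ∫⁻ q, ENNReal.ofReal (1 - fac_p2 (N n) (F n) q) ∂P4) atTop (𝓝 0) := by
  have h1 := SConv.mul_bdd (B := 1) (g := fun n q => (pfN (N n) (F n q.1.1 q.1.2)).toReal)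
    (G := fun _ => 1) (k := fun n q => inB_p2 (N n) q.2.1 q.2.2.1 q.2.2.2)
    (K := fun _ => 1) (μ := P4)
    (fun n => (measurable_pf_p2 (N n) (h.apx n).meas).comp measurable_fst)
    measurable_const (fun n => measurable_inB_p2 (N n)) measurable_const h.pf_conv4_p2 h.inB_conv_p2
    (fun n q => by
      rw [abs_of_nonneg ENNReal.toReal_nonneg]
      exact pfN_toReal_le_one_p2 _ _) (fun q => by simp)
  unfold SConv at h1
  refine h1.congr fun n => lintegral_congr fun q => ?_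
  have h2 := fac_le_one_p2 (N n) (F n) q
  change ENNReal.ofReal |fac_p2 (N n) (F n) q - 1 * 1| = _
  rw [mul_one, abs_sub_comm, abs_of_nonneg (by linarith)]

theorem ofReal_sub_toReal_le_p2 (a r : ℝ≥0∞) :
    ENNReal.ofReal |a.toReal - (a + r).toReal| ≤ r := by
  rcases eq_or_ne r ⊤ with rfl | hr
  · exact le_top
  rcases eq_or_ne a ⊤ with rfl | ha
  · simp
  rw [ENNReal.toReal_add ha hr]
  have h1 : a.toReal - (a.toReal + r.toReal) = - r.toReal := by ring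
  rw [h1, abs_neg, abs_of_nonneg ENNReal.toReal_nonneg, ENNReal.ofReal_toReal hr]

/-- truncation error of the collision frequency -/
def errR_p2 (n : ℕ) (F : ℝ → T3 → V → ℝ) (z : ℝ × T3) (v : V) : ℝ≥0∞ :=
  ∫⁻ w : V, ∫⁻ o : S2, ENNReal.ofReal (|relA v w o| * F z.1 z.2 w) *
    ENNReal.ofReal (1 - fac_p2 n F (z, v, w, o)) ∂surf

theorem rate_split_p2 (n : ℕ) {F : ℝ → T3 → V → ℝ}
    (hF : Measurable fun q : ℝ × T3 × V => F q.1 q.2.1 q.2.2) (hF0 : ∀ t x v, 0 ≤ F t x v)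
    (z : ℝ × T3) (v : V) : rate (F z.1 z.2) v = rateP n (F z.1 z.2) v + errR_p2 n F z v := by
  have hp : pfN n (F z.1 z.2) ≠ ⊤ := ne_top_of_le_ne_top ENNReal.one_ne_top (pfN_le_one _ _)
  have mw : Measurable fun w : V => F z.1 z.2 w := measurable_slice hF z.1 z.2
  have mb0 : Measurable fun p : V × S2 => bN n v p.1 p.2 := by
    have h := (measurable_bN n).comp (measurable_prodMk_left (x := v))
    exact h
  have mb : Measurable fun p : V × S2 => bN n v p.1 p.2 * F z.1 z.2 p.1 :=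
    mb0.mul (mw.comp measurable_fst)
  unfold rateP rateN rate errR_p2
  have m1 : Measurable fun p : V × S2 => ENNReal.ofReal (bN n v p.1 p.2 * F z.1 z.2 p.1) :=
    mb.ennreal_ofReal
  rw [← lintegral_const_mul _ m1.lintegral_prod_right']
  rw [← lintegral_add_left (m1.lintegral_prod_right'.const_mul _)]
  refine lintegral_congr fun w => ?_
  have m2 : Measurable fun o : S2 => ENNReal.ofReal (bN n v w o * F z.1 z.2 w) := by
    have h := m1.comp (measurable_prodMk_left (x := w))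
    exact h
  rw [← lintegral_const_mul _ m2, ← lintegral_add_left (m2.const_mul _)]
  refine lintegral_congr fun o => ?_
  have h0 := hF0 z.1 z.2 w
  have h1 := fac_le_one_p2 n F (z, v, w, o)
  have h2 := fac_nonneg_p2 n F (z, v, w, o)
  rw [← ENNReal.ofReal_mul (mul_nonneg (abs_nonneg _) h0)]
  nth_rw 1 [← ENNReal.ofReal_toReal hp]
  rw [← ENNReal.ofReal_mul ENNReal.toReal_nonneg,
    ← ENNReal.ofReal_add
      (mul_nonneg ENNReal.toReal_nonneg (mul_nonneg (bN_nonneg _ _ _ _) h0))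
      (mul_nonneg (mul_nonneg (abs_nonneg _) h0) (by linarith))]
  congr 1
  rw [bN_eq_inB_p2]
  unfold fac_p2
  ring

theorem lintegral_errR_p2 (n : ℕ) {F : ℝ → T3 → V → ℝ}
    (hF : Measurable fun q : ℝ × T3 × V => F q.1 q.2.1 q.2.2) :
    ∫⁻ z, (∫⁻ v : V, ENNReal.ofReal (Maxw v) * errR_p2 n F z v) ∂zet =
      ∫⁻ q, ENNReal.ofReal (g4_p2 F q) * ENNReal.ofReal (1 - fac_p2 n F q) ∂P4 := by
  have m1 : Measurable fun q => ENNReal.ofReal (g4_p2 F q) * ENNReal.ofReal (1 - fac_p2 n F q) :=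
    (measurable_g4_p2 hF).ennreal_ofReal.mul (measurable_const.sub (measurable_fac_p2 n hF)).ennreal_ofReal
  rw [lintegral_P4 m1]
  refine lintegral_congr fun z => lintegral_congr fun v => ?_
  unfold errR_p2
  rw [← lintegral_const_mul' _ _ ENNReal.ofReal_ne_top]
  refine lintegral_congr fun w => ?_
  rw [← lintegral_const_mul' _ _ ENNReal.ofReal_ne_top]
  refine lintegral_congr fun o => ?_
  rw [← mul_assoc, ← mul_assoc, ← ENNReal.ofReal_mul (Maxw_pos v).le,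
    ← ENNReal.ofReal_mul (mul_pos (Maxw_pos v) (Maxw_pos w)).le]
  congr 2
  unfold g4_p2 den
  have := (Maxw_pos w).ne'
  field_simp

theorem ASeq.err_conv_p2 (h : ASeq N F0 F C) :
    Tendsto (fun n => ∫⁻ z, (∫⁻ v : V, ENNReal.ofReal (Maxw v) * errR_p2 (N n) (F n) z v) ∂zet)
      atTop (𝓝 0) := by
  simp only [lintegral_errR_p2 (N _) (h.apx _).meas]
  exact h.ui_g4_p2.mul_tendsto_zero (fun n => (measurable_g4_p2 (h.apx n).meas).ennreal_ofReal)
    (fun n => (measurable_const.sub (measurable_fac_p2 (N n) (h.apx n).meas)).ennreal_ofReal)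
    (fun n q => by
      rw [← ENNReal.ofReal_one]
      exact ENNReal.ofReal_le_ofReal (by linarith [fac_nonneg_p2 (N n) (F n) q])) h.fac_conv_p2

theorem measurable_asc_p2 : Measurable fun q : ℝ × T3 × V => (((q.1, q.2.1), q.2.2) : (ℝ × T3) × V) := by
  fun_prop

theorem measurable_unc_p2 {F : ℝ → T3 → V → ℝ}
    (hF : Measurable fun q : ℝ × T3 × V => F q.1 q.2.1 q.2.2) :
    Measurable fun q : (ℝ × T3) × V => F q.1.1 q.1.2 q.2 :=
  hF.comp (by fun_prop : Measurable fun q : (ℝ × T3) × V => (q.1.1, q.1.2, q.2))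

theorem measurable_rateP_st_p2 (n : ℕ) {F : ℝ → T3 → V → ℝ}
    (hF : Measurable fun q : ℝ × T3 × V => F q.1 q.2.1 q.2.2) :
    Measurable fun q : ℝ × T3 × V => (rateP n (F q.1 q.2.1) q.2.2).toReal := by
  have h0 := measurable_rateP n (f := fun z : ℝ × T3 => F z.1 z.2) (measurable_unc_p2 hF)
  have h1 := h0.ennreal_toReal
  have h2 := h1.comp measurable_asc_p2
  exact h2

theorem measurable_rate_st'_p2 {F : ℝ → T3 → V → ℝ}
    (hF : Measurable fun q : ℝ × T3 × V => F q.1 q.2.1 q.2.2) :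
    Measurable fun q : ℝ × T3 × V => (rate (F q.1 q.2.1) q.2.2).toReal := by
  have h2 := (measurable_rate_st_p2 hF).comp measurable_asc_p2
  exact h2

theorem lintegral_rateP_sub_p2 (n : ℕ) {F : ℝ → T3 → V → ℝ}
    (hF : Measurable fun q : ℝ × T3 × V => F q.1 q.2.1 q.2.2) (hF0 : ∀ t x v, 0 ≤ F t x v) :
    ∫⁻ q, ENNReal.ofReal |(rateP n (F q.1 q.2.1) q.2.2).toReal - (rate (F q.1 q.2.1) q.2.2).toReal|
      ∂PP ≤ ∫⁻ z, (∫⁻ v : V, ENNReal.ofReal (Maxw v) * errR_p2 n F z v) ∂zet := by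
  have m1 : Measurable fun q : ℝ × T3 × V => ENNReal.ofReal
      |(rateP n (F q.1 q.2.1) q.2.2).toReal - (rate (F q.1 q.2.1) q.2.2).toReal| :=
    (continuous_abs.measurable.comp
      ((measurable_rateP_st_p2 n hF).sub (measurable_rate_st'_p2 hF))).ennreal_ofReal
  rw [lintegral_PP_assoc m1]
  refine lintegral_mono fun z => lintegral_mono fun v => ?_
  refine mul_le_mul_right ?_ _
  change ENNReal.ofReal |(rateP n (F z.1 z.2) v).toReal - (rate (F z.1 z.2) v).toReal| ≤ _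
  rw [rate_split_p2 n hF hF0 z v]
  exact ofReal_sub_toReal_le_p2 _ _

/-- the collision frequencies converge strongly -/
theorem Lim1.rate_conv (h : Lim1 N F0 F C L) :
    SConv PP (fun n q => (rateP (N n) (F n q.1 q.2.1) q.2.2).toReal)
      fun q => (rate (L q.1 q.2.1) q.2.2).toReal := by
  have h1 := h.toASeq.err_conv_p2
  have h2 := h.rate_conv0_p2
  unfold SConv at h2 ⊢
  have h3 := h1.add h2
  rw [add_zero] at h3
  refine tendsto_of_tendsto_of_tendsto_of_le_of_le tendsto_const_nhds h3 (fun n => bot_le)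
    fun n => ?_
  have m1 : Measurable fun q : ℝ × T3 × V => ENNReal.ofReal
      |(rateP (N n) (F n q.1 q.2.1) q.2.2).toReal - (rate (F n q.1 q.2.1) q.2.2).toReal| :=
    (continuous_abs.measurable.comp
      ((measurable_rateP_st_p2 (N n) (h.apx n).meas).sub
        (measurable_rate_st'_p2 (h.apx n).meas))).ennreal_ofReal
  refine le_trans ?_ (add_le_add (lintegral_rateP_sub_p2 (N n) (h.apx n).meas (h.apx n).nonneg) le_rfl)
  rw [← lintegral_add_left m1]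
  refine lintegral_mono fun q => ?_
  rw [← ENNReal.ofReal_add (abs_nonneg _) (abs_nonneg _)]
  exact ENNReal.ofReal_le_ofReal (abs_sub_le _ _ _)

end Vale.Agent.P140.DL
end
end

section

open MeasureTheory Set Filter
open scoped ENNReal Topology NNReal

noncomputable section

namespace Vale.Agent.P140.DL

/-- homogeneity, including the factor zero -/
theorem p4_smul {c p q : ℝ} (hc : 0 ≤ c) (hp : 0 ≤ p) (hq : 0 ≤ q) :
    dissDensity (c * p) (c * q) = ENNReal.ofReal c * dissDensity p q := by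
  rcases hc.eq_or_lt with rfl | hc
  · simp [dissDensity]
  · exact dissDensity_smul hc hp hq

/-- normalized products with a general kernel -/
def p4y (k : ℕ) (a : (ℝ × T3) × V × V × S2 → ℝ) (F : ℝ → T3 → V → ℝ)
    (q : (ℝ × T3) × V × V × S2) : ℝ := a q * xN k F (q.1, q.2.1, q.2.2.1)

/-- the dissipation density -/
def p4D (a : (ℝ × T3) × V × V × S2 → ℝ) (F : ℝ → T3 → V → ℝ)
    (q : (ℝ × T3) × V × V × S2) : ℝ≥0∞ :=
  ENNReal.ofReal (a q) * dissDensity
    (F q.1.1 q.1.2 (post q.2.1 q.2.2.1 q.2.2.2) * F q.1.1 q.1.2 (postStar q.2.1 q.2.2.1 q.2.2.2))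
    (F q.1.1 q.1.2 q.2.1 * F q.1.1 q.1.2 q.2.2.1)

theorem p4_density {k : ℕ} {a : (ℝ × T3) × V × V × S2 → ℝ} {F : ℝ → T3 → V → ℝ}
    (hF : ∀ t x v, 0 ≤ F t x v) (a0 : ∀ q, 0 ≤ a q) (hat : ∀ q, a (tau q) = a q)
    (z : ℝ × T3) (v w : V) (o : S2) :
    ENNReal.ofReal (Maxw v * Maxw w) *
        dissDensity (p4y k a F (tau (z, v, w, o))) (p4y k a F (z, v, w, o)) =
      dk k (F z.1 z.2) * p4D a F (z, v, w, o) := by
  have hM : 0 < Maxw v * Maxw w := mul_pos (Maxw_pos v) (Maxw_pos w)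
  have hM' : Maxw (post v w o) * Maxw (postStar v w o) = Maxw v * Maxw w := Maxw_post v w o
  have ha : a (tau (z, v, w, o)) = a (z, v, w, o) := hat _
  have hdk : dk k (F z.1 z.2) ≠ ⊤ := ((dk_le_one k _).trans_lt ENNReal.one_lt_top).ne
  have hc : 0 ≤ a (z, v, w, o) * (dk k (F z.1 z.2)).toReal / (Maxw v * Maxw w) :=
    div_nonneg (mul_nonneg (a0 _) ENNReal.toReal_nonneg) hM.le
  have h1 : p4y k a F (tau (z, v, w, o)) =
      a (z, v, w, o) * (dk k (F z.1 z.2)).toReal / (Maxw v * Maxw w) *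
        (F z.1 z.2 (post v w o) * F z.1 z.2 (postStar v w o)) := by
    unfold p4y
    rw [ha, tau_apply]
    unfold xN
    rw [← hM']
    simp only []
    ring
  have h2 : p4y k a F (z, v, w, o) =
      a (z, v, w, o) * (dk k (F z.1 z.2)).toReal / (Maxw v * Maxw w) *
        (F z.1 z.2 v * F z.1 z.2 w) := by
    unfold p4y xN
    simp only []
    ring
  rw [h1, h2, p4_smul hc (mul_nonneg (hF _ _ _) (hF _ _ _)) (mul_nonneg (hF _ _ _) (hF _ _ _)),
    ← mul_assoc, ← ENNReal.ofReal_mul hM.le]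
  have h3 : Maxw v * Maxw w * (a (z, v, w, o) * (dk k (F z.1 z.2)).toReal / (Maxw v * Maxw w)) =
      (dk k (F z.1 z.2)).toReal * a (z, v, w, o) := by
    rw [mul_div_assoc', mul_div_cancel_left₀ _ hM.ne', mul_comm]
  rw [h3, ENNReal.ofReal_mul ENNReal.toReal_nonneg, ENNReal.ofReal_toReal hdk, mul_assoc]
  rfl

theorem p4_meas3 {α : Type*} [MeasurableSpace α] {g : α × V × V × S2 → ℝ≥0∞}
    (hg : Measurable g) : Measurable fun a => ∫⁻ v : V, ∫⁻ w : V, ∫⁻ o, g (a, v, w, o) ∂surf := by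
  have h1 : Measurable fun p : ((α × V) × V) × S2 => g (p.1.1.1, p.1.1.2, p.1.2, p.2) := by
    apply hg.comp
    fun_prop
  exact (h1.lintegral_prod_right').lintegral_prod_right'.lintegral_prod_right'

theorem p4_meas_D {a : (ℝ × T3) × V × V × S2 → ℝ} (ma : Measurable a) {F : ℝ → T3 → V → ℝ}
    (mF : Measurable fun p : ℝ × T3 × V => F p.1 p.2.1 p.2.2) : Measurable (p4D a F) := by
  have m1 : Measurable fun q : (ℝ × T3) × V × V × S2 => post q.2.1 q.2.2.1 q.2.2.2 :=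
    measurable_post.comp (measurable_snd : Measurable fun q : (ℝ × T3) × V × V × S2 => q.2)
  have m2 : Measurable fun q : (ℝ × T3) × V × V × S2 => postStar q.2.1 q.2.2.1 q.2.2.2 :=
    measurable_postStar.comp (measurable_snd : Measurable fun q : (ℝ × T3) × V × V × S2 => q.2)
  have m3 : Measurable fun q : (ℝ × T3) × V × V × S2 => q.1.1 := by fun_prop
  have m4 : Measurable fun q : (ℝ × T3) × V × V × S2 => q.1.2 := by fun_prop
  have m5 : Measurable fun q : (ℝ × T3) × V × V × S2 => q.2.1 := by fun_prop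
  have m6 : Measurable fun q : (ℝ × T3) × V × V × S2 => q.2.2.1 := by fun_prop
  unfold p4D
  refine ma.ennreal_ofReal.mul (measurable_dissDensity ?_ ?_)
  · exact (mF.comp (m3.prodMk (m4.prodMk m1))).mul (mF.comp (m3.prodMk (m4.prodMk m2)))
  · exact (mF.comp (m3.prodMk (m4.prodMk m5))).mul (mF.comp (m3.prodMk (m4.prodMk m6)))

theorem p4_integral {k : ℕ} {a : (ℝ × T3) × V × V × S2 → ℝ} {F : ℝ → T3 → V → ℝ}
    (hF : ∀ t x v, 0 ≤ F t x v) (a0 : ∀ q, 0 ≤ a q) (hat : ∀ q, a (tau q) = a q)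
    (my : Measurable (p4y k a F)) {W : ℝ × T3 → ℝ≥0∞} (mW : Measurable W) (hW : ∀ z, W z ≠ ⊤) :
    ∫⁻ q, W q.1 * dissDensity (p4y k a F (tau q)) (p4y k a F q) ∂P4 =
      ∫⁻ z, W z * (dk k (F z.1 z.2) *
        ∫⁻ v : V, ∫⁻ w : V, ∫⁻ o, p4D a F (z, v, w, o) ∂surf) ∂zet := by
  have hm : Measurable fun q : (ℝ × T3) × V × V × S2 =>
      W q.1 * dissDensity (p4y k a F (tau q)) (p4y k a F q) :=
    (mW.comp measurable_fst).mul (measurable_dissDensity (my.comp tau.measurable) my)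
  rw [lintegral_P4 hm]
  refine lintegral_congr fun z => ?_
  have hdk : dk k (F z.1 z.2) ≠ ⊤ := ((dk_le_one k _).trans_lt ENNReal.one_lt_top).ne
  have hne : W z * dk k (F z.1 z.2) ≠ ⊤ := ENNReal.mul_ne_top (hW z) hdk
  rw [← mul_assoc, ← lintegral_const_mul' _ _ hne]
  refine lintegral_congr fun v => ?_
  rw [← lintegral_const_mul' _ _ hne]
  refine lintegral_congr fun w => ?_
  rw [← lintegral_const_mul' _ _ hne]
  refine lintegral_congr fun o => ?_
  rw [mul_left_comm, p4_density hF a0 hat, mul_assoc]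

theorem p4_exp (s : ℝ) : ENNReal.ofReal (Real.exp (-s)) * (ENNReal.ofReal (Real.exp s) * (1 / 4)) =
    1 / 4 := by
  rw [← mul_assoc, ← ENNReal.ofReal_mul (Real.exp_pos _).le, ← Real.exp_add, neg_add_cancel,
    Real.exp_zero, ENNReal.ofReal_one, one_mul]

/-- the weight -/
def p4W (t : ℝ) (z : ℝ × T3) : ℝ≥0∞ :=
  (Ioc 0 t).indicator (fun s => ENNReal.ofReal (Real.exp s) * (1 / 4)) z.1

theorem p4_measW (t : ℝ) : Measurable (p4W t) := by
  unfold p4W
  have h1 : Measurable ((Ioc 0 t).indicator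
      (fun s => ENNReal.ofReal (Real.exp s) * (1 / 4) : ℝ → ℝ≥0∞)) :=
    Measurable.indicator (by fun_prop) measurableSet_Ioc
  exact h1.comp measurable_fst

theorem p4_W_ne (t : ℝ) (z : ℝ × T3) : p4W t z ≠ ⊤ := by
  unfold p4W
  by_cases h : z.1 ∈ Ioc 0 t
  · rw [indicator_of_mem h]
    exact ENNReal.mul_ne_top ENNReal.ofReal_ne_top (by norm_num)
  · rw [indicator_of_notMem h]
    exact ENNReal.zero_ne_top

theorem p4_zet (t : ℝ) {H : ℝ × T3 → ℝ≥0∞} (mH : Measurable H) :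
    ∫⁻ z, p4W t z * H z ∂zet = ∫⁻ s in Ioc 0 t, (1 / 4) * ∫⁻ x : T3, H (s, x) := by
  unfold zet
  have hmm : Measurable fun z : ℝ × T3 => p4W t z * H z := (p4_measW t).mul mH
  rw [lintegral_prod _ hmm.aemeasurable]
  have h1 : ∀ s, ∫⁻ x : T3, p4W t (s, x) * H (s, x) =
      (Ioc 0 t).indicator (fun s => ENNReal.ofReal (Real.exp s) * (1 / 4)) s *
        ∫⁻ x : T3, H (s, x) := fun s => by
    have h0 : Measurable fun x : T3 => H (s, x) := mH.comp measurable_prodMk_left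
    rw [← lintegral_const_mul _ h0]
    rfl
  simp only [h1]
  have mG : Measurable fun s => ∫⁻ x : T3, H (s, x) := mH.lintegral_prod_right'
  have mI : Measurable ((Ioc 0 t).indicator
      (fun s => ENNReal.ofReal (Real.exp s) * (1 / 4) : ℝ → ℝ≥0∞)) :=
    Measurable.indicator (by fun_prop) measurableSet_Ioc
  have mIG : Measurable fun s => (Ioc 0 t).indicator
      (fun s => ENNReal.ofReal (Real.exp s) * (1 / 4) : ℝ → ℝ≥0∞) s * ∫⁻ x : T3, H (s, x) :=
    mI.mul mG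
  rw [lintegral_nuE mIG]
  have h2 : ∀ s, ENNReal.ofReal (Real.exp (-s)) *
      ((Ioc 0 t).indicator (fun s => ENNReal.ofReal (Real.exp s) * (1 / 4)) s *
        ∫⁻ x : T3, H (s, x)) =
      (Ioc 0 t).indicator (fun s => (1 / 4) * ∫⁻ x : T3, H (s, x)) s := fun s => by
    by_cases hs : s ∈ Ioc 0 t
    · rw [indicator_of_mem hs, indicator_of_mem hs, ← mul_assoc, p4_exp]
    · rw [indicator_of_notMem hs, indicator_of_notMem hs, zero_mul, mul_zero]
  simp only [h2]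
  rw [lintegral_indicator measurableSet_Ioc, Measure.restrict_restrict measurableSet_Ioc]
  congr 2
  exact inter_eq_left.2 fun s hs => hs.1

variable {N : ℕ → ℕ} {F0 : ℕ → T3 → V → ℝ} {F : ℕ → ℝ → T3 → V → ℝ} {C : ℝ≥0}
  {L : ℝ → T3 → V → ℝ}

/-- kernel of `yN` -/
def p4aN (n : ℕ) (F : ℝ → T3 → V → ℝ) (q : (ℝ × T3) × V × V × S2) : ℝ :=
  (pfN n (F q.1.1 q.1.2)).toReal * bN n q.2.1 q.2.2.1 q.2.2.2

/-- kernel of `yL` -/
def p4aL (q : (ℝ × T3) × V × V × S2) : ℝ := |relA q.2.1 q.2.2.1 q.2.2.2|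

theorem p4_aN_nonneg (n : ℕ) (F : ℝ → T3 → V → ℝ) (q : (ℝ × T3) × V × V × S2) :
    0 ≤ p4aN n F q := mul_nonneg ENNReal.toReal_nonneg (bN_nonneg _ _ _ _)

theorem p4_aN_tau (n : ℕ) (F : ℝ → T3 → V → ℝ) (q : (ℝ × T3) × V × V × S2) :
    p4aN n F (tau q) = p4aN n F q := by
  unfold p4aN
  rw [tau_apply]
  simp only [bN_post]

theorem p4_aL_tau (q : (ℝ × T3) × V × V × S2) : p4aL (tau q) = p4aL q := by
  unfold p4aL
  rw [tau_apply]
  simp only [relA_post, abs_neg]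

theorem p4_meas_aN (n : ℕ) {F : ℝ → T3 → V → ℝ}
    (mF : Measurable fun p : ℝ × T3 × V => F p.1 p.2.1 p.2.2) : Measurable (p4aN n F) := by
  have m1 : Measurable fun z : ℝ × T3 => pfN n (F z.1 z.2) :=
    measurable_pfN n (f := fun z : ℝ × T3 => F z.1 z.2) (mF.comp (by fun_prop :
      Measurable fun q : (ℝ × T3) × V => (q.1.1, q.1.2, q.2)))
  exact (m1.comp measurable_fst).ennreal_toReal.mul ((measurable_bN n).comp measurable_snd)

theorem p4_meas_aL : Measurable p4aL :=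
  (continuous_abs.measurable.comp measurable_relA).comp measurable_snd

/-- the bound of the weighted integrals of the approximations -/
theorem p4_le_dissN (n k : ℕ) {F : ℝ → T3 → V → ℝ}
    (mF : Measurable fun p : ℝ × T3 × V => F p.1 p.2.1 p.2.2) (hF : ∀ t x v, 0 ≤ F t x v)
    (t : ℝ) :
    ∫⁻ q, p4W t q.1 * dissDensity (yN k n F (tau q)) (yN k n F q) ∂P4 ≤
      ∫⁻ s in Ioc 0 t, dissN n (F s) := by
  have h1 := p4_integral (k := k) hF (p4_aN_nonneg n F) (p4_aN_tau n F) (measurable_yN k n mF)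
    (p4_measW t) (p4_W_ne t)
  have h2 : ∫⁻ q, p4W t q.1 * dissDensity (yN k n F (tau q)) (yN k n F q) ∂P4 =
      ∫⁻ z, p4W t z * (dk k (F z.1 z.2) *
        ∫⁻ v : V, ∫⁻ w : V, ∫⁻ o, p4D (p4aN n F) F (z, v, w, o) ∂surf) ∂zet := h1
  rw [h2]
  have mD := p4_meas3 (p4_meas_D (p4_meas_aN n mF) mF)
  refine (lintegral_mono fun z => mul_le_mul_right (mul_le_of_le_one_left' (dk_le_one k _)) _).trans
    (le_of_eq ?_)
  rw [p4_zet t mD]
  refine lintegral_congr fun s => ?_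
  unfold dissN
  congr 1
  refine lintegral_congr fun x => lintegral_congr fun v => lintegral_congr fun w =>
    lintegral_congr fun o => ?_
  have hpf : pfN n (F s x) ≠ ⊤ := ((pfN_le_one n _).trans_lt ENNReal.one_lt_top).ne
  unfold p4D p4aN
  rw [ENNReal.ofReal_mul ENNReal.toReal_nonneg, ENNReal.ofReal_toReal hpf]

theorem p4_dk_tendsto {g : V → ℝ} (hg : rhoE g ≠ ⊤) : Tendsto (fun k => dk k g) atTop (𝓝 1) := by
  have h1 : Tendsto (fun k : ℕ => ((k : ℝ≥0∞) + 1)⁻¹) atTop (𝓝 0) := by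
    have h2 := ENNReal.tendsto_inv_nat_nhds_zero.comp (tendsto_add_atTop_nat 1)
    refine h2.congr fun k => ?_
    simp
  have h2 : Tendsto (fun k : ℕ => rhoE g * ((k : ℝ≥0∞) + 1)⁻¹) atTop (𝓝 (rhoE g * 0)) :=
    ENNReal.Tendsto.const_mul h1 (Or.inr hg)
  have h3 : Tendsto (fun k : ℕ => 1 + rhoE g * ((k : ℝ≥0∞) + 1)⁻¹) atTop
      (𝓝 (1 + rhoE g * 0)) := tendsto_const_nhds.add h2
  have h4 := (continuous_inv.tendsto (1 + rhoE g * 0)).comp h3
  rw [mul_zero, add_zero, inv_one] at h4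
  refine h4.congr fun k => ?_
  unfold dk
  rw [div_eq_mul_inv]
  rfl

theorem p4_rho_fin (h : Lim1 N F0 F C L) : ∀ᵐ z ∂zet, rhoE (L z.1 z.2) ≠ ⊤ := by
  have mden : Measurable (den L) := by
    unfold den
    exact h.meas.div (measurable_Maxw.comp (by fun_prop))
  have h1 : ∫⁻ q, ENNReal.ofReal (den L q) ∂PP < ⊤ := by
    refine lt_of_le_of_lt (lintegral_mono fun q => ?_) h.int.2
    rw [← ofReal_norm]
    exact ENNReal.ofReal_le_ofReal (le_abs_self _)
  rw [lintegral_PP_assoc mden.ennreal_ofReal] at h1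
  have h2 : ∀ z : ℝ × T3, ∫⁻ v : V, ENNReal.ofReal (Maxw v) *
      ENNReal.ofReal (den L (z.1, z.2, v)) = rhoE (L z.1 z.2) := fun z => by
    unfold rhoE
    refine lintegral_congr fun v => ?_
    rw [← ENNReal.ofReal_mul (Maxw_pos v).le]
    congr 1
    unfold den
    have := (Maxw_pos v).ne'
    simp only []
    field_simp
  simp only [h2] at h1
  have mr : Measurable fun z : ℝ × T3 => rhoE (L z.1 z.2) :=
    measurable_rhoE (f := fun z : ℝ × T3 => L z.1 z.2) (h.meas.comp (by fun_prop :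
      Measurable fun q : (ℝ × T3) × V => (q.1.1, q.1.2, q.2)))
  exact (ae_lt_top mr h1.ne).mono fun z hz => hz.ne

/-- the limit, for fixed `k` -/
theorem p4_fixed (h : Lim1 N F0 F C L) (k : ℕ) (t : ℝ) :
    ∫⁻ z, p4W t z * (dk k (L z.1 z.2) *
        ∫⁻ v : V, ∫⁻ w : V, ∫⁻ o, p4D p4aL L (z, v, w, o) ∂surf) ∂zet ≤
      liminf (fun n => ∫⁻ s in Ioc 0 t, dissN (N n) (F n s)) atTop := by
  have hN : ∀ n, Measurable (yN k (N n) (F n)) := fun n => measurable_yN k (N n) (h.apx n).meas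
  have hL : Measurable (yL k L) := measurable_yL k h.meas
  have h1 := WConv.diss_le ((h.conv_yN k).comp_equiv tau measurePreserving_tau) (h.conv_yN k)
    (fun n => (hN n).comp tau.measurable) hN
    (fun n q => yN_nonneg k (N n) (h.apx n).nonneg _) (fun n q => yN_nonneg k (N n) (h.apx n).nonneg _)
    (fun n => (measurePreserving_tau.integrable_comp (hN n).aestronglyMeasurable).2
      (h.toASeq.int_yN k n)) (fun n => h.toASeq.int_yN k n)
    (hL.comp tau.measurable) hL (fun q => yL_nonneg k h.nonneg _) (fun q => yL_nonneg k h.nonneg _)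
    ((measurePreserving_tau.integrable_comp hL.aestronglyMeasurable).2 (h.int_yL k)) (h.int_yL k)
    ((p4_measW t).comp measurable_fst)
  have h2 := p4_integral (k := k) (a := p4aL) h.nonneg (fun q => abs_nonneg _) p4_aL_tau hL
    (p4_measW t) (p4_W_ne t)
  rw [← h2]
  refine h1.trans ?_
  refine liminf_le_liminf (Eventually.of_forall fun n => ?_)
  exact p4_le_dissN (N n) k (h.apx n).meas (h.apx n).nonneg t

/-- lower semicontinuity of the entropy dissipation -/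
theorem Lim1.diss_lsc (h : Lim1 N F0 F C L) (t : ℝ) :
    ∫⁻ s in Ioc 0 t, dissipation (L s)
      ≤ liminf (fun n => ∫⁻ s in Ioc 0 t, dissN (N n) (F n s)) atTop := by
  have mD := p4_meas3 (p4_meas_D p4_meas_aL h.meas)
  have mdk : ∀ k, Measurable fun z : ℝ × T3 => dk k (L z.1 z.2) := fun k =>
    measurable_dk k (f := fun z : ℝ × T3 => L z.1 z.2) (h.meas.comp (by fun_prop :
      Measurable fun q : (ℝ × T3) × V => (q.1.1, q.1.2, q.2)))
  have h1 : ∫⁻ s in Ioc 0 t, dissipation (L s) = ∫⁻ z, (p4W t z *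
      ∫⁻ v : V, ∫⁻ w : V, ∫⁻ o, p4D p4aL L (z, v, w, o) ∂surf) ∂zet := by
    rw [p4_zet t mD]
    rfl
  have h2 : ∫⁻ z, (p4W t z * ∫⁻ v : V, ∫⁻ w : V, ∫⁻ o, p4D p4aL L (z, v, w, o) ∂surf) ∂zet ≤
      ∫⁻ z, liminf (fun k => p4W t z * (dk k (L z.1 z.2) *
        ∫⁻ v : V, ∫⁻ w : V, ∫⁻ o, p4D p4aL L (z, v, w, o) ∂surf)) atTop ∂zet := by
    refine lintegral_mono_ae ((p4_rho_fin h).mono fun z hz => ?_)
    have h3 := ENNReal.Tendsto.mul_const (p4_dk_tendsto hz)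
      (Or.inl one_ne_zero : (1 : ℝ≥0∞) ≠ 0 ∨
        (∫⁻ v : V, ∫⁻ w : V, ∫⁻ o, p4D p4aL L (z, v, w, o) ∂surf) ≠ ⊤)
    rw [one_mul] at h3
    have h4 := ENNReal.Tendsto.const_mul h3 (Or.inr (p4_W_ne t z))
    exact h4.liminf_eq.ge
  rw [h1]
  refine h2.trans ((lintegral_liminf_le fun k =>
    (p4_measW t).mul ((mdk k).mul mD)).trans ?_)
  exact liminf_le_of_le (by isBoundedDefault) fun b hb => by
    obtain ⟨k, hk⟩ := hb.exists
    exact hk.trans (p4_fixed h k t)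

end Vale.Agent.P140.DL
end
end

section

/-! The transport derivative of test functions is continuous and at most linear in `v`. -/

open MeasureTheory Set Filter
open scoped ENNReal Topology NNReal

noncomputable section

namespace Vale.Agent.P140.DL

theorem isOpenQuotientMap_toTorusS2 : IsOpenQuotientMap toTorus := by
  have h1 : IsOpenQuotientMap (Pi.map fun (_ : Fin 3) (x : ℝ) => (x : UnitAddCircle)) :=
    IsOpenQuotientMap.piMap fun i => QuotientAddGroup.isOpenQuotientMap_mk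
  exact h1.comp (EuclideanSpace.equiv (Fin 3) ℝ).toHomeomorph.isOpenQuotientMap

section

variable {φ : ℝ → T3 → ℝ}

/-- the lift of a test function -/
def liftXS2 (φ : ℝ → T3 → ℝ) (p : ℝ × V) : ℝ := φ p.1 (toTorus p.2)

theorem transport_liftS2 (hφ : IsTestX φ) (t : ℝ) (y v : V) :
    transport φ t (toTorus y) v = fderiv ℝ (liftXS2 φ) (t, y) (1, v) := by
  have h1 : Differentiable ℝ (liftXS2 φ) := hφ.smooth.differentiable (by simp)
  have h2 : HasDerivAt (fun s : ℝ => ((t, y) : ℝ × V) + s • ((1, v) : ℝ × V)) (1, v) 0 := by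
    have := ((hasDerivAt_id (0 : ℝ)).smul_const ((1, v) : ℝ × V)).const_add ((t, y) : ℝ × V)
    simpa using this
  have h3 : HasFDerivAt (liftXS2 φ) (fderiv ℝ (liftXS2 φ) (t, y))
      (((t, y) : ℝ × V) + (0 : ℝ) • ((1, v) : ℝ × V)) := by
    rw [zero_smul, add_zero]
    exact (h1 (t, y)).hasFDerivAt
  have h4 := h3.comp_hasDerivAt (0 : ℝ) h2
  rw [transport, ← h4.deriv]
  congr 1
  funext s
  simp [liftXS2, toTorus_add]

theorem continuous_transportS2 (hφ : IsTestX φ) :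
    Continuous fun q : ℝ × T3 × V => transport φ q.1 q.2.1 q.2.2 := by
  have h1 : IsOpenQuotientMap (Prod.map (id : ℝ → ℝ) (Prod.map toTorus (id : V → V))) :=
    IsOpenQuotientMap.id.prodMap (isOpenQuotientMap_toTorusS2.prodMap IsOpenQuotientMap.id)
  rw [← h1.continuous_comp_iff]
  have h2 : ((fun q : ℝ × T3 × V => transport φ q.1 q.2.1 q.2.2) ∘
      Prod.map (id : ℝ → ℝ) (Prod.map toTorus (id : V → V))) =
      fun q : ℝ × V × V => fderiv ℝ (liftXS2 φ) (q.1, q.2.1) (1, q.2.2) := by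
    funext q
    exact transport_liftS2 hφ q.1 q.2.1 q.2.2
  rw [h2]
  have h3 : Continuous (fderiv ℝ (liftXS2 φ)) := hφ.smooth.continuous_fderiv (by simp)
  exact (h3.comp (by fun_prop)).clm_apply (by fun_prop)

theorem continuous_testXS2 (hφ : IsTestX φ) : Continuous fun q : ℝ × T3 => φ q.1 q.2 := by
  have h1 : IsOpenQuotientMap (Prod.map (id : ℝ → ℝ) toTorus) :=
    IsOpenQuotientMap.id.prodMap isOpenQuotientMap_toTorusS2
  rw [← h1.continuous_comp_iff]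
  exact hφ.smooth.continuous

theorem transport_zero_of_ltS2 (hφ : IsTestX φ) : ∃ R : ℝ, 0 < R ∧ ∀ t x v, R < |t| →
    transport φ t x v = 0 := by
  obtain ⟨R, hR⟩ := hφ.compact
  refine ⟨max R 1, lt_of_lt_of_le one_pos (le_max_right _ _), fun t x v ht => ?_⟩
  have ht' : R < |t| := lt_of_le_of_lt (le_max_left _ _) ht
  have h1 : (fun s : ℝ => φ (t + s) (x + toTorus (s • v))) =ᶠ[𝓝 0] fun _ => 0 := by
    have h2 : ∀ᶠ s : ℝ in 𝓝 0, R < |t + s| := by
      have h3 : ContinuousAt (fun s : ℝ => |t + s|) 0 := by fun_prop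
      exact h3.eventually_const_lt (by simpa using ht')
    filter_upwards [h2] with s hs
    exact hR _ _ hs
  rw [transport, h1.deriv_eq, deriv_const]

theorem transport_boundS2 (hφ : IsTestX φ) : ∃ c : ℝ, 0 ≤ c ∧ ∀ t x v,
    |transport φ t x v| ≤ c * (1 + ‖v‖) := by
  obtain ⟨R, hR0, hR⟩ := transport_zero_of_ltS2 hφ
  have hK : IsCompact (Icc (-R) R ×ˢ ((univ : Set T3) ×ˢ Metric.closedBall (0 : V) 1)) :=
    isCompact_Icc.prod (isCompact_univ.prod (isCompact_closedBall _ _))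
  obtain ⟨c, hc⟩ := hK.exists_bound_of_continuousOn (continuous_transportS2 hφ).continuousOn
  have hc0 : 0 ≤ c := (norm_nonneg _).trans (hc (0, 0, 0) (by simp [hR0.le]))
  have h1 : ∀ t x v, ‖v‖ ≤ 1 → |transport φ t x v| ≤ c := by
    intro t x v hv
    by_cases ht : R < |t|
    · rw [hR t x v ht, abs_zero]
      exact hc0
    · exact hc (t, x, v) ⟨abs_le.mp (not_lt.mp ht), mem_univ _, by simpa using hv⟩
  refine ⟨2 * c, by positivity, fun t x v => ?_⟩
  obtain ⟨y, rfl⟩ := surjective_toTorus x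
  have h2 : ∀ w : V, transport φ t (toTorus y) w = fderiv ℝ (liftXS2 φ) (t, y) (1, 0) +
      fderiv ℝ (liftXS2 φ) (t, y) (0, w) := by
    intro w
    rw [transport_liftS2 hφ, ← map_add]
    simp
  have h3 : transport φ t (toTorus y) 0 = fderiv ℝ (liftXS2 φ) (t, y) (1, 0) := transport_liftS2 hφ _ _ _
  have h4 := h1 t (toTorus y) 0 (by simp)
  by_cases hv : v = 0
  · rw [hv, norm_zero, add_zero, mul_one]
    linarith
  have hv' : 0 < ‖v‖ := norm_pos_iff.2 hv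
  have h5 : ‖(‖v‖⁻¹ • v : V)‖ ≤ 1 := by
    rw [norm_smul, norm_inv, norm_norm, inv_mul_cancel₀ hv'.ne']
  have h6 := h1 t (toTorus y) (‖v‖⁻¹ • v) h5
  have h7 : ((0, v) : ℝ × V) = ‖v‖ • ((0, ‖v‖⁻¹ • v) : ℝ × V) := by
    rw [Prod.smul_mk, smul_zero, smul_smul, mul_inv_cancel₀ hv'.ne', one_smul]
  have h8 : transport φ t (toTorus y) v = transport φ t (toTorus y) 0 +
      ‖v‖ * (transport φ t (toTorus y) (‖v‖⁻¹ • v) - transport φ t (toTorus y) 0) := by
    rw [h3, h2 v, h2 (‖v‖⁻¹ • v), h7, map_smul, smul_eq_mul]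
    ring
  rw [h8]
  have h9 : |transport φ t (toTorus y) (‖v‖⁻¹ • v) - transport φ t (toTorus y) 0| ≤ 2 * c := by
    have := abs_sub (transport φ t (toTorus y) (‖v‖⁻¹ • v)) (transport φ t (toTorus y) 0)
    linarith
  calc _ ≤ |transport φ t (toTorus y) 0| +
        |‖v‖ * (transport φ t (toTorus y) (‖v‖⁻¹ • v) - transport φ t (toTorus y) 0)| :=
        abs_add_le _ _
    _ ≤ c + ‖v‖ * (2 * c) := by
        rw [abs_mul, abs_of_pos hv']
        gcongr
    _ ≤ 2 * c * (1 + ‖v‖) := by linarith only [hc0]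

end

end Vale.Agent.P140.DL
end
end

section

/-! Weak convergence tested with functions of linear growth, under a bound of second moments. -/

open MeasureTheory Set Filter
open scoped ENNReal Topology NNReal

noncomputable section

namespace Vale.Agent.P140.DL

variable {α : Type*} [MeasurableSpace α] {μ : Measure α}

section one

variable {h r θ : α → ℝ} {C : ℝ≥0} {c : ℝ}

theorem integrable_sq_weight (mh : Measurable h) (h0 : ∀ a, 0 ≤ h a) (mr : Measurable r)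
    (bh : ∫⁻ a, ENNReal.ofReal ((1 + r a ^ 2) * h a) ∂μ ≤ C) :
    Integrable (fun a => (1 + r a ^ 2) * h a) μ ∧ ∫ a, (1 + r a ^ 2) * h a ∂μ ≤ (C : ℝ) := by
  have hm : Measurable fun a => (1 + r a ^ 2) * h a := by fun_prop
  have h1 : ∀ a, 0 ≤ (1 + r a ^ 2) * h a := fun a => mul_nonneg (by positivity) (h0 a)
  constructor
  · refine ⟨hm.aestronglyMeasurable, ?_⟩
    rw [hasFiniteIntegral_iff_ofReal (Eventually.of_forall h1)]
    exact lt_of_le_of_lt bh ENNReal.coe_lt_top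
  · rw [integral_eq_lintegral_of_nonneg_ae (Eventually.of_forall h1) hm.aestronglyMeasurable]
    exact ENNReal.toReal_le_coe_of_le_coe bh

theorem integrable_mul_weight (mh : Measurable h) (h0 : ∀ a, 0 ≤ h a) (mr : Measurable r)
    (r0 : ∀ a, 0 ≤ r a) (bh : ∫⁻ a, ENNReal.ofReal ((1 + r a ^ 2) * h a) ∂μ ≤ C)
    (mθ : Measurable θ) (bθ : ∀ a, |θ a| ≤ c * (1 + r a)) : Integrable (fun a => h a * θ a) μ := by
  obtain ⟨h1, -⟩ := integrable_sq_weight mh h0 mr bh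
  refine (h1.const_mul (2 * |c|)).mono (mh.mul mθ).aestronglyMeasurable
    (Eventually.of_forall fun a => ?_)
  rw [Real.norm_eq_abs, Real.norm_eq_abs, abs_mul, abs_of_nonneg (h0 a),
    abs_of_nonneg (mul_nonneg (by positivity) (mul_nonneg (by positivity) (h0 a)))]
  have h2 : |θ a| ≤ |c| * (1 + r a) :=
    (bθ a).trans (mul_le_mul_of_nonneg_right (le_abs_self c) (by linarith [r0 a]))
  have h3 : 1 + r a ≤ 2 * (1 + r a ^ 2) := by nlinarith [sq_nonneg (r a - 1)]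
  calc h a * |θ a| ≤ h a * (|c| * (2 * (1 + r a ^ 2))) := by
        refine mul_le_mul_of_nonneg_left (h2.trans ?_) (h0 a)
        exact mul_le_mul_of_nonneg_left h3 (abs_nonneg c)
    _ = 2 * |c| * ((1 + r a ^ 2) * h a) := by ring

/-- truncation of a test function -/
def trunc (r θ : α → ℝ) (K : ℝ) (a : α) : ℝ := if r a ≤ K then θ a else 0

theorem measurable_trunc (mr : Measurable r) (mθ : Measurable θ) (K : ℝ) :
    Measurable (trunc r θ K) :=
  Measurable.ite (measurableSet_le mr measurable_const) mθ measurable_const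

theorem tail_le (mh : Measurable h) (h0 : ∀ a, 0 ≤ h a) (mr : Measurable r)
    (r0 : ∀ a, 0 ≤ r a) (bh : ∫⁻ a, ENNReal.ofReal ((1 + r a ^ 2) * h a) ∂μ ≤ C)
    (mθ : Measurable θ) (c0 : 0 ≤ c) (bθ : ∀ a, |θ a| ≤ c * (1 + r a)) {K : ℝ} (hK : 1 ≤ K) :
    |(∫ a, h a * θ a ∂μ) - ∫ a, h a * trunc r θ K a ∂μ| ≤ 2 * c / K * C := by
  obtain ⟨h1, h2⟩ := integrable_sq_weight mh h0 mr bh
  have mt := measurable_trunc mr mθ K
  have bt : ∀ a, |trunc r θ K a| ≤ c * (1 + r a) := by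
    intro a
    unfold trunc
    split_ifs
    · exact bθ a
    · rw [abs_zero]
      exact mul_nonneg c0 (by linarith [r0 a])
  have i1 := integrable_mul_weight mh h0 mr r0 bh mθ bθ
  have i2 := integrable_mul_weight mh h0 mr r0 bh mt bt
  rw [← integral_sub i1 i2]
  have hpt : ∀ a, |h a * θ a - h a * trunc r θ K a| ≤ 2 * c / K * ((1 + r a ^ 2) * h a) := by
    intro a
    unfold trunc
    split_ifs with hr
    · rw [sub_self, abs_zero]
      exact mul_nonneg (by positivity) (mul_nonneg (by positivity) (h0 a))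
    · rw [mul_zero, sub_zero, abs_mul, abs_of_nonneg (h0 a)]
      have hr' : K < r a := not_le.1 hr
      have h3 : (1 + r a) ≤ 2 / K * (1 + r a ^ 2) := by
        rw [div_mul_eq_mul_div, le_div_iff₀ (by linarith)]
        (by_contra nlg; linarith only [nlg, mul_pos (sub_pos.2 hr') (sub_pos.2 hr'), mul_nonneg (sub_nonneg.2 hK) (le_of_lt (sub_pos.2 hr')), mul_nonneg (le_of_lt (sub_pos.2 (not_le.1 nlg))) (sub_nonneg.2 (r0 a)), mul_nonneg (sq_nonneg (r a : ℝ)) (le_of_lt (sub_pos.2 hr')), mul_nonneg (sq_nonneg (r a : ℝ)) (sub_nonneg.2 hK), r0 a, hr'])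
      calc h a * |θ a| ≤ h a * (c * (2 / K * (1 + r a ^ 2))) := by
            refine mul_le_mul_of_nonneg_left ((bθ a).trans ?_) (h0 a)
            exact mul_le_mul_of_nonneg_left h3 c0
        _ = 2 * c / K * ((1 + r a ^ 2) * h a) := by ring
  calc |∫ a, (h a * θ a - h a * trunc r θ K a) ∂μ|
      ≤ ∫ a, |h a * θ a - h a * trunc r θ K a| ∂μ := abs_integral_le_integral_abs
    _ ≤ ∫ a, 2 * c / K * ((1 + r a ^ 2) * h a) ∂μ :=
        integral_mono (i1.sub i2).abs (h1.const_mul _) hpt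
    _ = 2 * c / K * ∫ a, (1 + r a ^ 2) * h a ∂μ := integral_const_mul _ _
    _ ≤ 2 * c / K * C := mul_le_mul_of_nonneg_left h2 (by positivity)

end one

/-- test functions of linear growth -/
theorem WConv.test_weight {g : ℕ → α → ℝ} {G : α → ℝ} (hg : WConv μ g G)
    (mg : ∀ n, Measurable (g n)) (g0 : ∀ n a, 0 ≤ g n a) (mG : Measurable G) (G0 : ∀ a, 0 ≤ G a)
    {r : α → ℝ} (mr : Measurable r) (r0 : ∀ a, 0 ≤ r a) {C : ℝ≥0}
    (bg : ∀ n, ∫⁻ a, ENNReal.ofReal ((1 + r a ^ 2) * g n a) ∂μ ≤ C)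
    (bG : ∫⁻ a, ENNReal.ofReal ((1 + r a ^ 2) * G a) ∂μ ≤ C)
    {θ : α → ℝ} (mθ : Measurable θ) {c : ℝ} (bθ : ∀ a, |θ a| ≤ c * (1 + r a)) :
    Tendsto (fun n => ∫ a, g n a * θ a ∂μ) atTop (𝓝 (∫ a, G a * θ a ∂μ)) := by
  have bθ' : ∀ a, |θ a| ≤ |c| * (1 + r a) := fun a =>
    (bθ a).trans (mul_le_mul_of_nonneg_right (le_abs_self c) (by linarith [r0 a]))
  have c0 : 0 ≤ |c| := abs_nonneg c
  rw [Metric.tendsto_atTop]
  intro ε hε
  set K : ℝ := max 1 (8 * |c| * C / ε) with hKdef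
  have hK1 : 1 ≤ K := le_max_left _ _
  have hK0 : 0 < K := by linarith
  have hKε : 2 * |c| / K * C ≤ ε / 4 := by
    have h1 : 8 * |c| * C / ε ≤ K := le_max_right _ _
    rw [div_le_iff₀ hε] at h1
    rw [div_mul_eq_mul_div, div_le_iff₀ hK0]
    linarith
  have hb : ∀ a, |trunc r θ K a| ≤ |c| * (1 + K) := by
    intro a
    unfold trunc
    split_ifs with hr
    · exact (bθ' a).trans (mul_le_mul_of_nonneg_left (by linarith) c0)
    · rw [abs_zero]
      positivity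
  have h1 := hg.test (measurable_trunc mr mθ K) hb
  rw [Metric.tendsto_atTop] at h1
  obtain ⟨n0, hn0⟩ := h1 (ε / 4) (by positivity)
  refine ⟨n0, fun n hn => ?_⟩
  have h2 := hn0 n hn
  have h3 := tail_le (mg n) (g0 n) mr r0 (bg n) mθ c0 bθ' hK1
  have h4 := tail_le mG G0 mr r0 bG mθ c0 bθ' hK1
  rw [Real.dist_eq] at h2 ⊢
  have h5 : (∫ a, g n a * θ a ∂μ) - ∫ a, G a * θ a ∂μ =
      ((∫ a, g n a * θ a ∂μ) - ∫ a, g n a * trunc r θ K a ∂μ) +
      ((∫ a, g n a * trunc r θ K a ∂μ) - ∫ a, G a * trunc r θ K a ∂μ) -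
      ((∫ a, G a * θ a ∂μ) - ∫ a, G a * trunc r θ K a ∂μ) := by ring
  rw [h5]
  have h6 := abs_sub (((∫ a, g n a * θ a ∂μ) - ∫ a, g n a * trunc r θ K a ∂μ) +
      ((∫ a, g n a * trunc r θ K a ∂μ) - ∫ a, G a * trunc r θ K a ∂μ))
      ((∫ a, G a * θ a ∂μ) - ∫ a, G a * trunc r θ K a ∂μ)
  have h7 := abs_add_le ((∫ a, g n a * θ a ∂μ) - ∫ a, g n a * trunc r θ K a ∂μ)
      ((∫ a, g n a * trunc r θ K a ∂μ) - ∫ a, G a * trunc r θ K a ∂μ)
  linarith only [h7, h6, h4, h3, h2, hKε, hε]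

end Vale.Agent.P140.DL
end
end

section

open MeasureTheory Set Filter
open scoped ENNReal Topology NNReal

noncomputable section

namespace Vale.Agent.P140.DL

variable {N : ℕ → ℕ} {F0n : ℕ → T3 → V → ℝ} {F : ℕ → ℝ → T3 → V → ℝ} {C : ℝ≥0}
  {L : ℝ → T3 → V → ℝ} {F0 : T3 → V → ℝ}

section basic

variable {f g : T3 → V → ℝ}

theorem den0_nonnegS2 (hf : ∀ x v, 0 ≤ f x v) (p : T3 × V) : 0 ≤ den0 f p :=
  div_nonneg (hf _ _) (Maxw_pos _).le

theorem measurable_den0S2 (hf : Measurable fun p : T3 × V => f p.1 p.2) : Measurable (den0 f) :=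
  hf.div (measurable_Maxw.comp measurable_snd)

theorem wInt2_eqS2 (hf : Measurable fun p : T3 × V => f p.1 p.2) :
    ∫⁻ p, ENNReal.ofReal ((1 + ‖p.2‖ ^ 2) * den0 f p) ∂muM = wInt psi2 f := by
  rw [← lintegral_den0 hf measurable_psi2]
  apply lintegral_congr
  intro p
  rw [psi2, ENNReal.ofReal_mul (by positivity)]

theorem wInt2_eqS2b (f : T3 → V → ℝ) :
    ∫⁻ p : T3 × V, ENNReal.ofReal ((1 + ‖p.2‖ ^ 2) * f p.1 p.2) = wInt psi2 f := by
  unfold wInt
  apply lintegral_congr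
  intro p
  rw [psi2, ENNReal.ofReal_mul (by positivity)]

theorem integrable_of_wInt2S2 (hf : Measurable fun p : T3 × V => f p.1 p.2)
    (f0 : ∀ x v, 0 ≤ f x v) (hC : wInt psi2 f ≤ C) {θ : T3 × V → ℝ} (mθ : Measurable θ) {c : ℝ}
    (bθ : ∀ p, |θ p| ≤ c * (1 + ‖p.2‖)) : Integrable fun p : T3 × V => f p.1 p.2 * θ p := by
  refine integrable_mul_weight (r := fun p : T3 × V => ‖p.2‖) (C := C) hf (fun p => f0 _ _)
    measurable_snd.norm (fun p => norm_nonneg _) ?_ mθ bθ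
  rw [wInt2_eqS2b]
  exact hC

theorem integrable_smul_vS2 (hf : Measurable fun p : T3 × V => f p.1 p.2)
    (f0 : ∀ x v, 0 ≤ f x v) (hC : wInt psi2 f ≤ C) :
    Integrable fun p : T3 × V => f p.1 p.2 • p.2 := by
  have h1 := integrable_of_wInt2S2 hf f0 hC (θ := fun p => ‖p.2‖) measurable_snd.norm (c := 1)
    (fun p => by rw [abs_norm]; linarith)
  refine h1.mono (hf.smul measurable_snd).aestronglyMeasurable (Eventually.of_forall fun p => ?_)
  rw [norm_smul, norm_mul, norm_norm]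

theorem momentum_applyS2 (hf : Measurable fun p : T3 × V => f p.1 p.2)
    (f0 : ∀ x v, 0 ≤ f x v) (hC : wInt psi2 f ≤ C) (i : Fin 3) :
    (∫ p : T3 × V, f p.1 p.2 • p.2) i = ∫ p : T3 × V, f p.1 p.2 * p.2 i := by
  have h1 := ContinuousLinearMap.integral_comp_comm (EuclideanSpace.proj i : V →L[ℝ] ℝ)
    (integrable_smul_vS2 hf f0 hC)
  have h2 : (∫ p : T3 × V, f p.1 p.2 • p.2) i =
      (EuclideanSpace.proj i : V →L[ℝ] ℝ) (∫ p : T3 × V, f p.1 p.2 • p.2) := rfl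
  rw [h2, ← h1]
  rfl

/-- continuity for the weighted distance -/
theorem abs_integral_sub_leS2 (hf : Measurable fun p : T3 × V => f p.1 p.2)
    (hg : Measurable fun p : T3 × V => g p.1 p.2) {θ : T3 × V → ℝ} {c : ℝ}
    (bθ : ∀ p, |θ p| ≤ c * (1 + ‖p.2‖ ^ 2))
    (i1 : Integrable fun p : T3 × V => f p.1 p.2 * θ p)
    (i2 : Integrable fun p : T3 × V => g p.1 p.2 * θ p) (hd : wDist psi2 f g < ⊤) :
    |(∫ p : T3 × V, f p.1 p.2 * θ p) - ∫ p : T3 × V, g p.1 p.2 * θ p| ≤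
      c * (wDist psi2 f g).toReal := by
  have hm : Measurable fun p : T3 × V => (1 + ‖p.2‖ ^ 2) * |f p.1 p.2 - g p.1 p.2| := by
    have h1 : Measurable fun p : T3 × V => |f p.1 p.2 - g p.1 p.2| := (hf.sub hg).abs
    fun_prop
  have h0 : ∀ p : T3 × V, 0 ≤ (1 + ‖p.2‖ ^ 2) * |f p.1 p.2 - g p.1 p.2| := fun p => by (clear * -; positivity)
  have hd' : wDist psi2 f g = ∫⁻ p : T3 × V,
      ENNReal.ofReal ((1 + ‖p.2‖ ^ 2) * |f p.1 p.2 - g p.1 p.2|) := by
    unfold wDist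
    apply lintegral_congr
    intro p
    rw [psi2, ENNReal.ofReal_mul (by positivity)]
  have i3 : Integrable fun p : T3 × V => (1 + ‖p.2‖ ^ 2) * |f p.1 p.2 - g p.1 p.2| := by
    refine ⟨hm.aestronglyMeasurable, ?_⟩
    rw [hasFiniteIntegral_iff_ofReal (Eventually.of_forall h0), ← hd']
    exact hd
  have e1 : ∫ p : T3 × V, (1 + ‖p.2‖ ^ 2) * |f p.1 p.2 - g p.1 p.2| =
      (wDist psi2 f g).toReal := by
    rw [integral_eq_lintegral_of_nonneg_ae (Eventually.of_forall h0) hm.aestronglyMeasurable, hd']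
  rw [← integral_sub i1 i2, ← e1, ← integral_const_mul]
  refine abs_integral_le_integral_abs.trans (integral_mono (i1.sub i2).abs (i3.const_mul _) ?_)
  intro p
  simp only
  rw [← sub_mul, abs_mul]
  calc |f p.1 p.2 - g p.1 p.2| * |θ p| ≤ |f p.1 p.2 - g p.1 p.2| * (c * (1 + ‖p.2‖ ^ 2)) :=
        mul_le_mul_of_nonneg_left (bθ p) (abs_nonneg _)
    _ = c * ((1 + ‖p.2‖ ^ 2) * |f p.1 p.2 - g p.1 p.2|) := by ring

end basic

theorem Lim2.conv0_testS2 (h : Lim2 N F0n F C F0 L) {θ : T3 × V → ℝ} (mθ : Measurable θ) {c : ℝ}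
    (c0 : 0 ≤ c) (bθ : ∀ p, |θ p| ≤ c * (1 + ‖p.2‖)) :
    Tendsto (fun n => ∫ p : T3 × V, F0n n p.1 p.2 * θ p) atTop
      (𝓝 (∫ p : T3 × V, F0 p.1 p.2 * θ p)) := by
  have hfin : wInt psi2 F0 < ⊤ := wInt2_datum h.datum
  have i0 : Integrable fun p : T3 × V => F0 p.1 p.2 * θ p :=
    integrable_of_wInt2S2 (C := (wInt psi2 F0).toNNReal) h.datum.measurable h.datum.nonneg
      (by rw [ENNReal.coe_toNNReal hfin.ne]) mθ bθ
  have hn : ∀ n, Integrable fun p : T3 × V => F0n n p.1 p.2 * θ p := fun n =>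
    integrable_of_wInt2S2 (h.apx n).datum.measurable (h.apx n).datum.nonneg (h.mom n) mθ bθ
  have bθ' : ∀ p : T3 × V, |θ p| ≤ (2 * c) * (1 + ‖p.2‖ ^ 2) := by
    intro p
    have h1 : 1 + ‖p.2‖ ≤ 2 * (1 + ‖p.2‖ ^ 2) := by nlinarith [sq_nonneg (‖p.2‖ - 1)]
    calc |θ p| ≤ c * (1 + ‖p.2‖) := bθ p
      _ ≤ c * (2 * (1 + ‖p.2‖ ^ 2)) := mul_le_mul_of_nonneg_left h1 c0
      _ = _ := by ring
  rw [tendsto_iff_dist_tendsto_zero]
  have h2 : Tendsto (fun n => 2 * c * (wDist psi2 (F0n n) F0).toReal) atTop (𝓝 0) := by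
    have h3 := (ENNReal.tendsto_toReal ENNReal.zero_ne_top).comp h.conv0
    have h4 := h3.const_mul (2 * c)
    simpa using h4
  have h5 : ∀ᶠ n in atTop, wDist psi2 (F0n n) F0 < ⊤ :=
    h.conv0.eventually_lt_const (by simp)
  refine squeeze_zero' (Eventually.of_forall fun n => dist_nonneg) ?_ h2
  filter_upwards [h5] with n hn5
  rw [Real.dist_eq]
  exact abs_integral_sub_leS2 (h.apx n).datum.measurable h.datum.measurable bθ' (hn n) i0 hn5

theorem ASeq.msliceS2 (h : ASeq N F0n F C) (n : ℕ) (t : ℝ) :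
    Measurable fun p : T3 × V => F n t p.1 p.2 := measurable_slice2 (h.apx n).meas t

theorem ASeq.wInt2_timeS2 (h : ASeq N F0n F C) (n : ℕ) {t : ℝ} (ht : 0 ≤ t) :
    wInt psi2 (F n t) ≤ C := by
  rw [(h.apx n).energy t ht]
  exact h.mom n

theorem ASeq.int_den0S2 (h : ASeq N F0n F C) (n : ℕ) {t : ℝ} (ht : 0 ≤ t) :
    Integrable (den0 (F n t)) muM := by
  rw [integrable_den0 (h.msliceS2 n t)]
  have h1 := integrable_of_wInt2S2 (h.msliceS2 n t) ((h.apx n).nonneg t) (h.wInt2_timeS2 n ht)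
    (θ := fun _ => 1) measurable_const (c := 1)
    (fun p => by rw [abs_one]; linarith [norm_nonneg p.2])
  simpa using h1

theorem Lim2.energy (h : Lim2 N F0n F C F0 L) {t : ℝ} (ht : 0 ≤ t) :
    ∫⁻ p : T3 × V, ENNReal.ofReal (‖p.2‖ ^ 2 * L t p.1 p.2)
      ≤ ∫⁻ p : T3 × V, ENNReal.ofReal (‖p.2‖ ^ 2 * F0 p.1 p.2) := by
  set ψ : V → ℝ≥0∞ := fun v => ENNReal.ofReal (‖v‖ ^ 2) with hψ
  have mψ : Measurable ψ := by fun_prop
  have e1 : ∀ f : T3 → V → ℝ, ∫⁻ p : T3 × V, ENNReal.ofReal (‖p.2‖ ^ 2 * f p.1 p.2) =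
      wInt ψ f := by
    intro f
    unfold wInt
    apply lintegral_congr
    intro p
    rw [hψ, ENNReal.ofReal_mul (by positivity)]
  rw [e1, e1]
  have mL := measurable_slice2 h.meas t
  have h1 : wInt ψ (L t) ≤ liminf (fun n => wInt ψ (F n t)) atTop := by
    have h2 := (h.wtime ht).lintegral_weight_le (fun n => h.int_den0S2 n ht)
      (fun n p => den0_nonnegS2 ((h.apx n).nonneg t) p)
      ((integrable_den0 mL).2 (h.integrable ht))
      (Eventually.of_forall fun p => den0_nonnegS2 (h.nonneg t) p)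
      (w := fun p => ψ p.2) (mψ.comp measurable_snd) (fun p => ENNReal.ofReal_ne_top)
    rw [lintegral_den0 mL mψ] at h2
    refine h2.trans (le_of_eq ?_)
    congr 1
    funext n
    exact lintegral_den0 (h.msliceS2 n t) mψ
  have h3 : ∀ n, wInt ψ (F n t) = wInt ψ (F0n n) := by
    intro n
    have h4 := wInt2_split (h.msliceS2 n t) ((h.apx n).nonneg t)
    have h5 := wInt2_split (h.apx n).datum.measurable (h.apx n).datum.nonneg
    rw [e1] at h4 h5
    have h6 : ∀ f : T3 → V → ℝ, (∫⁻ p : T3 × V, ENNReal.ofReal (f p.1 p.2)) = wInt psi0 f := by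
      intro f
      unfold wInt psi0
      simp
    rw [h6] at h4 h5
    have h7 := (h.apx n).energy t ht
    rw [h4, h5, (h.apx n).mass t ht] at h7
    have h8 : wInt psi0 (F0n n) ≠ ⊤ := by
      have h9 : wInt psi0 (F0n n) ≤ wInt psi2 (F0n n) := by
        rw [h5]
        exact le_self_add
      exact (lt_of_le_of_lt (h9.trans (h.mom n)) ENNReal.coe_lt_top).ne
    exact (ENNReal.add_right_inj h8).1 h7
  have h10 : ∀ n, wInt ψ (F0n n) ≤ wInt ψ F0 + wDist psi2 (F0n n) F0 := by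
    intro n
    have hm : Measurable fun p : T3 × V => ψ p.2 * ENNReal.ofReal (F0 p.1 p.2) :=
      (mψ.comp measurable_snd).mul h.datum.measurable.ennreal_ofReal
    unfold wInt wDist
    rw [← lintegral_add_left hm]
    apply lintegral_mono
    intro p
    have h11 : ψ p.2 ≤ psi2 p.2 := ENNReal.ofReal_le_ofReal (by linarith)
    have h12 : ENNReal.ofReal (F0n n p.1 p.2) ≤ ENNReal.ofReal (F0 p.1 p.2) +
        ENNReal.ofReal |F0n n p.1 p.2 - F0 p.1 p.2| := by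
      rw [← ENNReal.ofReal_add (h.datum.nonneg _ _) (abs_nonneg _)]
      apply ENNReal.ofReal_le_ofReal
      linarith [le_abs_self (F0n n p.1 p.2 - F0 p.1 p.2)]
    calc ψ p.2 * ENNReal.ofReal (F0n n p.1 p.2)
        ≤ ψ p.2 * (ENNReal.ofReal (F0 p.1 p.2) +
          ENNReal.ofReal |F0n n p.1 p.2 - F0 p.1 p.2|) := by gcongr
      _ ≤ _ := by
        rw [mul_add]
        exact add_le_add le_rfl (mul_le_mul_left h11 _)
  refine h1.trans ?_
  have h13 : Tendsto (fun n => wInt ψ F0 + wDist psi2 (F0n n) F0) atTop (𝓝 (wInt ψ F0 + 0)) :=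
    tendsto_const_nhds.add h.conv0
  rw [add_zero] at h13
  rw [← h13.liminf_eq]
  refine liminf_le_liminf (Eventually.of_forall fun n => ?_)
  have h14 := h10 n
  rw [← h3 n] at h14
  exact h14

theorem Lim2.momentum (h : Lim2 N F0n F C F0 L) {t : ℝ} (ht : 0 ≤ t) :
    ∫ p : T3 × V, L t p.1 p.2 • p.2 = ∫ p : T3 × V, L 0 p.1 p.2 • p.2 := by
  have key : ∀ i : Fin 3, ∀ s : ℝ, 0 ≤ s → (∫ p : T3 × V, L s p.1 p.2 * p.2 i) =
      ∫ p : T3 × V, F0 p.1 p.2 * p.2 i := by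
    intro i s hs
    have mθ : Measurable fun p : T3 × V => p.2 i := by fun_prop
    have bθ : ∀ p : T3 × V, |p.2 i| ≤ 1 * (1 + ‖p.2‖) := by
      intro p
      have := PiLp.norm_apply_le p.2 i
      rw [Real.norm_eq_abs] at this
      linarith
    have mL := measurable_slice2 h.meas s
    have h1 := (h.wtime hs).test_weight (fun n => measurable_den0S2 (h.msliceS2 n s))
      (fun n p => den0_nonnegS2 ((h.apx n).nonneg s) p) (measurable_den0S2 mL)
      (fun p => den0_nonnegS2 (h.nonneg s) p) (r := fun p : T3 × V => ‖p.2‖) measurable_snd.norm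
      (fun p => norm_nonneg _) (C := C)
      (fun n => by rw [wInt2_eqS2 (h.msliceS2 n s)]; exact h.wInt2_timeS2 n hs)
      (by rw [wInt2_eqS2 mL]; exact h.wInt_le hs) mθ bθ
    simp only [integral_den0] at h1
    have h2 : ∀ n, (∫ p : T3 × V, F n s p.1 p.2 * p.2 i) = ∫ p : T3 × V, F0n n p.1 p.2 * p.2 i := by
      intro n
      rw [← momentum_applyS2 (h.msliceS2 n s) ((h.apx n).nonneg s) (h.wInt2_timeS2 n hs),
        ← momentum_applyS2 (h.apx n).datum.measurable (h.apx n).datum.nonneg (h.mom n),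
        (h.apx n).momentum s hs]
    simp only [h2] at h1
    exact tendsto_nhds_unique h1 (h.conv0_testS2 mθ zero_le_one bθ)
  ext i
  rw [momentum_applyS2 (measurable_slice2 h.meas t) (h.nonneg t) (h.wInt_le ht),
    momentum_applyS2 (measurable_slice2 h.meas 0) (h.nonneg 0) (h.wInt_le le_rfl), key i t ht,
    key i 0 le_rfl]

theorem PP_eqS2 : PP = ((volume : Measure (ℝ × T3 × V)).restrict (Ioi 0 ×ˢ univ)).withDensity
    fun q => ENNReal.ofReal (Real.exp (-q.1)) * ENNReal.ofReal (Maxw q.2.2) := by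
  have m1 : Measurable fun t : ℝ => ENNReal.ofReal (Real.exp (-t)) := by fun_prop
  have m2 : Measurable fun v : V => ENNReal.ofReal (Maxw v) := measurable_Maxw.ennreal_ofReal
  have m3 : Measurable fun p : T3 × V => ENNReal.ofReal (Maxw p.2) := m2.comp measurable_snd
  unfold PP nuE muM mV
  rw [prod_withDensity_right m2, prod_withDensity m1 m3, Measure.restrict_prod_eq_prod_univ]
  rfl

theorem integral_PPS2 (f : ℝ × T3 × V → ℝ) : ∫ q, f q ∂PP =
    ∫ q : ℝ × T3 × V in Ioi 0 ×ˢ univ, Real.exp (-q.1) * (Maxw q.2.2 * f q) := by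
  have m3 : Measurable fun q : ℝ × T3 × V =>
      ENNReal.ofReal (Real.exp (-q.1)) * ENNReal.ofReal (Maxw q.2.2) := by
    have m2 : Measurable fun q : ℝ × T3 × V => ENNReal.ofReal (Maxw q.2.2) :=
      (measurable_Maxw.comp measurable_snd.snd).ennreal_ofReal
    have m1 : Measurable fun q : ℝ × T3 × V => ENNReal.ofReal (Real.exp (-q.1)) := by fun_prop
    exact m1.mul m2
  rw [PP_eqS2, integral_withDensity_eq_integral_toReal_smul m3
    (Eventually.of_forall fun q => ENNReal.mul_lt_top ENNReal.ofReal_lt_top ENNReal.ofReal_lt_top)]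
  congr 1
  funext q
  rw [ENNReal.toReal_mul, ENNReal.toReal_ofReal (Real.exp_pos _).le,
    ENNReal.toReal_ofReal (Maxw_pos _).le, smul_eq_mul, mul_assoc]

theorem integral_den_PPS2 (G : ℝ → T3 → V → ℝ) (T : ℝ × T3 × V → ℝ) :
    ∫ q, den G q * (Real.exp q.1 * T q) ∂PP =
      ∫ q : ℝ × T3 × V in Ioi 0 ×ˢ univ, G q.1 q.2.1 q.2.2 * T q := by
  rw [integral_PPS2]
  congr 1
  funext q
  have h1 := (Maxw_pos q.2.2).ne'
  have h2 : Real.exp (-q.1) * Real.exp q.1 = 1 := by rw [← Real.exp_add]; simp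
  calc Real.exp (-q.1) * (Maxw q.2.2 * (den G q * (Real.exp q.1 * T q)))
      = (Real.exp (-q.1) * Real.exp q.1) * ((Maxw q.2.2 * den G q) * T q) := by ring
    _ = G q.1 q.2.1 q.2.2 * T q := by
      rw [h2, den, mul_div_cancel₀ _ h1, one_mul]

theorem measurable_denS2 {G : ℝ → T3 → V → ℝ}
    (hG : Measurable fun p : ℝ × T3 × V => G p.1 p.2.1 p.2.2) : Measurable (den G) :=
  hG.div (measurable_Maxw.comp measurable_snd.snd)

theorem ASeq.energy_PPS2 (h : ASeq N F0n F C) (n : ℕ) :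
    ∫⁻ q : ℝ × T3 × V, ENNReal.ofReal ((1 + ‖q.2.2‖ ^ 2) * den (F n) q) ∂PP ≤ C := by
  have hm : Measurable fun q : ℝ × T3 × V =>
      ENNReal.ofReal ((1 + ‖q.2.2‖ ^ 2) * den (F n) q) := by
    have := measurable_denS2 (h.apx n).meas
    fun_prop
  rw [lintegral_PP hm]
  have h1 : ∀ t ∈ Ioi (0 : ℝ), (∫⁻ p : T3 × V, ENNReal.ofReal (Maxw p.2) *
      ENNReal.ofReal ((1 + ‖p.2‖ ^ 2) * den (F n) (t, p))) ≤ C := by
    intro t ht
    refine le_trans (le_of_eq ?_) (h.wInt2_timeS2 n (le_of_lt ht))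
    unfold wInt
    apply lintegral_congr
    intro p
    rw [← ENNReal.ofReal_mul (Maxw_pos _).le, psi2, ← ENNReal.ofReal_mul (by positivity)]
    congr 1
    have h2 := (Maxw_pos p.2).ne'
    unfold den
    field_simp
  calc _ ≤ ∫⁻ t in Ioi (0 : ℝ), ENNReal.ofReal (Real.exp (-t)) * (C : ℝ≥0∞) := by
        refine setLIntegral_mono (by fun_prop) fun t ht => ?_
        exact mul_le_mul_right (h1 t ht) _
    _ = ∫⁻ t, (C : ℝ≥0∞) ∂nuE := (lintegral_nuE measurable_const).symm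
    _ = C := by
      rw [lintegral_const, measure_univ, mul_one]

theorem Lim2.massloc (h : Lim2 N F0n F C F0 L) {φ : ℝ → T3 → ℝ} (hφ : IsTestX φ) :
    (∫ p : ℝ × T3 × V in Ioi 0 ×ˢ univ, L p.1 p.2.1 p.2.2 * transport φ p.1 p.2.1 p.2.2)
      + ∫ p : T3 × V, F0 p.1 p.2 * φ 0 p.1 = 0 := by
  obtain ⟨R, hR0, hR⟩ := transport_zero_of_ltS2 hφ
  obtain ⟨c, hc0, hc⟩ := transport_boundS2 hφ
  have mT : Measurable fun q : ℝ × T3 × V => transport φ q.1 q.2.1 q.2.2 :=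
    (continuous_transportS2 hφ).measurable
  have mθ : Measurable fun q : ℝ × T3 × V => Real.exp q.1 * transport φ q.1 q.2.1 q.2.2 := by
    have : Measurable fun q : ℝ × T3 × V => Real.exp q.1 := by fun_prop
    exact this.mul mT
  have bθ : ∀ q : ℝ × T3 × V, |Real.exp q.1 * transport φ q.1 q.2.1 q.2.2| ≤
      (Real.exp R * c) * (1 + ‖q.2.2‖) := by
    intro q
    rw [abs_mul, abs_of_pos (Real.exp_pos _)]
    by_cases hq : R < |q.1|
    · rw [hR _ _ _ hq, abs_zero, mul_zero]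
      positivity
    · have h1 : q.1 ≤ R := (le_abs_self _).trans (not_lt.1 hq)
      rw [mul_assoc]
      exact mul_le_mul (Real.exp_le_exp.2 h1) (hc _ _ _) (abs_nonneg _) (Real.exp_pos _).le
  have h1 := h.wden.test_weight (fun n => measurable_denS2 (h.apx n).meas)
    (fun n q => div_nonneg ((h.apx n).nonneg _ _ _) (Maxw_pos _).le) (measurable_denS2 h.meas)
    (fun q => div_nonneg (h.nonneg _ _ _) (Maxw_pos _).le) (r := fun q : ℝ × T3 × V => ‖q.2.2‖)
    measurable_snd.snd.norm (fun q => norm_nonneg _) (C := C) (fun n => h.energy_PPS2 n)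
    h.toLim1.energy mθ bθ
  simp only [integral_den_PPS2 _ fun q : ℝ × T3 × V => transport φ q.1 q.2.1 q.2.2] at h1
  have hφ0 : Continuous fun x : T3 => φ 0 x :=
    (continuous_testXS2 hφ).comp (by fun_prop : Continuous fun x : T3 => ((0 : ℝ), x))
  obtain ⟨b, hb⟩ := isCompact_univ.exists_bound_of_continuousOn hφ0.continuousOn
  have h2 := h.conv0_testS2 (θ := fun p : T3 × V => φ 0 p.1)
    (hφ0.measurable.comp measurable_fst) (c := |b|) (abs_nonneg b) (fun p => by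
      have h3 : |φ 0 p.1| ≤ b := hb p.1 (mem_univ _)
      have h4 : |b| * 1 ≤ |b| * (1 + ‖p.2‖) :=
        mul_le_mul_of_nonneg_left (by linarith [norm_nonneg p.2]) (abs_nonneg b)
      linarith [le_abs_self b])
  have h5 := h1.add h2
  have h6 : ∀ n, (∫ q : ℝ × T3 × V in Ioi 0 ×ˢ univ,
      F n q.1 q.2.1 q.2.2 * transport φ q.1 q.2.1 q.2.2) +
      ∫ p : T3 × V, F0n n p.1 p.2 * φ 0 p.1 = 0 := fun n => (h.apx n).massloc φ hφ
  simp only [h6] at h5
  exact tendsto_nhds_unique h5 tendsto_const_nhds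

theorem Lim2.relEntropy_le (h : Lim2 N F0n F C F0 L) {t : ℝ} (ht : 0 ≤ t) :
    relEntropy (L t) ≤ liminf (fun n => relEntropy (F n t)) atTop := by
  have mL := measurable_slice2 h.meas t
  have h1 := (h.wtime ht).hE_le (fun n => measurable_den0S2 (h.msliceS2 n t))
    (fun n p => den0_nonnegS2 ((h.apx n).nonneg t) p) (fun n => h.int_den0S2 n ht)
    (measurable_den0S2 mL) (fun p => den0_nonnegS2 (h.nonneg t) p)
    ((integrable_den0 mL).2 (h.integrable ht))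
  rw [relEntropy_eq_hE mL]
  refine h1.trans (le_of_eq ?_)
  congr 1
  funext n
  exact (relEntropy_eq_hE (h.msliceS2 n t)).symm

theorem le_liminf_addS2 (u v : ℕ → ℝ≥0∞) :
    liminf u atTop + liminf v atTop ≤ liminf (fun n => u n + v n) atTop := by
  rw [liminf_eq_iSup_iInf_of_nat, liminf_eq_iSup_iInf_of_nat, liminf_eq_iSup_iInf_of_nat,
    ENNReal.iSup_add_iSup_of_monotone]
  · exact iSup_mono fun n => le_iInf₂ fun i hi => add_le_add (iInf₂_le i hi) (iInf₂_le i hi)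
  · exact fun a b hab => le_iInf₂ fun i hi => iInf₂_le i (hab.trans hi)
  · exact fun a b hab => le_iInf₂ fun i hi => iInf₂_le i (hab.trans hi)

theorem Lim2.entropy (h : Lim2 N F0n F C F0 L) {t : ℝ} (ht : 0 ≤ t) :
    relEntropy (L t) + ∫⁻ s in Ioc 0 t, dissipation (L s) ≤ relEntropy F0 := by
  have h1 := add_le_add (h.relEntropy_le ht) (h.toLim1.diss_lsc t)
  have h2 := le_liminf_addS2 (fun n => relEntropy (F n t))
    (fun n => ∫⁻ s in Ioc 0 t, dissN (N n) (F n s))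
  refine (h1.trans h2).trans ?_
  refine ENNReal.le_of_forall_pos_le_add fun ε hε hfin => ?_
  have h3 := h.ent0 ε (by exact_mod_cast hε)
  refine liminf_le_of_frequently_le' (Eventually.frequently ?_)
  filter_upwards [h3] with n hn
  exact ((h.apx n).entropy t ht).trans hn

end Vale.Agent.P140.DL
end
end

section

open MeasureTheory Set Filter
open scoped ENNReal Topology NNReal

noncomputable section

namespace Vale.Agent.P140.DL

variable {N : ℕ → ℕ} {F0 : ℕ → T3 → V → ℝ} {F : ℕ → ℝ → T3 → V → ℝ} {C : ℝ≥0}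
  {L : ℝ → T3 → V → ℝ}

/-! ### Reassociation -/

/-- `((z, v), (w, o)) ↦ (z, v, w, o)` -/
def p3e : ((ℝ × T3) × V) × (V × S2) ≃ᵐ (ℝ × T3) × V × V × S2 := MeasurableEquiv.prodAssoc

theorem mp_p3e : MeasurePreserving p3e ((zet.prod mV).prod (mV.prod surf)) P4 :=
  measurePreserving_prodAssoc zet mV (mV.prod surf)

/-- `(t, x, v) ↦ ((t, x), v)` -/
def p3a : ℝ × T3 × V ≃ᵐ (ℝ × T3) × V := MeasurableEquiv.prodAssoc.symm

theorem mp_p3a : MeasurePreserving p3a PP (zet.prod mV) := measurePreserving_assoc_PP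

theorem lintegral_PP_marg {f : (ℝ × T3) × V × V × S2 → ℝ≥0∞} (hf : Measurable f) :
    ∫⁻ q, (∫⁻ b, f (p3e (p3a q, b)) ∂(mV.prod surf)) ∂PP = ∫⁻ a, f a ∂P4 := by
  have h1 : Measurable fun a => f (p3e a) := hf.comp p3e.measurable
  rw [← mp_p3e.lintegral_comp hf, lintegral_prod _ h1.aemeasurable,
    ← mp_p3a.lintegral_comp h1.lintegral_prod_right']

/-! ### The gain terms as marginals -/

theorem yN_tau (k n : ℕ) (F : ℝ → T3 → V → ℝ) (z : ℝ × T3) (v w : V) (o : S2) :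
    yN k n F (tau (z, v, w, o)) = (dk k (F z.1 z.2)).toReal * (pfN n (F z.1 z.2)).toReal /
      Maxw v * (bN n v w o * (F z.1 z.2 (post v w o) * F z.1 z.2 (postStar v w o)) / Maxw w) := by
  have h1 := Maxw_post v w o
  have h2 := (Maxw_pos v).ne'
  have h3 := (Maxw_pos w).ne'
  have h4 := (Maxw_pos (post v w o)).ne'
  have h5 := (Maxw_pos (postStar v w o)).ne'
  rw [tau_apply]
  unfold yN xN
  simp only
  rw [bN_post]
  have h6 : F z.1 z.2 (post v w o) / Maxw (post v w o) *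
      (F z.1 z.2 (postStar v w o) / Maxw (postStar v w o)) =
      F z.1 z.2 (post v w o) * F z.1 z.2 (postStar v w o) / (Maxw v * Maxw w) := by
    rw [div_mul_div_comm, h1]
  rw [h6]
  field_simp

theorem yL_tau (k : ℕ) (F : ℝ → T3 → V → ℝ) (z : ℝ × T3) (v w : V) (o : S2) :
    yL k F (tau (z, v, w, o)) = (dk k (F z.1 z.2)).toReal /
      Maxw v * (|relA v w o| * (F z.1 z.2 (post v w o) * F z.1 z.2 (postStar v w o)) / Maxw w) := by
  have h1 := Maxw_post v w o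
  have h2 := (Maxw_pos v).ne'
  have h3 := (Maxw_pos w).ne'
  rw [tau_apply]
  unfold yL xN
  simp only
  rw [relA_post, abs_neg]
  have h6 : F z.1 z.2 (post v w o) / Maxw (post v w o) *
      (F z.1 z.2 (postStar v w o) / Maxw (postStar v w o)) =
      F z.1 z.2 (post v w o) * F z.1 z.2 (postStar v w o) / (Maxw v * Maxw w) := by
    rw [div_mul_div_comm, h1]
  rw [h6]
  field_simp

/-- integrals against `mV.prod surf` -/
theorem lintegral_mV_surf {c : ℝ} (hc : 0 ≤ c) {f : V → S2 → ℝ}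
    (hf : Measurable fun b : V × S2 => f b.1 b.2) :
    ∫⁻ b, ENNReal.ofReal (c * (f b.1 b.2 / Maxw b.1)) ∂(mV.prod surf) =
      ENNReal.ofReal c * ∫⁻ w : V, ∫⁻ o : S2, ENNReal.ofReal (f w o) ∂surf := by
  have hM : Measurable fun b : V × S2 => f b.1 b.2 / Maxw b.1 := hf.div (measurable_Maxw.comp measurable_fst)
  have h1 : Measurable fun b : V × S2 => ENNReal.ofReal (c * (f b.1 b.2 / Maxw b.1)) :=
    (hM.const_mul c).ennreal_ofReal
  rw [lintegral_prod _ h1.aemeasurable, lintegral_mV h1.lintegral_prod_right',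
    ← lintegral_const_mul' _ _ ENNReal.ofReal_ne_top]
  refine lintegral_congr fun w => ?_
  rw [← lintegral_const_mul' _ _ ENNReal.ofReal_ne_top,
    ← lintegral_const_mul' _ _ ENNReal.ofReal_ne_top]
  refine lintegral_congr fun o => ?_
  have h2 := (Maxw_pos w)
  rw [← ENNReal.ofReal_mul h2.le, ← ENNReal.ofReal_mul hc]
  congr 1
  field_simp

theorem gainP_eq (k n : ℕ) {F : ℝ → T3 → V → ℝ}
    (hF : Measurable fun q : ℝ × T3 × V => F q.1 q.2.1 q.2.2) (q : ℝ × T3 × V) :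
    dk k (F q.1 q.2.1) * gainP n (F q.1 q.2.1) q.2.2 / ENNReal.ofReal (Maxw q.2.2) =
      ∫⁻ b, ENNReal.ofReal (yN k n F (tau (p3e (p3a q, b)))) ∂(mV.prod surf) := by
  obtain ⟨t, x, v⟩ := q
  have hg : Measurable (F t x) := hF.comp (measurable_const.prodMk (measurable_const.prodMk measurable_id))
  have hf : Measurable fun b : V × S2 =>
      bN n v b.1 b.2 * (F t x (post v b.1 b.2) * F t x (postStar v b.1 b.2)) := by
    have h0 : Measurable fun b : V × S2 => (v, b.1, b.2) :=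
      measurable_const.prodMk (measurable_fst.prodMk measurable_snd)
    exact ((measurable_bN n).comp h0).mul
      ((hg.comp (measurable_post.comp h0)).mul (hg.comp ((measurable_postStar.comp h0 :))))
  have hd : dk k (F t x) ≠ ⊤ := ne_top_of_le_ne_top ENNReal.one_ne_top (dk_le_one k _)
  have hp : pfN n (F t x) ≠ ⊤ := ne_top_of_le_ne_top ENNReal.one_ne_top (pfN_le_one n _)
  have hc : ENNReal.ofReal ((dk k (F t x)).toReal * (pfN n (F t x)).toReal / Maxw v) =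
      dk k (F t x) * pfN n (F t x) / ENNReal.ofReal (Maxw v) := by
    rw [ENNReal.ofReal_div_of_pos (Maxw_pos v), ENNReal.ofReal_mul ENNReal.toReal_nonneg,
      ENNReal.ofReal_toReal hd, ENNReal.ofReal_toReal hp]
  have h1 : ∀ b : V × S2, yN k n F (tau (p3e (p3a (t, x, v), b))) =
      (dk k (F t x)).toReal * (pfN n (F t x)).toReal / Maxw v *
        (bN n v b.1 b.2 * (F t x (post v b.1 b.2) * F t x (postStar v b.1 b.2)) / Maxw b.1) :=
    fun b => yN_tau k n F (t, x) v b.1 b.2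
  rw [lintegral_congr fun b => by rw [h1 b]]
  rw [lintegral_mV_surf (c := (dk k (F t x)).toReal * (pfN n (F t x)).toReal / Maxw v)
    (f := fun w o => bN n v w o * (F t x (post v w o) * F t x (postStar v w o)))
    (div_nonneg (mul_nonneg ENNReal.toReal_nonneg ENNReal.toReal_nonneg) (Maxw_pos v).le) hf, hc]
  show dk k (F t x) * (pfN n (F t x) * gainN n (F t x) v) / ENNReal.ofReal (Maxw v) =
    dk k (F t x) * pfN n (F t x) / ENNReal.ofReal (Maxw v) * gainN n (F t x) v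
  rw [ENNReal.div_eq_inv_mul, ENNReal.div_eq_inv_mul, mul_assoc, mul_assoc]

theorem gain_eq (k : ℕ) {F : ℝ → T3 → V → ℝ}
    (hF : Measurable fun q : ℝ × T3 × V => F q.1 q.2.1 q.2.2) (q : ℝ × T3 × V) :
    dk k (F q.1 q.2.1) * gain (F q.1 q.2.1) q.2.2 / ENNReal.ofReal (Maxw q.2.2) =
      ∫⁻ b, ENNReal.ofReal (yL k F (tau (p3e (p3a q, b)))) ∂(mV.prod surf) := by
  obtain ⟨t, x, v⟩ := q
  have hg : Measurable (F t x) := hF.comp (measurable_const.prodMk (measurable_const.prodMk measurable_id))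
  have hf : Measurable fun b : V × S2 =>
      |relA v b.1 b.2| * (F t x (post v b.1 b.2) * F t x (postStar v b.1 b.2)) := by
    have h0 : Measurable fun b : V × S2 => (v, b.1, b.2) :=
      measurable_const.prodMk (measurable_fst.prodMk measurable_snd)
    exact ((measurable_relA.comp h0).abs).mul
      ((hg.comp (measurable_post.comp h0)).mul (hg.comp (measurable_postStar.comp h0)))
  have hd : dk k (F t x) ≠ ⊤ := ne_top_of_le_ne_top ENNReal.one_ne_top (dk_le_one k _)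
  have hc : ENNReal.ofReal ((dk k (F t x)).toReal / Maxw v) =
      dk k (F t x) / ENNReal.ofReal (Maxw v) := by
    rw [ENNReal.ofReal_div_of_pos (Maxw_pos v), ENNReal.ofReal_toReal hd]
  have h1 : ∀ b : V × S2, yL k F (tau (p3e (p3a (t, x, v), b))) =
      (dk k (F t x)).toReal / Maxw v *
        (|relA v b.1 b.2| * (F t x (post v b.1 b.2) * F t x (postStar v b.1 b.2)) / Maxw b.1) :=
    fun b => yL_tau k F (t, x) v b.1 b.2
  rw [lintegral_congr fun b => by rw [h1 b]]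
  rw [lintegral_mV_surf (c := (dk k (F t x)).toReal / Maxw v)
    (f := fun w o => |relA v w o| * (F t x (post v w o) * F t x (postStar v w o)))
    (div_nonneg ENNReal.toReal_nonneg (Maxw_pos v).le) hf, hc]
  show dk k (F t x) * gain (F t x) v / ENNReal.ofReal (Maxw v) =
    dk k (F t x) / ENNReal.ofReal (Maxw v) * gain (F t x) v
  rw [ENNReal.div_eq_inv_mul, ENNReal.div_eq_inv_mul, mul_assoc]

/-- the gain term of the limit is finite after normalization -/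
theorem Lim1.gain_fin (h : Lim1 N F0 F C L) (k : ℕ) :
    ∫⁻ q, dk k (L q.1 q.2.1) * gain (L q.1 q.2.1) q.2.2 / ENNReal.ofReal (Maxw q.2.2) ∂PP
      < ⊤ := by
  have my := measurable_yL k h.meas
  have m1 : Measurable fun a => ENNReal.ofReal (yL k L (tau a)) :=
    (my.comp tau.measurable).ennreal_ofReal
  rw [lintegral_congr fun q => gain_eq k h.meas q, lintegral_PP_marg m1,
    measurePreserving_tau.lintegral_comp my.ennreal_ofReal]
  have h1 := (h.int_yL k).hasFiniteIntegral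
  rw [hasFiniteIntegral_iff_ofReal (Filter.Eventually.of_forall (yL_nonneg k h.nonneg))] at h1
  exact h1

theorem Lim1.gain_ui (h : Lim1 N F0 F C L) (k : ℕ) :
    UI PP fun n q => dk k (F n q.1 q.2.1) * gainP (N n) (F n q.1 q.2.1) q.2.2
      / ENNReal.ofReal (Maxw q.2.2) := by
  have mF : ∀ n, Measurable fun q : ℝ × T3 × V => F n q.1 q.2.1 q.2.2 := fun n => (h.apx n).meas
  have my : ∀ n, Measurable fun q => ENNReal.ofReal (yN k (N n) (F n) q) :=
    fun n => (measurable_yN k (N n) (mF n)).ennreal_ofReal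
  have h1 := (h.toASeq.ui_yN k).comp_mp my measurePreserving_tau
  have m1 : ∀ n, Measurable fun q => ENNReal.ofReal (yN k (N n) (F n) (tau q)) :=
    fun n => (my n).comp tau.measurable
  have h2 := h1.comp_mp m1 mp_p3e
  have m2 : ∀ n, Measurable fun q => ENNReal.ofReal (yN k (N n) (F n) (tau (p3e q))) :=
    fun n => (m1 n).comp p3e.measurable
  have h3 := h2.marginal m2
  have h4 := h3.comp_mp (fun n => (m2 n).lintegral_prod_right') mp_p3a
  exact h4.mono fun n => Filter.Eventually.of_forall fun q => (gainP_eq k (N n) (mF n) q).le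

/-- the normalized gain terms converge weakly -/
theorem Lim1.gain_conv (h : Lim1 N F0 F C L) (k : ℕ) :
    WConv PP (fun n q => (dk k (F n q.1 q.2.1) * gainP (N n) (F n q.1 q.2.1) q.2.2
        / ENNReal.ofReal (Maxw q.2.2)).toReal)
      fun q => (dk k (L q.1 q.2.1) * gain (L q.1 q.2.1) q.2.2
        / ENNReal.ofReal (Maxw q.2.2)).toReal := by
  have mF : ∀ n, Measurable fun q : ℝ × T3 × V => F n q.1 q.2.1 q.2.2 := fun n => (h.apx n).meas
  have nF : ∀ n t x v, 0 ≤ F n t x v := fun n => (h.apx n).nonneg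
  have my : ∀ n, Measurable (yN k (N n) (F n)) := fun n => measurable_yN k (N n) (mF n)
  have myL : Measurable (yL k L) := measurable_yL k h.meas
  have h1 := ((h.conv_yN k).comp_equiv tau measurePreserving_tau).comp_equiv p3e mp_p3e
  have i1 : ∀ n, Integrable (fun a => yN k (N n) (F n) (tau (p3e a)))
      ((zet.prod mV).prod (mV.prod surf)) := fun n =>
    mp_p3e.integrable_comp_of_integrable
      (measurePreserving_tau.integrable_comp_of_integrable (h.toASeq.int_yN k n))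
  have i2 : Integrable (fun a => yL k L (tau (p3e a)))
      ((zet.prod mV).prod (mV.prod surf)) :=
    mp_p3e.integrable_comp_of_integrable
      (measurePreserving_tau.integrable_comp_of_integrable (h.int_yL k))
  have h2 := (h1.marginal i1 i2).comp_equiv p3a mp_p3a
  refine h2.congr (fun n => Filter.Eventually.of_forall fun q => ?_)
    (Filter.Eventually.of_forall fun q => ?_)
  · rw [gainP_eq k (N n) (mF n) q]
    exact integral_eq_lintegral_of_nonneg_ae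
      (Filter.Eventually.of_forall fun b => yN_nonneg k (N n) (nF n) _)
      ((my n).comp (tau.measurable.comp (p3e.measurable.comp measurable_prodMk_left))).aestronglyMeasurable
  · rw [gain_eq k h.meas q]
    exact integral_eq_lintegral_of_nonneg_ae
      (Filter.Eventually.of_forall fun b => yL_nonneg k h.nonneg _)
      (myL.comp (tau.measurable.comp (p3e.measurable.comp measurable_prodMk_left))).aestronglyMeasurable

end Vale.Agent.P140.DL
end
end
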