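import Vale.Agent.P140.MathlibUsed
import Vale.Agent.P140.Bd3.B4
import Vale.Agent.P140.Bd3.B5
import Vale.Agent.P140.Bd3.B10
import Vale.Agent.P140.Bd3.B12
import Vale.Agent.P140.Bd3.B3
import Vale.Agent.P140.Bd3.B7
import Vale.Agent.P140.Bd3.B6

set_option linter.all false

attribute [local instance 5000] Vale.Agent.P140.Sc.a01 Vale.Agent.P140.Sc.a02 Vale.Agent.P140.Sc.a03 Vale.Agent.P140.Sc.a04 Vale.Agent.P140.Sc.a05 Vale.Agent.P140.Sc.a06 Vale.Agent.P140.Sc.a07 Vale.Agent.P140.Sc.a08 Vale.Agent.P140.Sc.a09 Vale.Agent.P140.Sc.a10 Vale.Agent.P140.Sc.a11 Vale.Agent.P140.Sc.a12 Vale.Agent.P140.Sc.a13 Vale.Agent.P140.Sc.a14 Vale.Agent.P140.Sc.a15 Vale.Agent.P140.Sc.a16 Vale.Agent.P140.Sc.a17 Vale.Agent.P140.Sc.a18 Vale.Agent.P140.Sc.a19 Vale.Agent.P140.Sc.a20 Vale.Agent.P140.Sc.a21 Vale.Agent.P140.Sc.a22 Vale.Agent.P140.Sc.a23 Vale.Agent.P140.Sc.a24 Vale.Agent.P140.Sc.a25 Vale.Agent.P140.Sc.a26 Vale.Agent.P140.Sc.a27 Vale.Agent.P140.Sc.a28 Vale.Agent.P140.Sc.a29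 Vale.Agent.P140.Sc.a30 Vale.Agent.P140.Sc.a31 Vale.Agent.P140.Sc.a32 Vale.Agent.P140.Sc.a33 Vale.Agent.P140.Sc.r01 Vale.Agent.P140.Sc.r02 Vale.Agent.P140.Sc.r03 Vale.Agent.P140.Sc.r04 Vale.Agent.P140.Sc.r05 Vale.Agent.P140.Sc.r06 Vale.Agent.P140.Sc.r07 Vale.Agent.P140.Sc.r08 Vale.Agent.P140.Sc.r09 Vale.Agent.P140.Sc.r10 Vale.Agent.P140.Sc.r11 Vale.Agent.P140.Sc.r12 Vale.Agent.P140.Sc.r13 Vale.Agent.P140.Sc.r14 Vale.Agent.P140.Sc.r15 Vale.Agent.P140.Sc.r16 Vale.Agent.P140.Sc.r17 Vale.Agent.P140.Sc.r18 Vale.Agent.P140.Sc.a34 Vale.Agent.P140.Sc.a35 Vale.Agent.P140.Sc.a36 Vale.Agent.P140.Sc.a37 Vale.Agent.P140.Sc.a38 Vale.Agent.P140.Sc.a39 Vale.Agent.P140.Sc.a40 Vale.Agent.P140.Sc.a42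

section

open MeasureTheory Set Filter
open scoped ENNReal Topology NNReal

noncomputable section

namespace Vale.Agent.P140

variable {T : ℝ} {F0 G0 : T3 → V → ℝ} {F G : ℝ → T3 → V → ℝ} {ψ : V → ℝ≥0∞}

end Vale.Agent.P140
end
end

section

open MeasureTheory Set

namespace Vale.Agent.P140

end Vale.Agent.P140
end

section

/-! Strong solutions below an `x`-independent envelope: mild form, conservation laws and
weak-strong uniqueness. -/

open MeasureTheory Set Filter
open scoped ENNReal Topology NNReal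

noncomputable section

namespace Vale.Agent.P140

/-- strong solution with datum `F0` and envelope `e` on `[0,T]` -/
structure EnvSol (T : ℝ) (F0 : T3 → V → ℝ) (F : TF) (e : V → ℝ≥0∞) : Prop where
  meas0 : Measurable fun p : T3 × V => F0 p.1 p.2
  nonneg0 : ∀ x v, 0 ≤ F0 x v
  meas : MeasTF F
  mease : Measurable e
  finE : ∀ v, e v ≠ ⊤
  mom : Mo 2 e ≠ ⊤
  le : ∀ t ∈ Icc 0 T, ∀ x v, F t x v ≤ e v
  eq : ∀ t ∈ Icc 0 T, ∀ p : T3 × V,
    F t (flow t p).1 p.2 + ∫⁻ s in Ioc 0 t, Qm (F s (flow s p).1) p.2 =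
      ENNReal.ofReal (F0 p.1 p.2) + ∫⁻ s in Ioc 0 t, Qp (F s (flow s p).1) p.2

variable {T : ℝ} {F0 : T3 → V → ℝ} {R : TF} {e : V → ℝ≥0∞}

end Vale.Agent.P140
end
end

section

open MeasureTheory Set Filter
open scoped ENNReal Topology NNReal

noncomputable section

namespace Vale.Agent.P140

/-- truncated datum -/
def truncR (g0 : V → ℝ) (n : ℕ) (v : V) : ℝ := if ‖v‖ ≤ n then g0 v else 0

variable {g0 : V → ℝ}

/-- tail of the energy -/
def tailE (g0 : V → ℝ) (n : ℕ) : ℝ≥0∞ :=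
  ∫⁻ v, psi2 v * ENNReal.ofReal |truncR g0 n v - g0 v|

end Vale.Agent.P140
end
end

section

open MeasureTheory Set Filter
open scoped ENNReal Topology NNReal

noncomputable section

namespace Vale.Agent.P140

end Vale.Agent.P140
end
end

section

open MeasureTheory Set Filter
open scoped ENNReal Topology NNReal

noncomputable section

namespace Vale.Agent.P140

variable {g0 : V → ℝ}

end Vale.Agent.P140
end
end

section

open MeasureTheory Set Filter
open scoped ENNReal Topology NNReal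

noncomputable section

namespace Vale.Agent.P140

variable {g0 : V → ℝ}

/-- the constant of the estimate -/
def cstZ (T : ℝ) (K C : ℝ≥0∞) : ℝ≥0∞ :=
  (1 + 2 * Ss * (4 * (K * ENNReal.ofReal (Real.exp ((2 * (Ss * K).toReal) * T))
    * ENNReal.ofReal T))) * ENNReal.ofReal (Real.exp (2 * Ss * (8 * Ss * K * (K * ENNReal.ofReal T
      + 2 * (C * ENNReal.ofReal T)) + 2 * K * ENNReal.ofReal T)).toReal)

end Vale.Agent.P140
end
end

section

/-!
One-dimensional lemmas: monotonicity from quadratic increments, product rule, survival formula,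
integral Gronwall inequality.
-/

open MeasureTheory Set Filter
open scoped Topology Interval

noncomputable section

namespace Vale.Agent.P140.NU.J

/-- a function whose increments are at least `-C (s' - s)²` is nondecreasing -/
theorem le_of_quad {f : ℝ → ℝ} {a b C : ℝ} (hab : a ≤ b)
    (h : ∀ s s', a ≤ s → s ≤ s' → s' ≤ b → -(C * (s' - s) ^ 2) ≤ f s' - f s) : f a ≤ f b := by
  have key : ∀ n : ℕ, -(C * (b - a) ^ 2) / ((n : ℝ) + 1) ≤ f b - f a := by
    intro n
    set d : ℝ := (b - a) / ((n : ℝ) + 1) with hd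
    have hn : (0 : ℝ) < (n : ℝ) + 1 := by positivity
    have d0 : 0 ≤ d := div_nonneg (sub_nonneg.mpr hab) hn.le
    have hdn : ((n : ℝ) + 1) * d = b - a := by
      rw [hd]
      field_simp
    have step : ∀ i : ℕ, i ≤ n + 1 → -((i : ℝ) * (C * d ^ 2)) ≤ f (a + i * d) - f a := by
      intro i
      induction i with
      | zero =>
        intro _
        simp
      | succ i ih =>
        intro hi
        have h1 := ih (by omega)
        have hi' : ((i : ℝ) + 1) ≤ (n : ℝ) + 1 := by exact_mod_cast hi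
        have h2 := h (a + i * d) (a + (i + 1 : ℝ) * d)
          (by have : 0 ≤ (i : ℝ) * d := by positivity
              linarith)
          (by linarith only [d0])
          (by have : ((i : ℝ) + 1) * d ≤ ((n : ℝ) + 1) * d := mul_le_mul_of_nonneg_right hi' d0
              linarith)
        have e : (a + (i + 1 : ℝ) * d) - (a + i * d) = d := by ring
        rw [e] at h2
        push_cast
        linarith only [h2, h1]
    have h3 := step (n + 1) le_rfl
    push_cast at h3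
    rw [hdn] at h3
    have e2 : a + (b - a) = b := by ring
    rw [e2] at h3
    have e3 : -((↑n + 1) * (C * d ^ 2)) = -(C * (b - a) ^ 2) / ((n : ℝ) + 1) := by
      rw [hd]
      field_simp
    rw [← e3]
    exact h3
  have lim : Tendsto (fun n : ℕ => -(C * (b - a) ^ 2) / ((n : ℝ) + 1)) atTop (𝓝 0) := by
    have h1 := tendsto_one_div_add_atTop_nhds_zero_nat (𝕜 := ℝ)
    have h2 := h1.const_mul (-(C * (b - a) ^ 2))
    rw [mul_zero] at h2
    refine h2.congr fun n => ?_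
    ring
  have := le_of_tendsto' lim key
  linarith

/-- bounded integrals -/
theorem abs_int_le {g : ℝ → ℝ} {s s' B : ℝ} (hs : s ≤ s') (hb : ∀ τ ∈ Icc s s', |g τ| ≤ B) :
    |∫ τ in s..s', g τ| ≤ B * (s' - s) := by
  have h := intervalIntegral.norm_integral_le_of_norm_le_const (a := s) (b := s') (C := B)
    (f := g) (fun τ hτ => by
      rw [uIoc_of_le hs] at hτ
      exact hb τ ⟨hτ.1.le, hτ.2⟩)
  rw [abs_of_nonneg (sub_nonneg.mpr hs)] at h
  exact h

/-- measurable bounded functions are interval integrable -/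
theorem intervalIntegrable_of_bdd {g : ℝ → ℝ} {a b B : ℝ} (hg : Measurable g)
    (hb : ∀ τ ∈ Icc a b, |g τ| ≤ B) {s s' : ℝ} (h1 : a ≤ s) (h2 : s ≤ s') (h3 : s' ≤ b) :
    IntervalIntegrable g volume s s' := by
  rw [intervalIntegrable_iff_integrableOn_Ioc_of_le h2]
  refine Measure.integrableOn_of_bounded (M := B) (by simp) hg.aestronglyMeasurable ?_
  refine (ae_restrict_iff' measurableSet_Ioc).mpr (Eventually.of_forall fun τ hτ => ?_)
  exact hb τ ⟨h1.trans hτ.1.le, hτ.2.trans h3⟩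

/-- product inequality: `h` solves `h' = k`, `h ≥ 0`, and `W' ≥ ω` in the integrated sense -/
theorem prod_incr {W h ω k : ℝ → ℝ} {a b B : ℝ} (hab : a ≤ b) (hB : 0 ≤ B)
    (mω : Measurable ω) (mk : Measurable k) (mW : Measurable W) (mh : Measurable h)
    (bω : ∀ τ ∈ Icc a b, |ω τ| ≤ B) (bk : ∀ τ ∈ Icc a b, |k τ| ≤ B)
    (bW : ∀ τ ∈ Icc a b, |W τ| ≤ B) (bh : ∀ τ ∈ Icc a b, |h τ| ≤ B)
    (h0 : ∀ τ ∈ Icc a b, 0 ≤ h τ)
    (hk : ∀ s s', a ≤ s → s ≤ s' → s' ≤ b → h s' - h s = ∫ τ in s..s', k τ)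
    (hω : ∀ s s', a ≤ s → s ≤ s' → s' ≤ b → ∫ τ in s..s', ω τ ≤ W s' - W s)
    (lW : ∀ s s', a ≤ s → s ≤ s' → s' ≤ b → |W s' - W s| ≤ B * (s' - s)) :
    ∫ τ in a..b, (ω τ * h τ + W τ * k τ) ≤ W b * h b - W a * h a := by
  have iω : ∀ s s', a ≤ s → s ≤ s' → s' ≤ b → IntervalIntegrable ω volume s s' :=
    fun s s' h1 h2 h3 => intervalIntegrable_of_bdd mω bω h1 h2 h3
  have ik : ∀ s s', a ≤ s → s ≤ s' → s' ≤ b → IntervalIntegrable k volume s s' :=
    fun s s' h1 h2 h3 => intervalIntegrable_of_bdd mk bk h1 h2 h3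
  have bωh : ∀ τ ∈ Icc a b, |ω τ * h τ| ≤ B * B := fun τ hτ => by
    rw [abs_mul]
    exact mul_le_mul (bω τ hτ) (bh τ hτ) (abs_nonneg _) hB
  have bWk : ∀ τ ∈ Icc a b, |W τ * k τ| ≤ B * B := fun τ hτ => by
    rw [abs_mul]
    exact mul_le_mul (bW τ hτ) (bk τ hτ) (abs_nonneg _) hB
  have iωh : ∀ s s', a ≤ s → s ≤ s' → s' ≤ b →
      IntervalIntegrable (fun τ => ω τ * h τ) volume s s' :=
    fun s s' h1 h2 h3 => intervalIntegrable_of_bdd (mω.mul mh) bωh h1 h2 h3
  have iWk : ∀ s s', a ≤ s → s ≤ s' → s' ≤ b →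
      IntervalIntegrable (fun τ => W τ * k τ) volume s s' :=
    fun s s' h1 h2 h3 => intervalIntegrable_of_bdd (mW.mul mk) bWk h1 h2 h3
  have lh : ∀ s s', a ≤ s → s ≤ s' → s' ≤ b → |h s' - h s| ≤ B * (s' - s) := by
    intro s s' h1 h2 h3
    rw [hk s s' h1 h2 h3]
    exact abs_int_le h2 fun τ hτ => bk τ ⟨h1.trans hτ.1, hτ.2.trans h3⟩
  have main := le_of_quad (f := fun s => W s * h s - ∫ τ in a..s, (ω τ * h τ + W τ * k τ))
    (C := 2 * (B * B)) hab (by
      intro s s' h1 h2 h3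
      have hint : (∫ τ in a..s', (ω τ * h τ + W τ * k τ)) - ∫ τ in a..s, (ω τ * h τ + W τ * k τ)
          = ∫ τ in s..s', (ω τ * h τ + W τ * k τ) := by
        rw [intervalIntegral.integral_interval_sub_left]
        · exact (iωh a s' le_rfl (h1.trans h2) h3).add (iWk a s' le_rfl (h1.trans h2) h3)
        · exact (iωh a s le_rfl h1 (h2.trans h3)).add (iWk a s le_rfl h1 (h2.trans h3))
      have hsplit : ∫ τ in s..s', (ω τ * h τ + W τ * k τ)
          = (∫ τ in s..s', ω τ * h τ) + ∫ τ in s..s', W τ * k τ :=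
        intervalIntegral.integral_add (iωh s s' h1 h2 h3) (iWk s s' h1 h2 h3)
      have e1 : h s' * (∫ τ in s..s', ω τ) - ∫ τ in s..s', ω τ * h τ
          = ∫ τ in s..s', ω τ * (h s' - h τ) := by
        rw [← intervalIntegral.integral_const_mul, ← intervalIntegral.integral_sub]
        · refine intervalIntegral.integral_congr fun τ _ => ?_
          ring
        · exact (iω s s' h1 h2 h3).const_mul _
        · exact iωh s s' h1 h2 h3
      have e2 : W s * (∫ τ in s..s', k τ) - ∫ τ in s..s', W τ * k τ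
          = ∫ τ in s..s', (W s - W τ) * k τ := by
        rw [← intervalIntegral.integral_const_mul, ← intervalIntegral.integral_sub]
        · refine intervalIntegral.integral_congr fun τ _ => ?_
          ring
        · exact (ik s s' h1 h2 h3).const_mul _
        · exact iWk s s' h1 h2 h3
      have b1 : |∫ τ in s..s', ω τ * (h s' - h τ)| ≤ (B * (B * (s' - s))) * (s' - s) := by
        refine abs_int_le h2 fun τ hτ => ?_
        rw [abs_mul]
        refine mul_le_mul (bω τ ⟨h1.trans hτ.1, hτ.2.trans h3⟩) ?_ (abs_nonneg _) hB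
        refine (lh τ s' (h1.trans hτ.1) hτ.2 h3).trans ?_
        exact mul_le_mul_of_nonneg_left (by linarith [hτ.1]) hB
      have b2 : |∫ τ in s..s', (W s - W τ) * k τ| ≤ ((B * (s' - s)) * B) * (s' - s) := by
        refine abs_int_le h2 fun τ hτ => ?_
        rw [abs_mul]
        refine mul_le_mul ?_ (bk τ ⟨h1.trans hτ.1, hτ.2.trans h3⟩) (abs_nonneg _)
          (mul_nonneg hB (sub_nonneg.mpr h2))
        rw [abs_sub_comm]
        refine (lW s τ h1 hτ.1 (hτ.2.trans h3)).trans ?_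
        exact mul_le_mul_of_nonneg_left (by linarith [hτ.2]) hB
      have hh0 := h0 s' ⟨h1.trans h2, h3⟩
      have hW := hω s s' h1 h2 h3
      have hkk := hk s s' h1 h2 h3
      have p1 : h s' * (∫ τ in s..s', ω τ) ≤ (W s' - W s) * h s' := by
        rw [mul_comm]
        exact mul_le_mul_of_nonneg_right hW hh0
      have p2 : W s' * h s' - W s * h s = (W s' - W s) * h s' + W s * (h s' - h s) := by ring
      have q1 := (abs_le.mp b1).1
      have q2 := (abs_le.mp b2).1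
      rw [hkk] at p2
      linarith only [hsplit, hint, e2, e1, q2, q1, p2, p1])
  simp only [intervalIntegral.integral_same, sub_zero] at main
  linarith

theorem exp_sub_le {x : ℝ} (hx : 0 ≤ x) : Real.exp x - 1 - x ≤ x ^ 2 * Real.exp x := by
  have h1 := Real.add_one_le_exp (-x)
  have h2 : Real.exp x * Real.exp (-x) = 1 := by
    rw [← Real.exp_add]
    simp
  have h3 := Real.exp_pos x
  have h4 : (1 + x) * (1 - x) ≤ (1 + x) * Real.exp (-x) :=
    mul_le_mul_of_nonneg_left (by linarith) (by linarith)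
  have h5 := mul_le_mul_of_nonneg_left h4 h3.le
  have h6 : Real.exp x * ((1 + x) * Real.exp (-x)) = 1 + x := by
    rw [mul_left_comm, h2, mul_one]
  rw [h6] at h5
  linarith only [h5]

theorem rpow_expand {x m E : ℝ} (hx : 0 ≤ x) (hm : 0 ≤ m) (hE : (1 + x) ^ m ≤ E) :
    |(1 + x) ^ m - 1 - m * x| ≤ (m ^ 2 * E + m) * x ^ 2 := by
  have h1 : 0 < 1 + x := by linarith
  set L := Real.log (1 + x) with hL
  have hL0 : 0 ≤ L := Real.log_nonneg (by linarith)
  have hLx : L ≤ x := by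
    have := Real.log_le_sub_one_of_pos h1
    linarith
  have hLl : x - x ^ 2 ≤ L := by
    have h2 := Real.one_sub_inv_le_log_of_pos h1
    have h3 : 1 - (1 + x)⁻¹ = x / (1 + x) := by
      field_simp
      ring
    rw [h3] at h2
    refine le_trans ?_ h2
    rw [le_div_iff₀ h1]
    linarith only [pow_nonneg hx 3]
  have hA : (1 + x) ^ m = Real.exp (m * L) := by
    rw [Real.rpow_def_of_pos h1, mul_comm]
  have hmL : 0 ≤ m * L := mul_nonneg hm hL0
  have e1 := exp_sub_le hmL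
  have e2 := Real.add_one_le_exp (m * L)
  have E0 : 0 ≤ E := le_trans (Real.rpow_nonneg h1.le m) hE
  rw [hA] at hE ⊢
  have e3 : (m * L) ^ 2 * Real.exp (m * L) ≤ m ^ 2 * E * x ^ 2 := by
    have : (m * L) ^ 2 ≤ (m * x) ^ 2 := pow_le_pow_left₀ hmL (mul_le_mul_of_nonneg_left hLx hm) 2
    calc (m * L) ^ 2 * Real.exp (m * L) ≤ (m * x) ^ 2 * E :=
          mul_le_mul this hE (Real.exp_pos _).le (sq_nonneg _)
      _ = m ^ 2 * E * x ^ 2 := by ring
  have e4 : m * L ≤ m * x := mul_le_mul_of_nonneg_left hLx hm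
  have e5 : m * (x - x ^ 2) ≤ m * L := mul_le_mul_of_nonneg_left hLl hm
  have e6 : 0 ≤ m * x ^ 2 := by positivity
  have e7 : 0 ≤ m ^ 2 * E * x ^ 2 := by (clear * - E0; positivity)
  rw [abs_le]
  constructor
  · linarith only [e7, e5, e2]
  · linarith only [e6, e4, e3, e1]

section gron

variable {φ T : ℝ → ℝ} {t1 m B σ : ℝ}

theorem gron_bdd (hσ : 0 < σ) (hT : ∀ t, T t = t + σ) (hm : 0 ≤ m)
    (bφ : ∀ t ∈ Icc 0 t1, |φ t| ≤ B) {r : ℝ} (hr : 0 ≤ r) (hr1 : r ≤ t1) :
    |m / T r * φ r| ≤ m / σ * B := by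
  have h1 : σ ≤ T r := by
    rw [hT]
    linarith
  rw [abs_mul, abs_of_nonneg (div_nonneg hm (hσ.le.trans h1))]
  exact mul_le_mul (div_le_div_of_nonneg_left hm hσ h1) (bφ r ⟨hr, hr1⟩) (abs_nonneg _)
    (div_nonneg hm hσ.le)

theorem gron_lower (hσ : 0 < σ) (hT : ∀ t, T t = t + σ) (hm : 0 ≤ m)
    (bφ : ∀ t ∈ Icc 0 t1, |φ t| ≤ B)
    (h : ∀ s s', 0 ≤ s → s ≤ s' → s' ≤ t1 → ∫ τ in s..s', m / T τ * φ τ ≤ φ s' - φ s)
    {s τ : ℝ} (hs : 0 ≤ s) (hsτ : s ≤ τ) (hτ : τ ≤ t1) :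
    -(m / σ * B * (τ - s)) ≤ φ τ - φ s := by
  refine le_trans ?_ (h s τ hs hsτ hτ)
  have := abs_int_le (g := fun r => m / T r * φ r) (B := m / σ * B) hsτ fun r hr =>
    gron_bdd hσ hT hm bφ (hs.trans hr.1) (hr.2.trans hτ)
  exact (abs_le.mp this).1

theorem gron_int (hσ : 0 < σ) (hT : ∀ t, T t = t + σ) (hm : 0 ≤ m) (hB : 0 ≤ B)
    (mφ : Measurable φ) (bφ : ∀ t ∈ Icc 0 t1, |φ t| ≤ B)
    (h : ∀ s s', 0 ≤ s → s ≤ s' → s' ≤ t1 → ∫ τ in s..s', m / T τ * φ τ ≤ φ s' - φ s)
    {s s' : ℝ} (hs0 : 0 ≤ s) (h2s : s ≤ s') (hs1 : s' ≤ t1) :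
    (m / T s * φ s - (m * B / σ ^ 2 + m ^ 2 * B / σ ^ 2) * (s' - s)) * (s' - s)
      ≤ ∫ τ in s..s', m / T τ * φ τ := by
  have Tpos : ∀ s, 0 ≤ s → 0 < T s := fun s hs => by
    rw [hT]
    linarith
  have Tσ : ∀ s, 0 ≤ s → σ ≤ T s := fun s hs => by
    rw [hT]
    linarith
  set δ := s' - s with hδ
  have δ0 : 0 ≤ δ := sub_nonneg.mpr h2s
  have Ts := Tpos s hs0
  have mT : Measurable T := by
    have : T = fun t => t + σ := funext hT
    rw [this]
    exact measurable_id.add_const _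
  have iF : IntervalIntegrable (fun τ => m / T τ * φ τ) volume s s' :=
    intervalIntegrable_of_bdd (g := fun τ => m / T τ * φ τ) (a := s) (b := s') (B := m / σ * B)
      ((measurable_const.div mT).mul mφ)
      (fun r hr => gron_bdd hσ hT hm bφ (hs0.trans hr.1) (hr.2.trans hs1)) le_rfl h2s le_rfl
  set C1 := m * B / σ ^ 2 + m ^ 2 * B / σ ^ 2 with hC1
  have hc : ∫ _τ in s..s', (m / T s * φ s - C1 * δ) = (m / T s * φ s - C1 * δ) * δ := by
    rw [intervalIntegral.integral_const, smul_eq_mul, mul_comm]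
  rw [← hc]
  refine intervalIntegral.integral_mono_on h2s (by simp) iF fun τ hτ => ?_
  have hτ0 : 0 ≤ τ := hs0.trans hτ.1
  have hτ1 : τ ≤ t1 := hτ.2.trans hs1
  have Tτ := Tpos τ hτ0
  have l1 := gron_lower hσ hT hm bφ h hs0 hτ.1 hτ1
  have hd : m / T s - m / T τ ≤ m * δ / σ ^ 2 := by
    have e : m / T s - m / T τ = m * (τ - s) / (T s * T τ) := by
      rw [div_sub_div _ _ Ts.ne' Tτ.ne', hT τ, hT s]
      ring
    rw [e]
    refine div_le_div₀ (by (clear * - hm h2s; positivity)) ?_ (by positivity) ?_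
    · exact mul_le_mul_of_nonneg_left (by linarith only [hτ.2]) hm
    · rw [sq]
      exact mul_le_mul (Tσ s hs0) (Tσ τ hτ0) hσ.le Ts.le
  have hd0 : 0 ≤ m / T s - m / T τ := by
    refine sub_nonneg.mpr (div_le_div_of_nonneg_left hm Ts ?_)
    rw [hT, hT]
    linarith only [hτ.1]
  have hbτ := bφ τ ⟨hτ0, hτ1⟩
  have k1 : (m / T s - m / T τ) * φ τ ≤ m * δ / σ ^ 2 * B := by
    calc (m / T s - m / T τ) * φ τ ≤ (m / T s - m / T τ) * |φ τ| :=
          mul_le_mul_of_nonneg_left (le_abs_self _) hd0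
      _ ≤ m * δ / σ ^ 2 * B := mul_le_mul hd hbτ (abs_nonneg _) (by (clear * - hm h2s hσ; positivity))
  have k2 : m / T s * (φ s - φ τ) ≤ m / σ * (m / σ * B * δ) := by
    have k3 : φ s - φ τ ≤ m / σ * B * δ := by
      have : m / σ * B * (τ - s) ≤ m / σ * B * δ :=
        mul_le_mul_of_nonneg_left (by linarith only [hτ.2]) (by (clear * - hm hσ hB; positivity))
      linarith only [this, l1]
    calc m / T s * (φ s - φ τ) ≤ m / T s * (m / σ * B * δ) :=
          mul_le_mul_of_nonneg_left k3 (div_nonneg hm Ts.le)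
      _ ≤ m / σ * (m / σ * B * δ) := mul_le_mul_of_nonneg_right
          (div_le_div_of_nonneg_left hm hσ (Tσ s hs0)) (by (clear * - hm hσ hB h2s; positivity))
  have k4 : C1 * δ = m * δ / σ ^ 2 * B + m / σ * (m / σ * B * δ) := by
    rw [hC1]
    field_simp
  have k5 : m / T s * φ s - m / T τ * φ τ
      = (m / T s - m / T τ) * φ τ + m / T s * (φ s - φ τ) := by ring
  linarith only [k4, k2, k1]

theorem gron_step (hσ : 0 < σ) (hT : ∀ t, T t = t + σ) (hm : 0 ≤ m) (hB : 0 ≤ B)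
    (mφ : Measurable φ) (bφ : ∀ t ∈ Icc 0 t1, |φ t| ≤ B)
    (h : ∀ s s', 0 ≤ s → s ≤ s' → s' ≤ t1 → ∫ τ in s..s', m / T τ * φ τ ≤ φ s' - φ s)
    {s s' : ℝ} (hs0 : 0 ≤ s) (h2s : s ≤ s') (hs1 : s' ≤ t1) :
    -((B * (m ^ 2 * ((t1 + σ) / σ) ^ m + m) / σ ^ 2 + (m * B / σ ^ 2 + m ^ 2 * B / σ ^ 2))
      * (s' - s) ^ 2) ≤ φ s' - φ s * (1 + (s' - s) / T s) ^ m := by
  have Ts : 0 < T s := by
    rw [hT]
    linarith
  have Tσ : σ ≤ T s := by
    rw [hT]
    linarith
  have ht1 : 0 ≤ t1 := hs0.trans (h2s.trans hs1)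
  have hint := gron_int hσ hT hm hB mφ bφ h hs0 h2s hs1
  set E : ℝ := ((t1 + σ) / σ) ^ m with hE
  have E0 : 0 ≤ E := Real.rpow_nonneg (by positivity) _
  set C1 := m * B / σ ^ 2 + m ^ 2 * B / σ ^ 2 with hC1
  set δ := s' - s with hδ
  have δ0 : 0 ≤ δ := sub_nonneg.mpr h2s
  set x := δ / T s with hx
  have x0 : 0 ≤ x := div_nonneg δ0 Ts.le
  have hAE : (1 + x) ^ m ≤ E := by
    rw [hE]
    refine Real.rpow_le_rpow (by linarith) ?_ hm
    have e : 1 + x = (s' + σ) / T s := by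
      rw [hx, eq_div_iff Ts.ne', add_mul, div_mul_cancel₀ _ Ts.ne', hT, hδ]
      ring
    rw [e]
    exact div_le_div₀ (by linarith) (by linarith only [hs1]) hσ Tσ
  have hexp := rpow_expand x0 hm hAE
  have xσ : x ^ 2 ≤ δ ^ 2 / σ ^ 2 := by
    rw [hx, div_pow]
    exact div_le_div_of_nonneg_left (sq_nonneg _) (by positivity)
      (pow_le_pow_left₀ hσ.le Tσ 2)
  have hincr := h s s' hs0 h2s hs1
  have hφs := bφ s ⟨hs0, h2s.trans hs1⟩
  have e1 : (m / T s * φ s - C1 * δ) * δ = φ s * (m * x) - C1 * δ ^ 2 := by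
    rw [hx]
    ring
  have e2 : φ s * ((1 + x) ^ m - 1 - m * x) ≤ B * ((m ^ 2 * E + m) * (δ ^ 2 / σ ^ 2)) := by
    calc φ s * ((1 + x) ^ m - 1 - m * x) ≤ |φ s * ((1 + x) ^ m - 1 - m * x)| := le_abs_self _
      _ = |φ s| * |(1 + x) ^ m - 1 - m * x| := abs_mul _ _
      _ ≤ B * ((m ^ 2 * E + m) * (δ ^ 2 / σ ^ 2)) := by
          refine mul_le_mul hφs (hexp.trans ?_) (abs_nonneg _) hB
          exact mul_le_mul_of_nonneg_left xσ (by (clear * - ht1 hσ hm; positivity))
  have e3 : (B * (m ^ 2 * E + m) / σ ^ 2 + C1) * δ ^ 2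
      = B * ((m ^ 2 * E + m) * (δ ^ 2 / σ ^ 2)) + C1 * δ ^ 2 := by ring
  have e4 : φ s * ((1 + x) ^ m - 1 - m * x) = φ s * (1 + x) ^ m - φ s - φ s * (m * x) := by ring
  rw [e3]
  rw [e4] at e2
  rw [e1] at hint
  linarith only [e2, hincr, hint]

/-- integral Gronwall inequality -/
theorem gronwall (hσ : 0 < σ) (hT : ∀ t, T t = t + σ) (hm : 0 ≤ m)
    (hB : 0 ≤ B) (mφ : Measurable φ) (bφ : ∀ t ∈ Icc 0 t1, |φ t| ≤ B)
    (h : ∀ s s', 0 ≤ s → s ≤ s' → s' ≤ t1 → ∫ τ in s..s', m / T τ * φ τ ≤ φ s' - φ s)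
    {t t' : ℝ} (h0 : 0 ≤ t) (htt : t ≤ t') (h1 : t' ≤ t1) : φ t * (T t' / T t) ^ m ≤ φ t' := by
  have Tpos : ∀ s, 0 ≤ s → 0 < T s := fun s hs => by
    rw [hT]
    linarith
  have Tσ : ∀ s, 0 ≤ s → σ ≤ T s := fun s hs => by
    rw [hT]
    linarith
  have ht1 : 0 ≤ t1 := h0.trans (htt.trans h1)
  set C2 : ℝ := B * (m ^ 2 * ((t1 + σ) / σ) ^ m + m) / σ ^ 2
    + (m * B / σ ^ 2 + m ^ 2 * B / σ ^ 2) with hC2
  have C20 : 0 ≤ C2 := by
    have : 0 ≤ ((t1 + σ) / σ) ^ m := Real.rpow_nonneg (by positivity) _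
    (clear * - hB ht1 hσ hm; positivity)
  have main := le_of_quad (f := fun s => φ s / T s ^ m) (a := t) (b := t') (C := C2 / σ ^ m) htt (by
    intro s s' h1s h2s h3s
    have hs0 : 0 ≤ s := h0.trans h1s
    have hs0' : 0 ≤ s' := hs0.trans h2s
    have hs1 : s' ≤ t1 := h3s.trans h1
    have Ts := Tpos s hs0
    have Ts' := Tpos s' hs0'
    have key := gron_step hσ hT hm hB mφ bφ h hs0 h2s hs1
    rw [← hC2] at key
    have hx1 : 0 < 1 + (s' - s) / T s := by
      have : 0 ≤ (s' - s) / T s := div_nonneg (sub_nonneg.mpr h2s) Ts.le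
      linarith only [this]
    have hA1 : T s' = T s * (1 + (s' - s) / T s) := by
      rw [mul_add, mul_div_cancel₀ _ Ts.ne', hT, hT]
      ring
    have hA : T s' ^ m = T s ^ m * (1 + (s' - s) / T s) ^ m := by
      rw [hA1, Real.mul_rpow Ts.le hx1.le]
    set A := (1 + (s' - s) / T s) ^ m with hAd
    have A0 : 0 < A := Real.rpow_pos_of_pos hx1 m
    have hpow : 0 < T s' ^ m := Real.rpow_pos_of_pos Ts' m
    have hpows : 0 < T s ^ m := Real.rpow_pos_of_pos Ts m
    have e4 : φ s' / T s' ^ m - φ s / T s ^ m = (φ s' - φ s * A) / T s' ^ m := by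
      rw [hA]
      field_simp
    have e5 : -(C2 / σ ^ m * (s' - s) ^ 2) ≤ -(C2 * (s' - s) ^ 2) / T s' ^ m := by
      rw [neg_div, neg_le_neg_iff, div_mul_eq_mul_div]
      exact div_le_div_of_nonneg_left (by (clear * - hB ht1 hσ hm; positivity)) (Real.rpow_pos_of_pos hσ m)
        (Real.rpow_le_rpow hσ.le (Tσ s' hs0') hm)
    rw [e4]
    exact e5.trans (div_le_div_of_nonneg_right key hpow.le))
  have Tt := Tpos t h0
  have Tt' := Tpos t' (h0.trans htt)
  rw [Real.div_rpow Tt'.le Tt.le]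
  have hp := Real.rpow_pos_of_pos Tt m
  have hp' := Real.rpow_pos_of_pos Tt' m
  rw [div_le_div_iff₀ hp hp'] at main
  rw [mul_div_assoc', div_le_iff₀ hp]
  exact main

end gron

end Vale.Agent.P140.NU.J
end
end

section

/-!
The weights `et` and `Wl` along flights.
-/

open MeasureTheory Set Filter
open scoped ENNReal Topology

noncomputable section

namespace Vale.Agent.P140.NU.J

open Vale.Agent.P140.NU.E

variable {P : Par} (hP : GoodE P)

/-- bound for the rates -/
def cq (P : Par) (n N : ℕ) : ℝ := (n + 1) * (7 * (P.c / P.lam ^ (n + 1)) * (N + 3))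

/-- bound for `ee` -/
def ce (P : Par) (n N : ℕ) : ℝ :=
  Real.exp (-(2 * P.Vg) - 100) * Real.exp (1 / P.ss n + (N : ℝ) ^ 2 / 16)

include hP

theorem cq_nonneg (n N : ℕ) : 0 ≤ cq P n N := by
  have h1 := hP.c_pos
  have h2 := hP.lam_pos
  unfold cq
  positivity

omit hP in
theorem ce_pos (n N : ℕ) : 0 < ce P n N := mul_pos (Real.exp_pos _) (Real.exp_pos _)

theorem qq_le_cq {n N : ℕ} {t : ℝ} (ht : 0 ≤ t) (x : T3) {v : V} (hv : ‖v‖ ≤ N) :
    qq P n t x v ≤ cq P n N := by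
  have h1 := hP.c_pos
  have h2 := hP.lam_pos
  refine (qq_le hP n ht x v).trans ?_
  unfold cq
  gcongr

theorem abs_pp_le {n N : ℕ} {t : ℝ} (ht : 0 ≤ t) (x : T3) {v : V} (hv : ‖v‖ ≤ N) :
    |pp P n t x v| ≤ cq P n N := by
  rw [abs_of_nonneg (pp_nonneg hP n t x v)]
  exact (pp_le_qq hP n t x v).trans (qq_le_cq hP ht x hv)

theorem abs_qb_le {n N : ℕ} {t : ℝ} (ht : 0 ≤ t) (x : T3) {v : V} (hv : ‖v‖ ≤ N) :
    |qb P n t x v| ≤ cq P n N := by
  rw [abs_of_nonneg (qb_nonneg hP n t x v)]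
  exact (qb_le_qq hP n t x v).trans (qq_le_cq hP ht x hv)

omit hP in
theorem ss_le_TT (n : ℕ) {t : ℝ} (ht : 0 ≤ t) : P.ss n ≤ P.TT n t := by
  unfold Par.TT
  linarith

theorem yy_nonneg (n : ℕ) {t : ℝ} (ht : 0 ≤ t) (x : T3) (v : V) : 0 ≤ yy P n t x v :=
  div_nonneg (le_max_right _ _) (hP.TT_pos n ht).le

theorem yy_mul_TT (n : ℕ) {t : ℝ} (ht : 0 ≤ t) (x : T3) (v : V) :
    yy P n t x v * P.TT n t = max (rr x - ‖v‖ * P.TT n t) 0 := by
  unfold yy
  exact div_mul_cancel₀ _ (hP.TT_pos n ht).ne'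

theorem yy_mul_TT_le (n : ℕ) {t : ℝ} (ht : 0 ≤ t) (x : T3) (v : V) :
    yy P n t x v * P.TT n t ≤ 1 := by
  rw [yy_mul_TT hP n ht]
  refine max_le ?_ zero_le_one
  have h1 := rr_le_one x
  have h2 := mul_nonneg (norm_nonneg v) (hP.TT_pos n ht).le
  linarith

theorem yy_le (n : ℕ) {t : ℝ} (ht : 0 ≤ t) (x : T3) (v : V) : yy P n t x v ≤ 1 / P.ss n := by
  have h1 := yy_mul_TT_le hP n ht x v
  have h2 := ss_le_TT (P := P) n ht
  have h3 := hP.ss_pos n
  rw [le_div_iff₀ h3]
  exact (mul_le_mul_of_nonneg_left h2 (yy_nonneg hP n ht x v)).trans h1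

omit hP in
theorem ee_pos' (n : ℕ) (t : ℝ) (x : T3) (v : V) : 0 < ee P n t x v :=
  mul_pos (Real.exp_pos _) (Real.exp_pos _)

theorem ee_le_ce {n N : ℕ} {t : ℝ} (ht : 0 ≤ t) (x : T3) {v : V} (hv : ‖v‖ ≤ N) :
    ee P n t x v ≤ ce P n N := by
  unfold ee ce
  refine mul_le_mul_of_nonneg_left (Real.exp_le_exp.mpr ?_) (Real.exp_pos _).le
  have h1 := yy_le hP n ht x v
  have h2 : ‖v‖ ^ 2 ≤ (N : ℝ) ^ 2 := pow_le_pow_left₀ (norm_nonneg v) hv 2
  linarith

/-- `yy · T` is nonincreasing along flights -/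
theorem yT_anti (n : ℕ) {s s' : ℝ} (hs : 0 ≤ s) (hss : s ≤ s') (x : T3) (v : V) :
    yy P n s' (mv x v s') v * P.TT n s' ≤ yy P n s (mv x v s) v * P.TT n s := by
  rw [yy_mul_TT hP n (hs.trans hss), yy_mul_TT hP n hs]
  refine max_le_max ?_ le_rfl
  have h1 := rr_mv_le' (mv x v s) v (s' - s)
  rw [mv_along, abs_of_nonneg (sub_nonneg.mpr hss)] at h1
  unfold Par.TT
  linarith only [h1]

/-- lower Lipschitz bound of `yy · T` -/
theorem yT_lip (n : ℕ) {s s' : ℝ} (hs : 0 ≤ s) (hss : s ≤ s') (x : T3) (v : V) :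
    yy P n s (mv x v s) v * P.TT n s - yy P n s' (mv x v s') v * P.TT n s'
      ≤ 2 * ‖v‖ * (s' - s) := by
  rw [yy_mul_TT hP n (hs.trans hss), yy_mul_TT hP n hs]
  have h1 := rr_mv_le' (mv x v s') v (s - s')
  rw [mv_along, abs_of_nonpos (by linarith)] at h1
  have h2 : rr (mv x v s) - ‖v‖ * P.TT n s ≤ max (rr (mv x v s') - ‖v‖ * P.TT n s') 0
      + 2 * ‖v‖ * (s' - s) := by
    have := le_max_left (rr (mv x v s') - ‖v‖ * P.TT n s') 0
    unfold Par.TT at *
    linarith only [this, h1]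
  have h3 : 0 ≤ max (rr (mv x v s') - ‖v‖ * P.TT n s') 0 + 2 * ‖v‖ * (s' - s) := by
    have := le_max_right (rr (mv x v s') - ‖v‖ * P.TT n s') 0
    have : 0 ≤ 2 * ‖v‖ * (s' - s) := mul_nonneg (by positivity) (sub_nonneg.mpr hss)
    linarith
  have := max_le h2 h3
  linarith

/-- `yy` decreases at least at the rate `yy / T` -/
theorem yy_step (n : ℕ) {s s' : ℝ} (hs : 0 ≤ s) (hss : s ≤ s') (x : T3) (v : V) :
    yy P n s (mv x v s) v * (s' - s) / P.TT n s'
      ≤ yy P n s (mv x v s) v - yy P n s' (mv x v s') v := by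
  have h1 := yT_anti hP n hs hss x v
  have hT := hP.TT_pos n (hs.trans hss)
  rw [div_le_iff₀ hT]
  have e : s' - s = P.TT n s' - P.TT n s := by
    unfold Par.TT
    ring
  rw [e]
  linarith only [h1]

theorem yy_anti' (n : ℕ) {s s' : ℝ} (hs : 0 ≤ s) (hss : s ≤ s') (x : T3) (v : V) :
    yy P n s' (mv x v s') v ≤ yy P n s (mv x v s) v := by
  have h1 := yy_step hP n hs hss x v
  have h2 : 0 ≤ yy P n s (mv x v s) v * (s' - s) / P.TT n s' :=
    div_nonneg (mul_nonneg (yy_nonneg hP n hs _ _) (sub_nonneg.mpr hss))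
      (hP.TT_pos n (hs.trans hss)).le
  linarith

theorem yy_lip (n : ℕ) {s s' : ℝ} (hs : 0 ≤ s) (hss : s ≤ s') (x : T3) (v : V) :
    yy P n s (mv x v s) v - yy P n s' (mv x v s') v
      ≤ (2 * ‖v‖ / P.ss n + 1 / P.ss n ^ 2) * (s' - s) := by
  have h1 := yT_lip hP n hs hss x v
  have h2 := yy_mul_TT_le hP n hs (mv x v s) v
  have hT := hP.TT_pos n (hs.trans hss)
  have hT0 := hP.TT_pos n hs
  have hσ := hP.ss_pos n
  have k1 := ss_le_TT (P := P) n hs
  have k2 := ss_le_TT (P := P) n (hs.trans hss)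
  set a := yy P n s (mv x v s) v with ha
  set b := yy P n s' (mv x v s') v with hb
  have a0 : 0 ≤ a := yy_nonneg hP n hs _ _
  have e : a - b = (a * P.TT n s - b * P.TT n s') / P.TT n s' + a * (P.TT n s' - P.TT n s) / P.TT n s' := by
    field_simp
    ring
  have e2 : P.TT n s' - P.TT n s = s' - s := by
    unfold Par.TT
    ring
  rw [e, e2]
  have d0 : 0 ≤ s' - s := sub_nonneg.mpr hss
  have t1 : (a * P.TT n s - b * P.TT n s') / P.TT n s' ≤ 2 * ‖v‖ * (s' - s) / P.ss n := by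
    calc (a * P.TT n s - b * P.TT n s') / P.TT n s' ≤ (2 * ‖v‖ * (s' - s)) / P.TT n s' :=
          div_le_div_of_nonneg_right h1 hT.le
      _ ≤ 2 * ‖v‖ * (s' - s) / P.ss n :=
          div_le_div_of_nonneg_left (mul_nonneg (by positivity) d0) hσ k2
  have t2 : a * (s' - s) / P.TT n s' ≤ (s' - s) / P.ss n ^ 2 := by
    have : a ≤ 1 / P.ss n := yy_le hP n hs _ _
    calc a * (s' - s) / P.TT n s' ≤ (1 / P.ss n * (s' - s)) / P.ss n :=
          div_le_div₀ (mul_nonneg (by positivity) d0) (mul_le_mul_of_nonneg_right this d0) hσ k2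
      _ = (s' - s) / P.ss n ^ 2 := by
          field_simp
  calc _ ≤ 2 * ‖v‖ * (s' - s) / P.ss n + (s' - s) / P.ss n ^ 2 := add_le_add t1 t2
    _ = _ := by ring

theorem ee_anti (n : ℕ) {s s' : ℝ} (hs : 0 ≤ s) (hss : s ≤ s') (x : T3) (v : V) :
    ee P n s' (mv x v s') v ≤ ee P n s (mv x v s) v := by
  unfold ee
  refine mul_le_mul_of_nonneg_left (Real.exp_le_exp.mpr ?_) (Real.exp_pos _).le
  have := yy_anti' hP n hs hss x v
  linarith

omit hP in
theorem ee_ratio (n : ℕ) (s s' : ℝ) (x : T3) (v : V) :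
    ee P n s' (mv x v s') v = ee P n s (mv x v s) v *
      Real.exp (-(yy P n s (mv x v s) v - yy P n s' (mv x v s') v)) := by
  unfold ee
  have : Real.exp (yy P n s' (mv x v s') v + ‖v‖ ^ 2 / 16)
      = Real.exp (yy P n s (mv x v s) v + ‖v‖ ^ 2 / 16)
        * Real.exp (-(yy P n s (mv x v s) v - yy P n s' (mv x v s') v)) := by
    rw [← Real.exp_add]
    congr 1
    ring
  rw [this]
  ring

theorem ee_lip {n N : ℕ} {s s' : ℝ} (hs : 0 ≤ s) (hss : s ≤ s') (x : T3) {v : V} (hv : ‖v‖ ≤ N) :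
    ee P n s (mv x v s) v - ee P n s' (mv x v s') v
      ≤ ce P n N * (2 * N / P.ss n + 1 / P.ss n ^ 2) * (s' - s) := by
  have h1 := yy_lip hP n hs hss x v
  rw [ee_ratio n s s' x v]
  set z := yy P n s (mv x v s) v - yy P n s' (mv x v s') v with hz
  have h2 := Real.add_one_le_exp (-z)
  have h3 : z ≤ (2 * N / P.ss n + 1 / P.ss n ^ 2) * (s' - s) := by
    refine h1.trans (mul_le_mul_of_nonneg_right ?_ (sub_nonneg.mpr hss))
    have := hP.ss_pos n
    gcongr
  have h4 : ee P n s (mv x v s) v ≤ ce P n N := ee_le_ce hP hs (mv x v s) hv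
  have h5 := ee_pos' (P := P) n s (mv x v s) v
  have h6 : 0 ≤ (2 * (N : ℝ) / P.ss n + 1 / P.ss n ^ 2) * (s' - s) := by
    have := hP.ss_pos n
    have := sub_nonneg.mpr hss
    positivity
  calc ee P n s (mv x v s) v - ee P n s (mv x v s) v * Real.exp (-z)
      = ee P n s (mv x v s) v * (1 - Real.exp (-z)) := by ring
    _ ≤ ee P n s (mv x v s) v * ((2 * N / P.ss n + 1 / P.ss n ^ 2) * (s' - s)) :=
        mul_le_mul_of_nonneg_left (by linarith only [h3, h2]) h5.le
    _ ≤ ce P n N * ((2 * N / P.ss n + 1 / P.ss n ^ 2) * (s' - s)) :=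
        mul_le_mul_of_nonneg_right h4 h6
    _ = _ := by ring

omit hP in
theorem measurable_line (x : T3) (v : V) : Measurable fun τ : ℝ => ((τ, mv x v τ, v) : ℝ × T3 × V) := by
  have : Measurable fun τ : ℝ => ((τ, x, v) : ℝ × T3 × V) :=
    measurable_id.prodMk measurable_const
  exact measurable_id.prodMk ((measurable_mv.comp this).prodMk measurable_const)

omit hP in
theorem meas_along {f : ℝ → T3 → V → ℝ} (hf : Measurable fun p : ℝ × T3 × V => f p.1 p.2.1 p.2.2)
    (x : T3) (v : V) : Measurable fun τ => f τ (mv x v τ) v := by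
  have h := hf.comp (measurable_line x v)
  exact h

/-- `ee` decreases at least at the rate `(yy / T) ee` -/
theorem ee_incr {n N : ℕ} {s s' : ℝ} (hs : 0 ≤ s) (hss : s ≤ s') (x : T3) {v : V}
    (hv : ‖v‖ ≤ N) :
    ∫ τ in s..s', yy P n τ (mv x v τ) v / P.TT n τ * ee P n τ (mv x v τ) v
      ≤ ee P n s (mv x v s) v - ee P n s' (mv x v s') v := by
  have hσ := hP.ss_pos n
  set G : ℝ → ℝ := fun τ => yy P n τ (mv x v τ) v / P.TT n τ * ee P n τ (mv x v τ) v with hG
  have mG : Measurable G :=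
    ((meas_along (measurable_yy P n) x v).div (measurable_TT P n)).mul
      (meas_along (measurable_ee P n) x v)
  have G0 : ∀ τ, 0 ≤ τ → 0 ≤ G τ := fun τ hτ =>
    mul_nonneg (div_nonneg (yy_nonneg hP n hτ _ _) (hP.TT_pos n hτ).le) (ee_pos' n _ _ _).le
  have Gb : ∀ τ ∈ Icc s s', |G τ| ≤ 1 / P.ss n / P.ss n * ce P n N := by
    intro τ hτ
    have hτ0 := hs.trans hτ.1
    rw [abs_of_nonneg (G0 τ hτ0)]
    refine mul_le_mul ?_ (ee_le_ce hP hτ0 _ hv) (ee_pos' n _ _ _).le (by positivity)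
    exact div_le_div₀ (by positivity) (yy_le hP n hτ0 _ _) hσ (ss_le_TT (P := P) n hτ0)
  have main := le_of_quad (f := fun r => -(ee P n r (mv x v r) v) - ∫ τ in s..r, G τ)
    (C := ce P n N * ((1 / P.ss n) ^ 2 / P.ss n ^ 2 + 1 / P.ss n / P.ss n ^ 2)) hss (by
      intro r r' h1 h2 h3
      have hr : 0 ≤ r := hs.trans h1
      have hr' : 0 ≤ r' := hr.trans h2
      have hsub : (∫ τ in s..r', G τ) - ∫ τ in s..r, G τ = ∫ τ in r..r', G τ := by
        rw [intervalIntegral.integral_interval_sub_left]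
        · exact intervalIntegrable_of_bdd mG Gb le_rfl (h1.trans h2) h3
        · exact intervalIntegrable_of_bdd mG Gb le_rfl h1 (h2.trans h3)
      set a := yy P n r (mv x v r) v with ha
      set E := ee P n r (mv x v r) v with hE
      have a0 : 0 ≤ a := yy_nonneg hP n hr _ _
      have a1 : a ≤ 1 / P.ss n := yy_le hP n hr _ _
      have E0 : 0 < E := ee_pos' n _ _ _
      have E1 : E ≤ ce P n N := ee_le_ce hP hr _ hv
      have hT := hP.TT_pos n hr
      have hT' := hP.TT_pos n hr'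
      have k1 := ss_le_TT (P := P) n hr
      have k2 := ss_le_TT (P := P) n hr'
      have d0 : 0 ≤ r' - r := sub_nonneg.mpr h2
      -- upper bound for the integral
      have up : ∫ τ in r..r', G τ ≤ a / P.TT n r * E * (r' - r) := by
        have hc : ∫ _τ in r..r', (a / P.TT n r * E) = a / P.TT n r * E * (r' - r) := by
          rw [intervalIntegral.integral_const, smul_eq_mul, mul_comm]
        rw [← hc]
        refine intervalIntegral.integral_mono_on h2
          (intervalIntegrable_of_bdd mG Gb h1 h2 h3) (by simp) fun τ hτ => ?_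
        have hτ0 := hr.trans hτ.1
        refine mul_le_mul ?_ (ee_anti hP n hr hτ.1 x v) (ee_pos' n _ _ _).le
          (div_nonneg a0 hT.le)
        refine div_le_div₀ a0 (yy_anti' hP n hr hτ.1 x v) hT ?_
        unfold Par.TT
        linarith [hτ.1]
      -- decrease of `ee`
      set η := a * (r' - r) / P.TT n r' with hη
      have η0 : 0 ≤ η := div_nonneg (mul_nonneg a0 d0) hT'.le
      have hz := yy_step hP n hr h2 x v
      rw [← ha, ← hη] at hz
      have dec : E * (η - η ^ 2) ≤ E - ee P n r' (mv x v r') v := by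
        rw [ee_ratio n r r' x v, ← hE, ← ha]
        have h5 : Real.exp (-(a - yy P n r' (mv x v r') v)) ≤ Real.exp (-η) :=
          Real.exp_le_exp.mpr (by linarith)
        have h6 : Real.exp (-η) ≤ 1 - η + η ^ 2 := by
          rcases le_total η 1 with h | h
          · have := Real.abs_exp_sub_one_sub_id_le (x := -η) (by rw [abs_neg, abs_of_nonneg η0]; exact h)
            have := (abs_le.mp this).2
            linarith only [this]
          · have : Real.exp (-η) ≤ 1 := Real.exp_le_one_iff.mpr (by linarith)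
            (by_contra nlg; linarith only [nlg, mul_nonneg (sub_nonneg.2 η0) (sub_nonneg.2 this), mul_nonneg (le_of_lt (sub_pos.2 (not_le.1 nlg))) (sub_nonneg.2 this), mul_pos (sub_pos.2 (not_le.1 nlg)) (sub_pos.2 (not_le.1 nlg)), mul_nonneg (sq_nonneg (η : ℝ)) (sub_nonneg.2 h), mul_nonneg (sq_nonneg (η : ℝ)) (le_of_lt (sub_pos.2 (not_le.1 nlg)))])
        linarith only [mul_nonneg (le_of_lt (sub_pos.2 E0)) (sub_nonneg.2 h6), mul_nonneg (le_of_lt (sub_pos.2 E0)) (sub_nonneg.2 h5)]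
      have ηle : η ^ 2 ≤ (1 / P.ss n) ^ 2 / P.ss n ^ 2 * (r' - r) ^ 2 := by
        have : η ≤ 1 / P.ss n / P.ss n * (r' - r) := by
          calc η = a * (r' - r) / P.TT n r' := rfl
            _ ≤ (1 / P.ss n * (r' - r)) / P.ss n :=
                div_le_div₀ (mul_nonneg (by positivity) d0) (mul_le_mul_of_nonneg_right a1 d0) hσ k2
            _ = _ := by ring
        calc η ^ 2 ≤ (1 / P.ss n / P.ss n * (r' - r)) ^ 2 := pow_le_pow_left₀ η0 this 2
          _ = _ := by ring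
      have diff : a / P.TT n r * (r' - r) - η ≤ 1 / P.ss n / P.ss n ^ 2 * (r' - r) ^ 2 := by
        have e : a / P.TT n r * (r' - r) - η
            = a * (r' - r) * (P.TT n r' - P.TT n r) / (P.TT n r * P.TT n r') := by
          rw [hη]
          field_simp
        have e2 : P.TT n r' - P.TT n r = r' - r := by
          unfold Par.TT
          ring
        rw [e, e2]
        calc a * (r' - r) * (r' - r) / (P.TT n r * P.TT n r')
            ≤ (1 / P.ss n * (r' - r) * (r' - r)) / (P.ss n * P.ss n) := by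
              refine div_le_div₀ (by (clear * - hσ h2; positivity)) ?_ (by positivity)
                (mul_le_mul k1 k2 hσ.le hT.le)
              exact mul_le_mul_of_nonneg_right (mul_le_mul_of_nonneg_right a1 d0) d0
          _ = _ := by ring
      have fin : E * (a / P.TT n r * (r' - r) - η + η ^ 2)
          ≤ ce P n N * ((1 / P.ss n) ^ 2 / P.ss n ^ 2 + 1 / P.ss n / P.ss n ^ 2) * (r' - r) ^ 2 := by
        have q0 : a / P.TT n r * (r' - r) - η + η ^ 2
            ≤ ((1 / P.ss n) ^ 2 / P.ss n ^ 2 + 1 / P.ss n / P.ss n ^ 2) * (r' - r) ^ 2 := by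
          rw [add_mul]
          linarith only [diff, ηle]
        calc E * (a / P.TT n r * (r' - r) - η + η ^ 2)
            ≤ E * (((1 / P.ss n) ^ 2 / P.ss n ^ 2 + 1 / P.ss n / P.ss n ^ 2) * (r' - r) ^ 2) :=
              mul_le_mul_of_nonneg_left q0 E0.le
          _ ≤ ce P n N * (((1 / P.ss n) ^ 2 / P.ss n ^ 2 + 1 / P.ss n / P.ss n ^ 2) * (r' - r) ^ 2) :=
              mul_le_mul_of_nonneg_right E1 (by (clear * - hσ; positivity))
          _ = _ := by ring
      have e5 : E * (a / P.TT n r * (r' - r) - η + η ^ 2)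
          = a / P.TT n r * E * (r' - r) - E * (η - η ^ 2) := by ring
      rw [e5] at fin
      linarith only [fin, dec, up, hsub])
  simp only [intervalIntegral.integral_same, sub_zero] at main
  linarith

/-! ### the corrected weight -/

omit hP in
/-- the correction along a flight -/
theorem et_eq (n : ℕ) (te s : ℝ) (x : T3) (v : V) : et P n te s (mv x v s) v =
    ee P n s (mv x v s) v * (1 + 500 * ∫ τ in s..te, qb P n τ (mv x v τ) v) := by
  unfold et
  simp only [mv_along]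

theorem ii_qb' (n : ℕ) {a b : ℝ} (ha : 0 ≤ a) (hb : 0 ≤ b) (x : T3) (v : V) :
    IntervalIntegrable (fun τ => qb P n τ (mv x v τ) v) volume a b := by
  have h := ii_qb hP n 0 ha hb x v
  simp only [sub_zero] at h
  exact h

theorem int_qb_nonneg (n : ℕ) {s te : ℝ} (hs : s ≤ te) (x : T3) (v : V) :
    0 ≤ ∫ τ in s..te, qb P n τ (mv x v τ) v :=
  intervalIntegral.integral_nonneg hs fun τ _ => qb_nonneg hP n τ _ v

theorem int_qb_le {n N : ℕ} {s te : ℝ} (h0 : 0 ≤ s) (hs : s ≤ te) (x : T3) {v : V}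
    (hv : ‖v‖ ≤ N) : ∫ τ in s..te, qb P n τ (mv x v τ) v ≤ cq P n N * te := by
  have h := abs_int_le (g := fun τ => qb P n τ (mv x v τ) v) (B := cq P n N) hs fun τ hτ =>
    abs_qb_le hP (h0.trans hτ.1) _ hv
  refine (le_abs_self _).trans (h.trans ?_)
  exact mul_le_mul_of_nonneg_left (by linarith) (cq_nonneg hP n N)

theorem et_pos (n : ℕ) {te s : ℝ} (hs : s ≤ te) (x : T3) (v : V) : 0 < et P n te s x v := by
  unfold et
  have h : 0 ≤ ∫ τ in s..te, qb P n τ (mv x v (τ - s)) v :=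
    intervalIntegral.integral_nonneg hs fun τ _ => qb_nonneg hP n τ _ v
  have := ee_pos' (P := P) n s x v
  positivity

theorem et_le {n N : ℕ} {te s : ℝ} (h0 : 0 ≤ s) (hs : s ≤ te) (x : T3) {v : V}
    (hv : ‖v‖ ≤ N) : et P n te s x v ≤ ce P n N * (1 + 500 * (cq P n N * te)) := by
  have e : x = mv (mv x v (-s)) v s := by
    rw [mv_mv, neg_add_cancel, mv_zero]
  have h1 : et P n te s x v = et P n te s (mv (mv x v (-s)) v s) v := by rw [← e]
  rw [h1, et_eq]
  have h2 := int_qb_le (n := n) hP h0 hs (mv x v (-s)) hv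
  have h3 := int_qb_nonneg hP n hs (mv x v (-s)) v
  refine mul_le_mul (ee_le_ce hP h0 _ hv) (by linarith) (by linarith) (ce_pos n N).le

/-- `et` along a flight -/
theorem et_incr {n N : ℕ} {te s s' : ℝ} (hs : 0 ≤ s) (hss : s ≤ s') (hs' : s' ≤ te) (x : T3)
    {v : V} (hv : ‖v‖ ≤ N) :
    (∫ τ in s..s', yy P n τ (mv x v τ) v / P.TT n τ * ee P n τ (mv x v τ) v)
      + 500 * ∫ τ in s..s', ee P n τ (mv x v τ) v * qb P n τ (mv x v τ) v
      ≤ et P n te s (mv x v s) v - et P n te s' (mv x v s') v := by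
  rw [et_eq, et_eq]
  have h1 := ee_incr (n := n) hP hs hss x hv
  have h2 := ee_anti hP n hs hss x v
  have z' := int_qb_nonneg hP n hs' x v
  have hte : 0 ≤ te := (hs.trans hss).trans hs'
  have hadd := intervalIntegral.integral_add_adjacent_intervals
    (ii_qb' hP n hs (hs.trans hss) x v) (ii_qb' hP n (hs.trans hss) hte x v)
  have mE : Measurable fun τ => ee P n τ (mv x v τ) v := meas_along (measurable_ee P n) x v
  have mq : Measurable fun τ => qb P n τ (mv x v τ) v := meas_along (measurable_qb P n) x v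
  have h3 : ∫ τ in s..s', ee P n τ (mv x v τ) v * qb P n τ (mv x v τ) v
      ≤ ee P n s (mv x v s) v * ∫ τ in s..s', qb P n τ (mv x v τ) v := by
    rw [← intervalIntegral.integral_const_mul]
    refine intervalIntegral.integral_mono_on hss ?_
      ((ii_qb' hP n hs (hs.trans hss) x v).const_mul _) fun τ hτ => ?_
    · refine intervalIntegrable_of_bdd (g := fun τ => ee P n τ (mv x v τ) v * qb P n τ (mv x v τ) v)
        (a := s) (b := s') (B := ce P n N * cq P n N)
        (mE.mul mq) (fun τ hτ => ?_) le_rfl hss le_rfl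
      rw [abs_mul, abs_of_pos (ee_pos' n _ _ _)]
      exact mul_le_mul (ee_le_ce hP (hs.trans hτ.1) _ hv) (abs_qb_le hP (hs.trans hτ.1) _ hv)
        (abs_nonneg _) (ce_pos n N).le
    · exact mul_le_mul_of_nonneg_right (ee_anti hP n hs hτ.1 x v) (qb_nonneg hP n τ _ v)
  set A := ee P n s (mv x v s) v with hA
  set A' := ee P n s' (mv x v s') v with hA'
  set I1 := ∫ τ in s..s', qb P n τ (mv x v τ) v with hI1
  set I2 := ∫ τ in s'..te, qb P n τ (mv x v τ) v with hI2
  rw [← hadd]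
  linarith only [mul_nonneg (sub_nonneg.mpr h2) z', h3, h1]

theorem et_lip {n N : ℕ} {te s s' : ℝ} (hs : 0 ≤ s) (hss : s ≤ s') (hs' : s' ≤ te) (x : T3)
    {v : V} (hv : ‖v‖ ≤ N) :
    |et P n te s' (mv x v s') v - et P n te s (mv x v s) v|
      ≤ (ce P n N * (2 * N / P.ss n + 1 / P.ss n ^ 2) * (1 + 500 * (cq P n N * te))
        + ce P n N * (500 * cq P n N)) * (s' - s) := by
  have hmono := et_incr (n := n) hP hs hss hs' x hv
  have hte : 0 ≤ te := (hs.trans hss).trans hs'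
  have p1 : 0 ≤ ∫ τ in s..s', yy P n τ (mv x v τ) v / P.TT n τ * ee P n τ (mv x v τ) v :=
    intervalIntegral.integral_nonneg hss fun τ hτ =>
      mul_nonneg (div_nonneg (yy_nonneg hP n (hs.trans hτ.1) _ _)
        (hP.TT_pos n (hs.trans hτ.1)).le) (ee_pos' n _ _ _).le
  have p2 : 0 ≤ ∫ τ in s..s', ee P n τ (mv x v τ) v * qb P n τ (mv x v τ) v :=
    intervalIntegral.integral_nonneg hss fun τ hτ =>
      mul_nonneg (ee_pos' n _ _ _).le (qb_nonneg hP n τ _ v)
  rw [abs_sub_comm, abs_of_nonneg (by linarith), et_eq, et_eq]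
  have h1 := ee_lip (n := n) hP hs hss x hv
  have h2 := ee_anti hP n hs hss x v
  have z' := int_qb_nonneg hP n hs' x v
  have z1 := int_qb_le (n := n) hP (hs.trans hss) hs' x hv
  have hadd := intervalIntegral.integral_add_adjacent_intervals
    (ii_qb' hP n hs (hs.trans hss) x v) (ii_qb' hP n (hs.trans hss) hte x v)
  have h4 : ∫ τ in s..s', qb P n τ (mv x v τ) v ≤ cq P n N * (s' - s) := by
    have h := abs_int_le (g := fun τ => qb P n τ (mv x v τ) v) (B := cq P n N) hss fun τ hτ =>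
      abs_qb_le hP (hs.trans hτ.1) _ hv
    exact (le_abs_self _).trans h
  have hA1 : ee P n s (mv x v s) v ≤ ce P n N := ee_le_ce hP hs _ hv
  have hA0 := ee_pos' (P := P) n s (mv x v s) v
  set A := ee P n s (mv x v s) v with hA
  set A' := ee P n s' (mv x v s') v with hA'
  set I1 := ∫ τ in s..s', qb P n τ (mv x v τ) v with hI1
  set I2 := ∫ τ in s'..te, qb P n τ (mv x v τ) v with hI2
  rw [← hadd]
  have d0 : 0 ≤ s' - s := sub_nonneg.mpr hss
  have cq0 := cq_nonneg hP n N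
  have e : A * (1 + 500 * (I1 + I2)) - A' * (1 + 500 * I2)
      = (A - A') * (1 + 500 * I2) + A * (500 * I1) := by ring
  rw [e, add_mul]
  refine add_le_add ?_ ?_
  · calc (A - A') * (1 + 500 * I2)
        ≤ (ce P n N * (2 * N / P.ss n + 1 / P.ss n ^ 2) * (s' - s)) * (1 + 500 * (cq P n N * te)) := by
          refine mul_le_mul h1 (by linarith) (by linarith) ?_
          have := hP.ss_pos n
          have := ce_pos (P := P) n N
          positivity
      _ = _ := by ring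
  · calc A * (500 * I1) ≤ ce P n N * (500 * (cq P n N * (s' - s))) := by
          refine mul_le_mul hA1 (by linarith only [h4]) ?_ (ce_pos n N).le
          have : 0 ≤ I1 := intervalIntegral.integral_nonneg hss fun τ _ => qb_nonneg hP n τ _ v
          linarith
      _ = _ := by ring

end Vale.Agent.P140.NU.J
end
end

section

/-!
Integration over phase space of the product inequality along flights.
-/

open MeasureTheory Set Filter
open scoped ENNReal Topology

noncomputable section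

namespace Vale.Agent.P140.NU.J

/-- bounded functions vanishing for large velocities are integrable -/
theorem integrable_of_supp {N B : ℝ} {f : T3 × V → ℝ} (mf : Measurable f)
    (bf : ∀ p, ‖p.2‖ ≤ N → |f p| ≤ B) (sf : ∀ p, N < ‖p.2‖ → f p = 0) : Integrable f := by
  set K : Set (T3 × V) := univ ×ˢ Metric.closedBall (0 : V) N with hK
  have hKm : MeasurableSet K := MeasurableSet.univ.prod Metric.isClosed_closedBall.measurableSet
  have hKf : volume K < ⊤ := by
    rw [hK, Measure.volume_eq_prod, Measure.prod_prod]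
    exact ENNReal.mul_lt_top (measure_lt_top _ _) measure_closedBall_lt_top
  have e : f = K.indicator f := by
    ext p
    by_cases h : p ∈ K
    · rw [indicator_of_mem h]
    · rw [indicator_of_notMem h]
      refine sf p ?_
      rw [hK] at h
      simpa using h
  rw [e]
  refine IntegrableOn.integrable_indicator ?_ hKm
  refine Measure.integrableOn_of_bounded (M := B) hKf.ne mf.aestronglyMeasurable ?_
  refine (ae_restrict_iff' hKm).mpr (Eventually.of_forall fun p hp => ?_)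
  refine bf p ?_
  rw [hK] at hp
  simpa using hp

/-- the same on space-time -/
theorem integrable_of_supp2 {N B t t' : ℝ} {f : ℝ × T3 × V → ℝ} (mf : Measurable f)
    (bf : ∀ q : ℝ × T3 × V, q.1 ∈ Ioc t t' → ‖q.2.2‖ ≤ N → |f q| ≤ B)
    (sf : ∀ q : ℝ × T3 × V, q.1 ∈ Ioc t t' → N < ‖q.2.2‖ → f q = 0) :
    Integrable f ((volume.restrict (Ioc t t')).prod (volume : Measure (T3 × V))) := by
  set K : Set (T3 × V) := univ ×ˢ Metric.closedBall (0 : V) N with hK
  have hKm : MeasurableSet K := MeasurableSet.univ.prod Metric.isClosed_closedBall.measurableSet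
  have hKf : volume K < ⊤ := by
    rw [hK, Measure.volume_eq_prod, Measure.prod_prod]
    exact ENNReal.mul_lt_top (measure_lt_top _ _) measure_closedBall_lt_top
  set μ := (volume.restrict (Ioc t t')).prod (volume : Measure (T3 × V)) with hμ
  have ht : ∀ᵐ q ∂μ, q.1 ∈ Ioc t t' := by
    have h1 : ∀ᵐ τ ∂(volume.restrict (Ioc t t')), τ ∈ Ioc t t' :=
      ae_restrict_mem measurableSet_Ioc
    exact Measure.quasiMeasurePreserving_fst.ae h1
  have hS : MeasurableSet (univ ×ˢ K : Set (ℝ × T3 × V)) := MeasurableSet.univ.prod hKm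
  have hSf : μ (univ ×ˢ K) ≠ ⊤ := by
    rw [hμ, Measure.prod_prod]
    refine ENNReal.mul_ne_top ?_ hKf.ne
    simp
  have e : f =ᵐ[μ] (univ ×ˢ K : Set (ℝ × T3 × V)).indicator f := by
    filter_upwards [ht] with q hq
    by_cases h : q ∈ (univ ×ˢ K : Set (ℝ × T3 × V))
    · rw [indicator_of_mem h]
    · rw [indicator_of_notMem h]
      refine sf q hq ?_
      rw [hK] at h
      simpa using h
  refine Integrable.congr ?_ e.symm
  refine IntegrableOn.integrable_indicator ?_ hS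
  refine Measure.integrableOn_of_bounded (M := B) hSf mf.aestronglyMeasurable ?_
  rw [ae_restrict_iff' hS]
  filter_upwards [ht] with q hq hq2
  refine bf q hq ?_
  rw [hK] at hq2
  simpa using hq2

theorem integral_flow (t : ℝ) (f : T3 × V → ℝ) : ∫ p, f (flow t p) = ∫ p, f p :=
  (measurePreserving_flow t).integral_comp (flowEquiv t).measurableEmbedding f

/-- product inequality integrated over phase space -/
theorem phase_ineq {N t1 B : ℝ} (hB : 0 ≤ B) {W Om h k : ℝ → T3 → V → ℝ}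
    (mW : Measurable fun p : ℝ × T3 × V => W p.1 p.2.1 p.2.2)
    (mO : Measurable fun p : ℝ × T3 × V => Om p.1 p.2.1 p.2.2)
    (mh : Measurable fun p : ℝ × T3 × V => h p.1 p.2.1 p.2.2)
    (mk : Measurable fun p : ℝ × T3 × V => k p.1 p.2.1 p.2.2)
    (bW : ∀ t ∈ Icc 0 t1, ∀ x v, ‖v‖ ≤ N → |W t x v| ≤ B)
    (bO : ∀ t ∈ Icc 0 t1, ∀ x v, ‖v‖ ≤ N → |Om t x v| ≤ B)
    (bh : ∀ t ∈ Icc 0 t1, ∀ x v, ‖v‖ ≤ N → |h t x v| ≤ B)
    (bk : ∀ t ∈ Icc 0 t1, ∀ x v, ‖v‖ ≤ N → |k t x v| ≤ B)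
    (h0 : ∀ t ∈ Icc 0 t1, ∀ x v, 0 ≤ h t x v)
    (sh : ∀ t ∈ Icc 0 t1, ∀ x v, N < ‖v‖ → h t x v = 0)
    (sk : ∀ t ∈ Icc 0 t1, ∀ x v, N < ‖v‖ → k t x v = 0)
    (hk : ∀ x v, ‖v‖ ≤ N → ∀ s s', 0 ≤ s → s ≤ s' → s' ≤ t1 →
      h s' (mv x v s') v - h s (mv x v s) v = ∫ τ in s..s', k τ (mv x v τ) v)
    (hO : ∀ x v, ‖v‖ ≤ N → ∀ s s', 0 ≤ s → s ≤ s' → s' ≤ t1 →
      ∫ τ in s..s', Om τ (mv x v τ) v ≤ W s' (mv x v s') v - W s (mv x v s) v)
    (lW : ∀ x v, ‖v‖ ≤ N → ∀ s s', 0 ≤ s → s ≤ s' → s' ≤ t1 →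
      |W s' (mv x v s') v - W s (mv x v s) v| ≤ B * (s' - s))
    {t t' : ℝ} (ht : 0 ≤ t) (htt : t ≤ t') (ht' : t' ≤ t1) :
    ∫ τ in t..t', ∫ p : T3 × V, (Om τ p.1 p.2 * h τ p.1 p.2 + W τ p.1 p.2 * k τ p.1 p.2)
      ≤ (∫ p : T3 × V, W t' p.1 p.2 * h t' p.1 p.2) - ∫ p : T3 × V, W t p.1 p.2 * h t p.1 p.2 := by
  set g : ℝ × T3 × V → ℝ := fun q =>
    Om q.1 q.2.1 q.2.2 * h q.1 q.2.1 q.2.2 + W q.1 q.2.1 q.2.2 * k q.1 q.2.1 q.2.2 with hg
  have mg : Measurable g := (mO.mul mh).add (mW.mul mk)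
  have mgf : Measurable fun q : ℝ × T3 × V => g (stFlow q) := mg.comp measurable_stFlow
  have mem : ∀ τ, τ ∈ Ioc t t' → τ ∈ Icc 0 t1 := fun τ hτ =>
    ⟨ht.trans hτ.1.le, hτ.2.trans ht'⟩
  have bg : ∀ q : ℝ × T3 × V, q.1 ∈ Icc 0 t1 → ‖q.2.2‖ ≤ N → |g q| ≤ B * B + B * B := by
    intro q hq hv
    refine (abs_add_le _ _).trans (add_le_add ?_ ?_)
    · rw [abs_mul]
      exact mul_le_mul (bO _ hq _ _ hv) (bh _ hq _ _ hv) (abs_nonneg _) hB
    · rw [abs_mul]
      exact mul_le_mul (bW _ hq _ _ hv) (bk _ hq _ _ hv) (abs_nonneg _) hB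
  have sg' : ∀ q : ℝ × T3 × V, q.1 ∈ Icc 0 t1 → N < ‖q.2.2‖ → g q = 0 := by
    intro q hq hv
    rw [hg]
    simp only [sh _ hq _ _ hv, sk _ hq _ _ hv, mul_zero, add_zero]
  -- change of variables
  have e1 : ∫ τ in t..t', ∫ p : T3 × V, (Om τ p.1 p.2 * h τ p.1 p.2 + W τ p.1 p.2 * k τ p.1 p.2)
      = ∫ τ in t..t', ∫ p : T3 × V, g (stFlow (τ, p)) := by
    refine intervalIntegral.integral_congr fun τ _ => ?_
    exact (integral_flow τ fun p => g (τ, p)).symm
  -- Fubini
  have intg : Integrable (fun q : ℝ × T3 × V => g (stFlow q))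
      ((volume.restrict (Ioc t t')).prod (volume : Measure (T3 × V))) :=
    integrable_of_supp2 (N := N) (B := B * B + B * B) mgf
      (fun q hq hv => bg (stFlow q) (mem _ hq) hv) (fun q hq hv => sg' (stFlow q) (mem _ hq) hv)
  have e2 : ∫ τ in t..t', ∫ p : T3 × V, g (stFlow (τ, p))
      = ∫ p : T3 × V, ∫ τ in t..t', g (stFlow (τ, p)) := by
    simp only [intervalIntegral.integral_of_le htt]
    exact integral_integral_swap (f := fun τ p => g (stFlow (τ, p))) intg
  -- the pointwise inequality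
  have key : ∀ p : T3 × V, ∫ τ in t..t', g (stFlow (τ, p))
      ≤ W t' (flow t' p).1 p.2 * h t' (flow t' p).1 p.2 - W t (flow t p).1 p.2 * h t (flow t p).1 p.2 := by
    rintro ⟨x, v⟩
    rcases le_or_gt ‖v‖ N with hv | hv
    · have hfl : Measurable fun τ : ℝ => ((τ, mv x v τ, v) : ℝ × T3 × V) := by
        have : Measurable fun τ : ℝ => ((τ, x, v) : ℝ × T3 × V) :=
          measurable_id.prodMk measurable_const
        exact measurable_id.prodMk ((measurable_mv.comp this).prodMk measurable_const)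
      have m1 := mW.comp hfl
      have m2 := mO.comp hfl
      have m3 := mh.comp hfl
      have m4 := mk.comp hfl
      have := prod_incr (W := fun τ => W τ (mv x v τ) v) (h := fun τ => h τ (mv x v τ) v)
        (ω := fun τ => Om τ (mv x v τ) v) (k := fun τ => k τ (mv x v τ) v) (a := t) (b := t')
        (B := B) htt hB m2 m4 m1 m3
        (fun τ hτ => bO τ ⟨ht.trans hτ.1, hτ.2.trans ht'⟩ _ _ hv)
        (fun τ hτ => bk τ ⟨ht.trans hτ.1, hτ.2.trans ht'⟩ _ _ hv)
        (fun τ hτ => bW τ ⟨ht.trans hτ.1, hτ.2.trans ht'⟩ _ _ hv)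
        (fun τ hτ => bh τ ⟨ht.trans hτ.1, hτ.2.trans ht'⟩ _ _ hv)
        (fun τ hτ => h0 τ ⟨ht.trans hτ.1, hτ.2.trans ht'⟩ _ _)
        (fun s s' a1 a2 a3 => hk x v hv s s' (ht.trans a1) a2 (a3.trans ht'))
        (fun s s' a1 a2 a3 => hO x v hv s s' (ht.trans a1) a2 (a3.trans ht'))
        (fun s s' a1 a2 a3 => lW x v hv s s' (ht.trans a1) a2 (a3.trans ht'))
      exact this
    · have z1 : ∫ τ in t..t', g (stFlow (τ, x, v)) = 0 := by
        have : ∀ τ ∈ uIcc t t', g (stFlow (τ, x, v)) = (fun _ => (0 : ℝ)) τ := by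
          intro τ hτ
          rw [uIcc_of_le htt] at hτ
          exact sg' _ ⟨ht.trans hτ.1, hτ.2.trans ht'⟩ hv
        rw [intervalIntegral.integral_congr this]
        simp
      rw [z1]
      have a1 : h t' (flow t' (x, v)).1 v = 0 := sh t' ⟨ht.trans htt, ht'⟩ _ _ hv
      have a2 : h t (flow t (x, v)).1 v = 0 := sh t ⟨ht, htt.trans ht'⟩ _ _ hv
      simp only [a1, a2, mul_zero, sub_self, le_refl]
  have mslice : ∀ τ, Measurable fun p : T3 × V => W τ p.1 p.2 * h τ p.1 p.2 := fun τ => by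
    have h1 : Measurable fun p : T3 × V => ((τ, p) : ℝ × T3 × V) :=
      measurable_const.prodMk measurable_id
    have h2 := (mW.comp h1).mul (mh.comp h1)
    exact h2
  have intWh : ∀ τ ∈ Icc 0 t1, Integrable fun p : T3 × V => W τ p.1 p.2 * h τ p.1 p.2 := by
    intro τ hτ
    refine integrable_of_supp (N := N) (B := B * B) (mslice τ) (fun p hp => ?_) (fun p hp => ?_)
    · rw [abs_mul]
      exact mul_le_mul (bW τ hτ _ _ hp) (bh τ hτ _ _ hp) (abs_nonneg _) hB
    · rw [sh τ hτ _ _ hp, mul_zero]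
  have intF : ∀ τ ∈ Icc 0 t1, Integrable fun p : T3 × V =>
      W τ (flow τ p).1 p.2 * h τ (flow τ p).1 p.2 := by
    intro τ hτ
    have := (measurePreserving_flow τ).integrable_comp_of_integrable (intWh τ hτ)
    exact this
  have T0 : t ∈ Icc 0 t1 := ⟨ht, htt.trans ht'⟩
  have T1 : t' ∈ Icc 0 t1 := ⟨ht.trans htt, ht'⟩
  have e3 : ∫ p : T3 × V, (W t' (flow t' p).1 p.2 * h t' (flow t' p).1 p.2
      - W t (flow t p).1 p.2 * h t (flow t p).1 p.2)
      = (∫ p : T3 × V, W t' p.1 p.2 * h t' p.1 p.2) - ∫ p : T3 × V, W t p.1 p.2 * h t p.1 p.2 := by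
    rw [integral_sub (intF t' T1) (intF t T0)]
    congr 1
    · exact integral_flow t' fun p => W t' p.1 p.2 * h t' p.1 p.2
    · exact integral_flow t fun p => W t p.1 p.2 * h t p.1 p.2
  rw [e1, e2, ← e3]
  refine integral_mono ?_ ((intF t' T1).sub (intF t T0)) key
  have := intg.integral_prod_right
  refine this.congr (Eventually.of_forall fun p => ?_)
  simp only [intervalIntegral.integral_of_le htt]

end Vale.Agent.P140.NU.J
end
end

section

/-!
The functionals along the evolution.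
-/

open MeasureTheory Set Filter
open scoped ENNReal Topology

noncomputable section

namespace Vale.Agent.P140.NU.J

open Vale.Agent.P140.NU.E

/-! ### measurability -/

theorem measurable_Qh {N : ℕ} {F G h : ℝ → T3 → V → ℝ}
    (mF : Measurable fun p : ℝ × T3 × V => F p.1 p.2.1 p.2.2)
    (mG : Measurable fun p : ℝ × T3 × V => G p.1 p.2.1 p.2.2)
    (mh : Measurable fun p : ℝ × T3 × V => h p.1 p.2.1 p.2.2) :
    Measurable fun p : ℝ × T3 × V => Qh N (F p.1 p.2.1) (G p.1 p.2.1) (h p.1 p.2.1) p.2.2 := by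
  have h0 : Measurable fun q : (ℝ × T3) × V => ((q.1.1, q.1.2, q.2) : ℝ × T3 × V) :=
    measurable_fst.fst.prodMk (measurable_fst.snd.prodMk measurable_snd)
  have mF' : Measurable fun q : (ℝ × T3) × V => F q.1.1 q.1.2 q.2 := by
    have h := mF.comp h0
    exact h
  have mG' : Measurable fun q : (ℝ × T3) × V => nn (G q.1.1 q.1.2) q.2 := by
    have h := (mG.comp h0).ennreal_ofReal
    exact h
  have mh' : Measurable fun q : (ℝ × T3) × V => nn (h q.1.1 q.1.2) q.2 := by
    have h := (mh.comp h0).ennreal_ofReal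
    exact h
  have h4 : Measurable fun p : ℝ × T3 × V => (((p.1, p.2.1), p.2.2) : (ℝ × T3) × V) :=
    (measurable_fst.prodMk measurable_snd.fst).prodMk measurable_snd.snd
  have h5 : Measurable fun p : ℝ × T3 × V => ((p.1, p.2.1) : ℝ × T3) :=
    measurable_fst.prodMk measurable_snd.fst
  have a1 : Measurable fun p : ℝ × T3 × V =>
      GamN N (nn (G p.1 p.2.1)) (nn (h p.1 p.2.1)) p.2.2 := by
    have h := (measurable_GamN (α := ℝ × T3) N (f := fun a => nn (G a.1 a.2)) (g := fun a => nn (h a.1 a.2)) mG' mh').comp h4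
    exact h
  have a2 : Measurable fun p : ℝ × T3 × V =>
      GamN N (nn (h p.1 p.2.1)) (nn (G p.1 p.2.1)) p.2.2 := by
    have h := (measurable_GamN (α := ℝ × T3) N (f := fun a => nn (h a.1 a.2)) (g := fun a => nn (G a.1 a.2)) mh' mG').comp h4
    exact h
  have a3 : Measurable fun p : ℝ × T3 × V =>
      GamN N (nn (h p.1 p.2.1)) (nn (h p.1 p.2.1)) p.2.2 := by
    have h := (measurable_GamN (α := ℝ × T3) N (f := fun a => nn (h a.1 a.2)) (g := fun a => nn (h a.1 a.2)) mh' mh').comp h4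
    exact h
  have a4 : Measurable fun p : ℝ × T3 × V => DL.pfN N (F p.1 p.2.1) := by
    have h := (DL.measurable_pfN (α := ℝ × T3) N (f := fun a => F a.1 a.2) mF').comp h5
    exact h
  have a5 : Measurable fun p : ℝ × T3 × V => DL.rateP N (F p.1 p.2.1) p.2.2 := by
    have h := (DL.measurable_rateP (α := ℝ × T3) N (f := fun a => F a.1 a.2) mF').comp h4
    exact h
  unfold Qh
  exact ((a4.mul ((a1.add a2).add a3)).ennreal_toReal).sub (mh.mul a5.ennreal_toReal)

theorem measurable_Wl (P : Par) (n : ℕ) (te l : ℝ) :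
    Measurable fun p : ℝ × T3 × V => Wl P n te l p.1 p.2.1 p.2.2 := by
  unfold Wl
  exact (measurable_wt P n te).sub ((measurable_et P n te).const_mul l)

theorem measurable_om (P : Par) (n : ℕ) (te l : ℝ) :
    Measurable fun p : ℝ × T3 × V => om P n te l p.1 p.2.1 p.2.2 := by
  unfold om
  have T : Measurable fun p : ℝ × T3 × V => P.TT n p.1 := (measurable_TT P n).comp measurable_fst
  exact (((((measurable_qq P n).add (measurable_const.div T)).mul (measurable_wt P n te)).sub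
    (measurable_pp P n)).add
    ((((measurable_yy P n).div T).mul (measurable_ee P n)).const_mul l)).add
    (((measurable_ee P n).mul (measurable_qb P n)).const_mul (500 * l))

theorem Qh_eq_zero {N : ℕ} {F G h : V → ℝ} {v : V} (hv : (N : ℝ) < ‖v‖) (h0 : h v = 0) :
    Qh N F G h v = 0 := by
  have e : ∀ f g : V → ℝ≥0∞, GamN N f g v = 0 := by
    intro f g
    unfold GamN
    simp [DL.bN_eq_zero hv]
  unfold Qh
  rw [e, e, e, h0]
  simp

variable {P : Par} (hP : GoodE P)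

include hP

/-! ### the main weight along flights -/

theorem wt_incr {n : ℕ} {te s s' : ℝ} (hs : 0 ≤ s) (hss : s ≤ s') (hs' : s' ≤ te) (x : T3)
    (v : V) : wt P n te s' (mv x v s') v - wt P n te s (mv x v s) v =
      ∫ τ in s..s', ((qq P n τ (mv x v τ) v + P.Lam / P.TT n τ) * wt P n te τ (mv x v τ) v
        - pp P n τ (mv x v τ) v) := by
  have h := wt_along hP n hs hss hs' (mv x v s) v
  simp only [mv_along] at h
  exact h

/-- bound for the derivative of `wt` -/
def cw (P : Par) (n N : ℕ) : ℝ := cq P n N + P.Lam / P.ss n + cq P n N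

theorem abs_wt_le {n : ℕ} {te t : ℝ} (h0 : 0 ≤ t) (ht : t ≤ te) (x : T3) (v : V) :
    |wt P n te t x v| ≤ 1 := by
  rw [abs_of_nonneg (wt_nonneg hP n ht x v)]
  exact wt_le_one hP n h0 ht x v

theorem abs_dwt_le {n N : ℕ} {te t : ℝ} (h0 : 0 ≤ t) (ht : t ≤ te) (x : T3) {v : V}
    (hv : ‖v‖ ≤ N) :
    |(qq P n t x v + P.Lam / P.TT n t) * wt P n te t x v - pp P n t x v| ≤ cw P n N := by
  have h1 := qq_le_cq (n := n) hP h0 x hv
  have h2 := qq_nonneg hP n t x v
  have h3 := abs_pp_le (n := n) hP h0 x hv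
  have h4 := hP.Lam_pos
  have hσ := hP.ss_pos n
  have hT := hP.TT_pos n h0
  have h5 : P.Lam / P.TT n t ≤ P.Lam / P.ss n :=
    div_le_div_of_nonneg_left h4.le hσ (ss_le_TT n h0)
  have h6 : 0 ≤ P.Lam / P.TT n t := div_nonneg h4.le hT.le
  refine (abs_sub _ _).trans ?_
  unfold cw
  refine add_le_add ?_ h3
  rw [abs_mul, abs_of_nonneg (by linarith : 0 ≤ qq P n t x v + P.Lam / P.TT n t)]
  calc (qq P n t x v + P.Lam / P.TT n t) * |wt P n te t x v|
      ≤ (qq P n t x v + P.Lam / P.TT n t) * 1 :=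
        mul_le_mul_of_nonneg_left (abs_wt_le hP h0 ht x v) (by linarith)
    _ ≤ _ := by linarith

theorem Wl_incr {n N : ℕ} {te l s s' : ℝ} (hl : 0 ≤ l) (hs : 0 ≤ s) (hss : s ≤ s')
    (hs' : s' ≤ te) (x : T3) {v : V} (hv : ‖v‖ ≤ N) :
    ∫ τ in s..s', om P n te l τ (mv x v τ) v
      ≤ Wl P n te l s' (mv x v s') v - Wl P n te l s (mv x v s) v := by
  have h1 := wt_incr (n := n) hP hs hss hs' x v
  have h2 := et_incr (n := n) hP hs hss hs' x hv
  set g1 : ℝ → ℝ := fun τ => (qq P n τ (mv x v τ) v + P.Lam / P.TT n τ) *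
    wt P n te τ (mv x v τ) v - pp P n τ (mv x v τ) v with hg1
  set g2 : ℝ → ℝ := fun τ => yy P n τ (mv x v τ) v / P.TT n τ * ee P n τ (mv x v τ) v with hg2
  set g3 : ℝ → ℝ := fun τ => ee P n τ (mv x v τ) v * qb P n τ (mv x v τ) v with hg3
  have m1 : Measurable g1 :=
    (((meas_along (measurable_qq P n) x v).add (measurable_const.div (measurable_TT P n))).mul
      (meas_along (measurable_wt P n te) x v)).sub (meas_along (measurable_pp P n) x v)
  have m2 : Measurable g2 := ((meas_along (measurable_yy P n) x v).div (measurable_TT P n)).mul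
      (meas_along (measurable_ee P n) x v)
  have m3 : Measurable g3 := (meas_along (measurable_ee P n) x v).mul
    (meas_along (measurable_qb P n) x v)
  have hσ := hP.ss_pos n
  have i1 : IntervalIntegrable g1 volume s s' :=
    intervalIntegrable_of_bdd (a := s) (b := s') (B := cw P n N) m1
      (fun τ hτ => abs_dwt_le hP (hs.trans hτ.1) (hτ.2.trans hs') _ hv) le_rfl hss le_rfl
  have i2 : IntervalIntegrable g2 volume s s' := by
    refine intervalIntegrable_of_bdd (a := s) (b := s') (B := 1 / P.ss n / P.ss n * ce P n N) m2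
      (fun τ hτ => ?_) le_rfl hss le_rfl
    have hτ0 := hs.trans hτ.1
    rw [abs_of_nonneg (mul_nonneg (div_nonneg (yy_nonneg hP n hτ0 _ _) (hP.TT_pos n hτ0).le)
      (ee_pos' n _ _ _).le)]
    refine mul_le_mul ?_ (ee_le_ce hP hτ0 _ hv) (ee_pos' n _ _ _).le (by positivity)
    exact div_le_div₀ (by positivity) (yy_le hP n hτ0 _ _) hσ (ss_le_TT n hτ0)
  have i3 : IntervalIntegrable g3 volume s s' := by
    refine intervalIntegrable_of_bdd (a := s) (b := s') (B := ce P n N * cq P n N) m3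
      (fun τ hτ => ?_) le_rfl hss le_rfl
    rw [abs_mul, abs_of_pos (ee_pos' n _ _ _)]
    exact mul_le_mul (ee_le_ce hP (hs.trans hτ.1) _ hv) (abs_qb_le hP (hs.trans hτ.1) _ hv)
      (abs_nonneg _) (ce_pos n N).le
  have e : ∫ τ in s..s', om P n te l τ (mv x v τ) v
      = (∫ τ in s..s', g1 τ) + l * (∫ τ in s..s', g2 τ) + 500 * l * ∫ τ in s..s', g3 τ := by
    rw [← intervalIntegral.integral_const_mul, ← intervalIntegral.integral_const_mul,
      ← intervalIntegral.integral_add i1 (i2.const_mul l),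
      ← intervalIntegral.integral_add (i1.add (i2.const_mul l)) (i3.const_mul _)]
    rfl
  rw [e, ← h1]
  unfold Wl
  have h3 := mul_le_mul_of_nonneg_left h2 hl
  linarith

/-- Lipschitz constant of the weight -/
def cl (P : Par) (n N : ℕ) (te l : ℝ) : ℝ :=
  cw P n N + l * (ce P n N * (2 * N / P.ss n + 1 / P.ss n ^ 2) * (1 + 500 * (cq P n N * te))
        + ce P n N * (500 * cq P n N))

theorem Wl_lip {n N : ℕ} {te l s s' : ℝ} (hl : 0 ≤ l) (hs : 0 ≤ s) (hss : s ≤ s')
    (hs' : s' ≤ te) (x : T3) {v : V} (hv : ‖v‖ ≤ N) :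
    |Wl P n te l s' (mv x v s') v - Wl P n te l s (mv x v s) v| ≤ cl P n N te l * (s' - s) := by
  have h1 : |wt P n te s' (mv x v s') v - wt P n te s (mv x v s) v| ≤ cw P n N * (s' - s) := by
    rw [wt_incr hP hs hss hs' x v]
    exact abs_int_le hss fun τ hτ => abs_dwt_le hP (hs.trans hτ.1) (hτ.2.trans hs') _ hv
  have h2 := et_lip (n := n) hP hs hss hs' x hv
  have e : Wl P n te l s' (mv x v s') v - Wl P n te l s (mv x v s) v
      = (wt P n te s' (mv x v s') v - wt P n te s (mv x v s) v)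
        - l * (et P n te s' (mv x v s') v - et P n te s (mv x v s) v) := by
    unfold Wl
    ring
  rw [e]
  refine (abs_sub _ _).trans ?_
  rw [abs_mul, abs_of_nonneg hl]
  have h3 := mul_le_mul_of_nonneg_left h2 hl
  unfold cl
  rw [add_mul]
  refine add_le_add h1 (h3.trans (le_of_eq ?_))
  ring

/-- bound for the weight -/
def cW (P : Par) (n N : ℕ) (te l : ℝ) : ℝ := 1 + l * (ce P n N * (1 + 500 * (cq P n N * te)))

theorem abs_Wl_le {n N : ℕ} {te l t : ℝ} (hl : 0 ≤ l) (h0 : 0 ≤ t) (ht : t ≤ te) (x : T3)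
    {v : V} (hv : ‖v‖ ≤ N) : |Wl P n te l t x v| ≤ cW P n N te l := by
  have h1 := abs_wt_le (n := n) hP h0 ht x v
  have h2 := et_le (n := n) hP h0 ht x hv
  have h3 := et_pos hP n ht x v
  unfold Wl cW
  refine (abs_sub _ _).trans (add_le_add h1 ?_)
  rw [abs_mul, abs_of_nonneg hl, abs_of_pos h3]
  exact mul_le_mul_of_nonneg_left h2 hl

/-- bound for `om` -/
def co (P : Par) (n N : ℕ) (l : ℝ) : ℝ :=
  cw P n N + l * (1 / P.ss n / P.ss n * ce P n N) + 500 * l * (ce P n N * cq P n N)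

theorem abs_om_le {n N : ℕ} {te l t : ℝ} (hl : 0 ≤ l) (h0 : 0 ≤ t) (ht : t ≤ te) (x : T3)
    {v : V} (hv : ‖v‖ ≤ N) : |om P n te l t x v| ≤ co P n N l := by
  have h1 := abs_dwt_le (n := n) hP h0 ht x hv
  have hσ := hP.ss_pos n
  have h2 : |yy P n t x v / P.TT n t * ee P n t x v| ≤ 1 / P.ss n / P.ss n * ce P n N := by
    rw [abs_of_nonneg (mul_nonneg (div_nonneg (yy_nonneg hP n h0 _ _) (hP.TT_pos n h0).le)
      (ee_pos' n _ _ _).le)]
    refine mul_le_mul ?_ (ee_le_ce hP h0 _ hv) (ee_pos' n _ _ _).le (by positivity)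
    exact div_le_div₀ (by positivity) (yy_le hP n h0 _ _) hσ (ss_le_TT n h0)
  have h3 : |ee P n t x v * qb P n t x v| ≤ ce P n N * cq P n N := by
    rw [abs_mul, abs_of_pos (ee_pos' n _ _ _)]
    exact mul_le_mul (ee_le_ce hP h0 _ hv) (abs_qb_le hP h0 _ hv) (abs_nonneg _) (ce_pos n N).le
  unfold om co
  refine (abs_add_le _ _).trans (add_le_add ((abs_add_le _ _).trans (add_le_add h1 ?_)) ?_)
  · rw [abs_mul, abs_of_nonneg hl]
    exact mul_le_mul_of_nonneg_left h2 hl
  · rw [abs_mul, abs_of_nonneg (by positivity : 0 ≤ 500 * l)]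
    exact mul_le_mul_of_nonneg_left h3 (by positivity)

end Vale.Agent.P140.NU.J
end
end

section

/-!
Growth from the static inequality, for fixed parameters.
-/

open MeasureTheory Set Filter
open scoped ENNReal Topology

noncomputable section

namespace Vale.Agent.P140.NU.J

open Vale.Agent.P140.NU.E

/-- bounds for the hot part on `[0, t1]` -/
def HotB (N : ℕ) (t1 : ℝ) (F G h : ℝ → T3 → V → ℝ) : Prop :=
  ∃ B : ℝ, 0 ≤ B ∧ ∀ t ∈ Icc 0 t1, ∀ x v, h t x v ≤ B ∧ ((N : ℝ) < ‖v‖ → h t x v = 0) ∧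
      |Qh N (F t x) (G t x) (h t x) v| ≤ B

/-- volume of the relevant part of phase space -/
def cK (N : ℕ) : ℝ := (volume (univ ×ˢ Metric.closedBall (0 : V) (N : ℝ) : Set (T3 × V))).toReal

theorem abs_integral_le {N : ℕ} {B : ℝ} {f : T3 × V → ℝ}
    (bf : ∀ p, ‖p.2‖ ≤ N → |f p| ≤ B) (sf : ∀ p : T3 × V, (N : ℝ) < ‖p.2‖ → f p = 0) :
    |∫ p, f p| ≤ B * cK N := by
  set K : Set (T3 × V) := univ ×ˢ Metric.closedBall (0 : V) (N : ℝ) with hK
  have hKm : MeasurableSet K := MeasurableSet.univ.prod Metric.isClosed_closedBall.measurableSet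
  have hKf : volume K < ⊤ := by
    rw [hK, Measure.volume_eq_prod, Measure.prod_prod]
    exact ENNReal.mul_lt_top (measure_lt_top _ _) measure_closedBall_lt_top
  have e : ∫ p, f p = ∫ p in K, f p := by
    refine (setIntegral_eq_integral_of_forall_compl_eq_zero fun p hp => sf p ?_).symm
    rw [hK] at hp
    simpa using hp
  rw [e]
  have := norm_setIntegral_le_of_norm_le_const (f := f) (C := B) hKf fun p hp => by
    refine bf p ?_
    rw [hK] at hp
    simpa using hp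
  exact this

variable {P : Par} (hP : GoodE P) {n N : ℕ} {te l t0 t1 CB κ : ℝ} {F G h : ℝ → T3 → V → ℝ}

theorem meas_slice {f : ℝ → T3 → V → ℝ} (hf : Measurable fun p : ℝ × T3 × V => f p.1 p.2.1 p.2.2)
    (t : ℝ) : Measurable fun p : T3 × V => f t p.1 p.2 := by
  have h1 : Measurable fun p : T3 × V => ((t, p) : ℝ × T3 × V) :=
    measurable_const.prodMk measurable_id
  have h2 := hf.comp h1
  exact h2

theorem meas_int {f : ℝ → T3 → V → ℝ} (hf : Measurable fun p : ℝ × T3 × V => f p.1 p.2.1 p.2.2) :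
    Measurable fun t => ∫ p : T3 × V, f t p.1 p.2 :=
  (hf.stronglyMeasurable.integral_prod_right' (ν := (volume : Measure (T3 × V)))).measurable

include hP

theorem int_wt_h (hte : t1 ≤ te) (hs : Split P CB t0 n N κ F G h) (hb : HotB N t1 F G h)
    {t : ℝ} (ht : t ∈ Icc 0 t1) : Integrable fun p : T3 × V => wt P n te t p.1 p.2 * h t p.1 p.2 := by
  obtain ⟨B, hB, hb⟩ := hb
  refine integrable_of_supp (N := N) (B := 1 * B)
    ((meas_slice (measurable_wt P n te) t).mul (meas_slice hs.meash t)) (fun p hp => ?_)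
    (fun p hp => ?_)
  · rw [abs_mul, abs_of_nonneg (hs.nonnegh _ _ _)]
    exact mul_le_mul (abs_wt_le hP ht.1 (ht.2.trans hte) _ _) (hb t ht _ _).1 (hs.nonnegh _ _ _)
      zero_le_one
  · rw [(hb t ht _ _).2.1 hp, mul_zero]

theorem int_et_h (hte : t1 ≤ te) (hs : Split P CB t0 n N κ F G h) (hb : HotB N t1 F G h)
    {t : ℝ} (ht : t ∈ Icc 0 t1) : Integrable fun p : T3 × V => et P n te t p.1 p.2 * h t p.1 p.2 := by
  obtain ⟨B, hB, hb⟩ := hb
  have hte' := ht.2.trans hte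
  refine integrable_of_supp (N := N) (B := ce P n N * (1 + 500 * (cq P n N * te)) * B)
    ((meas_slice (measurable_et P n te) t).mul (meas_slice hs.meash t)) (fun p hp => ?_)
    (fun p hp => ?_)
  · rw [abs_mul, abs_of_nonneg (hs.nonnegh _ _ _), abs_of_pos (et_pos hP n hte' _ _)]
    exact mul_le_mul (et_le hP ht.1 hte' _ hp) (hb t ht _ _).1 (hs.nonnegh _ _ _)
      ((et_pos hP n hte' p.1 p.2).le.trans (et_le hP ht.1 hte' _ hp))
  · rw [(hb t ht _ _).2.1 hp, mul_zero]

theorem int_Wl_h (hte : t1 ≤ te) (hs : Split P CB t0 n N κ F G h) (hb : HotB N t1 F G h)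
    {t : ℝ} (ht : t ∈ Icc 0 t1) (l : ℝ) :
    ∫ p : T3 × V, Wl P n te l t p.1 p.2 * h t p.1 p.2 = NN P n te h t - l * NE P n te h t := by
  unfold NN NE
  rw [← integral_const_mul, ← integral_sub (int_wt_h hP hte hs hb ht)
    ((int_et_h hP hte hs hb ht).const_mul l)]
  refine integral_congr_ae (Eventually.of_forall fun p => ?_)
  simp only [Wl]
  ring

theorem NE_nonneg (hs : Split P CB t0 n N κ F G h) {t : ℝ} (ht : t ≤ te) :
    0 ≤ NE P n te h t :=
  integral_nonneg fun _ => mul_nonneg (et_pos hP n ht _ _).le (hs.nonnegh _ _ _)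

/-- the evolution inequality -/
theorem J_incr (hl : 0 ≤ l) (hte : t1 ≤ te) (hs : Split P CB t0 n N κ F G h)
    (hb : HotB N t1 F G h) {t t' : ℝ} (ht : 0 ≤ t) (htt : t ≤ t') (ht' : t' ≤ t1) :
    ∫ τ in t..t', ∫ p : T3 × V, (om P n te l τ p.1 p.2 * h τ p.1 p.2
        + Wl P n te l τ p.1 p.2 * Qh N (F τ p.1) (G τ p.1) (h τ p.1) p.2)
      ≤ (NN P n te h t' - l * NE P n te h t') - (NN P n te h t - l * NE P n te h t) := by
  have hb' := hb
  obtain ⟨B, hB, hbd⟩ := hb
  have hcq := cq_nonneg hP n N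
  have hte0 : 0 ≤ te := (ht.trans htt).trans (ht'.trans hte)
  set M := B + (co P n N l + (cW P n N te l + cl P n N te l)) with hM
  have hx : T3 × V := (0, 0)
  have c1 : 0 ≤ co P n N l := (abs_nonneg _).trans
    (abs_om_le (te := te) (t := 0) hP hl le_rfl hte0 (0 : T3) (v := 0) (by simp))
  have c2 : 0 ≤ cW P n N te l := (abs_nonneg _).trans
    (abs_Wl_le (te := te) (t := 0) hP hl le_rfl hte0 (0 : T3) (v := 0) (by simp))
  have c3 : 0 ≤ cl P n N te l := by
    unfold cl cw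
    have h1 := hP.Lam_pos
    have h2 := hP.ss_pos n
    have h3 := ce_pos (P := P) n N
    (clear * - hcq h1 h2 hl h3 hte0; positivity)
  have M0 : 0 ≤ M := by linarith
  have key := phase_ineq (N := N) (t1 := t1) (B := M) M0 (W := Wl P n te l) (Om := om P n te l)
    (h := h) (k := fun τ x v => Qh N (F τ x) (G τ x) (h τ x) v)
    (measurable_Wl P n te l) (measurable_om P n te l) hs.meash
    (measurable_Qh hs.appr.meas hs.measG hs.meash)
    (fun τ hτ x v hv => (abs_Wl_le hP hl hτ.1 (hτ.2.trans hte) x hv).trans (by linarith))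
    (fun τ hτ x v hv => (abs_om_le hP hl hτ.1 (hτ.2.trans hte) x hv).trans (by linarith))
    (fun τ hτ x v hv => by
      rw [abs_of_nonneg (hs.nonnegh _ _ _)]
      exact (hbd τ hτ x v).1.trans (by linarith))
    (fun τ hτ x v hv => (hbd τ hτ x v).2.2.trans (by linarith))
    (fun τ hτ x v => hs.nonnegh _ _ _)
    (fun τ hτ x v hv => (hbd τ hτ x v).2.1 hv)
    (fun τ hτ x v hv => Qh_eq_zero hv ((hbd τ hτ x v).2.1 hv))
    (fun x v hv s s' a1 a2 a3 => by
      have e1 := hs.mild s' (a1.trans a2) x v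
      have e2 := hs.mild s a1 x v
      have mk : Measurable fun τ => Qh N (F τ (mv x v τ)) (G τ (mv x v τ)) (h τ (mv x v τ)) v :=
        meas_along (f := fun τ x v => Qh N (F τ x) (G τ x) (h τ x) v)
          (measurable_Qh hs.appr.meas hs.measG hs.meash) x v
      have bk : ∀ τ ∈ Icc 0 t1,
          |Qh N (F τ (mv x v τ)) (G τ (mv x v τ)) (h τ (mv x v τ)) v| ≤ B := fun τ hτ =>
        (hbd τ hτ _ _).2.2
      rw [e1, e2, ← intervalIntegral.integral_of_le (a1.trans a2),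
        ← intervalIntegral.integral_of_le a1]
      rw [add_sub_add_left_eq_sub, intervalIntegral.integral_interval_sub_left]
      · exact intervalIntegrable_of_bdd mk bk le_rfl (a1.trans a2) a3
      · exact intervalIntegrable_of_bdd mk bk le_rfl a1 (a2.trans a3))
    (fun x v hv s s' a1 a2 a3 => Wl_incr hP hl a1 a2 (a3.trans hte) x hv)
    (fun x v hv s s' a1 a2 a3 => (Wl_lip hP hl a1 a2 (a3.trans hte) x hv).trans
      (mul_le_mul_of_nonneg_right (by linarith) (sub_nonneg.mpr a2)))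
    ht htt ht'
  rw [int_Wl_h hP hte hs hb' ⟨ht.trans htt, ht'⟩, int_Wl_h hP hte hs hb' ⟨ht, htt.trans ht'⟩] at key
  exact key

theorem meas_NN (hs : Split P CB t0 n N κ F G h) : Measurable fun t => NN P n te h t :=
  meas_int (f := fun t x v => wt P n te t x v * h t x v) ((measurable_wt P n te).mul hs.meash)

theorem meas_NE (hs : Split P CB t0 n N κ F G h) : Measurable fun t => NE P n te h t :=
  meas_int (f := fun t x v => et P n te t x v * h t x v) ((measurable_et P n te).mul hs.meash)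

theorem NN_bdd (hte : t1 ≤ te) (hs : Split P CB t0 n N κ F G h) (hb : HotB N t1 F G h) :
    ∃ C : ℝ, 0 ≤ C ∧ ∀ t ∈ Icc 0 t1, |NN P n te h t| ≤ C := by
  obtain ⟨B, hB, hb⟩ := hb
  refine ⟨1 * B * cK N, mul_nonneg (by positivity) ENNReal.toReal_nonneg, fun t ht => ?_⟩
  refine abs_integral_le (fun p hp => ?_) (fun p hp => ?_)
  · rw [abs_mul, abs_of_nonneg (hs.nonnegh _ _ _)]
    exact mul_le_mul (abs_wt_le hP ht.1 (ht.2.trans hte) _ _) (hb t ht _ _).1 (hs.nonnegh _ _ _)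
      zero_le_one
  · rw [(hb t ht _ _).2.1 hp, mul_zero]

theorem NE_bdd (hte : t1 ≤ te) (hs : Split P CB t0 n N κ F G h) (hb : HotB N t1 F G h) :
    ∃ C : ℝ, 0 ≤ C ∧ ∀ t ∈ Icc 0 t1, |NE P n te h t| ≤ C := by
  obtain ⟨B, hB, hb⟩ := hb
  set E := ce P n N * (1 + 500 * (cq P n N * te)) with hE
  have key : ∀ t ∈ Icc 0 t1, ∀ p : T3 × V, ‖p.2‖ ≤ N →
      |et P n te t p.1 p.2 * h t p.1 p.2| ≤ |E| * B := by
    intro t ht p hp
    have hte' := ht.2.trans hte
    rw [abs_mul, abs_of_nonneg (hs.nonnegh _ _ _), abs_of_pos (et_pos hP n hte' _ _)]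
    exact mul_le_mul ((et_le hP ht.1 hte' _ hp).trans (le_abs_self _)) (hb t ht _ _).1
      (hs.nonnegh _ _ _) (abs_nonneg _)
  refine ⟨|E| * B * cK N, mul_nonneg (by positivity) ENNReal.toReal_nonneg, fun t ht => ?_⟩
  refine abs_integral_le (fun p hp => key t ht p hp) (fun p hp => ?_)
  rw [(hb t ht _ _).2.1 hp, mul_zero]

/-- integrated static inequality -/
theorem static_int (hl : 0 ≤ l) (hte : t1 ≤ te) (hs : Split P CB t0 n N κ F G h)
    (hb : HotB N t1 F G h) (hst : ∀ τ ∈ Icc 0 t1, Static P n N te l F G h τ)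
    {m : ℝ} (hm0 : 0 ≤ m) (hm : ∀ τ ∈ Icc 0 t1, m / P.TT n τ * (NN P n te h τ - l * NE P n te h τ)
      ≤ P.Lam / P.TT n τ * (NN P n te h τ - l * NE P n te h τ)
      + l * (P.Lam / (2 * P.TT n τ)) * NE P n te h τ
      - 1 / 10 / P.TT n τ * (NE P n te h τ + NN P n te h τ))
    {t t' : ℝ} (ht : 0 ≤ t) (htt : t ≤ t') (ht' : t' ≤ t1) :
    ∫ τ in t..t', m / P.TT n τ * (NN P n te h τ - l * NE P n te h τ)
      ≤ (NN P n te h t' - l * NE P n te h t') - (NN P n te h t - l * NE P n te h t) := by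
  refine le_trans ?_ (J_incr hP hl hte hs hb ht htt ht')
  have hb' := hb
  obtain ⟨B, hB, hbd⟩ := hb
  obtain ⟨C1, hC1, hN1⟩ := NN_bdd hP hte hs hb'
  obtain ⟨C2, hC2, hN2⟩ := NE_bdd hP hte hs hb'
  have hσ := hP.ss_pos n
  have hte0 : 0 ≤ te := (ht.trans htt).trans (ht'.trans hte)
  have i1 : IntervalIntegrable (fun τ => m / P.TT n τ * (NN P n te h τ - l * NE P n te h τ))
      volume t t' := by
    refine intervalIntegrable_of_bdd
      (g := fun τ => m / P.TT n τ * (NN P n te h τ - l * NE P n te h τ))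
      (a := t) (b := t') (B := m / P.ss n * (C1 + l * C2))
      ((measurable_const.div (measurable_TT P n)).mul
        ((meas_NN hP hs).sub ((meas_NE hP hs).const_mul l))) (fun τ hτ => ?_) le_rfl htt le_rfl
    have hτ0 : 0 ≤ τ := ht.trans hτ.1
    have hτ1 : τ ∈ Icc 0 t1 := ⟨hτ0, hτ.2.trans ht'⟩
    rw [abs_mul, abs_of_nonneg (div_nonneg hm0 (hP.TT_pos n hτ0).le)]
    refine mul_le_mul (div_le_div_of_nonneg_left hm0 hσ (ss_le_TT n hτ0)) ?_ (abs_nonneg _)
      (div_nonneg hm0 hσ.le)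
    refine (abs_sub _ _).trans (add_le_add (hN1 τ hτ1) ?_)
    rw [abs_mul, abs_of_nonneg hl]
    exact mul_le_mul_of_nonneg_left (hN2 τ hτ1) hl
  have mf : Measurable fun p : ℝ × T3 × V => (om P n te l p.1 p.2.1 p.2.2 * h p.1 p.2.1 p.2.2
        + Wl P n te l p.1 p.2.1 p.2.2 * Qh N (F p.1 p.2.1) (G p.1 p.2.1) (h p.1 p.2.1) p.2.2) :=
    ((measurable_om P n te l).mul hs.meash).add ((measurable_Wl P n te l).mul
      (measurable_Qh hs.appr.meas hs.measG hs.meash))
  have i2 : IntervalIntegrable (fun τ => ∫ p : T3 × V, (om P n te l τ p.1 p.2 * h τ p.1 p.2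
        + Wl P n te l τ p.1 p.2 * Qh N (F τ p.1) (G τ p.1) (h τ p.1) p.2)) volume t t' := by
    refine intervalIntegrable_of_bdd
      (g := fun τ => ∫ p : T3 × V, (om P n te l τ p.1 p.2 * h τ p.1 p.2
        + Wl P n te l τ p.1 p.2 * Qh N (F τ p.1) (G τ p.1) (h τ p.1) p.2))
      (a := t) (b := t') (B := (co P n N l * B + cW P n N te l * B) * cK N)
      (meas_int (f := fun τ x v => om P n te l τ x v * h τ x v
        + Wl P n te l τ x v * Qh N (F τ x) (G τ x) (h τ x) v) mf) (fun τ hτ => ?_) le_rfl htt le_rfl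
    have hτ0 : 0 ≤ τ := ht.trans hτ.1
    have hτ1 : τ ∈ Icc 0 t1 := ⟨hτ0, hτ.2.trans ht'⟩
    refine abs_integral_le (fun p hp => ?_) (fun p hp => ?_)
    · have k1 := abs_om_le (n := n) (te := te) hP hl hτ0 (hτ1.2.trans hte) p.1 hp
      have k2 := abs_Wl_le (n := n) (te := te) hP hl hτ0 (hτ1.2.trans hte) p.1 hp
      refine (abs_add_le _ _).trans (add_le_add ?_ ?_)
      · rw [abs_mul, abs_of_nonneg (hs.nonnegh _ _ _)]
        exact mul_le_mul k1 (hbd τ hτ1 _ _).1 (hs.nonnegh _ _ _) ((abs_nonneg _).trans k1)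
      · rw [abs_mul]
        exact mul_le_mul k2 (hbd τ hτ1 _ _).2.2 (abs_nonneg _) ((abs_nonneg _).trans k2)
    · rw [(hbd τ hτ1 _ _).2.1 hp, Qh_eq_zero hp ((hbd τ hτ1 _ _).2.1 hp), mul_zero, mul_zero,
        add_zero]
  refine intervalIntegral.integral_mono_on htt i1 i2 fun τ hτ => ?_
  have hτ1 : τ ∈ Icc 0 t1 := ⟨ht.trans hτ.1, hτ.2.trans ht'⟩
  exact (hm τ hτ1).trans (hst τ hτ1)

/-- growth for fixed parameters -/
theorem growth_fix (hte : t1 ≤ te) (hs : Split P CB t0 n N κ F G h)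
    (hb : HotB N t1 F G h)
    (h0 : ∀ τ ∈ Icc 0 t1, Static P n N te 0 F G h τ)
    (h4 : ∀ τ ∈ Icc 0 t1, Static P n N te 4 F G h τ)
    (init : 0 < NN P n te h 0 - 4 * NE P n te h 0) :
    (∀ τ ∈ Icc 0 t1, 0 < NN P n te h τ ∧ 4 * NE P n te h τ ≤ NN P n te h τ) ∧
    (∀ τ ∈ Icc 0 t1, ∀ τ' ∈ Icc τ t1,
      NN P n te h τ * (P.TT n τ' / P.TT n τ) ^ (P.Lam - 1) ≤ NN P n te h τ') := by
  have hσ := hP.ss_pos n
  have hL := hP.Lam_ge
  obtain ⟨C1, hC1, hN1⟩ := NN_bdd hP hte hs hb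
  obtain ⟨C2, hC2, hN2⟩ := NE_bdd hP hte hs hb
  have hT : ∀ t, P.TT n t = t + P.ss n := fun t => rfl
  have first : ∀ τ ∈ Icc 0 t1, 0 < NN P n te h τ - 4 * NE P n te h τ := by
    intro τ hτ
    have g := gronwall (φ := fun τ => NN P n te h τ - 4 * NE P n te h τ) (T := fun t => P.TT n t)
      (t1 := t1) (m := P.Lam - 1 / 10) (B := C1 + 4 * C2) (σ := P.ss n) hσ hT (by linarith)
      (by positivity) ((meas_NN hP hs).sub ((meas_NE hP hs).const_mul 4))
      (fun t ht => by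
        refine (abs_sub _ _).trans (add_le_add (hN1 t ht) ?_)
        rw [abs_mul, abs_of_nonneg (by norm_num : (0 : ℝ) ≤ 4)]
        exact mul_le_mul_of_nonneg_left (hN2 t ht) (by norm_num))
      (fun s s' a1 a2 a3 => static_int hP (by norm_num) hte hs hb h4 (by linarith)
        (fun τ hτ => by
          have hE := NE_nonneg hP hs (te := te) (hτ.2.trans hte)
          have hTp := hP.TT_pos n hτ.1
          set T := P.TT n τ with hTd
          set A := NN P n te h τ with hA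
          set E := NE P n te h τ with hEd
          have e : P.Lam / T * (A - 4 * E) + 4 * (P.Lam / (2 * T)) * E - 1 / 10 / T * (E + A)
              - (P.Lam - 1 / 10) / T * (A - 4 * E) = (2 * P.Lam - 1 / 2) * E / T := by
            field_simp
            ring
          have : 0 ≤ (2 * P.Lam - 1 / 2) * E / T := by
            have : 0 ≤ 2 * P.Lam - 1 / 2 := by linarith only [hL]
            (clear * - this hE hTp; positivity)
          linarith) a1 a2 a3) le_rfl hτ.1 hτ.2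
    have hr : 0 < (P.TT n τ / P.TT n 0) ^ (P.Lam - 1 / 10) :=
      Real.rpow_pos_of_pos (div_pos (hP.TT_pos n hτ.1) (hP.TT_pos n le_rfl)) _
    exact lt_of_lt_of_le (mul_pos init hr) g
  have second : ∀ τ ∈ Icc 0 t1, 0 < NN P n te h τ ∧ 4 * NE P n te h τ ≤ NN P n te h τ := by
    intro τ hτ
    have h1 := first τ hτ
    have hE := NE_nonneg hP hs (te := te) (hτ.2.trans hte)
    exact ⟨by linarith, by linarith⟩
  refine ⟨second, fun τ hτ τ' hτ' => ?_⟩
  have g := gronwall (φ := fun τ => NN P n te h τ) (T := fun t => P.TT n t)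
      (t1 := t1) (m := P.Lam - 1) (B := C1) (σ := P.ss n) hσ hT (by linarith) hC1
      (meas_NN hP hs) hN1
      (fun s s' a1 a2 a3 => by
        have := static_int hP (l := 0) le_rfl hte hs hb h0 (m := P.Lam - 1) (by linarith)
          (fun τ hτ => by
            have hE := NE_nonneg hP hs (te := te) (hτ.2.trans hte)
            have hTp := hP.TT_pos n hτ.1
            obtain ⟨k1, k2⟩ := second τ hτ
            set T := P.TT n τ with hTd
            set A := NN P n te h τ with hA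
            set E := NE P n te h τ with hEd
            have e : P.Lam / T * (A - 0 * E) + 0 * (P.Lam / (2 * T)) * E - 1 / 10 / T * (E + A)
                - (P.Lam - 1) / T * (A - 0 * E) = (9 / 10 * A - 1 / 10 * E) / T := by
              field_simp
              ring
            have : 0 ≤ (9 / 10 * A - 1 / 10 * E) / T := div_nonneg (by linarith only [k2, k1]) hTp.le
            linarith only [this, e]) a1 a2 a3
        simp only [zero_mul, sub_zero] at this
        exact this) hτ.1 hτ'.1 hτ'.2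
  exact g

end Vale.Agent.P140.NU.J
end
end
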