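import Vale.Agent.P140.MathlibUsed
import Vale.Agent.P140.Bd3.B11
import Vale.Agent.P140.Bd3.B20
import Vale.Agent.P140.Bd3.B7
import Vale.Agent.P140.Bd3.B16
import Vale.Agent.P140.Bd3.B10
import Vale.Agent.P140.Bd3.B18
import Vale.Agent.P140.Bd3.B17
import Vale.Agent.P140.Bd3.B12
import Vale.Agent.P140.Bd3.B19
import Vale.Agent.P140.Bd3.B15
import Vale.Agent.P140.Bd3.B14
import Vale.Agent.P140.Bd3.B5

set_option linter.all false

attribute [local instance 5000] Vale.Agent.P140.Sc.a01 Vale.Agent.P140.Sc.a02 Vale.Agent.P140.Sc.a03 Vale.Agent.P140.Sc.a04 Vale.Agent.P140.Sc.a05 Vale.Agent.P140.Sc.a06 Vale.Agent.P140.Sc.a07 Vale.Agent.P140.Sc.a08 Vale.Agent.P140.Sc.a09 Vale.Agent.P140.Sc.a10 Vale.Agent.P140.Sc.a11 Vale.Agent.P140.Sc.a12 Vale.Agent.P140.Sc.a13 Vale.Agent.P140.Sc.a14 Vale.Agent.P140.Sc.a15 Vale.Agent.P140.Sc.a16 Vale.Agent.P140.Sc.a17 Vale.Agent.P140.Sc.a18 Vale.Agent.P140.Sc.a19 Vale.Agent.P140.Sc.a20 Vale.Agent.P140.Sc.a21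 Vale.Agent.P140.Sc.a22 Vale.Agent.P140.Sc.a23 Vale.Agent.P140.Sc.a24 Vale.Agent.P140.Sc.a25 Vale.Agent.P140.Sc.a26 Vale.Agent.P140.Sc.a27 Vale.Agent.P140.Sc.a28 Vale.Agent.P140.Sc.a29 Vale.Agent.P140.Sc.a30 Vale.Agent.P140.Sc.a31 Vale.Agent.P140.Sc.a32 Vale.Agent.P140.Sc.a33 Vale.Agent.P140.Sc.r01 Vale.Agent.P140.Sc.r02 Vale.Agent.P140.Sc.r03 Vale.Agent.P140.Sc.r04 Vale.Agent.P140.Sc.r05 Vale.Agent.P140.Sc.r06 Vale.Agent.P140.Sc.r07 Vale.Agent.P140.Sc.r08 Vale.Agent.P140.Sc.r09 Vale.Agent.P140.Sc.r10 Vale.Agent.P140.Sc.r11 Vale.Agent.P140.Sc.r12 Vale.Agent.P140.Sc.r13 Vale.Agent.P140.Sc.r14 Vale.Agent.P140.Sc.r15 Vale.Agent.P140.Sc.r16 Vale.Agent.P140.Sc.r17 Vale.Agent.P140.Sc.r18 Vale.Agent.P140.Sc.a34 Vale.Agent.P140.Sc.a35 Vale.Agent.P140.Sc.a36 Vale.Agent.P140.Sc.a37 Vale.Agent.P140.Sc.a38 Vale.Agent.P140.Sc.a39 Vale.Agent.P140.Sc.a40 Vale.Agent.P140.Sc.a42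

section

open MeasureTheory Set Filter
open scoped ENNReal Topology NNReal

noncomputable section

namespace Vale.Agent.P140

end Vale.Agent.P140
end
end

section

/-!
P140, non-uniqueness: the statements of module M (proved in `NU/M/Main.lean`).
-/
end

section

/-!
P140, non-uniqueness: the statements of module N (proved in `NU/N/Main.lean`).
-/
end

section

/-!
P140-NU, module J: the static inequality for the functionals.
-/

open MeasureTheory Set Filter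
open scoped ENNReal Topology

noncomputable section

namespace Vale.Agent.P140.NU.J

/-! ### functions on `T3 × V` which are bounded for velocities of norm at most `N` -/

/-- measurable and bounded for velocities of norm at most `N` -/
structure Bd (N : ℕ) (f : T3 × V → ℝ) : Prop where
  meas : Measurable f
  bdd : ∃ B : ℝ, 0 ≤ B ∧ ∀ p, ‖p.2‖ ≤ N → |f p| ≤ B

/-- moreover vanishing for velocities of norm larger than `N` -/
structure Bd0 (N : ℕ) (f : T3 × V → ℝ) : Prop where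
  bd : Bd N f
  zero : ∀ p, (N : ℝ) < ‖p.2‖ → f p = 0

variable {N : ℕ} {f g : T3 × V → ℝ}

theorem Bd.mul (hf : Bd N f) (hg : Bd N g) : Bd N fun p => f p * g p := by
  obtain ⟨A, hA0, hA⟩ := hf.bdd
  obtain ⟨B, hB0, hB⟩ := hg.bdd
  refine ⟨hf.meas.mul hg.meas, A * B, mul_nonneg hA0 hB0, fun p hp => ?_⟩
  rw [abs_mul]
  exact mul_le_mul (hA p hp) (hB p hp) (abs_nonneg _) hA0

theorem Bd.add (hf : Bd N f) (hg : Bd N g) : Bd N fun p => f p + g p := by
  obtain ⟨A, hA0, hA⟩ := hf.bdd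
  obtain ⟨B, hB0, hB⟩ := hg.bdd
  exact ⟨hf.meas.add hg.meas, A + B, add_nonneg hA0 hB0, fun p hp =>
    (abs_add_le _ _).trans (add_le_add (hA p hp) (hB p hp))⟩

theorem Bd.const (N : ℕ) (c : ℝ) : Bd N fun _ => c :=
  ⟨measurable_const, |c|, abs_nonneg _, fun _ _ => le_rfl⟩

theorem Bd.mul0 (hf : Bd N f) (hg : Bd0 N g) : Bd0 N fun p => f p * g p :=
  ⟨hf.mul hg.bd, fun p hp => by rw [hg.zero p hp, mul_zero]⟩

theorem Bd0.integrable (hf : Bd0 N f) : Integrable f := by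
  obtain ⟨B, hB0, hB⟩ := hf.bd.bdd
  have hs : MeasurableSet {p : T3 × V | ‖p.2‖ ≤ N} :=
    measurableSet_le measurable_snd.norm measurable_const
  have hfin : volume {p : T3 × V | ‖p.2‖ ≤ N} ≠ ⊤ := by
    have h1 : {p : T3 × V | ‖p.2‖ ≤ N} = (univ : Set T3) ×ˢ Metric.closedBall (0 : V) N := by
      ext p
      simp only [mem_ofPred_eq, mem_prod, mem_univ, Metric.mem_closedBall, dist_zero_right, true_and]
    rw [h1, Measure.volume_eq_prod, Measure.prod_prod]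
    exact ENNReal.mul_ne_top (measure_ne_top _ _) measure_closedBall_lt_top.ne
  have hi : Integrable (({p : T3 × V | ‖p.2‖ ≤ N}).indicator fun _ => B) :=
    (integrable_indicator_iff hs).2 (integrableOn_const hfin)
  refine hi.mono' hf.bd.meas.aestronglyMeasurable (Eventually.of_forall fun p => ?_)
  rw [Real.norm_eq_abs]
  by_cases hp : ‖p.2‖ ≤ N
  · rw [indicator_of_mem (show p ∈ {p : T3 × V | ‖p.2‖ ≤ N} from hp)]
    exact hB p hp
  · rw [hf.zero p (not_le.1 hp), indicator_of_notMem (show p ∉ {p : T3 × V | ‖p.2‖ ≤ N} from hp),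
      abs_zero]

/-- iterated lower integral of a nonnegative function -/
theorem Bd0.lint (hf : Bd0 N f) (h0 : ∀ p, 0 ≤ f p) :
    ∫⁻ x : T3, ∫⁻ v : V, ENNReal.ofReal (f (x, v)) = ENNReal.ofReal (∫ p, f p) := by
  rw [ofReal_integral_eq_lintegral_ofReal hf.integrable (Eventually.of_forall h0),
    Measure.volume_eq_prod, lintegral_prod _ hf.bd.meas.ennreal_ofReal.aemeasurable]

theorem Bd0.lint' (hf : Bd0 N f) (h0 : ∀ p, 0 ≤ f p) {F : T3 → V → ℝ≥0∞}
    (hF : ∀ x v, F x v = ENNReal.ofReal (f (x, v))) :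
    ∫⁻ x : T3, ∫⁻ v : V, F x v = ENNReal.ofReal (∫ p, f p) := by
  rw [← hf.lint h0]
  exact lintegral_congr fun x => lintegral_congr fun v => hF x v

theorem Bd.congr (hf : Bd N f) (h : ∀ p, g p = f p) : Bd N g := by
  have : g = f := funext h
  rwa [this]

theorem Bd.of_le (hg : Bd N g) (hf : Measurable f) (h0 : ∀ p, 0 ≤ f p) (h : ∀ p, f p ≤ g p) :
    Bd N f := by
  obtain ⟨B, hB0, hB⟩ := hg.bdd
  refine ⟨hf, B, hB0, fun p hp => ?_⟩
  rw [abs_of_nonneg (h0 p)]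
  exact (h p).trans ((le_abs_self _).trans (hB p hp))

/-! ### the weights -/

variable {P : Par} {t0 CB CN : ℝ} {n : ℕ} {κ t l : ℝ} {F G h : ℝ → T3 → V → ℝ}

variable (C : Ctx P t0 n)

include C

theorem Ctx.goodE : E.GoodE P :=
  ⟨by have := C.hc; linarith only [this], C.good.hl0,
    C.good.hl1, C.good.hk0, C.hkd, C.good.hj⟩

omit C in
theorem meas_sec {φ : ℝ → T3 → V → ℝ} (hφ : Measurable fun p : ℝ × T3 × V => φ p.1 p.2.1 p.2.2)
    (t : ℝ) : Measurable fun p : T3 × V => φ t p.1 p.2 :=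
  hφ.comp (measurable_const.prodMk measurable_id)

theorem Ctx.bd_wt (N : ℕ) (ht : t ∈ Icc 0 (2 * t0)) :
    Bd N fun p => wt P n (2 * t0) t p.1 p.2 :=
  (Bd.const N 1).of_le (meas_sec C.wt_meas t) (fun _ => C.wt_nonneg t ht _ _)
    (fun _ => C.wt_le_one t ht _ _)

theorem Ctx.bd_qq (N : ℕ) (ht : 0 ≤ t) : Bd N fun p => qq P n t p.1 p.2 := by
  refine ⟨meas_sec (measurable_qq P n) t, (n + 1) * (7 * (P.c / P.lam ^ (n + 1)) * (N + 3)),
    ?_, fun p hp => ?_⟩
  · have h1 := C.goodE.c_pos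
    have h2 := C.goodE.lam_pos
    (clear * - h1 h2; positivity)
  · rw [abs_of_nonneg (E.qq_nonneg C.goodE n t _ _)]
    refine (E.qq_le C.goodE n ht _ _).trans ?_
    have h1 := C.goodE.c_pos
    have h2 := C.goodE.lam_pos
    gcongr

theorem Ctx.bd_pp (N : ℕ) (ht : 0 ≤ t) : Bd N fun p => pp P n t p.1 p.2 :=
  (C.bd_qq N ht).of_le (meas_sec (measurable_pp P n) t) (fun _ => E.pp_nonneg C.goodE n t _ _)
    (fun _ => E.pp_le_qq C.goodE n t _ _)

theorem Ctx.bd_qb (N : ℕ) (ht : 0 ≤ t) : Bd N fun p => qb P n t p.1 p.2 :=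
  (C.bd_qq N ht).of_le (meas_sec (measurable_qb P n) t) (fun _ => E.qb_nonneg C.goodE n t _ _)
    (fun _ => E.qb_le_qq C.goodE n t _ _)

theorem Ctx.bd_yy (N : ℕ) (ht : 0 ≤ t) : Bd N fun p => yy P n t p.1 p.2 := by
  have hT := C.TT_pos ht
  refine (Bd.const N (1 / P.TT n t)).of_le (meas_sec (measurable_yy P n) t)
    (fun p => yb_nonneg hT _ _) fun p => ?_
  unfold yy
  gcongr
  refine max_le ?_ zero_le_one
  have h1 := rr_le_one p.1
  have h2 := mul_nonneg (norm_nonneg p.2) hT.le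
  linarith

theorem Ctx.bd_ee (N : ℕ) (ht : 0 ≤ t) : Bd N fun p => ee P n t p.1 p.2 := by
  obtain ⟨B, hB0, hB⟩ := (C.bd_yy N ht).bdd
  refine ⟨meas_sec (measurable_ee P n) t,
    Real.exp (-(2 * P.Vg) - 100) * Real.exp (B + (N : ℝ) ^ 2 / 16), by positivity, fun p hp => ?_⟩
  rw [abs_of_nonneg (ee_pos _ _).le]
  unfold ee
  have h1 := (le_abs_self _).trans (hB p hp)
  gcongr

theorem Ctx.bd_et (N : ℕ) (ht : t ∈ Icc 0 (2 * t0)) :
    Bd N fun p => et P n (2 * t0) t p.1 p.2 :=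
  ((Bd.const N (5 / 4)).mul (C.bd_ee N ht.1)).of_le (meas_sec C.et_meas t)
    (fun _ => C.et_nonneg ht _ _) (fun _ => C.et_le ht _ _)

theorem Ctx.prodE_nonneg (ht : t ∈ Icc 0 (2 * t0)) (x : T3) (v : V) :
    0 ≤ prodE P n t0 t x v := by
  have h1 := (C.TT_pos ht.1).le
  have h2 := (ee_pos (P := P) (n := n) (t := t) x v).le
  have h3 := C.et_nonneg ht x v
  have h4 := E.qb_nonneg C.goodE n t x v
  have h5 := yb_nonneg (P := P) (n := n) (C.TT_pos ht.1) x ‖v‖
  rw [← yy_eq] at h5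
  have h6 := C.goodE.Lam_pos.le
  unfold prodE
  (clear * - h5 h1 h2 h4 h6 h3; positivity)

theorem Ctx.bd_prodE (N : ℕ) (ht : t ∈ Icc 0 (2 * t0)) :
    Bd N fun p => prodE P n t0 t p.1 p.2 := by
  have h1 := ((Bd.const N (1 / P.TT n t)).mul (C.bd_yy N ht.1)).mul (C.bd_ee N ht.1)
  have h2 := ((Bd.const N 500).mul (C.bd_ee N ht.1)).mul (C.bd_qb N ht.1)
  have h3 := (Bd.const N (P.Lam / (2 * P.TT n t))).mul (C.bd_et N ht)
  refine ((h1.add h2).add h3).congr fun p => ?_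
  unfold prodE
  ring

/-! ### the collision terms -/

/-- gain of the hot part -/
def Gn (N : ℕ) (F G h : ℝ → T3 → V → ℝ) (t : ℝ) (p : T3 × V) : ℝ :=
  (DL.pfN N (F t p.1) * (GamN N (nn (G t p.1)) (nn (h t p.1)) p.2 +
    GamN N (nn (h t p.1)) (nn (G t p.1)) p.2 + GamN N (nn (h t p.1)) (nn (h t p.1)) p.2)).toReal

/-- collision frequency -/
def Rt (N : ℕ) (F : ℝ → T3 → V → ℝ) (t : ℝ) (p : T3 × V) : ℝ :=
  (DL.rateP N (F t p.1) p.2).toReal

omit C in
theorem Split.G_le (hs : Split P CB t0 n N κ F G h) (t : ℝ) (x : T3) (v : V) :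
    G t x v ≤ F t x v := by
  rw [hs.eq]
  have := hs.nonnegh t x v
  linarith only [this]

omit C in
theorem Split.h_le (hs : Split P CB t0 n N κ F G h) (t : ℝ) (x : T3) (v : V) :
    h t x v ≤ F t x v := by
  rw [hs.eq]
  have := hs.nonnegG t x v
  linarith

omit C in
theorem Gn_facts (hs : Split P CB t0 n N κ F G h) (ht : 0 ≤ t) :
    Bd0 N (Gn N F G h t) ∧ ∀ x v, DL.pfN N (F t x) * (GamN N (nn (G t x)) (nn (h t x)) v +
      GamN N (nn (h t x)) (nn (G t x)) v + GamN N (nn (h t x)) (nn (h t x)) v) =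
        ENNReal.ofReal (Gn N F G h t (x, v)) := by
  obtain ⟨B, hB⟩ := hs.appr.bdd t
  obtain ⟨C, hC0, hC⟩ := Nm.exists_GamN_le N
  have hB0 : 0 ≤ B := (hs.appr.nonneg t 0 0).trans (hB t ⟨ht, le_rfl⟩ 0 0 (by simp only [norm_zero, Nat.cast_nonneg]))
  have hg : ∀ x v, ‖v‖ ≤ N → nn (G t x) v ≤ ENNReal.ofReal B := fun x v hv =>
    ENNReal.ofReal_le_ofReal ((Split.G_le hs t x v).trans (hB t ⟨ht, le_rfl⟩ x v hv))
  have hh : ∀ x v, ‖v‖ ≤ N → nn (h t x) v ≤ ENNReal.ofReal B := fun x v hv =>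
    ENNReal.ofReal_le_ofReal ((Split.h_le hs t x v).trans (hB t ⟨ht, le_rfl⟩ x v hv))
  have hle : ∀ x v, DL.pfN N (F t x) * (GamN N (nn (G t x)) (nn (h t x)) v +
      GamN N (nn (h t x)) (nn (G t x)) v + GamN N (nn (h t x)) (nn (h t x)) v) ≤
        ENNReal.ofReal (3 * (C * (B * B))) := by
    intro x v
    calc _ ≤ 1 * (GamN N (nn (G t x)) (nn (h t x)) v +
      GamN N (nn (h t x)) (nn (G t x)) v + GamN N (nn (h t x)) (nn (h t x)) v) := by
          gcongr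
          exact DL.pfN_le_one _ _
      _ ≤ 1 * (ENNReal.ofReal (C * (B * B)) + ENNReal.ofReal (C * (B * B)) +
          ENNReal.ofReal (C * (B * B))) := by
          have e : ENNReal.ofReal (C * (B * B)) =
              ENNReal.ofReal C * (ENNReal.ofReal B * ENNReal.ofReal B) := by
            rw [ENNReal.ofReal_mul hC0, ENNReal.ofReal_mul hB0]
          rw [e]
          gcongr
          · exact hC _ _ _ _ (hg x) (hh x) v
          · exact hC _ _ _ _ (hh x) (hg x) v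
          · exact hC _ _ _ _ (hh x) (hh x) v
      _ = _ := by
          rw [one_mul, ← ENNReal.ofReal_add (by (clear * - hC0 hB0; positivity)) (by (clear * - hC0 hB0; positivity)),
            ← ENNReal.ofReal_add (by (clear * - hC0 hB0; positivity)) (by (clear * - hC0 hB0; positivity))]
          congr 1
          ring
  have hne : ∀ x v, DL.pfN N (F t x) * (GamN N (nn (G t x)) (nn (h t x)) v +
      GamN N (nn (h t x)) (nn (G t x)) v + GamN N (nn (h t x)) (nn (h t x)) v) ≠ ⊤ :=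
    fun x v => ((hle x v).trans_lt ENNReal.ofReal_lt_top).ne
  have mF : Measurable fun p : T3 × V => F t p.1 p.2 := meas_sec hs.appr.meas t
  have mG : Measurable fun p : T3 × V => nn (G t p.1) p.2 :=
    (meas_sec hs.measG t).ennreal_ofReal
  have mh : Measurable fun p : T3 × V => nn (h t p.1) p.2 :=
    (meas_sec hs.meash t).ennreal_ofReal
  refine ⟨⟨⟨?_, 3 * (C * (B * B)), by (clear * - hC0 hB0; positivity), ?_⟩, ?_⟩, ?_⟩
  · have m1 := Nm.measurable_GamN N (f := fun x => nn (G t x)) (g := fun x => nn (h t x)) mG mh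
    have m2 := Nm.measurable_GamN N (f := fun x => nn (h t x)) (g := fun x => nn (G t x)) mh mG
    have m3 := Nm.measurable_GamN N (f := fun x => nn (h t x)) (g := fun x => nn (h t x)) mh mh
    have m4 : Measurable fun p : T3 × V => DL.pfN N (F t p.1) :=
      (DL.measurable_pfN N mF).comp measurable_fst
    exact (m4.mul ((m1.add m2).add m3)).ennreal_toReal
  · intro p _
    unfold Gn
    rw [abs_of_nonneg ENNReal.toReal_nonneg]
    exact ENNReal.toReal_le_of_le_ofReal (by (clear * - hC0 hB0; positivity)) (hle p.1 p.2)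
  · intro p hp
    unfold Gn
    rw [Nm.GamN_eq_zero hp, Nm.GamN_eq_zero hp, Nm.GamN_eq_zero hp]
    simp
  · intro x v
    unfold Gn
    rw [ENNReal.ofReal_toReal (hne x v)]

omit C in
theorem Rt_facts (hs : Split P CB t0 n N κ F G h) (ht : 0 ≤ t) :
    Bd N (Rt N F t) ∧ ∀ x v, DL.pfN N (F t x) * RW N (fun u => nn (G t x) u + nn (h t x) u) v =
        ENNReal.ofReal (Rt N F t (x, v)) := by
  obtain ⟨B, hB⟩ := hs.appr.bdd t
  obtain ⟨K, hK0, hK⟩ := DL.rateP_le N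
  have hB0 : 0 ≤ B := (hs.appr.nonneg t 0 0).trans (hB t ⟨ht, le_rfl⟩ 0 0 (by simp only [norm_zero, Nat.cast_nonneg]))
  have mF : Measurable fun p : T3 × V => F t p.1 p.2 := meas_sec hs.appr.meas t
  have mFx : ∀ x, Measurable (F t x) := fun x => mF.comp measurable_prodMk_left
  have hle : ∀ x v, DL.rateP N (F t x) v ≤ ENNReal.ofReal (K * B) := fun x v =>
    hK (F t x) (mFx x) (hs.appr.nonneg t x) B (hB t ⟨ht, le_rfl⟩ x) v
  have hne : ∀ x v, DL.rateP N (F t x) v ≠ ⊤ :=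
    fun x v => ((hle x v).trans_lt ENNReal.ofReal_lt_top).ne
  refine ⟨⟨?_, K * B, by (clear * - hK0 hB0; positivity), ?_⟩, ?_⟩
  · exact (DL.measurable_rateP N mF).ennreal_toReal
  · intro p _
    unfold Rt
    rw [abs_of_nonneg ENNReal.toReal_nonneg]
    exact ENNReal.toReal_le_of_le_ofReal (by (clear * - hK0 hB0; positivity)) (hle p.1 p.2)
  · intro x v
    unfold Rt
    rw [ENNReal.ofReal_toReal (hne x v), DL.rateP, rateN_eq_RW (F t x) (mFx x)
      (hs.appr.nonneg t x)]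
    congr 2
    funext u
    unfold nn
    rw [hs.eq t x u, ENNReal.ofReal_add (hs.nonnegG t x u) (hs.nonnegh t x u)]

omit C in
theorem bd_h (hN : 3 ≤ N) (hs : Split P CB t0 n N κ F G h) (ht : 0 ≤ t) :
    Bd0 N fun p => h t p.1 p.2 := by
  obtain ⟨B, hB0, hB⟩ := Split.hot_bdd hN hs t
  refine ⟨⟨meas_sec hs.meash t, B, hB0, fun p _ => ?_⟩, fun p hp => ?_⟩
  · rw [abs_of_nonneg (hs.nonnegh t _ _)]
    exact (hB t ⟨ht, le_rfl⟩ p.1 p.2).1
  · exact (hB t ⟨ht, le_rfl⟩ p.1 p.2).2.1 hp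

omit C in
/-- abstract form of the integration in `x` -/
theorem int_ineq {fa1 fa2 fa3 fb1 fb2 fb3 fb4 : T3 × V → ℝ} (ha1 : Bd0 N fa1) (ha2 : Bd0 N fa2)
    (ha3 : Bd0 N fa3) (hb1 : Bd0 N fb1) (hb2 : Bd0 N fb2) (hb3 : Bd0 N fb3) (hb4 : Bd0 N fb4)
    (a1 : ∀ p, 0 ≤ fa1 p) (a2 : ∀ p, 0 ≤ fa2 p) (a3 : ∀ p, 0 ≤ fa3 p) (b1 : ∀ p, 0 ≤ fb1 p)
    (b2 : ∀ p, 0 ≤ fb2 p) (b3 : ∀ p, 0 ≤ fb3 p) (b4 : ∀ p, 0 ≤ fb4 p) {er : T3 → ℝ≥0∞} {e : ℝ}
    (he : ∫⁻ x, er x ≤ ENNReal.ofReal e) (he0 : 0 ≤ e) (hl0 : 0 ≤ l)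
    (hx : ∀ x, (∫⁻ v, ENNReal.ofReal (fa1 (x, v))) + (∫⁻ v, ENNReal.ofReal (fa2 (x, v))) +
      ENNReal.ofReal l * (∫⁻ v, ENNReal.ofReal (fa3 (x, v))) ≤
      (∫⁻ v, ENNReal.ofReal (fb1 (x, v))) + (∫⁻ v, ENNReal.ofReal (fb2 (x, v))) +
      (∫⁻ v, ENNReal.ofReal (fb3 (x, v))) +
      ENNReal.ofReal l * (∫⁻ v, ENNReal.ofReal (fb4 (x, v))) + er x) :
    (∫ p, fa1 p) + (∫ p, fa2 p) + l * (∫ p, fa3 p) ≤
      (∫ p, fb1 p) + (∫ p, fb2 p) + (∫ p, fb3 p) + l * (∫ p, fb4 p) + e := by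
  have m : ∀ {f : T3 × V → ℝ}, Bd0 N f → Measurable fun x => ∫⁻ v, ENNReal.ofReal (f (x, v)) :=
    fun hf => hf.bd.meas.ennreal_ofReal.lintegral_prod_right'
  have h1 := lintegral_mono (μ := (volume : Measure T3)) hx
  have ad : ∀ {f g : T3 → ℝ≥0∞}, Measurable f → Measurable g → Measurable fun x => f x + g x :=
    fun hf hg => hf.add hg
  have mc : ∀ {f : T3 → ℝ≥0∞}, Measurable f → Measurable fun x => ENNReal.ofReal l * f x :=
    fun hf => hf.const_mul _
  rw [lintegral_add_left (ad (m ha1) (m ha2)), lintegral_add_left (m ha1),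
    lintegral_const_mul _ (m ha3),
    lintegral_add_left (ad (ad (ad (m hb1) (m hb2)) (m hb3)) (mc (m hb4))),
    lintegral_add_left (ad (ad (m hb1) (m hb2)) (m hb3)),
    lintegral_add_left (ad (m hb1) (m hb2)), lintegral_add_left (m hb1),
    lintegral_const_mul _ (m hb4), ha1.lint a1, ha2.lint a2, ha3.lint a3, hb1.lint b1,
    hb2.lint b2, hb3.lint b3, hb4.lint b4] at h1
  have h2 := h1.trans (add_le_add le_rfl he)
  have i : ∀ {f : T3 × V → ℝ}, (∀ p, 0 ≤ f p) → 0 ≤ ∫ p, f p := fun hf => integral_nonneg hf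
  have A1 := i a1
  have A2 := i a2
  have A3 := mul_nonneg hl0 (i a3)
  have B1 := i b1
  have B2 := i b2
  have B3 := i b3
  have B4 := mul_nonneg hl0 (i b4)
  rw [← ENNReal.ofReal_mul hl0, ← ENNReal.ofReal_mul hl0, ← ENNReal.ofReal_add A1 A2,
    ← ENNReal.ofReal_add (add_nonneg A1 A2) A3, ← ENNReal.ofReal_add B1 B2,
    ← ENNReal.ofReal_add (add_nonneg B1 B2) B3,
    ← ENNReal.ofReal_add (add_nonneg (add_nonneg B1 B2) B3) B4,
    ← ENNReal.ofReal_add (add_nonneg (add_nonneg (add_nonneg B1 B2) B3) B4) he0] at h2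
  exact (ENNReal.ofReal_le_ofReal_iff (add_nonneg (add_nonneg (add_nonneg (add_nonneg B1 B2) B3)
    B4) he0)).1 h2

omit C in
theorem int_lin {f1 f2 f3 f4 f5 g1 g2 g3 g4 : T3 × V → ℝ} (i1 : Integrable f1)
    (i2 : Integrable f2) (i3 : Integrable f3) (i4 : Integrable f4) (i5 : Integrable f5)
    (j1 : Integrable g1) (j2 : Integrable g2) (j3 : Integrable g3) (j4 : Integrable g4)
    (A B : ℝ) :
    ∫ p, (f1 p + f2 p + f3 p + l * f4 p + A * f5 p - (g1 p + g2 p + l * g3 p + B * g4 p)) =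
      (∫ p, f1 p) + (∫ p, f2 p) + (∫ p, f3 p) + l * (∫ p, f4 p) + A * (∫ p, f5 p) -
        ((∫ p, g1 p) + (∫ p, g2 p) + l * (∫ p, g3 p) + B * (∫ p, g4 p)) := by
  have ad : ∀ {f g : T3 × V → ℝ}, Integrable f → Integrable g →
      Integrable fun p => f p + g p := fun hf hg => hf.add hg
  have k4 := i4.const_mul l
  have k5 := i5.const_mul A
  have m3 := j3.const_mul l
  have m4 := j4.const_mul B
  rw [integral_sub (ad (ad (ad (ad i1 i2) i3) k4) k5) (ad (ad (ad j1 j2) m3) m4),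
    integral_add (ad (ad (ad i1 i2) i3) k4) k5, integral_add (ad (ad i1 i2) i3) k4,
    integral_add (ad i1 i2) i3, integral_add i1 i2, integral_add (ad (ad j1 j2) m3) m4,
    integral_add (ad j1 j2) m3, integral_add j1 j2, integral_const_mul, integral_const_mul,
    integral_const_mul, integral_const_mul]

/-- the static inequality -/
theorem Ctx.static_real (hE : CtxE P t0 n CB CN) (hN3 : 3 ≤ N) (hN : 10 ^ 3 / P.m1 ≤ N)
    (hN2 : P.Vg + 2 ≤ N) (hs : Split P CB t0 n N κ F G h) (ht : t ∈ Icc 0 t0)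
    (hl0 : 0 ≤ l) (hl4 : l ≤ 4) {Hr : ℝ} (hHr : 0 ≤ Hr)
    (hH : ∀ x v, ENNReal.ofReal (h t x v) ≤ ENNReal.ofReal Hr * Pi P n (1 / 8) t x v)
    (hlow : ∀ x u, ENNReal.ofReal (19 / 20) * cf P n t x u ≤ ENNReal.ofReal (G t x u))
    (hpf : ∀ x, ENNReal.ofReal (19 / 20) ≤ DL.pfN N (F t x))
    (hsm : CN * (1 + P.Vg) * (1 + Hr) * NN P n (2 * t0) h t +
      2048 * CN ^ 2 * P.TT n t ^ 2 * (1 + Hr) * Hr ≤ 1 / 10 / P.TT n t * NN P n (2 * t0) h t) :
    Static P n N (2 * t0) l F G h t := by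
  have ht2 : t ∈ Icc 0 (2 * t0) := ⟨ht.1, by linarith only [ht.2, C.ht0]⟩
  have mG : ∀ x, Measurable (nn (G t x)) := fun x =>
    ((meas_sec hs.measG t).comp measurable_prodMk_left).ennreal_ofReal
  have mh : ∀ x, Measurable (nn (h t x)) := fun x =>
    ((meas_sec hs.meash t).comp measurable_prodMk_left).ennreal_ofReal
  have mb : ∀ x, Measurable (bb P CB n t x) := fun x =>
    (hE.meas_bb.comp (measurable_const.prodMk (measurable_const.prodMk measurable_id)) :)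
  obtain ⟨bG, eG⟩ := Gn_facts hs ht.1
  obtain ⟨bR, eR⟩ := Rt_facts hs ht.1
  have bh := bd_h hN3 hs ht.1
  have bwt := C.bd_wt N ht2
  have bet := C.bd_et N ht2
  have h0 : ∀ p : T3 × V, 0 ≤ h t p.1 p.2 := fun p => hs.nonnegh t _ _
  have w0 : ∀ p : T3 × V, 0 ≤ wt P n (2 * t0) t p.1 p.2 := fun p => C.wt_nonneg t ht2 _ _
  have e0 : ∀ p : T3 × V, 0 ≤ et P n (2 * t0) t p.1 p.2 := fun p => C.et_nonneg ht2 _ _
  have G0 : ∀ p : T3 × V, 0 ≤ Gn N F G h t p := fun p => ENNReal.toReal_nonneg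
  have R0 : ∀ p : T3 × V, 0 ≤ Rt N F t p := fun p => ENNReal.toReal_nonneg
  have p0 : ∀ p : T3 × V, 0 ≤ pp P n t p.1 p.2 := fun p => E.pp_nonneg C.goodE n t _ _
  have q0 : ∀ p : T3 × V, 0 ≤ qq P n t p.1 p.2 := fun p => E.qq_nonneg C.goodE n t _ _
  have r0 : ∀ p : T3 × V, 0 ≤ prodE P n t0 t p.1 p.2 := fun p => C.prodE_nonneg ht2 _ _
  -- the functions
  have ba1 : Bd0 N fun p => pp P n t p.1 p.2 * h t p.1 p.2 := (C.bd_pp N ht.1).mul0 bh
  have ba2 : Bd0 N fun p => Rt N F t p * (wt P n (2 * t0) t p.1 p.2 * h t p.1 p.2) :=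
    bR.mul0 (bwt.mul0 bh)
  have ba3 : Bd0 N fun p => et P n (2 * t0) t p.1 p.2 * Gn N F G h t p := bet.mul0 bG
  have bb1 : Bd0 N fun p => qq P n t p.1 p.2 * (wt P n (2 * t0) t p.1 p.2 * h t p.1 p.2) :=
    (C.bd_qq N ht.1).mul0 (bwt.mul0 bh)
  have bb2 : Bd0 N fun p => l * prodE P n t0 t p.1 p.2 * h t p.1 p.2 :=
    ((Bd.const N l).mul (C.bd_prodE N ht2)).mul0 bh
  have bb3 : Bd0 N fun p => wt P n (2 * t0) t p.1 p.2 * Gn N F G h t p := bwt.mul0 bG
  have bb4 : Bd0 N fun p => Rt N F t p * (et P n (2 * t0) t p.1 p.2 * h t p.1 p.2) :=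
    bR.mul0 (bet.mul0 bh)
  have bw : Bd0 N fun p => wt P n (2 * t0) t p.1 p.2 * h t p.1 p.2 := bwt.mul0 bh
  have be : Bd0 N fun p => et P n (2 * t0) t p.1 p.2 * h t p.1 p.2 := bet.mul0 bh
  have hNN0 : 0 ≤ NN P n (2 * t0) h t := integral_nonneg fun p => mul_nonneg (w0 p) (h0 p)
  have hNE0 : 0 ≤ NE P n (2 * t0) h t := integral_nonneg fun p => mul_nonneg (e0 p) (h0 p)
  -- the error
  have hVg := C.goodE.Vg_pos
  have hT := C.TT_pos ht.1
  have hCN : 0 ≤ CN := zero_le_one.trans hE.CN0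
  have herr := C.Err_le hE ht hl0 hl4 (h := fun x => nn (h t x))
    ((meas_sec hs.meash t).ennreal_ofReal) (H := ENNReal.ofReal Hr) (fun x u => hH x u)
  have hwint : ∫⁻ x, ∫⁻ v, wh P n t0 t x v * nn (h t x) v =
      ENNReal.ofReal (NN P n (2 * t0) h t) :=
    bw.lint' (fun p => mul_nonneg (w0 p) (h0 p)) fun x v =>
      (ENNReal.ofReal_mul (w0 (x, v))).symm
  have herr2 : ∫⁻ x, ErrX P n t0 t x l (bb P CB n t x) (nn (h t x)) ≤
      ENNReal.ofReal (CN * (1 + P.Vg) * (1 + Hr) * NN P n (2 * t0) h t +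
        2048 * CN ^ 2 * P.TT n t ^ 2 * (1 + Hr) * Hr) := by
    refine herr.trans (le_of_eq ?_)
    have e1 : (1 : ℝ≥0∞) + ENNReal.ofReal Hr = ENNReal.ofReal (1 + Hr) := by
      rw [ENNReal.ofReal_add zero_le_one hHr, ENNReal.ofReal_one]
    rw [hwint, e1, ← ENNReal.ofReal_mul (by (clear * - hCN hVg; positivity)), ← ENNReal.ofReal_mul (by (clear * - hCN hVg hHr; positivity)),
      ← ENNReal.ofReal_mul (by (clear * - hT; positivity)), ← ENNReal.ofReal_mul (by (clear * - hT hHr; positivity)),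
      ← ENNReal.ofReal_add (by (clear * - hCN hVg hHr hNN0; positivity)) (by (clear * - hT hHr; positivity))]
  have hθ : ∀ x, ENNReal.ofReal (9 / 10) ≤ ENNReal.ofReal (19 / 20) * DL.pfN N (F t x) := by
    intro x
    calc ENNReal.ofReal (9 / 10) ≤ ENNReal.ofReal (19 / 20 * (19 / 20)) :=
          ENNReal.ofReal_le_ofReal (by norm_num)
      _ = ENNReal.ofReal (19 / 20) * ENNReal.ofReal (19 / 20) :=
          ENNReal.ofReal_mul (by norm_num)
      _ ≤ _ := by gcongr; exact hpf x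
  have key := int_ineq (l := l) ba1 ba2 ba3 bb1 bb2 bb3 bb4
    (fun p => mul_nonneg (p0 p) (h0 p)) (fun p => mul_nonneg (R0 p) (mul_nonneg (w0 p) (h0 p)))
    (fun p => mul_nonneg (e0 p) (G0 p)) (fun p => mul_nonneg (q0 p) (mul_nonneg (w0 p) (h0 p)))
    (fun p => mul_nonneg (mul_nonneg hl0 (r0 p)) (h0 p)) (fun p => mul_nonneg (w0 p) (G0 p))
    (fun p => mul_nonneg (R0 p) (mul_nonneg (e0 p) (h0 p))) herr2 (by (clear * - hCN hVg hHr hNN0 hT; positivity)) hl0 ?_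
  · -- linear combination
    obtain ⟨A, hA⟩ : ∃ A, A = P.Lam / P.TT n t := ⟨_, rfl⟩
    have hA2 : P.Lam / (2 * P.TT n t) = A / 2 := by
      rw [hA]; ring
    have e1 : ∀ p : T3 × V, om P n (2 * t0) l t p.1 p.2 * h t p.1 p.2 +
        Wl P n (2 * t0) l t p.1 p.2 * Qh N (F t p.1) (G t p.1) (h t p.1) p.2 =
        (qq P n t p.1 p.2 * (wt P n (2 * t0) t p.1 p.2 * h t p.1 p.2) +
          l * prodE P n t0 t p.1 p.2 * h t p.1 p.2 +
          wt P n (2 * t0) t p.1 p.2 * Gn N F G h t p +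
          l * (Rt N F t p * (et P n (2 * t0) t p.1 p.2 * h t p.1 p.2)) +
          A * (wt P n (2 * t0) t p.1 p.2 * h t p.1 p.2)) -
        (pp P n t p.1 p.2 * h t p.1 p.2 +
          Rt N F t p * (wt P n (2 * t0) t p.1 p.2 * h t p.1 p.2) +
          l * (et P n (2 * t0) t p.1 p.2 * Gn N F G h t p) +
          l * (A / 2) * (et P n (2 * t0) t p.1 p.2 * h t p.1 p.2)) := by
      intro p
      have eQ : Qh N (F t p.1) (G t p.1) (h t p.1) p.2 =
          Gn N F G h t p - h t p.1 p.2 * Rt N F t p := rfl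
      rw [eQ]
      unfold om Wl prodE
      rw [hA2, ← hA]
      ring
    unfold Static
    rw [integral_congr_ae (Eventually.of_forall e1), int_lin bb1.integrable bb2.integrable
      bb3.integrable bb4.integrable bw.integrable ba1.integrable ba2.integrable ba3.integrable
      be.integrable, hA2, ← hA]
    have hNN : NN P n (2 * t0) h t =
      ∫ p : T3 × V, wt P n (2 * t0) t p.1 p.2 * h t p.1 p.2 := rfl
    have hNE : NE P n (2 * t0) h t =
      ∫ p : T3 × V, et P n (2 * t0) t p.1 p.2 * h t p.1 p.2 := rfl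
    rw [← hNN, ← hNE]
    have hne2 : 0 ≤ 1 / 10 / P.TT n t * NE P n (2 * t0) h t := by (clear * - hT hNE0; positivity)
    linarith only [key, hsm, hne2]
  · intro x
    have hst := C.static_x (x := x) hN hN2 ht hl0 hl4 (DL.pfN_le_one N (F t x))
      (θ1 := ENNReal.ofReal (19 / 20)) (by
        rw [← ENNReal.ofReal_one]; exact ENNReal.ofReal_le_ofReal (by norm_num)) (hθ x)
      (mG x) (mh x) (mb x) (fun u => hlow x u) (fun u => by
        have := hs.up t ht x u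
        unfold bb nn
        rw [← add_assoc]
        exact this)
    have d1 : ∀ v, ENNReal.ofReal (pp P n t x v) * nn (h t x) v =
        ENNReal.ofReal (pp P n t x v * h t x v) := fun v =>
      (ENNReal.ofReal_mul (p0 (x, v))).symm
    have d2 : ∀ v, wh P n t0 t x v * nn (h t x) v *
        (DL.pfN N (F t x) * RW N (fun u => nn (G t x) u + nn (h t x) u) v) =
        ENNReal.ofReal (Rt N F t (x, v) * (wt P n (2 * t0) t x v * h t x v)) := fun v => by
      rw [eR x v, ENNReal.ofReal_mul (R0 (x, v)), ENNReal.ofReal_mul (w0 (x, v)), mul_comm]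
      rfl
    have d3 : ∀ v, eh P n t0 t x v * (DL.pfN N (F t x) * (GamN N (nn (G t x)) (nn (h t x)) v +
        GamN N (nn (h t x)) (nn (G t x)) v + GamN N (nn (h t x)) (nn (h t x)) v)) =
        ENNReal.ofReal (et P n (2 * t0) t x v * Gn N F G h t (x, v)) := fun v => by
      rw [eG x v, ENNReal.ofReal_mul (e0 (x, v))]
      rfl
    have d4 : ∀ v, ENNReal.ofReal (qq P n t x v) * (wh P n t0 t x v * nn (h t x) v) =
        ENNReal.ofReal (qq P n t x v * (wt P n (2 * t0) t x v * h t x v)) := fun v => by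
      rw [ENNReal.ofReal_mul (q0 (x, v)), ENNReal.ofReal_mul (w0 (x, v))]
      rfl
    have d5 : ∀ v, ENNReal.ofReal (l * prodE P n t0 t x v) * nn (h t x) v =
        ENNReal.ofReal (l * prodE P n t0 t x v * h t x v) := fun v =>
      (ENNReal.ofReal_mul (mul_nonneg hl0 (r0 (x, v)))).symm
    have d6 : ∀ v, wh P n t0 t x v * (DL.pfN N (F t x) * (GamN N (nn (G t x)) (nn (h t x)) v +
        GamN N (nn (h t x)) (nn (G t x)) v + GamN N (nn (h t x)) (nn (h t x)) v)) =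
        ENNReal.ofReal (wt P n (2 * t0) t x v * Gn N F G h t (x, v)) := fun v => by
      rw [eG x v, ENNReal.ofReal_mul (w0 (x, v))]
      rfl
    have d7 : ∀ v, eh P n t0 t x v * nn (h t x) v *
        (DL.pfN N (F t x) * RW N (fun u => nn (G t x) u + nn (h t x) u) v) =
        ENNReal.ofReal (Rt N F t (x, v) * (et P n (2 * t0) t x v * h t x v)) := fun v => by
      rw [eR x v, ENNReal.ofReal_mul (R0 (x, v)), ENNReal.ofReal_mul (e0 (x, v)), mul_comm]
      rfl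
    rw [lintegral_congr d1, lintegral_congr d2, lintegral_congr d3, lintegral_congr d4,
      lintegral_congr d5, lintegral_congr d6, lintegral_congr d7] at hst
    exact hst

end Vale.Agent.P140.NU.J
end
end

section

/-!
P140-NU, module J: the prefactor is close to one.
-/

open MeasureTheory Set Filter
open scoped ENNReal Topology

noncomputable section

namespace Vale.Agent.P140.NU.J

variable {P : Par} {t0 CB CN : ℝ} {n N : ℕ} {κ : ℝ} {F G h : ℝ → T3 → V → ℝ}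

/-- the density weight is at least one -/
theorem prefac_wt (u : V) : 1 ≤ ENNReal.ofReal ((1 + ‖u‖) * Real.exp (‖u‖ ^ 2 / 16)) := by
  rw [← ENNReal.ofReal_one]
  refine ENNReal.ofReal_le_ofReal ?_
  have h1 : 1 ≤ Real.exp (‖u‖ ^ 2 / 16) := Real.one_le_exp (by (clear * -; positivity))
  have h2 : 1 ≤ 1 + ‖u‖ := by linarith only [norm_nonneg u]
  exact one_le_mul_of_one_le_of_one_le h2 h1

/-- from a bound for the density to a bound for the prefactor -/
theorem prefac_of_rho {N : ℕ} {f : V → ℝ} (hN1 : 1 ≤ N)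
    (h : DL.rhoN N f ≤ ENNReal.ofReal (N / 20)) : ENNReal.ofReal (19 / 20) ≤ DL.pfN N f := by
  unfold DL.pfN
  have i5 : DL.rhoN N f / (N : ℝ≥0∞) ≤ ENNReal.ofReal (1 / 20) := by
    refine ENNReal.div_le_of_le_mul (h.trans (le_of_eq ?_))
    rw [← ENNReal.ofReal_natCast, ← ENNReal.ofReal_mul (by (clear * -; norm_num))]
    congr 1
    ring
  calc ENNReal.ofReal (19 / 20) ≤ ENNReal.ofReal ((1 + 1 / 20)⁻¹) :=
        ENNReal.ofReal_le_ofReal (by norm_num)
    _ = (1 + ENNReal.ofReal (1 / 20))⁻¹ := by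
        rw [ENNReal.ofReal_inv_of_pos (by norm_num), ENNReal.ofReal_add (by norm_num) (by norm_num),
          ENNReal.ofReal_one]
    _ ≤ (1 + DL.rhoN N f / (N : ℝ≥0∞))⁻¹ := ENNReal.inv_le_inv.2 (add_le_add le_rfl i5)

variable (C : Ctx P t0 n)

include C

/-- mass of the cold gas -/
theorem Ctx.prefac_cf {t : ℝ} (ht : t ∈ Icc 0 t0) (x : T3) :
    ∫⁻ v, cf P n t x v ≤ ENNReal.ofReal (2 * P.c / P.lam ^ (n + 1)) := by
  have hl : 0 < P.lam ^ (n + 1) := C.good.lamj_pos (n + 1)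
  have hc : 0 < P.c := C.good.c_pos
  have ht2 : t ∈ Icc 0 (2 * t0) := ⟨ht.1, ht.2.trans (by linarith only [C.ht0])⟩
  by_cases h0 : ∀ v, cf P n t x v = 0
  · rw [lintegral_congr h0, lintegral_zero]
    exact zero_le
  · push Not at h0
    obtain ⟨v, hv⟩ := h0
    obtain ⟨j, hj, hx, -⟩ := C.cf_support t ht2 x v hv
    have h1 := C.rr_ge ht.1 hj (by unfold gg; norm_num) hx
    have h2 : P.lam ^ (n + 1) ≤ P.w * P.TT n t := by
      have hw := C.good.w_pos
      have h3 : P.w * P.TT n t = P.w * t + P.lam ^ (n + 1) := by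
        unfold Par.TT Par.ss
        rw [mul_add, mul_div_cancel₀ _ hw.ne']
      rw [h3]
      have := mul_nonneg hw.le ht.1
      linarith only [this]
    refine (C.cf_mass_le t ht2 x).trans (ENNReal.ofReal_le_ofReal ?_)
    have h4 : P.lam ^ (n + 1) ≤ rr x := h2.trans h1
    have h5 : 0 < rr x := hl.trans_le h4
    rw [div_le_div_iff₀ h5 hl]
    have h6 : P.c * P.lam ^ (n + 1) ≤ P.c * rr x := mul_le_mul_of_nonneg_left h4 hc.le
    have h7 : 0 < P.c * rr x := mul_pos hc h5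
    linarith only [h6, h7]

omit C in
/-- sections of measurable functions on `ℝ × T3 × V` -/
theorem prefac_sec {f : ℝ × T3 × V → ℝ≥0∞} (hf : Measurable f) (t : ℝ) (x : T3) :
    Measurable fun v : V => f (t, x, v) :=
  hf.comp (measurable_prodMk_left.comp measurable_prodMk_left)

theorem Ctx.prefac_meas (t : ℝ) (x : T3) : Measurable fun v => cf P n t x v :=
  prefac_sec C.cf_meas t x

omit C in
theorem prefac_meas2 (E : CtxE P t0 n CB CN) (t : ℝ) (x : T3) :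
    Measurable fun v => bb P CB n t x v :=
  prefac_sec E.meas_bb t x

omit C in
theorem prefac_bb (E : CtxE P t0 n CB CN) {t : ℝ} (ht : t ∈ Icc 0 t0) (x : T3) :
    ∫⁻ v, bb P CB n t x v ≤ ENNReal.ofReal CN :=
  (lintegral_mono fun u => le_mul_of_one_le_right' (prefac_wt u)).trans (E.intb t ht x)

omit C in
theorem prefac_Pi (E : CtxE P t0 n CB CN) {t : ℝ} (ht : t ∈ Icc 0 t0) (x : T3) :
    ∫⁻ v, Pi P n (1 / 8) t x v ≤ ENNReal.ofReal CN :=
  (lintegral_mono fun u => le_mul_of_one_le_right' (prefac_wt u)).trans (E.intPi t ht x)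

omit C in
theorem prefac_le (hs : Split P CB t0 n N κ F G h) {t H : ℝ} (ht : t ∈ Icc 0 t0)
    (hH : ∀ x v, ENNReal.ofReal (h t x v) ≤ ENNReal.ofReal H * Pi P n (1 / 8) t x v) (x : T3)
    (v : V) : ENNReal.ofReal (F t x v) ≤ cf P n t x v + bb P CB n t x v +
      ENNReal.ofReal H * Pi P n (1 / 8) t x v := by
  rw [hs.eq t x v, ENNReal.ofReal_add (hs.nonnegG t x v) (hs.nonnegh t x v)]
  refine add_le_add ?_ (hH x v)
  have := hs.up t ht x v
  rwa [add_assoc] at this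

/-- density of the slow particles -/
theorem Ctx.prefac_rho (E : CtxE P t0 n CB CN) (hs : Split P CB t0 n N κ F G h) {t H : ℝ}
    (ht : t ∈ Icc 0 t0) (hH0 : 0 ≤ H)
    (hH : ∀ x v, ENNReal.ofReal (h t x v) ≤ ENNReal.ofReal H * Pi P n (1 / 8) t x v) (x : T3) :
    DL.rhoN N (F t x) ≤ ENNReal.ofReal (2 * P.c / P.lam ^ (n + 1) + CN + CN * H) := by
  have hl : 0 < P.lam ^ (n + 1) := C.good.lamj_pos (n + 1)
  have hc : 0 < P.c := C.good.c_pos
  have hCN : 0 ≤ CN := zero_le_one.trans E.CN0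
  have hq : 0 ≤ 2 * P.c / P.lam ^ (n + 1) := by (clear * - hc hl; positivity)
  have h1 : ∫⁻ v, (cf P n t x v + bb P CB n t x v + ENNReal.ofReal H * Pi P n (1 / 8) t x v) =
      (∫⁻ v, cf P n t x v) + (∫⁻ v, bb P CB n t x v) +
        ENNReal.ofReal H * ∫⁻ v, Pi P n (1 / 8) t x v := by
    have h3 : Measurable fun v => cf P n t x v + bb P CB n t x v :=
      (C.prefac_meas t x).add (prefac_meas2 E t x)
    rw [lintegral_add_left h3, lintegral_add_left (C.prefac_meas t x),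
      lintegral_const_mul' _ _ ENNReal.ofReal_ne_top]
  have h2 : ENNReal.ofReal (2 * P.c / P.lam ^ (n + 1) + CN + CN * H) =
      ENNReal.ofReal (2 * P.c / P.lam ^ (n + 1)) + ENNReal.ofReal CN +
        ENNReal.ofReal H * ENNReal.ofReal CN := by
    rw [← ENNReal.ofReal_mul hH0, ← ENNReal.ofReal_add hq hCN,
      ← ENNReal.ofReal_add (add_nonneg hq hCN) (mul_nonneg hH0 hCN), mul_comm H CN]
  rw [h2]
  calc DL.rhoN N (F t x) ≤ ∫⁻ v, ENNReal.ofReal (F t x v) := setLIntegral_le_lintegral _ _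
    _ ≤ _ := lintegral_mono (prefac_le hs ht hH x)
    _ = _ := h1
    _ ≤ _ := add_le_add (add_le_add (C.prefac_cf ht x) (prefac_bb E ht x))
        (mul_le_mul_right (prefac_Pi E ht x) _)

/-- prefactor: `rhoN N F ≤ ∫ (cf + bb + h) ≤ 1.001 c / λ^{n+1} + CN + CN H` (`cf ≠ 0` only where
`r ≥ λ^{n+1}`) and `1 / (1 + ρ/N) ≥ 19/20` if `ρ ≤ N/20 · 19/20`.. (`ρ ≤ N/20` suffices) -/
theorem Ctx.prefactor (E : CtxE P t0 n CB CN) (hs : Split P CB t0 n N κ F G h) {t H : ℝ}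
    (ht : t ∈ Icc 0 t0) (hH0 : 0 ≤ H)
    (hH : ∀ x v, ENNReal.ofReal (h t x v) ≤ ENNReal.ofReal H * Pi P n (1 / 8) t x v)
    (hN1 : 1 ≤ N)
    (hN : 2 * P.c / P.lam ^ (n + 1) + CN + CN * H ≤ N / 20) (x : T3) :
    ENNReal.ofReal (19 / 20) ≤ DL.pfN N (F t x) :=
  prefac_of_rho hN1 ((C.prefac_rho E hs ht hH0 hH x).trans (ENNReal.ofReal_le_ofReal hN))

end Vale.Agent.P140.NU.J
end
end

section

/-!
P140, non-uniqueness, module J, part 1: the static inequality implies growth.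
-/

open MeasureTheory Set Filter
open scoped ENNReal Topology

noncomputable section

namespace Vale.Agent.P140.NU.J

open Vale.Agent.P140.NU.E

variable {P : Par} (hP : GoodE P) {n N : ℕ} {te l t0 t1 CB κ : ℝ} {F G h : ℝ → T3 → V → ℝ}

theorem hot_zero (hs : Split P CB t0 n N κ F G h) (x : T3) (v : V) :
    h 0 x v = κ * seed P n x v := by
  have := hs.mild 0 le_rfl x v
  rw [mv_zero] at this
  simpa only [lt_self_iff_false, not_false_eq_true, Ioc_eq_empty, Measure.restrict_empty, integral_zero_measure,     add_zero] using this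

include hP

/-- on the seed the weight `et` is tiny at time `0` -/
theorem et_seed {x : T3} {v : V} (hx : seed P n x v ≠ 0)
    (he : 500 * ∫ τ in (0 : ℝ)..te, qb P n τ (mv x v (τ - 0)) v ≤ 1 / 4) :
    et P n te 0 x v ≤ 1 / 100 := by
  have hσ := hP.ss_pos n
  have hr : rr x ≤ 2 * P.ss n ∧ ‖v‖ ≤ 3 := by
    unfold seed at hx
    split_ifs at hx with hc
    · exact ⟨hc.2.1, hc.2.2.2.2⟩
    · exact absurd rfl hx
  have hy : yy P n 0 x v ≤ 2 := by
    have h1 := yy_mul_TT hP n (le_refl (0 : ℝ)) x v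
    have hT : P.TT n 0 = P.ss n := by
      unfold Par.TT
      ring
    rw [hT] at h1
    have h2 : max (rr x - ‖v‖ * P.ss n) 0 ≤ 2 * P.ss n := by
      refine max_le ?_ (by (clear * - hσ; positivity))
      have := mul_nonneg (norm_nonneg v) hσ.le
      linarith only [hr, this]
    rw [← h1] at h2
    exact le_of_mul_le_mul_right h2 hσ
  have hv2 : ‖v‖ ^ 2 ≤ 9 := by
    have := hr.2
    have := norm_nonneg v
    nlinarith only [hr, this]
  have hV := hP.Vg_pos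
  have hee : ee P n 0 x v ≤ Real.exp (-96) := by
    unfold ee
    rw [← Real.exp_add]
    refine Real.exp_le_exp.mpr ?_
    linarith only [hy, hv2, hV]
  have h96 : Real.exp (-96 : ℝ) ≤ 1 / 200 := by
    have h1 : (96 : ℝ) + 1 ≤ Real.exp 96 := Real.add_one_le_exp 96
    have h2 : Real.exp (8 : ℝ) ≤ Real.exp 96 := Real.exp_le_exp.mpr (by norm_num)
    have h3 : (200 : ℝ) ≤ Real.exp 8 := by
      have h4 : Real.exp 8 = Real.exp 1 ^ 8 := by
        rw [← Real.exp_nat_mul]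
        norm_num
      rw [h4]
      have h5 : (2 : ℝ) ≤ Real.exp 1 := by
        have := Real.add_one_le_exp (1 : ℝ)
        linarith only [this]
      calc (200 : ℝ) ≤ 2 ^ 8 := by norm_num
        _ ≤ Real.exp 1 ^ 8 := pow_le_pow_left₀ (by norm_num) h5 8
    rw [Real.exp_neg, ← one_div]
    exact one_div_le_one_div_of_le (by norm_num) (h3.trans h2)
  have hpos := ee_pos' (P := P) n 0 x v
  unfold et
  nlinarith only [hee, h96, hpos, he]

/-- the initial value of the functional is positive -/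
theorem init_pos (hte : 0 ≤ te) (hN : 3 ≤ N) (hκ : 0 < κ) (hs : Split P CB t0 n N κ F G h)
    (hb : HotB N 0 F G h)
    (hw : ∀ x v, seed P n x v ≠ 0 → 1 / 2 ≤ wt P n te 0 x v)
    (he : ∀ x v, 500 * ∫ τ in (0 : ℝ)..te, qb P n τ (mv x v (τ - 0)) v ≤ 1 / 4)
    (hm : 0 < ∫⁻ p : T3 × V, ENNReal.ofReal (seed P n p.1 p.2)) :
    0 < NN P n te h 0 - 4 * NE P n te h 0 := by
  have hσ := hP.ss_pos n
  have h00 : (0 : ℝ) ∈ Icc (0 : ℝ) 0 := ⟨le_rfl, le_rfl⟩
  have e := int_Wl_h (l := 4) hP hte hs hb h00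
  have sn : ∀ p : T3 × V, 0 ≤ seed P n p.1 p.2 := fun p => by
    unfold seed
    split_ifs
    · (clear * - hσ; positivity)
    · exact le_rfl
  have s1 : ∀ p : T3 × V, seed P n p.1 p.2 ≤ (P.ss n)⁻¹ := fun p => by
    unfold seed
    split_ifs
    · exact le_rfl
    · (clear * - hσ; positivity)
  have s2 : ∀ p : T3 × V, (N : ℝ) < ‖p.2‖ → seed P n p.1 p.2 = 0 := fun p hp => by
    unfold seed
    rw [if_neg]
    rintro ⟨-, -, -, -, h3⟩
    have : (3 : ℝ) ≤ N := by exact_mod_cast hN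
    linarith only [hp, h3, this]
  have is : Integrable fun p : T3 × V => seed P n p.1 p.2 :=
    integrable_of_supp (N := N) (B := (P.ss n)⁻¹) (measurable_seed P n)
      (fun p _ => by
        rw [abs_of_nonneg (sn p)]
        exact s1 p) s2
  have pos : 0 < ∫ p : T3 × V, seed P n p.1 p.2 := by
    rw [integral_eq_lintegral_of_nonneg_ae (Eventually.of_forall sn)
      (measurable_seed P n).aestronglyMeasurable]
    refine ENNReal.toReal_pos hm.ne' ?_
    have := is.lintegral_lt_top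
    exact this.ne
  rw [← e]
  have low : ∫ p : T3 × V, κ / 4 * seed P n p.1 p.2
      ≤ ∫ p : T3 × V, Wl P n te 4 0 p.1 p.2 * h 0 p.1 p.2 := by
    refine integral_mono (is.const_mul _) ?_ fun p => ?_
    · have i1 := (int_wt_h hP hte hs hb h00).sub ((int_et_h hP hte hs hb h00).const_mul 4)
      refine i1.congr (Eventually.of_forall fun p => ?_)
      simp only [Wl, Pi.sub_apply]
      ring
    · simp only
      rw [hot_zero hs]
      by_cases hp : seed P n p.1 p.2 = 0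
      · rw [hp]
        simp
      · have k1 := hw p.1 p.2 hp
        have k2 := et_seed hP hp (he p.1 p.2)
        have k3 : 1 / 4 ≤ Wl P n te 4 0 p.1 p.2 := by
          unfold Wl
          linarith only [k1, k2]
        have k4 : 0 ≤ κ * seed P n p.1 p.2 := mul_nonneg hκ.le (sn p)
        calc κ / 4 * seed P n p.1 p.2 = 1 / 4 * (κ * seed P n p.1 p.2) := by ring
          _ ≤ _ := mul_le_mul_of_nonneg_right k3 k4
  refine lt_of_lt_of_le ?_ low
  rw [integral_const_mul]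
  (clear * - hκ pos; positivity)

end Vale.Agent.P140.NU.J

namespace Vale.Agent.P140.NU.J

open Vale.Agent.P140.NU.E

/-- growth, from the static inequality for `l = 0` and `l = 4` -/
theorem growth_of_static : EvP fun P => ∀ᶠ t0 in 𝓝[>] (0 : ℝ), ∀ᶠ n in atTop, ∀ N : ℕ, 3 ≤ N →
    ∀ CB : ℝ, ∀ κ ∈ Ioc (0 : ℝ) 1, ∀ F G h, Split P CB t0 n N κ F G h → ∀ t1 ∈ Icc 0 t0,
    (∀ τ ∈ Icc 0 t1, Static P n N (2 * t0) 0 F G h τ) →
    (∀ τ ∈ Icc 0 t1, Static P n N (2 * t0) 4 F G h τ) →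
    (∀ τ ∈ Icc 0 t1, 0 < NN P n (2 * t0) h τ ∧
      4 * NE P n (2 * t0) h τ ≤ NN P n (2 * t0) h τ) ∧
    (∀ τ ∈ Icc 0 t1, ∀ τ' ∈ Icc τ t1,
      NN P n (2 * t0) h τ * (P.TT n τ' / P.TT n τ) ^ (P.Lam - 1) ≤ NN P n (2 * t0) h τ') := by
  obtain ⟨c0, hc0, hM⟩ := seed_mass
  have hall := (evGoodE.and hM).and (wt_seed.and exposure)
  refine hall.mono ?_
  rintro P ⟨⟨hP, hm⟩, hw, he⟩
  filter_upwards [hw, he, self_mem_nhdsWithin] with t0 hw he (ht0 : 0 < t0)
  have hσ : Tendsto (fun n => P.ss n) atTop (𝓝 0) := by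
    have h1 := tendsto_pow_atTop_nhds_zero_of_lt_one hP.lam_pos.le hP.hl1
    have h2 := ((tendsto_add_atTop_iff_nat 1).mpr h1).div_const P.w
    rw [zero_div] at h2
    exact h2
  filter_upwards [eventually_ge_atTop P.j0, hσ.eventually (eventually_le_nhds ht0),
    hσ.eventually (eventually_le_nhds (by norm_num : (0 : ℝ) < 1 / 8))] with n hn h1 h2
  intro N hN CB κ hκ F G h hs t1 ht1 hst0 hst4
  have hb : HotB N t1 F G h := hs.hot_bdd hN t1
  have hb0 : HotB N 0 F G h := hs.hot_bdd hN 0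
  have hpos : 0 < ∫⁻ p : T3 × V, ENNReal.ofReal (seed P n p.1 p.2) := by
    refine lt_of_lt_of_le ?_ (hm n h2)
    exact ENNReal.ofReal_pos.mpr (mul_pos hc0 (hP.ss_pos n))
  refine growth_fix hP (by linarith only [ht0, ht1.2]) hs hb hst0 hst4 ?_
  exact init_pos hP (by linarith only [ht0]) hN hκ.1 hs hb0 (fun x v hx => hw n hn h1 x v hx)
    (fun x v => he n hn h1 0 ⟨le_rfl, by linarith only [ht0]⟩ x v) hpos

end Vale.Agent.P140.NU.J
end
end

section

/-!
P140, non-uniqueness, module J: growth of the main functional.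
-/

open MeasureTheory Set Filter
open scoped ENNReal Topology

noncomputable section

namespace Vale.Agent.P140.NU.J

/-- the facts of the other modules, collected -/
theorem exists_ctx : EvP fun P => ∀ᶠ t0 in 𝓝[>] (0 : ℝ), ∀ n, P.j0 ≤ n → P.ss n ≤ t0 →
    Ctx P t0 n := by
  have hc : EvP fun P => (10 : ℝ) ^ 30 ≤ P.c :=
    EvP.of_c (φ := fun c => (10 : ℝ) ^ 30 ≤ c) (eventually_ge_atTop _)
  have h1 := ((evP_good.and hc).and (E.evGoodE.and EvP.basic)).and
    ((cf_support.and cf_mass_le).and (cf_mass_ge.and offspring1))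
  have h2 := (h1.and (offspring2.and exposure)).and (wt_facts.and (wt_meas.and et_meas))
  refine h2.mono fun P hP => ?_
  obtain ⟨⟨⟨⟨⟨hgood, hc⟩, hE, hbas⟩, ⟨hsup, hle⟩, hge, ho1⟩, ho2, hexp⟩, hwt, hwm, hem⟩ := hP
  have hVg := hE.Vg_pos
  have ht : ∀ᶠ t0 in 𝓝[>] (0 : ℝ), t0 < 1 / (10 ^ 6 * P.Vg) :=
    eventually_nhdsWithin_of_eventually_nhds (eventually_lt_nhds (by (clear * - hVg; positivity)))
  filter_upwards [hsup, hle, hge, ho1, ho2, hexp, hwt, ht, self_mem_nhdsWithin] with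
    t0 k1 k2 k3 k4 k5 k6 k7 k8 k9
  intro n hn hss
  exact
    { good := hgood
      hc := hc
      hkd := hE.hk1
      hK := hbas.2.2.2.1
      ht0 := k9
      hnj := hn
      hss := hss
      ht1 := k8.le
      cf_support := k1 n
      cf_mass_le := k2 n
      cf_mass_ge := k3 n
      cf_meas := measurable_cf P n
      offspring1 := k4 n hn hss
      offspring2 := k5 n hn hss
      exposure := k6 n hn hss
      wt_nonneg := fun t ht x v => (k7 n hn hss t ht x v).1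
      wt_le_one := fun t ht x v => (k7 n hn hss t ht x v).2.1
      wt_supp := fun t ht x v hne => ((k7 n hn hss t ht x v).2.2.1 hne).1
      wt_meas := hwm n _
      et_meas := hem n _ }

/-- measurability of the functional -/
theorem measurable_NN {P : Par} {n : ℕ} {te : ℝ} {h : ℝ → T3 → V → ℝ}
    (hw : Measurable fun p : ℝ × T3 × V => wt P n te p.1 p.2.1 p.2.2)
    (hh : Measurable fun p : ℝ × T3 × V => h p.1 p.2.1 p.2.2) : Measurable (NN P n te h) := by
  unfold NN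
  have h1 : StronglyMeasurable fun p : ℝ × T3 × V =>
      wt P n te p.1 p.2.1 p.2.2 * h p.1 p.2.1 p.2.2 := (hw.mul hh).stronglyMeasurable
  exact h1.integral_prod_right'.measurable

end J

open J

theorem growth : EvP fun P => ∀ CB Ca : ℝ, 0 < CB → 0 < Ca → ∃ ε : ℝ, 0 < ε ∧
    ∀ᶠ t0 in 𝓝[>] (0 : ℝ), ∀ᶠ n in atTop, ∀ᶠ N in atTop, ∀ κ ∈ Ioc (0 : ℝ) 1, ∀ F G h,
    Split P CB t0 n N κ F G h → ∀ t1 ∈ Icc 0 t0,
    (∀ τ ∈ Icc 0 t1, ∀ x v, ENNReal.ofReal (h τ x v) ≤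
      ENNReal.ofReal (Ca * NN P n (2 * t0) h τ / P.TT n τ ^ 2) * Pi P n (1 / 8) τ x v) →
    (∀ τ ∈ Icc 0 t1, NN P n (2 * t0) h τ ≤ ε * P.TT n τ) →
    (∫ τ in (0 : ℝ)..t1, NN P n (2 * t0) h τ / P.TT n τ ^ 2 ≤ ε) →
    (∀ τ ∈ Icc 0 t1, 0 < NN P n (2 * t0) h τ ∧
      4 * NE P n (2 * t0) h τ ≤ NN P n (2 * t0) h τ) ∧
    (∀ τ ∈ Icc 0 t1, ∀ τ' ∈ Icc τ t1,
      NN P n (2 * t0) h τ * (P.TT n τ' / P.TT n τ) ^ (P.Lam - 1) ≤ NN P n (2 * t0) h τ') := by
  refine ((exists_ctx.and exists_CN).and (growth_of_static.and E.evGoodE)).mono fun P hP => ?_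
  obtain ⟨⟨hctx, hCN⟩, hgr, hE⟩ := hP
  intro CB Ca hCB hCa
  obtain ⟨CN, hCN1, hCN2⟩ := hCN CB hCB
  have hCN0 : 0 < CN := lt_of_lt_of_le one_pos hCN1
  have hVg := hE.Vg_pos
  obtain ⟨K1, hK1⟩ : ∃ K1, K1 = CN * (1 + P.Vg) + 2048 * CN ^ 2 * Ca := ⟨_, rfl⟩
  have hK1p : 0 < K1 := by rw [hK1]; (clear * - hCN1 hVg hCa; positivity)
  obtain ⟨D, hD⟩ : ∃ D, D = Ca * (20 * K1 + 120 * CN) := ⟨_, rfl⟩
  have hDp : 0 < D := by rw [hD]; (clear * - hCa hK1p hCN1; positivity)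
  refine ⟨1 / D, by positivity, ?_⟩
  have hε1 : Ca * (1 / D) * K1 ≤ 1 / 20 := by
    rw [mul_one_div, div_mul_eq_mul_div, div_le_iff₀ hDp, hD]
    nlinarith only [hCa, hCN0]
  have hε2 : 3 * CN * (Ca * (1 / D)) ≤ 1 / 40 := by
    rw [mul_one_div, ← mul_div_assoc, div_le_iff₀ hDp, hD]
    nlinarith only [hCa, hK1p]
  have ht : ∀ a : ℝ, 0 < a → ∀ᶠ t0 in 𝓝[>] (0 : ℝ), t0 < a := fun a ha =>
    eventually_nhdsWithin_of_eventually_nhds (eventually_lt_nhds ha)
  filter_upwards [hctx, hCN2, hgr, ht (1 / (40 * K1)) (by positivity),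
    ht (1 / (40 * (1 / 100 + 3 * CN))) (by (clear * - hCN1; positivity)), self_mem_nhdsWithin] with
    t0 hctx hCN2 hgr hta htb ht0
  have ht0 : 0 < t0 := ht0
  have hta' : 2 * t0 * K1 ≤ 1 / 20 := by
    rw [lt_div_iff₀ (by (clear * - hK1p; positivity))] at hta
    linarith only [hta]
  have htb' : t0 * (1 / 100 + 3 * CN) ≤ 1 / 40 := by
    rw [lt_div_iff₀ (by (clear * - hCN1; positivity))] at htb
    linarith only [htb]
  have hssn : ∀ᶠ n : ℕ in atTop, P.ss n ≤ t0 := by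
    have h1 : Tendsto (fun n : ℕ => P.ss n) atTop (𝓝 0) := by
      unfold Par.ss
      have h2 := (tendsto_pow_atTop_nhds_zero_of_lt_one hE.lam_pos.le hE.hl1).comp
        (tendsto_add_atTop_nat 1)
      have h3 := h2.div_const P.w
      rw [zero_div] at h3
      exact h3
    filter_upwards [h1.eventually (eventually_lt_nhds ht0)] with n hn
    exact hn.le
  filter_upwards [hgr, hssn, eventually_ge_atTop P.j0] with n hgr hss hn
  have C := hctx n hn hss
  have hE2 := hCN2 n hn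
  have hssp := hE.ss_pos n
  have hlp : 0 < P.lam ^ (n + 1) := pow_pos hE.lam_pos _
  filter_upwards [eventually_ge_atTop 3, eventually_ge_atTop ⌈10 ^ 3 / P.m1⌉₊,
    eventually_ge_atTop ⌈P.Vg + 2⌉₊, eventually_ge_atTop
      ⌈20 * (2 * P.c / P.lam ^ (n + 1) + CN + CN * (Ca * (1 / D) / P.ss n))⌉₊] with
    N hN3 hN1 hN2 hN4
  intro κ hκ F G h hs t1 ht1 hsup hle hint
  have hN1' : 10 ^ 3 / P.m1 ≤ N := (Nat.le_ceil _).trans (by exact_mod_cast hN1)
  have hN2' : P.Vg + 2 ≤ N := (Nat.le_ceil _).trans (by exact_mod_cast hN2)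
  have hN4' : 20 * (2 * P.c / P.lam ^ (n + 1) + CN + CN * (Ca * (1 / D) / P.ss n)) ≤ N :=
    (Nat.le_ceil _).trans (by exact_mod_cast hN4)
  obtain ⟨Hf, hHf⟩ : ∃ Hf : ℝ → ℝ, Hf = fun τ =>
    Ca * NN P n (2 * t0) h τ / P.TT n τ ^ 2 := ⟨_, rfl⟩
  have hNN0 : ∀ τ ∈ Icc 0 t1, 0 ≤ NN P n (2 * t0) h τ := fun τ hτ =>
    integral_nonneg fun p => mul_nonneg
      (C.wt_nonneg τ ⟨hτ.1, by linarith only [ht0, hτ.2, ht1.2]⟩ _ _) (hs.nonnegh τ _ _)
  have hT : ∀ τ ∈ Icc 0 t1, 0 < P.TT n τ := fun τ hτ => C.TT_pos hτ.1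
  have hH0 : ∀ τ ∈ Icc 0 t1, 0 ≤ Hf τ := fun τ hτ => by
    rw [hHf]
    have := hNN0 τ hτ
    (clear * - hCa this; positivity)
  -- `Hf ≤ Ca ε / T`
  have hHT : ∀ τ ∈ Icc 0 t1, P.TT n τ * Hf τ ≤ Ca * (1 / D) := fun τ hτ => by
    rw [hHf]
    have h1 := hT τ hτ
    have h2 := hle τ hτ
    have h3 : P.TT n τ * (Ca * NN P n (2 * t0) h τ / P.TT n τ ^ 2) =
        Ca * NN P n (2 * t0) h τ / P.TT n τ := by
      (clear * - hCa h1; field_simp)
    simp only
    rw [h3, div_le_iff₀ h1]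
    calc Ca * NN P n (2 * t0) h τ ≤ Ca * (1 / D * P.TT n τ) :=
          mul_le_mul_of_nonneg_left h2 hCa.le
      _ = _ := by ring
  have hHs : ∀ τ ∈ Icc 0 t1, Hf τ ≤ Ca * (1 / D) / P.ss n := fun τ hτ => by
    rw [le_div_iff₀ hssp]
    refine le_trans ?_ (hHT τ hτ)
    rw [mul_comm]
    refine mul_le_mul_of_nonneg_right ?_ (hH0 τ hτ)
    unfold Par.TT
    linarith only [hτ.1]
  have hHm : IntegrableOn Hf (Icc 0 t1) := by
    have hm : Measurable Hf := by
      rw [hHf]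
      exact ((measurable_NN C.wt_meas hs.meash).const_mul Ca).div
        ((measurable_TT P n).pow_const 2)
    refine Measure.integrableOn_of_bounded (M := Ca * (1 / D) / P.ss n)
      measure_Icc_lt_top.ne hm.aestronglyMeasurable ?_
    rw [ae_restrict_iff' measurableSet_Icc]
    refine Eventually.of_forall fun τ hτ => ?_
    rw [Real.norm_eq_abs, abs_of_nonneg (hH0 τ hτ)]
    exact hHs τ hτ
  have hHi : ∫ τ in (0 : ℝ)..t1, Hf τ ≤ Ca * (1 / D) := by
    have h1 : ∀ τ, Hf τ = Ca * (NN P n (2 * t0) h τ / P.TT n τ ^ 2) := fun τ => by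
      rw [hHf]
      simp only
      ring
    simp_rw [h1]
    rw [intervalIntegral.integral_const_mul]
    exact mul_le_mul_of_nonneg_left hint hCa.le
  have hHb : ∀ τ ∈ Icc 0 t1, ∀ x v, ENNReal.ofReal (h τ x v) ≤
      ENNReal.ofReal (Hf τ) * Pi P n (1 / 8) τ x v := fun τ hτ x v => by
    rw [hHf]
    exact hsup τ hτ x v
  have hlow := C.depletion hE2 hs ht1 hH0 hHm hHb hHi (by linarith only [htb', hε2])
  have hpf : ∀ τ ∈ Icc 0 t1, ∀ x, ENNReal.ofReal (19 / 20) ≤ DL.pfN N (F τ x) := fun τ hτ x => by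
    refine C.prefactor hE2 hs ⟨hτ.1, hτ.2.trans ht1.2⟩ (hH0 τ hτ) (hHb τ hτ) (by omega) ?_ x
    have h1 := mul_le_mul_of_nonneg_left (hHs τ hτ) hCN0.le
    linarith only [hN4', h1]
  have hst : ∀ l : ℝ, 0 ≤ l → l ≤ 4 → ∀ τ ∈ Icc 0 t1, Static P n N (2 * t0) l F G h τ := by
    intro l hl0 hl4 τ hτ
    have hTp := hT τ hτ
    have hn0 := hNN0 τ hτ
    refine C.static_real hE2 hN3 hN1' hN2' hs ⟨hτ.1, hτ.2.trans ht1.2⟩ hl0 hl4 (hH0 τ hτ)
      (hHb τ hτ) (hlow τ hτ) (hpf τ hτ) ?_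
    have e1 : P.TT n τ ^ 2 * Hf τ = Ca * NN P n (2 * t0) h τ := by
      rw [hHf]
      simp only
      (clear * - hTp hCa; field_simp)
    have e2 : CN * (1 + P.Vg) * (1 + Hf τ) * NN P n (2 * t0) h τ +
        2048 * CN ^ 2 * P.TT n τ ^ 2 * (1 + Hf τ) * Hf τ =
        (1 + Hf τ) * K1 * NN P n (2 * t0) h τ := by
      calc _ = CN * (1 + P.Vg) * (1 + Hf τ) * NN P n (2 * t0) h τ +
          2048 * CN ^ 2 * (1 + Hf τ) * (P.TT n τ ^ 2 * Hf τ) := by ring
        _ = _ := by rw [e1, hK1]; ring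
    rw [e2]
    refine mul_le_mul_of_nonneg_right ?_ hn0
    rw [div_div, le_div_iff₀ (by (clear * - hTp; positivity))]
    have h1 : P.TT n τ ≤ 2 * t0 := by
      unfold Par.TT
      linarith only [hss, hτ.2, ht1.2]
    have h2 := mul_le_mul_of_nonneg_right h1 hK1p.le
    have h3 := mul_le_mul_of_nonneg_right (hHT τ hτ) hK1p.le
    have h4 : (1 + Hf τ) * K1 * (10 * P.TT n τ) =
        10 * (P.TT n τ * K1) + 10 * (P.TT n τ * Hf τ * K1) := by ring
    rw [h4]
    linarith only [hε1, hta', h2, h3]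
  exact hgr N hN3 CB κ hκ F G h hs t1 ht1 (hst 0 le_rfl (by norm_num))
    (hst 4 (by norm_num) le_rfl)

end Vale.Agent.P140.NU
end
end

section

/-!
P140, non-uniqueness, module B: the sup norm of the hot part, core argument.
-/

open MeasureTheory Set Filter
open scoped ENNReal Topology

noncomputable section

namespace Vale.Agent.P140.NU

variable {P : Par} {n : ℕ} {t0 CB A CG CN Ce : ℝ}

/-- growth of `NN / T²` -/
theorem sup5_mono (hss : 0 < P.ss n) {te Ca : ℝ} (hCa : 0 < Ca) {h : ℝ → T3 → V → ℝ}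
    (hLam : 3 ≤ P.Lam) {t : ℝ} (H2 : ∀ τ ∈ Icc 0 t, 0 < NN P n te h τ)
    (H3 : Grows P n te h t) : ∀ τ ∈ Icc 0 t, ∀ τ' ∈ Icc τ t,
      Hh P n te Ca h τ ≤ Hh P n te Ca h τ' := by
  intro τ hτ τ' hτ'
  have hT : 0 < P.TT n τ := by unfold Par.TT; linarith [hτ.1]
  have hTT : P.TT n τ ≤ P.TT n τ' := by unfold Par.TT; linarith only [hτ'.1]
  have hT' : 0 < P.TT n τ' := hT.trans_le hTT
  have hr : 1 ≤ P.TT n τ' / P.TT n τ := by rwa [one_le_div₀ hT]
  have h1 := H3 τ hτ τ' hτ'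
  have h2 := H2 τ hτ
  have h3 : (P.TT n τ' / P.TT n τ) ^ (2 : ℝ) ≤ (P.TT n τ' / P.TT n τ) ^ (P.Lam - 1) :=
    Real.rpow_le_rpow_of_exponent_le hr (by linarith only [hLam])
  rw [Real.rpow_two] at h3
  have h4 : NN P n te h τ * (P.TT n τ' / P.TT n τ) ^ 2 ≤ NN P n te h τ' :=
    (mul_le_mul_of_nonneg_left h3 h2.le).trans h1
  unfold Hh
  generalize NN P n te h τ = a at *
  generalize NN P n te h τ' = b at *
  generalize P.TT n τ = x at *
  generalize P.TT n τ' = y at *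
  rw [div_pow, mul_div_assoc', div_le_iff₀ (by positivity)] at h4
  rw [div_le_div_iff₀ (by positivity) (by positivity)]
  calc Ca * a * y ^ 2 = Ca * (a * y ^ 2) := by ring
    _ ≤ Ca * (b * x ^ 2) := by (clear * - h4 hCa; gcongr)
    _ = _ := by ring

/-- facts about `Hh` and `gam` -/
theorem sup5_facts {te Ca C2 ε : ℝ} {h : ℝ → T3 → V → ℝ} {t : ℝ} (ht : 0 ≤ t)
    (hC2 : 0 < C2) (h0 : ∀ τ ∈ Icc 0 t, 0 ≤ Hh P n te Ca h τ)
    (hm : ∀ τ ∈ Icc 0 t, ∀ τ' ∈ Icc τ t, Hh P n te Ca h τ ≤ Hh P n te Ca h τ')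
    (H4 : ∫ τ in (0 : ℝ)..t, (1 + Hh P n te Ca h τ) ≤ ε) (hε : C2 * ε ≤ 1 / 24) :
    IntervalIntegrable (fun s => 1 + Hh P n te Ca h s) volume 0 t ∧
    (∀ s ∈ Icc 0 t, ∀ s' ∈ Icc s t, gam P n te Ca C2 h s' ≤ gam P n te Ca C2 h s) ∧
    (∀ s ∈ Icc 0 t, gam P n te Ca C2 h s ∈ Icc (1 / 8 : ℝ) (1 / 6)) := by
  have hi : IntervalIntegrable (fun s => 1 + Hh P n te Ca h s) volume 0 t := by
    have hmon : MonotoneOn (fun s => 1 + Hh P n te Ca h s) (uIcc 0 t) := by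
      rw [uIcc_of_le ht]
      intro a ha b hb hab
      exact add_le_add le_rfl (hm a ha b ⟨hab, hb.2⟩)
    exact hmon.intervalIntegrable
  have hφ0 : ∀ s ∈ Icc 0 t, 0 ≤ 1 + Hh P n te Ca h s := fun s hs => by
    have := h0 s hs
    linarith only [this]
  have hanti : ∀ s ∈ Icc 0 t, ∀ s' ∈ Icc s t, gam P n te Ca C2 h s' ≤ gam P n te Ca C2 h s := by
    intro s hs s' hs'
    have := sup2_prim_mono hi hφ0 hs.1 hs'.1 hs'.2
    unfold gam
    have := mul_le_mul_of_nonneg_left this hC2.le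
    linarith only [this]
  refine ⟨hi, hanti, fun s hs => ⟨?_, ?_⟩⟩
  · refine le_trans ?_ (hanti s hs t ⟨hs.2, le_rfl⟩)
    unfold gam
    have := mul_le_mul_of_nonneg_left H4 hC2.le
    linarith
  · have h1 : 0 ≤ ∫ u in (0:ℝ)..s, (1 + Hh P n te Ca h u) :=
      intervalIntegral.integral_nonneg hs.1 fun u hu => hφ0 u ⟨hu.1, hu.2.trans hs.2⟩
    unfold gam
    have := mul_nonneg hC2.le h1
    linarith only [this]

/-- core of the sup bound -/
theorem sup5_core (H : SupH P n t0 CB A CG CN Ce)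
    (hc : ∀ f g : V → ℝ≥0∞, Measurable f → Measurable g → ∀ v, Gam f g v = Gam g f v)
    {N : ℕ} {κ : ℝ} {F G h : ℝ → T3 → V → ℝ} (hN : 3 ≤ N) (hs : Split P CB t0 n N κ F G h)
    {Ca C2 ε C1 : ℝ} (hCa : 0 < Ca) (hC2 : 0 < C2) (hLam : 3 ≤ P.Lam)
    (hC1 : C1 = ∑ i ∈ Finset.range 4, A ^ i)
    (hε : C2 * ε ≤ 1 / 24) (hp : C1 * ((2 * CN + CG) * (2 * ε + 1 / C2)) ≤ 1 / 8)
    (hCe : 2 * Ce * Real.exp (2 * P.Vg + 100) ≤ Ca) {t : ℝ} (ht : t ∈ Icc 0 t0)
    (H1 : ∀ τ ∈ Icc 0 t, ∀ x v, ENNReal.ofReal (h τ x v) ≤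
        ENNReal.ofReal (Hh P n (2 * t0) Ca h τ) * Pi P n (gam P n (2 * t0) Ca C2 h τ) τ x v)
    (H2 : ∀ τ ∈ Icc 0 t, 0 < NN P n (2 * t0) h τ ∧
        4 * NE P n (2 * t0) h τ ≤ NN P n (2 * t0) h τ)
    (H3 : Grows P n (2 * t0) h t)
    (H4 : ∫ τ in (0 : ℝ)..t, (1 + Hh P n (2 * t0) Ca h τ) ≤ ε)
    {ta : ℝ} (hta0 : 0 ≤ ta) (hta : ta ≤ t) (hT : P.TT n t ≤ 2 * P.TT n ta)
    (hS0 : ∀ x v, hh h ta x v ≤ ENNReal.ofReal (Hh P n (2 * t0) Ca h t / (8 * C1)) *
      Pi P n (gam P n (2 * t0) Ca C2 h t) ta x v) (x : T3) (v : V) :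
    ENNReal.ofReal (h t x v) ≤ ENNReal.ofReal (3 / 4 * Hh P n (2 * t0) Ca h t) *
        Pi P n (gam P n (2 * t0) Ca C2 h t) t x v := by
  have ht0 : 0 ≤ t0 := ht.1.trans ht.2
  have hm := sup5_mono H.ss_pos (te := 2 * t0) hCa hLam (fun τ hτ => (H2 τ hτ).1) H3
  have hTp : ∀ τ, 0 ≤ τ → 0 < P.TT n τ := fun τ hτ => H.TT_pos hτ
  have ha0 : ∀ τ ∈ Icc 0 t, 0 ≤ Hh P n (2 * t0) Ca h τ := fun τ hτ => by
    have h1 := (H2 τ hτ).1
    have h2 := hTp τ hτ.1
    unfold Hh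
    (clear * - hCa h1 h2; positivity)
  obtain ⟨hi, hanti, hgr⟩ := sup5_facts ht.1 hC2 ha0 hm H4 hε
  have hg := fun s : ℝ => (rfl : gam P n (2 * t0) Ca C2 h s =
    1 / 6 - C2 * ∫ u in (0:ℝ)..s, (1 + Hh P n (2 * t0) Ca h u))
  have hat : ∀ s ∈ Icc 0 t, Hh P n (2 * t0) Ca h s ≤ Hh P n (2 * t0) Ca h t := fun s hs =>
    hm s hs t ⟨hs.2, le_rfl⟩
  have htt : t ∈ Icc 0 t := ⟨ht.1, le_rfl⟩
  have hγ := hgr t htt
  have hC1p : 1 ≤ C1 := by
    have hA := H.hA
    rw [hC1, Finset.sum_range_succ']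
    have : 0 ≤ ∑ k ∈ Finset.range 3, A ^ (k + 1) := Finset.sum_nonneg fun i _ => by (clear * - hA; positivity)
    simp only [pow_zero]
    linarith only [this]
  -- notation
  set γ : ℝ := gam P n (2 * t0) Ca C2 h t with hγd
  set at' : ℝ := Hh P n (2 * t0) Ca h t with hatd
  set η : ℝ := (2 * CN + CG) * (2 * ε + 1 / C2) with hη
  have hat0 : 0 ≤ at' := ha0 t htt
  -- mass
  have hNm : ∀ τ ∈ Icc ta t, ∫⁻ x, ∫⁻ v, hh h τ x v ≤
      ENNReal.ofReal (Real.exp (2 * P.Vg + 100) * (NN P n (2 * t0) h t / 4)) := by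
    intro τ hτ
    have hτ' : τ ∈ Icc 0 t := ⟨hta0.trans hτ.1, hτ.2⟩
    refine (H.mass_le hN hs hτ'.1 (by linarith only [ht0, hτ'.2, ht.2])).trans ?_
    apply ENNReal.ofReal_le_ofReal
    have h1 := H2 τ hτ'
    have h2 := H3 τ hτ' t ⟨hτ.2, le_rfl⟩
    have hr : 1 ≤ P.TT n t / P.TT n τ := by
      rw [one_le_div₀ (hTp τ hτ'.1)]
      unfold Par.TT
      linarith only [hτ.2]
    have h3 : 1 ≤ (P.TT n t / P.TT n τ) ^ (P.Lam - 1) := Real.one_le_rpow hr (by linarith only [hLam])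
    have h4 : NN P n (2 * t0) h τ ≤ NN P n (2 * t0) h t :=
      (le_mul_of_one_le_right h1.1.le h3).trans h2
    gcongr
    linarith only [h1, h4]
  -- pointwise bound with the fixed exponent
  have hff : ∀ τ ∈ Icc ta t, ∀ x v, hh h τ x v ≤ ENNReal.ofReal at' * Pi P n γ τ x v := by
    intro τ hτ x v
    have hτ' : τ ∈ Icc 0 t := ⟨hta0.trans hτ.1, hτ.2⟩
    refine (H1 τ hτ' x v).trans ?_
    exact mul_le_mul' (ENNReal.ofReal_le_ofReal (hat τ hτ'))
      (sup3_Pi_anti n (hanti τ hτ' t ⟨hτ.2, le_rfl⟩) τ x v)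
  -- Duhamel
  set σ : ℝ := at' / (8 * C1) + η * at' with hσ
  have hη0 : 0 ≤ η := by
    have h1 := H.hCN
    have h2 := H.hCG
    have h3 : 0 ≤ ε := by
      have h4 : 0 ≤ ∫ τ in (0 : ℝ)..t, (1 + Hh P n (2 * t0) Ca h τ) :=
        intervalIntegral.integral_nonneg ht.1 fun u hu => by
          have := ha0 u hu
          linarith only [this]
      linarith only [H4, h4]
    rw [hη]
    (clear * - h1 h2 h3 hC2; positivity)
  have hD : ∀ τ ∈ Icc ta t, ∀ x v, hh h τ x v ≤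
      ENNReal.ofReal σ * Pi P n γ τ x v + UK P n ta (hh h) τ x v := by
    intro τ hτ x v
    have hτ' : τ ∈ Icc 0 t := ⟨hta0.trans hτ.1, hτ.2⟩
    have d1 := sup1_duh hc hN hs hta0 hτ.1 (hτ.2.trans ht.2) x v
    have d2 := sup3_pert_int (CB := CB) H.hCG H.hCN H.GP H.GN H.mono ht.1 ht.2 hC2 ha0 hat hi H4 hg
      hgr H1 hta0 hτ.1 hτ.2 x v
    have d3 : hh h ta (mv x v (ta - τ)) v ≤ ENNReal.ofReal (at' / (8 * C1)) * Pi P n γ τ x v := by
      refine (hS0 _ v).trans ?_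
      have k := H.mono γ ta ⟨hta0, by linarith only [hta, ht0, ht.2]⟩ τ ⟨hτ.1, by linarith only [ht0, hτ.2, ht.2]⟩
        (mv x v (ta - τ)) v
      rw [mv_mv, show ta - τ + (τ - ta) = 0 by ring, mv_zero] at k
      (clear * - k; gcongr)
    have d4 : ∫⁻ s in Icc ta τ, pert P n CB (hh h) s (mv x v (s - τ)) v ≤
        ENNReal.ofReal (η * at') * Pi P n γ τ x v := d2
    refine d1.trans ?_
    calc hh h ta (mv x v (ta - τ)) v + UK P n ta (hh h) τ x v +
          ∫⁻ s in Icc ta τ, pert P n CB (hh h) s (mv x v (s - τ)) v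
        ≤ ENNReal.ofReal (at' / (8 * C1)) * Pi P n γ τ x v + UK P n ta (hh h) τ x v +
          ENNReal.ofReal (η * at') * Pi P n γ τ x v := by (clear * - d3 d4; gcongr)
      _ = (ENNReal.ofReal (at' / (8 * C1)) + ENNReal.ofReal (η * at')) * Pi P n γ τ x v +
          UK P n ta (hh h) τ x v := by ring
      _ = _ := by
          rw [hσ, ENNReal.ofReal_add (by (clear * - hat0 hC1p; positivity)) (by (clear * - hη0 hat0; positivity))]
  have hUK : ∀ τ ∈ Icc ta t, ∀ H' : ℝ≥0∞, ∀ x v,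
      UK P n ta (fun τ x v => H' * Pi P n γ τ x v) τ x v ≤
      ENNReal.ofReal A * H' * Pi P n γ τ x v := by
    intro τ hτ H' x v
    apply H.UKP γ hγ ta τ hta0 hτ.1 (hτ.2.trans ht.2)
    have : P.TT n τ ≤ P.TT n t := by unfold Par.TT; linarith only [hτ.2]
    linarith only [hT, this]
  have hit := sup3_iter hUK hD 4 t ⟨hta, le_rfl⟩ x v
  have hsm := H.Sm γ hγ ta t hta0 hta ht.2 hT (hh h) (sup1_meas_hh hs)
    (fun τ hτ x v a => by
      unfold hh
      rw [hs.invh τ x v a (hta0.trans hτ.1)])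
    (ENNReal.ofReal at') _ hff hNm x v
  have hfin : hh h t x v ≤ ENNReal.ofReal (3 / 4 * at') * Pi P n γ t x v := by
    refine hit.trans ((add_le_add le_rfl hsm).trans ?_)
    rw [← add_mul]
    refine mul_le_mul' ?_ le_rfl
    have e1 : (∑ i ∈ Finset.range 4, ENNReal.ofReal A ^ i) = ENNReal.ofReal C1 := by
      rw [hC1, ENNReal.ofReal_sum_of_nonneg (fun i _ => pow_nonneg H.hA i)]
      exact Finset.sum_congr rfl fun i _ => (ENNReal.ofReal_pow H.hA i).symm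
    have hTt := hTp t ht.1
    have hNt := (H2 t htt).1
    have hCe0 := H.hCe
    rw [e1, ← ENNReal.ofReal_mul (by linarith only [hC1p]), ← ENNReal.ofReal_mul (by norm_num),
      ← ENNReal.ofReal_mul (by (clear * - hCe0 hTt; positivity)), ← ENNReal.ofReal_add (by (clear * - hat0; positivity)) (by (clear * - hCe0 hTt hNt; positivity)),
      ← ENNReal.ofReal_add (by (clear * - hC1p hat0 hη0; positivity)) (by (clear * - hat0 hCe0 hTt hNt; positivity))]
    apply ENNReal.ofReal_le_ofReal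
    have q1 : C1 * σ ≤ at' / 8 + at' / 8 := by
      rw [hσ, mul_add]
      apply add_le_add
      · apply le_of_eq
        (clear * - hC1p; field_simp)
      · calc C1 * (η * at') = (C1 * η) * at' := by ring
          _ ≤ (1 / 8) * at' := by (clear * - hp hat0; gcongr)
          _ = at' / 8 := by ring
    have q2 : Ce / P.TT n t ^ 2 * (Real.exp (2 * P.Vg + 100) * (NN P n (2 * t0) h t / 4)) ≤
        at' / 8 := by
      have e : at' = Ca * NN P n (2 * t0) h t / P.TT n t ^ 2 := rfl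
      rw [e]
      have : Ce / P.TT n t ^ 2 * (Real.exp (2 * P.Vg + 100) * (NN P n (2 * t0) h t / 4)) =
          (2 * Ce * Real.exp (2 * P.Vg + 100)) * NN P n (2 * t0) h t / P.TT n t ^ 2 / 8 := by
        ring
      rw [this]
      (clear * - hCe hNt hTt; gcongr)
    linarith only [hat0, q1, q2]
  exact hfin

end Vale.Agent.P140.NU
end
end

section

/-!
P140, non-uniqueness, module B: initial bound of the hot part; parameter inequalities.
-/

open MeasureTheory Set Filter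
open scoped ENNReal Topology

noncomputable section

namespace Vale.Agent.P140.NU

variable {P : Par} {n : ℕ} {t0 CB : ℝ}

/-- the initial value of the hot part -/
theorem sup6_h0 {N : ℕ} {κ : ℝ} {F G h : ℝ → T3 → V → ℝ} (hs : Split P CB t0 n N κ F G h)
    (x : T3) (v : V) : h 0 x v = κ * seed P n x v := by
  have := hs.mild 0 le_rfl x v
  rw [mv_zero] at this
  simpa only [lt_self_iff_false, not_false_eq_true, Ioc_eq_empty, Measure.restrict_empty, integral_zero_measure,     add_zero] using this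

theorem sup6_seed_cases (x : T3) (v : V) (h : seed P n x v ≠ 0) :
    P.ss n ≤ rr x ∧ rr x ≤ 2 * P.ss n ∧ ‖v‖ ≤ 3 ∧ seed P n x v = (P.ss n)⁻¹ := by
  unfold seed at h ⊢
  split_ifs at h ⊢ with h1
  · exact ⟨h1.1, h1.2.1, h1.2.2.2.2, rfl⟩
  · exact absurd rfl h

theorem sup6_seed_nonneg (hss : 0 < P.ss n) (x : T3) (v : V) : 0 ≤ seed P n x v := by
  by_cases h : seed P n x v = 0
  · exact h.ge
  · rw [(sup6_seed_cases x v h).2.2.2]
    positivity

theorem sup6_seed_le (hss : 0 < P.ss n) (x : T3) (v : V) : seed P n x v ≤ (P.ss n)⁻¹ := by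
  by_cases h : seed P n x v = 0
  · rw [h]
    positivity
  · exact (sup6_seed_cases x v h).2.2.2.le

theorem sup6_seed_integrable (hss : 0 < P.ss n) :
    Integrable fun p : T3 × V => seed P n p.1 p.2 := by
  apply sup4_integrable (sup0_meas_seed P n) (B := (P.ss n)⁻¹) (R := 3)
  · intro p
    rw [abs_of_nonneg (sup6_seed_nonneg hss _ _)]
    exact sup6_seed_le hss _ _
  · intro p hp
    by_contra h
    exact absurd (sup6_seed_cases _ _ h).2.2.1 (not_le.2 hp)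

/-- lower bound of the initial mass -/
theorem sup6_NN0 (hss : 0 < P.ss n) {c0 : ℝ}
    (hsm : ENNReal.ofReal (c0 * P.ss n) ≤ ∫⁻ p : T3 × V, ENNReal.ofReal (seed P n p.1 p.2))
    (hw1 : ∀ x v, seed P n x v ≠ 0 → 1 / 2 ≤ wt P n (2 * t0) 0 x v)
    (hw2 : ∀ x v, 0 ≤ wt P n (2 * t0) 0 x v ∧ wt P n (2 * t0) 0 x v ≤ 1)
    (mw : Measurable fun p : ℝ × T3 × V => wt P n (2 * t0) p.1 p.2.1 p.2.2)
    {N : ℕ} {κ : ℝ} (hκ : 0 ≤ κ) {F G h : ℝ → T3 → V → ℝ} (hs : Split P CB t0 n N κ F G h) :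
    κ * c0 * P.ss n / 2 ≤ NN P n (2 * t0) h 0 := by
  have hsi := sup6_seed_integrable (P := P) (n := n) hss
  have h1 : c0 * P.ss n ≤ ∫ p : T3 × V, seed P n p.1 p.2 := by
    rw [← ofReal_integral_eq_lintegral_ofReal hsi
      (ae_of_all _ fun p => sup6_seed_nonneg hss p.1 p.2)] at hsm
    have h0 : 0 ≤ ∫ p : T3 × V, seed P n p.1 p.2 :=
      integral_nonneg fun p => sup6_seed_nonneg hss p.1 p.2
    exact (ENNReal.ofReal_le_ofReal_iff h0).1 hsm
  have mw0 : Measurable fun p : T3 × V => wt P n (2 * t0) 0 p.1 p.2 := SupH.meas_slice2 mw 0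
  have hwi : Integrable fun p : T3 × V => wt P n (2 * t0) 0 p.1 p.2 * (κ * seed P n p.1 p.2) := by
    refine (hsi.const_mul κ).mono' (mw0.mul ((sup0_meas_seed P n).const_mul κ)).aestronglyMeasurable
      (ae_of_all _ fun p => ?_)
    have k1 := hw2 p.1 p.2
    have k2 := sup6_seed_nonneg hss p.1 p.2
    rw [Real.norm_eq_abs, abs_of_nonneg (mul_nonneg k1.1 (mul_nonneg hκ k2))]
    exact mul_le_of_le_one_left (mul_nonneg hκ k2) k1.2
  have h2 : ∫ p : T3 × V, κ / 2 * seed P n p.1 p.2 ≤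
      ∫ p : T3 × V, wt P n (2 * t0) 0 p.1 p.2 * (κ * seed P n p.1 p.2) := by
    apply integral_mono (hsi.const_mul _) hwi
    intro p
    change κ / 2 * seed P n p.1 p.2 ≤ wt P n (2 * t0) 0 p.1 p.2 * (κ * seed P n p.1 p.2)
    by_cases hz : seed P n p.1 p.2 = 0
    · rw [hz]
      simp
    · have k1 := hw1 _ _ hz
      have k2 := sup6_seed_nonneg hss p.1 p.2
      calc κ / 2 * seed P n p.1 p.2 = 1 / 2 * (κ * seed P n p.1 p.2) := by ring
        _ ≤ _ := by (clear * - k1 hκ k2 hz; gcongr)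
  have h3 : NN P n (2 * t0) h 0 =
      ∫ p : T3 × V, wt P n (2 * t0) 0 p.1 p.2 * (κ * seed P n p.1 p.2) := by
    unfold NN
    simp only [sup6_h0 hs]
  rw [h3]
  refine le_trans ?_ h2
  rw [integral_const_mul]
  calc κ * c0 * P.ss n / 2 = κ / 2 * (c0 * P.ss n) := by ring
    _ ≤ _ := by (clear * - h1 hκ; gcongr)

/-- the initial bound -/
theorem sup6_init (hss : 0 < P.ss n) {c0 : ℝ} (hc0 : 0 < c0)
    (hsm : ENNReal.ofReal (c0 * P.ss n) ≤ ∫⁻ p : T3 × V, ENNReal.ofReal (seed P n p.1 p.2))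
    (hw1 : ∀ x v, seed P n x v ≠ 0 → 1 / 2 ≤ wt P n (2 * t0) 0 x v)
    (hw2 : ∀ x v, 0 ≤ wt P n (2 * t0) 0 x v ∧ wt P n (2 * t0) 0 x v ≤ 1)
    (mw : Measurable fun p : ℝ × T3 × V => wt P n (2 * t0) p.1 p.2.1 p.2.2)
    {N : ℕ} {κ : ℝ} (hκ : 0 ≤ κ) {F G h : ℝ → T3 → V → ℝ} (hs : Split P CB t0 n N κ F G h)
    {γ : ℝ} (hγ : γ ≤ 1 / 6) (x : T3) (v : V) :
    hh h 0 x v ≤ ENNReal.ofReal (2 * Real.exp (11 / 2) / c0 * NN P n (2 * t0) h 0 /
      P.TT n 0 ^ 2) * Pi P n γ 0 x v := by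
  have hNN := sup6_NN0 hss hsm hw1 hw2 mw hκ hs
  have hTT : P.TT n 0 = P.ss n := by unfold Par.TT; ring
  rw [hTT]
  unfold hh
  rw [sup6_h0 hs]
  by_cases hz : seed P n x v = 0
  · rw [hz, mul_zero, ENNReal.ofReal_zero]
    exact zero_le
  obtain ⟨k1, k2, k3, k4⟩ := sup6_seed_cases x v hz
  rw [k4]
  -- lower bound of the profile
  have hPi : ENNReal.ofReal (Real.exp (-(11 / 2))) ≤ Pi P n γ 0 x v := by
    refine le_trans ?_ (sup3_Pi_anti n hγ 0 x v)
    unfold Pi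
    have hW : (1 : ℝ≥0∞) ≤ WW P 0 x v := by
      unfold WW
      exact le_self_add
    have hE : Real.exp (-(11 / 2)) ≤ Real.exp (-(2 * yy P n 0 x v) - 1 / 6 * ‖v‖ ^ 2) := by
      apply Real.exp_le_exp.2
      have hy : yy P n 0 x v ≤ 2 := by
        unfold yy
        rw [hTT, div_le_iff₀ hss]
        apply max_le _ (by positivity)
        have : 0 ≤ ‖v‖ * P.ss n := by (clear * - hss; positivity)
        linarith only [k2, this]
      have hv2 : ‖v‖ ^ 2 ≤ 9 := by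
        have := norm_nonneg v
        linarith only [mul_nonneg (sub_nonneg.2 k3) (sub_nonneg.2 this), mul_nonneg (sub_nonneg.2 k3) (sub_nonneg.2 k3)]
      (clear * - hy hv2; linarith)
    calc ENNReal.ofReal (Real.exp (-(11 / 2))) = ENNReal.ofReal (Real.exp (-(11 / 2))) * 1 :=
          (mul_one _).symm
      _ ≤ _ := mul_le_mul' (ENNReal.ofReal_le_ofReal hE) hW
  have hNN0 : 0 ≤ NN P n (2 * t0) h 0 := le_trans (by (clear * - hκ hc0 hss; positivity)) hNN
  calc ENNReal.ofReal (κ * (P.ss n)⁻¹)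
      ≤ ENNReal.ofReal (2 * Real.exp (11 / 2) / c0 * NN P n (2 * t0) h 0 / P.ss n ^ 2 *
          Real.exp (-(11 / 2))) := by
        apply ENNReal.ofReal_le_ofReal
        have e1 : Real.exp (11 / 2) * Real.exp (-(11 / 2)) = 1 := by
          rw [← Real.exp_add, add_neg_cancel, Real.exp_zero]
        have e2 : 2 * Real.exp (11 / 2) / c0 * NN P n (2 * t0) h 0 / P.ss n ^ 2 *
            Real.exp (-(11 / 2)) = 2 * NN P n (2 * t0) h 0 / (c0 * P.ss n ^ 2) := by
          calc _ = 2 * (Real.exp (11 / 2) * Real.exp (-(11 / 2))) / c0 *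
                NN P n (2 * t0) h 0 / P.ss n ^ 2 := by ring
            _ = _ := by
              rw [e1]
              (clear * - hss hc0; field_simp)
        rw [e2, ← div_eq_mul_inv, div_le_div_iff₀ hss (by positivity)]
        calc κ * (c0 * P.ss n ^ 2) = 2 * (κ * c0 * P.ss n / 2) * P.ss n := by ring
          _ ≤ 2 * NN P n (2 * t0) h 0 * P.ss n := by (clear * - hNN hss; gcongr)
    _ = ENNReal.ofReal (2 * Real.exp (11 / 2) / c0 * NN P n (2 * t0) h 0 / P.ss n ^ 2) *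
          ENNReal.ofReal (Real.exp (-(11 / 2))) := ENNReal.ofReal_mul (by (clear * - hc0 hNN0 hss; positivity))
    _ ≤ _ := by (clear * - hPi; gcongr)

/-- for large `c` the growth factor beats the constants of the smoothing estimate -/
theorem sup6_large (CA : ℝ) (hCA : 0 < CA) : ∀ᶠ c : ℝ in atTop,
    3 ≤ c / (100 * (400 * √c)) ∧
    32 * (∑ i ∈ Finset.range 4, (CA * c ^ 3) ^ i) * (2 : ℝ) ^ (1 - c / (100 * (400 * √c))) ≤ 1 := by
  set b : ℝ := Real.log 2 / 40000 with hb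
  have hlog : 0 < Real.log 2 := Real.log_pos (by norm_num)
  have hb0 : 0 < b := by rw [hb]; positivity
  have t1 : Tendsto (fun c : ℝ => b * √c) atTop atTop :=
    Tendsto.const_mul_atTop hb0 Real.tendsto_sqrt_atTop
  have t2 : Tendsto (fun c : ℝ => (b * √c) ^ 18 * Real.exp (-(b * √c))) atTop (𝓝 0) :=
    (Real.tendsto_pow_mul_exp_neg_atTop_nhds_zero 18).comp t1
  have hδ : 0 < b ^ 18 / (256 * (1 + CA) ^ 3) := by positivity
  filter_upwards [t2.eventually (gt_mem_nhds hδ), eventually_ge_atTop ((120000 : ℝ) ^ 2)]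
    with c h1 h2
  have hc1 : 1 ≤ c := le_trans (by norm_num) h2
  have hc0 : 0 < c := by linarith only [h2]
  have hs : 0 < √c := Real.sqrt_pos.2 hc0
  have hss : √c ^ 2 = c := Real.sq_sqrt hc0.le
  have hL : c / (100 * (400 * √c)) = √c / 40000 := by
    rw [div_eq_div_iff (by (clear * - h2; positivity)) (by norm_num)]
    linear_combination 40000 * (-hss)
  have hs120 : 120000 ≤ √c := by
    have := Real.sqrt_le_sqrt h2
    rwa [Real.sqrt_sq (by norm_num)] at this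
  rw [hL]
  refine ⟨by linarith only [hs120], ?_⟩
  have e1 : (2 : ℝ) ^ (1 - √c / 40000) = 2 * Real.exp (-(b * √c)) := by
    rw [Real.rpow_def_of_pos (by norm_num),
      show Real.log 2 * (1 - √c / 40000) = Real.log 2 + -(b * √c) by rw [hb]; ring,
      Real.exp_add, Real.exp_log (by norm_num)]
  rw [e1]
  have e2 : ∑ i ∈ Finset.range 4, (CA * c ^ 3) ^ i ≤ 4 * ((1 + CA) * c ^ 3) ^ 3 := by
    have hc3 : 1 ≤ c ^ 3 := one_le_pow₀ hc1
    have hbig : 1 ≤ (1 + CA) * c ^ 3 := by nlinarith only [hCA, hc3]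
    have h4 : ∀ i ∈ Finset.range 4, (CA * c ^ 3) ^ i ≤ ((1 + CA) * c ^ 3) ^ 3 := by
      intro i hi
      have hi3 : i ≤ 3 := by
        have := Finset.mem_range.1 hi
        (clear * - this; omega)
      calc (CA * c ^ 3) ^ i ≤ ((1 + CA) * c ^ 3) ^ i := by
            gcongr
            linarith only []
        _ ≤ ((1 + CA) * c ^ 3) ^ 3 := pow_le_pow_right₀ hbig hi3
    refine (Finset.sum_le_card_nsmul _ _ _ h4).trans ?_
    simp
  have e3 : c ^ 9 = √c ^ 18 := by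
    rw [← hss]
    simp only [Real.sqrt_sq (hs.le)]
    ring
  have hE := Real.exp_pos (-(b * √c))
  calc 32 * (∑ i ∈ Finset.range 4, (CA * c ^ 3) ^ i) * (2 * Real.exp (-(b * √c)))
      ≤ 32 * (4 * ((1 + CA) * c ^ 3) ^ 3) * (2 * Real.exp (-(b * √c))) := by (clear * - e2; gcongr)
    _ = 256 * (1 + CA) ^ 3 * (c ^ 9 * Real.exp (-(b * √c))) := by ring
    _ = 256 * (1 + CA) ^ 3 / b ^ 18 * ((b * √c) ^ 18 * Real.exp (-(b * √c))) := by
        rw [e3]
        field_simp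
    _ ≤ 256 * (1 + CA) ^ 3 / b ^ 18 * (b ^ 18 / (256 * (1 + CA) ^ 3)) := by gcongr
    _ = 1 := by field_simp

end Vale.Agent.P140.NU
end
end

section

/-!
P140, non-uniqueness, module B: the sup norm of the hot part is controlled by its mass.
-/

open MeasureTheory Set Filter
open scoped ENNReal Topology

noncomputable section

namespace Vale.Agent.P140.NU

/-- B1: the sup norm of the hot part is controlled by its mass -/
theorem sup_improve' : EvP fun P => ∀ CB : ℝ, 0 < CB → ∃ Ca C2 ε : ℝ, 0 < Ca ∧ 0 < C2 ∧ 0 < ε ∧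
    ∀ᶠ t0 in 𝓝[>] (0 : ℝ), ∀ᶠ n in atTop, ∀ N : ℕ, 3 ≤ N → ∀ κ ∈ Ioc (0 : ℝ) 1, ∀ F G h,
    Split P CB t0 n N κ F G h →
    (∀ x v, ENNReal.ofReal (h 0 x v) ≤
      ENNReal.ofReal (3 / 4 * Hh P n (2 * t0) Ca h 0) * Pi P n (1 / 6) 0 x v) ∧
    (∀ t1 ∈ Icc 0 t0,
      (∀ τ ∈ Icc 0 t1, ∀ x v, ENNReal.ofReal (h τ x v) ≤
        ENNReal.ofReal (Hh P n (2 * t0) Ca h τ) * Pi P n (gam P n (2 * t0) Ca C2 h τ) τ x v) →
      (∀ τ ∈ Icc 0 t1, 0 < NN P n (2 * t0) h τ ∧
        4 * NE P n (2 * t0) h τ ≤ NN P n (2 * t0) h τ) →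
      Grows P n (2 * t0) h t1 →
      (∫ τ in (0 : ℝ)..t1, (1 + Hh P n (2 * t0) Ca h τ) ≤ ε) →
      ∀ x v, ENNReal.ofReal (h t1 x v) ≤ ENNReal.ofReal (3 / 4 * Hh P n (2 * t0) Ca h t1) *
        Pi P n (gam P n (2 * t0) Ca C2 h t1) t1 x v) := by
  obtain ⟨CA, hCA, eUK⟩ := UK_Pi
  obtain ⟨CG, hCG, eG⟩ := Gam_Pi
  obtain ⟨c0, hc0, eS⟩ := seed_mass
  have eL := EvP.of_c (sup6_large CA hCA)
  have eAll := ((eUK.and eG).and (eS.and eL)).and (((Pi_mono.and Gam_noise).and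
    (smoothing.and wt_seed)).and ((wt_facts.and wt_meas).and ((et_meas.and exposure).and
      EvP.basic)))
  refine eAll.mono fun P hP => ?_
  clear eAll eUK eG eS eL
  obtain ⟨⟨⟨pUK, pG⟩, pS, pL1, pL2⟩, ⟨⟨pMono, pN⟩, pSm, pws⟩, ⟨pwf, pwm⟩, ⟨pem, pex⟩, hc1, hl1, hl2,
    hK, hk0, hk1, hj0⟩ := hP
  intro CB hCB
  obtain ⟨CN, hCN, pN'⟩ := pN CB hCB
  obtain ⟨Ce, hCe, pSm'⟩ := pSm (1 / 8) (by norm_num)
  have hcp : 0 < P.c := by linarith only [hc1]
  have hlp : 0 < P.lam := by linarith only [hl1]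
  have hwp : 0 < P.w := by
    unfold Par.w
    positivity
  have hLam : 3 ≤ P.Lam := pL1
  set A : ℝ := CA * P.c ^ 3 with hA
  have hA0 : 0 < A := by rw [hA]; positivity
  set C1 : ℝ := ∑ i ∈ Finset.range 4, A ^ i with hC1
  have hC1p : 1 ≤ C1 := by
    rw [hC1, Finset.sum_range_succ']
    have : 0 ≤ ∑ k ∈ Finset.range 3, A ^ (k + 1) := Finset.sum_nonneg fun i _ => by positivity
    simp only [pow_zero]
    linarith only [this]
  have pL2' : 32 * C1 * (2 : ℝ) ^ (1 - P.Lam) ≤ 1 := pL2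
  set K0 : ℝ := 2 * Real.exp (11 / 2) / c0 with hK0
  have hK0p : 0 < K0 := by rw [hK0]; positivity
  set Cm : ℝ := 2 * CN + CG with hCm
  have hCmp : 0 < Cm := by rw [hCm]; (clear * - hCN hCG; positivity)
  obtain ⟨Ca, hCad⟩ : ∃ Ca : ℝ, Ca = 8 * C1 * K0 + 2 * K0 + 2 * Ce * Real.exp (2 * P.Vg + 100) :=
    ⟨_, rfl⟩
  obtain ⟨C2, hC2d⟩ : ∃ C2 : ℝ, C2 = 16 * C1 * Cm := ⟨_, rfl⟩
  obtain ⟨ε, hεd⟩ : ∃ ε : ℝ, ε = 1 / (24 * C2) := ⟨_, rfl⟩
  have hX : 0 < 2 * Ce * Real.exp (2 * P.Vg + 100) := by positivity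
  have hY : 0 < 8 * C1 * K0 := by (clear * - hCA hc1 hC2d hεd hc0; positivity)
  have hCa : 0 < Ca := by rw [hCad]; (clear * - hCA hc1 hC2d hεd hc0 hCe; positivity)
  have hC2 : 0 < C2 := by rw [hC2d]; (clear * - hCA hc1 hC2d hεd hCad hCa hCN hCG; positivity)
  have hε : 0 < ε := by rw [hεd]; (clear * - hC2; positivity)
  have hCa1 : 8 * C1 * K0 ≤ Ca := by rw [hCad]; linarith only [hK0p, hX]
  have hCa2 : 2 * K0 ≤ Ca := by rw [hCad]; linarith only [hX, hY]
  have hCa3 : 2 * Ce * Real.exp (2 * P.Vg + 100) ≤ Ca := by rw [hCad]; linarith only [hK0p, hY]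
  have hεC : C2 * ε ≤ 1 / 24 := by
    rw [hεd]
    apply le_of_eq
    (clear * - hC2; field_simp)
  have hp : C1 * (Cm * (2 * ε + 1 / C2)) ≤ 1 / 8 := by
    have e : C1 * (Cm * (2 * ε + 1 / C2)) = C1 * Cm / C2 * (13 / 12) := by
      rw [hεd]
      field_simp
      ring
    have e2 : C1 * Cm / C2 = 1 / 16 := by
      rw [hC2d]
      (clear * - hC1p hCmp; field_simp)
    rw [e, e2]
    norm_num
  refine ⟨Ca, C2, ε, hCa, hC2, hε, ?_⟩
  have htend : Tendsto (fun n : ℕ => P.ss n) atTop (𝓝 0) := by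
    have h1 : Tendsto (fun n : ℕ => P.lam ^ (n + 1)) atTop (𝓝 0) :=
      (tendsto_pow_atTop_nhds_zero_of_lt_one hlp.le hl2).comp (tendsto_add_atTop_nat 1)
    have h2 := h1.div_const P.w
    rw [zero_div] at h2
    exact h2
  filter_upwards [pUK, pG, pMono, pN', pSm', pws, pwf, pex, self_mem_nhdsWithin]
    with t0 q1 q2 q3 q4 q5 q6 q7 q8 q9
  have ht0 : 0 < t0 := q9
  filter_upwards [eventually_ge_atTop P.j0, htend.eventually_le_const ht0,
    htend.eventually_le_const (by norm_num : (0 : ℝ) < 1 / 8)] with n hn1 hn2 hn3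
  have hss : 0 < P.ss n := by
    unfold Par.ss
    (clear * - hl1 hwp; positivity)
  have H : SupH P n t0 CB A CG CN Ce :=
    { c_pos := hcp
      ss_pos := hss
      del_nonneg := fun j => by
        unfold Par.del
        (clear * - hk0 hl1; positivity)
      hA := hA0.le
      hCG := hCG.le
      hCN := hCN.le
      hCe := hCe.le
      UKP := q1 n hn1
      mono := q3 n
      GP := q2 n hn1
      GN := q4 n hn1
      Sm := q5 n hn1 hn2
      met := pem n (2 * t0)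
      expo := q8 n hn1 hn2 }
  intro N hN κ hκ F G h hs
  have hw2 : ∀ x v, 0 ≤ wt P n (2 * t0) 0 x v ∧ wt P n (2 * t0) 0 x v ≤ 1 := fun x v => by
    have := q7 n hn1 hn2 0 ⟨le_rfl, by linarith only [ht0]⟩ x v
    exact ⟨this.1, this.2.1⟩
  have hNN0 := sup6_NN0 hss (pS n hn3) (q6 n hn1 hn2) hw2 (pwm n (2 * t0)) hκ.1.le hs
  have hNN0' : 0 ≤ NN P n (2 * t0) h 0 := by
    refine le_trans ?_ hNN0
    have := hκ.1
    (clear * - this hc0 hss; positivity)
  have hinit : ∀ γ : ℝ, γ ≤ 1 / 6 → ∀ x v, hh h 0 x v ≤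
      ENNReal.ofReal (K0 * NN P n (2 * t0) h 0 / P.TT n 0 ^ 2) * Pi P n γ 0 x v :=
    fun γ hγ x v => sup6_init hss hc0 (pS n hn3) (q6 n hn1 hn2) hw2 (pwm n (2 * t0)) hκ.1.le hs
      hγ x v
  refine ⟨fun x v => ?_, fun t1 ht1 H1 H2 H3 H4 x v => ?_⟩
  · refine (hinit (1 / 6) le_rfl x v).trans (mul_le_mul' (ENNReal.ofReal_le_ofReal ?_) le_rfl)
    unfold Hh
    calc K0 * NN P n (2 * t0) h 0 / P.TT n 0 ^ 2
        ≤ (3 / 4 * Ca) * NN P n (2 * t0) h 0 / P.TT n 0 ^ 2 := by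
          gcongr
          linarith only [hY, hX, hCad, hK0p]
      _ = _ := by ring
  · have hTp : ∀ τ, 0 ≤ τ → 0 < P.TT n τ := fun τ hτ => H.TT_pos hτ
    have hm := sup5_mono hss (te := 2 * t0) hCa hLam (fun τ hτ => (H2 τ hτ).1) H3
    have ha0 : ∀ τ ∈ Icc 0 t1, 0 ≤ Hh P n (2 * t0) Ca h τ := fun τ hτ => by
      have h1 := (H2 τ hτ).1
      have h2 := hTp τ hτ.1
      unfold Hh
      (clear * - hCa h1 h2; positivity)
    obtain ⟨hi, hanti, hgr⟩ := sup5_facts ht1.1 hC2 ha0 hm H4 hεC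
    have htt : t1 ∈ Icc 0 t1 := ⟨ht1.1, le_rfl⟩
    by_cases hcase : P.ss n ≤ t1
    · -- the time `ta` with `TT ta = TT t1 / 2`
      have hta0 : 0 ≤ (t1 - P.ss n) / 2 := by linarith only [hcase]
      have hta1 : (t1 - P.ss n) / 2 ≤ t1 := by linarith only [hss, hcase]
      have hTa : P.TT n ((t1 - P.ss n) / 2) = P.TT n t1 / 2 := by
        unfold Par.TT
        ring
      have htam : (t1 - P.ss n) / 2 ∈ Icc 0 t1 := ⟨hta0, hta1⟩
      refine sup5_core H (fun f g hf hg v => supGam_comm hf hg v) hN hs hCa hC2 hLam hC1 hεC hp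
        hCa3 ht1 H1 H2 H3 H4 hta0 hta1 (by rw [hTa]; linarith only []) (fun x v => ?_) x v
      refine (H1 _ htam x v).trans (mul_le_mul' (ENNReal.ofReal_le_ofReal ?_)
        (sup3_Pi_anti n (hanti _ htam t1 ⟨hta1, le_rfl⟩) _ x v))
      have g1 := H3 _ htam t1 ⟨hta1, le_rfl⟩
      have hT1 := hTp t1 ht1.1
      rw [hTa, show P.TT n t1 / (P.TT n t1 / 2) = 2 by (clear * - hT1; field_simp)] at g1
      have g2 : (2 : ℝ) ^ (1 - P.Lam) * (2 : ℝ) ^ (P.Lam - 1) = 1 := by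
        rw [← Real.rpow_add (by norm_num)]
        simp
      have g3 : 0 < (2 : ℝ) ^ (1 - P.Lam) := Real.rpow_pos_of_pos (by norm_num) _
      have g4 : NN P n (2 * t0) h ((t1 - P.ss n) / 2) ≤
          (2 : ℝ) ^ (1 - P.Lam) * NN P n (2 * t0) h t1 := by
        have := mul_le_mul_of_nonneg_left g1 g3.le
        calc NN P n (2 * t0) h ((t1 - P.ss n) / 2) = ((2 : ℝ) ^ (1 - P.Lam) *
              (2 : ℝ) ^ (P.Lam - 1)) * NN P n (2 * t0) h ((t1 - P.ss n) / 2) := by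
                rw [g2, one_mul]
          _ = (2 : ℝ) ^ (1 - P.Lam) * (NN P n (2 * t0) h ((t1 - P.ss n) / 2) *
              (2 : ℝ) ^ (P.Lam - 1)) := by ring
          _ ≤ _ := this
      have hN1 := (H2 t1 htt).1
      unfold Hh
      rw [hTa]
      calc Ca * NN P n (2 * t0) h ((t1 - P.ss n) / 2) / (P.TT n t1 / 2) ^ 2
          ≤ Ca * ((2 : ℝ) ^ (1 - P.Lam) * NN P n (2 * t0) h t1) / (P.TT n t1 / 2) ^ 2 := by
            (clear * - g4 hCa hT1; gcongr)
        _ = (32 * C1 * (2 : ℝ) ^ (1 - P.Lam)) * (Ca * NN P n (2 * t0) h t1 / P.TT n t1 ^ 2) /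
            (8 * C1) := by
            field_simp
            ring
        _ ≤ 1 * (Ca * NN P n (2 * t0) h t1 / P.TT n t1 ^ 2) / (8 * C1) := by (clear * - pL2' hCa hN1 hT1 hCA hc1 hε hC2d hεd hC2 hεC hp hCad hCa1 hCa2 hCa3 H1 H4 hm ha0 hi hanti hgr; gcongr)
        _ = _ := by rw [one_mul]
    · -- `ta = 0`
      push Not at hcase
      refine sup5_core H (fun f g hf hg v => supGam_comm hf hg v) hN hs hCa hC2 hLam hC1 hεC hp
        hCa3 ht1 H1 H2 H3 H4 le_rfl ht1.1 (by unfold Par.TT; linarith only [hcase]) (fun x v => ?_) x v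
      refine (hinit _ (hgr t1 htt).2 x v).trans (mul_le_mul' (ENNReal.ofReal_le_ofReal ?_) le_rfl)
      have h1 := hm 0 ⟨le_rfl, ht1.1⟩ t1 ⟨ht1.1, le_rfl⟩
      rw [le_div_iff₀ (by (clear * - hCA hc1 hε hC2d hεd hC2 hεC hp hCad hCa hCa1 hCa2 hCa3 H1 H4 hm ha0 hi hanti hgr h1; positivity))]
      refine le_trans ?_ h1
      unfold Hh
      calc K0 * NN P n (2 * t0) h 0 / P.TT n 0 ^ 2 * (8 * C1)
          = (8 * C1 * K0) * NN P n (2 * t0) h 0 / P.TT n 0 ^ 2 := by ring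
        _ ≤ Ca * NN P n (2 * t0) h 0 / P.TT n 0 ^ 2 := by (clear * - hCa1 hNN0'; gcongr)

end Vale.Agent.P140.NU
end
end

section

/-!
P140, non-uniqueness, module B: statement Sup (proof in `NU/B/Sup.lean`).
-/

open MeasureTheory Set Filter
open scoped ENNReal Topology

noncomputable section

namespace Vale.Agent.P140.NU

/-- B1: the sup norm of the hot part is controlled by its mass -/
theorem sup_improve : EvP fun P => ∀ CB : ℝ, 0 < CB → ∃ Ca C2 ε : ℝ, 0 < Ca ∧ 0 < C2 ∧ 0 < ε ∧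
    ∀ᶠ t0 in 𝓝[>] (0 : ℝ), ∀ᶠ n in atTop, ∀ N : ℕ, 3 ≤ N → ∀ κ ∈ Ioc (0 : ℝ) 1, ∀ F G h,
    Split P CB t0 n N κ F G h →
    (∀ x v, ENNReal.ofReal (h 0 x v) ≤
      ENNReal.ofReal (3 / 4 * Hh P n (2 * t0) Ca h 0) * Pi P n (1 / 6) 0 x v) ∧
    (∀ t1 ∈ Icc 0 t0,
      (∀ τ ∈ Icc 0 t1, ∀ x v, ENNReal.ofReal (h τ x v) ≤
        ENNReal.ofReal (Hh P n (2 * t0) Ca h τ) * Pi P n (gam P n (2 * t0) Ca C2 h τ) τ x v) →
      (∀ τ ∈ Icc 0 t1, 0 < NN P n (2 * t0) h τ ∧
        4 * NE P n (2 * t0) h τ ≤ NN P n (2 * t0) h τ) →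
      Grows P n (2 * t0) h t1 →
      (∫ τ in (0 : ℝ)..t1, (1 + Hh P n (2 * t0) Ca h τ) ≤ ε) →
      ∀ x v, ENNReal.ofReal (h t1 x v) ≤ ENNReal.ofReal (3 / 4 * Hh P n (2 * t0) Ca h t1) *
        Pi P n (gam P n (2 * t0) Ca C2 h t1) t1 x v) := sup_improve'

end Vale.Agent.P140.NU
end
end

section

/-!
P140, non-uniqueness, module B: the profile has small mass near the cold velocities.
-/

open MeasureTheory Set Filter
open scoped ENNReal Topology Interval

noncomputable section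

namespace Vale.Agent.P140.NU

theorem bt_exp_int {T : ℝ} (hT : 0 < T) : ∫ a in (0 : ℝ)..(1 / 2), Real.exp (-|a| / T) ≤ T := by
  have e1 : ∫ a in (0 : ℝ)..(1 / 2), Real.exp (-|a| / T) =
      ∫ a in (0 : ℝ)..(1 / 2), Real.exp (-a / T) := by
    refine intervalIntegral.integral_congr fun a ha => ?_
    rw [uIcc_of_le (by norm_num)] at ha
    simp only [abs_of_nonneg ha.1]
  have e2 : ∫ a in (0 : ℝ)..(1 / 2), Real.exp (-a / T) =
      (-T * Real.exp (-(1 / 2) / T)) - (-T * Real.exp (-0 / T)) := by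
    refine intervalIntegral.integral_eq_sub_of_hasDerivAt
      (f := fun a : ℝ => -T * Real.exp (-a / T)) (fun a _ => ?_) ?_
    · have h1 : HasDerivAt (fun a : ℝ => -a / T) (-1 / T) a :=
        ((hasDerivAt_id a).neg).div_const T
      have h2 := (h1.exp).const_mul (-T)
      refine h2.congr_deriv ?_
      field_simp
    · exact (by (clear * -; fun_prop) : Continuous fun a : ℝ => Real.exp (-a / T)).intervalIntegrable _ _
  rw [e1, e2]
  have := Real.exp_pos (-(1 / 2) / T)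
  have h3 : Real.exp (-0 / T) = 1 := by simp
  rw [h3]
  nlinarith only [hT, this]

theorem bt_circ {T : ℝ} (hT : 0 < T) : ∫ a : UnitAddCircle, Real.exp (-‖a‖ / T) ≤ 2 * T := by
  rw [← UnitAddCircle.integral_preimage (-(1 / 2)) (fun a => Real.exp (-‖a‖ / T))]
  have e0 : (-(1 / 2) + 1 : ℝ) = 1 / 2 := by norm_num
  rw [e0, ← intervalIntegral.integral_of_le (by (clear * -; norm_num))]
  have hc : Continuous fun a : ℝ => Real.exp (-|a| / T) := by fun_prop
  have e1 : ∫ a in (-(1 / 2) : ℝ)..(1 / 2), Real.exp (-‖(a : UnitAddCircle)‖ / T) =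
      ∫ a in (-(1 / 2) : ℝ)..(1 / 2), Real.exp (-|a| / T) := by
    refine intervalIntegral.integral_congr fun a ha => ?_
    rw [uIcc_of_le (by norm_num)] at ha
    have h1 : ‖(a : UnitAddCircle)‖ = |a| := by
      rw [AddCircle.norm_coe_eq_abs_iff (1 : ℝ) one_ne_zero, abs_one]
      exact abs_le.2 ⟨by linarith [ha.1], by linarith only [ha.2]⟩
    simp only [h1]
  rw [e1, ← intervalIntegral.integral_add_adjacent_intervals (b := 0)
    (hc.intervalIntegrable _ _) (hc.intervalIntegrable _ _)]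
  have e2 : ∫ a in (-(1 / 2) : ℝ)..0, Real.exp (-|a| / T) =
      ∫ a in (0 : ℝ)..(1 / 2), Real.exp (-|a| / T) := by
    have := intervalIntegral.integral_comp_neg (a := 0) (b := 1 / 2)
      (fun a : ℝ => Real.exp (-|a| / T))
    simp only [abs_neg, neg_zero] at this
    exact this.symm
  rw [e2]
  (clear * - hT; linarith [bt_exp_int hT])

theorem bt_rr_ge (x : T3) : (‖x 0‖ + ‖x 1‖) / 2 ≤ rr x := by
  unfold rr
  apply Real.le_sqrt_of_sq_le
  nlinarith [sq_nonneg (‖x 0‖ - ‖x 1‖), norm_nonneg (x 0), norm_nonneg (x 1)]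

theorem bt_lint_rr {T : ℝ} (hT : 0 < T) :
    ∫⁻ x : T3, ENNReal.ofReal (Real.exp (-(2 * rr x / T))) ≤ ENNReal.ofReal (4 * T ^ 2) := by
  set f : Fin 3 → UnitAddCircle → ℝ := fun i a => if i = 2 then 1 else Real.exp (-‖a‖ / T) with hf
  have e1 : ∫ x : T3, ∏ i, f i (x i) = ∏ i, ∫ a : UnitAddCircle, f i a :=
    integral_fintype_prod_volume_eq_prod (fun i => f i)
  have e2 : ∀ x : T3, ∏ i, f i (x i) = Real.exp (-‖x 0‖ / T) * Real.exp (-‖x 1‖ / T) := by
    intro x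
    rw [Fin.prod_univ_three]
    simp only [hf, Fin.isValue, Fin.reduceEq, ↓reduceIte, mul_one]
  have e3 : ∏ i, ∫ a : UnitAddCircle, f i a =
      (∫ a : UnitAddCircle, Real.exp (-‖a‖ / T)) * ∫ a : UnitAddCircle, Real.exp (-‖a‖ / T) := by
    rw [Fin.prod_univ_three]
    simp only [hf, Fin.isValue, Fin.reduceEq, ↓reduceIte, integral_const, Measure.real, AddCircle.measure_univ, ENNReal.ofReal_one, ENNReal.toReal_one, smul_eq_mul, mul_one]
  have hc : Continuous fun x : T3 => Real.exp (-‖x 0‖ / T) * Real.exp (-‖x 1‖ / T) := by (clear * -; fun_prop)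
  have hi : Integrable fun x : T3 => Real.exp (-‖x 0‖ / T) * Real.exp (-‖x 1‖ / T) :=
    hc.integrable_of_hasCompactSupport (HasCompactSupport.of_compactSpace _)
  have h0 : 0 ≤ ∫ a : UnitAddCircle, Real.exp (-‖a‖ / T) := integral_nonneg fun a => (Real.exp_pos _).le
  calc ∫⁻ x : T3, ENNReal.ofReal (Real.exp (-(2 * rr x / T)))
      ≤ ∫⁻ x : T3, ENNReal.ofReal (Real.exp (-‖x 0‖ / T) * Real.exp (-‖x 1‖ / T)) := by
        refine lintegral_mono fun x => ENNReal.ofReal_le_ofReal ?_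
        rw [← Real.exp_add]
        apply Real.exp_le_exp.2
        have h1 := bt_rr_ge x
        have h2 : -‖x 0‖ / T + -‖x 1‖ / T = -((‖x 0‖ + ‖x 1‖) / T) := by ring
        rw [h2]
        apply neg_le_neg
        apply div_le_div_of_nonneg_right _ hT.le
        linarith only [h1]
    _ = ENNReal.ofReal (∫ x : T3, Real.exp (-‖x 0‖ / T) * Real.exp (-‖x 1‖ / T)) := by
        rw [ofReal_integral_eq_lintegral_ofReal hi]
        exact Eventually.of_forall fun x => by positivity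
    _ ≤ ENNReal.ofReal (4 * T ^ 2) := by
        apply ENNReal.ofReal_le_ofReal
        have e4 : ∫ x : T3, Real.exp (-‖x 0‖ / T) * Real.exp (-‖x 1‖ / T) =
            (∫ a : UnitAddCircle, Real.exp (-‖a‖ / T)) *
              ∫ a : UnitAddCircle, Real.exp (-‖a‖ / T) := by
          rw [← e3, ← e1]
          exact integral_congr_ae (Eventually.of_forall fun x => (e2 x).symm)
        rw [e4]
        have h2 := bt_circ hT
        linarith only [mul_nonneg (sub_nonneg.2 h2) (sub_nonneg.2 h0), mul_nonneg (sub_nonneg.2 h2) (sub_nonneg.2 h2)]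

/-- singular kernel -/
def btK (z : V) : ℝ≥0∞ := ENNReal.ofReal (‖z‖ ^ 2) ^ (-(3 / 4) : ℝ)

theorem bt_meas_sgk : Measurable btK := by
  unfold btK
  exact (measurable_norm.pow_const 2).ennreal_ofReal.pow_const _

theorem bt_sing {m0 : ℝ} (h0 : 0 < m0) (h1 : m0 ≤ 1) :
    ∫⁻ z : V, {z : V | ‖z‖ < m0}.indicator btK z ≤ Ss * ENNReal.ofReal m0 := by
  have hm : MeasurableSet {z : V | ‖z‖ < m0} := measurableSet_lt measurable_norm measurable_const
  have mf : Measurable ({z : V | ‖z‖ < m0}.indicator btK) := bt_meas_sgk.indicator hm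
  rw [lint_polar0 mf]
  have h2 : ∀ o : S2, ∫⁻ r in Ioi (0 : ℝ), ENNReal.ofReal (r ^ 2) *
      {z : V | ‖z‖ < m0}.indicator btK (r • (o : V)) ≤ ENNReal.ofReal m0 := by
    intro o
    calc ∫⁻ r in Ioi (0 : ℝ), ENNReal.ofReal (r ^ 2) *
          {z : V | ‖z‖ < m0}.indicator btK (r • (o : V))
        ≤ ∫⁻ r in Ioi (0 : ℝ), (Ioc 0 m0).indicator (fun _ => (1 : ℝ≥0∞)) r := by
          apply setLIntegral_mono' measurableSet_Ioi
          intro r hr
          have hr0 : (0 : ℝ) < r := hr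
          have hn : ‖r • (o : V)‖ = r := by
            rw [norm_smul, norm_o, mul_one, Real.norm_of_nonneg hr0.le]
          by_cases h : r < m0
          · rw [indicator_of_mem (show r • (o : V) ∈ {z : V | ‖z‖ < m0} by
              simp only [mem_ofPred_eq, hn]; exact h), indicator_of_mem (show r ∈ Ioc 0 m0 from
              ⟨hr0, h.le⟩)]
            unfold btK
            rw [hn]
            have e1 : ENNReal.ofReal (r ^ 2) * ENNReal.ofReal (r ^ 2) ^ (-(3 / 4) : ℝ) =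
                ENNReal.ofReal (r ^ 2) ^ ((1 : ℝ) + -(3 / 4)) := by
              have hp : ENNReal.ofReal (r ^ 2) ≠ 0 := by
                simp only [ne_eq, ENNReal.ofReal_eq_zero, not_le]
                (clear * - hr0; positivity)
              rw [ENNReal.rpow_add _ _ hp ENNReal.ofReal_ne_top, ENNReal.rpow_one]
            rw [e1]
            apply ENNReal.rpow_le_one
            · rw [← ENNReal.ofReal_one]
              apply ENNReal.ofReal_le_ofReal
              nlinarith only [h1, h, hr0]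
            · norm_num
          · rw [indicator_of_notMem (show r • (o : V) ∉ {z : V | ‖z‖ < m0} by
              simp only [mem_ofPred_eq, hn]; exact h)]
            simp only [mul_zero, zero_le]
      _ ≤ ∫⁻ r, (Ioc 0 m0).indicator (fun _ => (1 : ℝ≥0∞)) r := setLIntegral_le_lintegral _ _
      _ = ENNReal.ofReal m0 := by
          rw [lintegral_indicator measurableSet_Ioc, setLIntegral_const, Real.volume_Ioc, sub_zero,
            one_mul]
  calc ∫⁻ o : S2, (∫⁻ r in Ioi (0 : ℝ), ENNReal.ofReal (r ^ 2) *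
        {z : V | ‖z‖ < m0}.indicator btK (r • (o : V))) ∂surf
      ≤ ∫⁻ _ : S2, ENNReal.ofReal m0 ∂surf := lintegral_mono h2
    _ = _ := by
        rw [lintegral_const, mul_comm]
        rfl

/-! ### the cold velocity -/

/-- the vector `u_s(x)` -/
def btU (P : Par) (s : ℝ) (x : T3) : V :=
  WithLp.toLp 2 ![P.w * (rep x 0 / rr x), P.w * (rep x 1 / rr x), s]

theorem bt_dist_sq (P : Par) (s : ℝ) (x : T3) (v : V) : ‖v - btU P s x‖ ^ 2 ≤ SS P s x v := by
  rw [EuclideanSpace.norm_sq_eq, Fin.sum_univ_three]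
  simp only [Real.norm_eq_abs, sq_abs]
  have e0 : (v - btU P s x) 0 = v 0 - P.w * (rep x 0 / rr x) := rfl
  have e1 : (v - btU P s x) 1 = v 1 - P.w * (rep x 1 / rr x) := rfl
  have e2 : (v - btU P s x) 2 = v 2 - s := rfl
  rw [e0, e1, e2]
  have hs := SS_eq (P := P) s x v
  unfold SS
  rw [vp_sq]
  have h3 : dotE x v = rep x 0 / rr x * v 0 + rep x 1 / rr x * v 1 := by
    unfold dotE; ring
  have h4 : (rep x 0 / rr x) ^ 2 + (rep x 1 / rr x) ^ 2 ≤ 1 := by
    rw [div_pow, div_pow, ← add_div, ← rr_sq]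
    exact div_self_le_one _
  rw [h3]
  linarith only [mul_nonneg (sq_nonneg (1 * P.w : ℝ)) (sub_nonneg.2 h4)]

theorem bt_w_le {P : Par} (hc : 1 ≤ P.c) : 0 < P.w ∧ P.w ≤ 1 / 2 := by
  unfold Par.w
  constructor
  · positivity
  · rw [div_le_div_iff₀ (by positivity) (by norm_num)]
    linarith only [one_le_pow₀ hc (n := 2)]

/-- if `v` is close to a cold velocity, only one of the singular terms matters -/
theorem bt_WW_le {P : Par} {s m0 : ℝ} (hs : s = 1 ∨ s = -1) (hm : m0 ≤ 1 / 2) (t : ℝ) (x : T3)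
    (v : V) (h : √(SS P s x v) < m0) : WW P t x v ≤ btK (v - btU P s x) := by
  have hS0 := SS_nonneg (P := P) s x v
  have hS1 : SS P s x v < 1 := by
    have h1 : √(SS P s x v) < 1 := by linarith
    rw [Real.sqrt_lt' one_pos] at h1
    simpa only [gt_iff_lt, one_pow] using h1
  have hk : ENNReal.ofReal (SS P s x v) ^ (-(3 / 4) : ℝ) ≤ btK (v - btU P s x) := by
    unfold btK
    rw [ENNReal.rpow_neg, ENNReal.rpow_neg]
    apply ENNReal.inv_le_inv.2
    exact ENNReal.rpow_le_rpow (ENNReal.ofReal_le_ofReal (bt_dist_sq P s x v)) (by norm_num)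
  have hone : (1 : ℝ≥0∞) ≤ ENNReal.ofReal (SS P s x v) ^ (-(3 / 4) : ℝ) := by
    rw [ENNReal.rpow_neg]
    rw [ENNReal.one_le_inv]
    apply ENNReal.rpow_le_one
    · rw [← ENNReal.ofReal_one]
      exact ENNReal.ofReal_le_ofReal hS1.le
    · norm_num
  have hz := abs_vz_sub_le_sqrt_SS (P := P) s x v
  have hother : ∀ s' : ℝ, s' = -s → ENNReal.ofReal (SS P s' x v) ^ (-(3 / 4) : ℝ) - 1 = 0 := by
    intro s' hs'
    have h1 : 1 ≤ SS P s' x v := by
      have h2 := sq_vz_sub_le_SS (P := P) s' x v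
      have h3 : |v 2 - s| < 1 / 2 := by linarith only [hm, h, hz]
      rw [abs_lt] at h3
      rcases hs with rfl | rfl
      · subst hs'; nlinarith only [h3, h2]
      · subst hs'; nlinarith only [h3, h2]
    rw [tsub_eq_zero_iff_le, ENNReal.rpow_neg, ENNReal.inv_le_one]
    apply ENNReal.one_le_rpow
    · rw [← ENNReal.ofReal_one]
      exact ENNReal.ofReal_le_ofReal h1
    · norm_num
  unfold WW
  split_ifs with hr
  · rcases hs with rfl | rfl
    · rw [hother (-1) rfl, add_zero, add_tsub_cancel_of_le hone]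
      exact hk
    · rw [hother 1 (by norm_num), zero_add, add_tsub_cancel_of_le hone]
      exact hk
  · rw [add_zero]
    exact hone.trans hk

theorem bt_norm_le {P : Par} (hc : 1 ≤ P.c) {s m0 : ℝ} (hs : s = 1 ∨ s = -1) (hm : m0 ≤ 1 / 2)
    (x : T3) (v : V) (h : √(SS P s x v) < m0) : ‖v‖ ≤ 2 := by
  have hw := bt_w_le hc
  have hz := abs_vz_sub_le_sqrt_SS (P := P) s x v
  have hS : SS P s x v < (1 / 2) ^ 2 := by
    have h1 : √(SS P s x v) < 1 / 2 := by (clear * - hm h; linarith only [h, hm])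
    rwa [Real.sqrt_lt' (by norm_num)] at h1
  have h2 : vp v ≤ 1 := by
    have h3 := dotE_le x v
    have h4 : SS P s x v = vp v ^ 2 + P.w ^ 2 - 2 * P.w * dotE x v + (v 2 - s) ^ 2 := rfl
    have h5 : P.w * dotE x v ≤ P.w * vp v := mul_le_mul_of_nonneg_left h3 hw.1.le
    have h6 : (vp v - P.w) ^ 2 < (1 / 2) ^ 2 := by nlinarith only [hS, h4, h5]
    have h7 := abs_lt_of_sq_lt_sq h6 (by norm_num)
    rw [abs_lt] at h7
    linarith only [hw, h7]
  have h3 : |v 2 - s| < 1 / 2 := by linarith only [hm, h, hz]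
  rw [abs_lt] at h3
  have h4 : v 2 ^ 2 ≤ (3 / 2) ^ 2 := by
    rcases hs with rfl | rfl
    · nlinarith only [h3]
    · nlinarith only [h3]
  have h5 := norm_sq_eq v
  have h6 := vp_nonneg v
  have h7 : ‖v‖ ^ 2 ≤ 2 ^ 2 := by nlinarith only [h2, h4, h5, h6]
  exact le_of_sq_le_sq h7 (by norm_num)

theorem bt_yy_ge {P : Par} {n : ℕ} {t : ℝ} (hT : 0 < P.TT n t) (x : T3) (v : V) :
    rr x / P.TT n t - ‖v‖ ≤ yy P n t x v := by
  unfold yy
  rw [div_sub' hT.ne', div_le_div_iff_of_pos_right hT]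
  refine le_trans ?_ (le_max_left _ _)
  linarith only []

/-- integral of the profile near the cold velocities -/
theorem bt_Pi_small {P : Par} (hc : 1 ≤ P.c) {n : ℕ} {t m0 : ℝ} (hT : 0 < P.TT n t)
    (h0 : 0 < m0) (hm : m0 ≤ 1 / 2) :
    ∫⁻ p : T3 × V, {p : T3 × V | √(SS P 1 p.1 p.2) < m0 ∨ √(SS P (-1) p.1 p.2) < m0}.indicator
      (fun p => Pi P n (1 / 8) t p.1 p.2) p ≤
      ENNReal.ofReal (Real.exp 4) * (2 * (Ss * ENNReal.ofReal m0)) *
        ENNReal.ofReal (4 * P.TT n t ^ 2) := by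
  set E : T3 → ℝ≥0∞ := fun x => ENNReal.ofReal (Real.exp 4) *
    ENNReal.ofReal (Real.exp (-(2 * rr x / P.TT n t))) with hE
  set I : V → ℝ≥0∞ := fun z => {z : V | ‖z‖ < m0}.indicator btK z with hI
  have key : ∀ s : ℝ, s = 1 ∨ s = -1 → ∀ x v, √(SS P s x v) < m0 →
      Pi P n (1 / 8) t x v ≤ E x * I (v - btU P s x) := by
    intro s hs x v h
    have h1 := bt_WW_le hs hm t x v h
    have h2 := bt_norm_le hc hs hm x v h
    have h3 := bt_yy_ge hT x v
    have h4 : ‖v - btU P s x‖ < m0 := by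
      have h5 := bt_dist_sq P s x v
      refine lt_of_le_of_lt ?_ h
      exact Real.le_sqrt_of_sq_le h5
    have h5 : I (v - btU P s x) = btK (v - btU P s x) := indicator_of_mem (by exact h4) _
    rw [h5]
    unfold Pi
    refine mul_le_mul' ?_ h1
    rw [hE]
    simp only
    rw [← ENNReal.ofReal_mul (Real.exp_pos _).le, ← Real.exp_add]
    apply ENNReal.ofReal_le_ofReal
    apply Real.exp_le_exp.2
    have h6 : 2 * rr x / P.TT n t = 2 * (rr x / P.TT n t) := by ring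
    rw [h6]
    nlinarith only [h2, h3]
  have hIt : ∀ u : V, ∫⁻ v, I (v - u) = ∫⁻ v, I v := fun u => lintegral_sub_right_eq_self I u
  have hIm : Measurable I := bt_meas_sgk.indicator
    (measurableSet_lt measurable_norm measurable_const)
  have hEm : Measurable E := by
    have := continuous_rr
    rw [hE]
    have h1 : Continuous fun x : T3 => Real.exp (-(2 * rr x / P.TT n t)) := by fun_prop
    exact h1.measurable.ennreal_ofReal.const_mul _
  rw [Measure.volume_eq_prod]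
  refine (lintegral_prod_le _).trans ?_
  calc ∫⁻ x : T3, ∫⁻ v : V, {p : T3 × V | √(SS P 1 p.1 p.2) < m0 ∨
        √(SS P (-1) p.1 p.2) < m0}.indicator (fun p => Pi P n (1 / 8) t p.1 p.2) (x, v)
      ≤ ∫⁻ x : T3, ∫⁻ v : V, (E x * I (v - btU P 1 x) + E x * I (v - btU P (-1) x)) := by
        refine lintegral_mono fun x => lintegral_mono fun v => ?_
        simp only
        by_cases h : (x, v) ∈ {p : T3 × V | √(SS P 1 p.1 p.2) < m0 ∨ √(SS P (-1) p.1 p.2) < m0}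
        · rw [indicator_of_mem h]
          rcases h with h | h
          · exact (key 1 (Or.inl rfl) x v h).trans le_self_add
          · exact (key (-1) (Or.inr rfl) x v h).trans le_add_self
        · rw [indicator_of_notMem h]
          exact zero_le
    _ = ∫⁻ x : T3, E x * (2 * ∫⁻ v, I v) := by
        refine lintegral_congr fun x => ?_
        have m1 : ∀ u : V, Measurable fun v => I (v - u) := fun u =>
          hIm.comp (measurable_id.sub_const u)
        rw [lintegral_add_left ((m1 _).const_mul _), lintegral_const_mul _ (m1 _),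
          lintegral_const_mul _ (m1 _), hIt, hIt]
        ring
    _ = (∫⁻ x : T3, E x) * (2 * ∫⁻ v, I v) := lintegral_mul_const _ hEm
    _ ≤ (ENNReal.ofReal (Real.exp 4) * ENNReal.ofReal (4 * P.TT n t ^ 2)) *
          (2 * (Ss * ENNReal.ofReal m0)) := by
        refine mul_le_mul' ?_ (mul_le_mul' le_rfl (bt_sing h0 (by linarith only [hm])))
        rw [hE, lintegral_const_mul']
        · exact mul_le_mul' le_rfl (bt_lint_rr hT)
        · exact ENNReal.ofReal_ne_top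
    _ = _ := by ring

/-- choice of the cut-off -/
theorem bt_m0 {Ca : ℝ} (hCa : 0 < Ca) : ∃ m0 : ℝ, 0 < m0 ∧ m0 ≤ 1 / 2 ∧ ∀ T : ℝ, 0 < T →
    ENNReal.ofReal (Real.exp 4) * (2 * (Ss * ENNReal.ofReal m0)) * ENNReal.ofReal (4 * T ^ 2) ≤
      ENNReal.ofReal (T ^ 2 / (2 * Ca)) := by
  set S : ℝ := Ss.toReal with hS
  have hS0 : 0 ≤ S := ENNReal.toReal_nonneg
  have hSs : Ss = ENNReal.ofReal S := (ENNReal.ofReal_toReal Ss_ne_top).symm
  have he := Real.exp_pos 4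
  refine ⟨min (1 / 2) (1 / (16 * Real.exp 4 * (S + 1) * Ca)), ?_, min_le_left _ _, ?_⟩
  · exact lt_min (by norm_num) (by positivity)
  · intro T hT
    set m0 := min (1 / 2) (1 / (16 * Real.exp 4 * (S + 1) * Ca)) with hm0
    have hm : 0 < m0 := lt_min (by norm_num) (by positivity)
    have hm1 : m0 ≤ 1 / (16 * Real.exp 4 * (S + 1) * Ca) := min_le_right _ _
    have e2 : (2 : ℝ≥0∞) = ENNReal.ofReal 2 := by simp
    rw [hSs, e2, ← ENNReal.ofReal_mul hS0, ← ENNReal.ofReal_mul (by norm_num),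
      ← ENNReal.ofReal_mul he.le, ← ENNReal.ofReal_mul (by (clear * - hCa; positivity))]
    apply ENNReal.ofReal_le_ofReal
    rw [le_div_iff₀ (by positivity)] at hm1 ⊢
    have h1 : Real.exp 4 * (2 * (S * m0)) * (4 * T ^ 2) * (2 * Ca) =
        (m0 * (16 * Real.exp 4 * S * Ca)) * T ^ 2 := by ring
    rw [h1]
    have h2 : m0 * (16 * Real.exp 4 * S * Ca) ≤ 1 := by
      refine le_trans ?_ hm1
      have : 0 ≤ m0 * (16 * Real.exp 4 * Ca) := by (clear * - hCa; positivity)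
      linarith only [this]
    linarith only [mul_nonneg (sq_nonneg (T : ℝ)) (sub_nonneg.2 h2)]

section

variable {P : Par} {CB t0 : ℝ} {n N : ℕ} {κ : ℝ} {F G h : ℝ → T3 → V → ℝ}

theorem bt_meas_wt {te : ℝ}
    (mw : Measurable fun p : ℝ × T3 × V => wt P n te p.1 p.2.1 p.2.2) (t : ℝ) :
    Measurable fun p : T3 × V => wt P n te t p.1 p.2 := by
  have e1 : Measurable fun p : T3 × V => (t, p.1, p.2) := by fun_prop
  have := mw.comp e1
  simpa only [Function.comp_def] using this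

theorem bt_meas_Phi {te m0 : ℝ}
    (mw : Measurable fun p : ℝ × T3 × V => wt P n te p.1 p.2.1 p.2.2) (t : ℝ) :
    Measurable fun p : T3 × V => Phi P n te m0 t p.1 p.2 := by
  have m0' := bt_meas_wt mw t
  unfold Phi
  refine Measurable.ite ?_ m0' measurable_const
  have m1 : Measurable fun p : T3 × V => √(SS P 1 p.1 p.2) := (measurable_SS P 1).sqrt
  have m2 : Measurable fun p : T3 × V => √(SS P (-1) p.1 p.2) := (measurable_SS P (-1)).sqrt
  exact (measurableSet_le measurable_const m1).inter (measurableSet_le measurable_const m2)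

/-- the mass of the hot part is essentially in the hot velocities -/
theorem bt_NN_le (hc : 1 ≤ P.c) (hl : 0 < P.lam) (hN : 3 ≤ N)
    (hs : Split P CB t0 n N κ F G h) {te m0 Ca : ℝ} (hCa : 0 < Ca) (h0 : 0 < m0) (hm : m0 ≤ 1 / 2)
    (hm0 : ∀ T : ℝ, 0 < T →
      ENNReal.ofReal (Real.exp 4) * (2 * (Ss * ENNReal.ofReal m0)) * ENNReal.ofReal (4 * T ^ 2) ≤
        ENNReal.ofReal (T ^ 2 / (2 * Ca)))
    (mw : Measurable fun p : ℝ × T3 × V => wt P n te p.1 p.2.1 p.2.2)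
    (hw : ∀ t ∈ Icc 0 te, ∀ x v, 0 ≤ wt P n te t x v ∧ wt P n te t x v ≤ 1)
    {t : ℝ} (ht : t ∈ Icc 0 te)
    (hb : ∀ x v, ENNReal.ofReal (h t x v) ≤
      ENNReal.ofReal (Ca * NN P n te h t / P.TT n t ^ 2) * Pi P n (1 / 8) t x v) :
    NN P n te h t ≤ 2 * MP P n te m0 h t := by
  have hT : 0 < P.TT n t := bt_TT_pos hc hl n ht.1
  obtain ⟨B, hB, hbd, _⟩ := bt_lip hN hs t
  have hbd := hbd t ⟨ht.1, le_rfl⟩
  have hint := bt_int_ball B N
  have e1 : Measurable fun p : T3 × V => (t, p.1, p.2) := by fun_prop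
  have mh : Measurable fun p : T3 × V => h t p.1 p.2 := hs.meash.comp e1
  have mw' := bt_meas_wt mw t
  have mPhi := bt_meas_Phi (m0 := m0) mw t
  have hPhi : ∀ x v, 0 ≤ Phi P n te m0 t x v ∧ Phi P n te m0 t x v ≤ wt P n te t x v := by
    intro x v
    have := hw t ht x v
    unfold Phi
    split_ifs
    · exact ⟨this.1, le_rfl⟩
    · exact ⟨le_rfl, this.1⟩
  have hI : ∀ f : T3 × V → ℝ, Measurable f → (∀ p, 0 ≤ f p ∧ f p ≤ 1) →
      Integrable fun p : T3 × V => f p * h t p.1 p.2 := by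
    intro f mf hf
    refine hint.mono' (mf.mul mh).aestronglyMeasurable (Eventually.of_forall fun q => ?_)
    have h1 := hf q
    have h2 := hbd q.1 q.2
    have h3 := hs.nonnegh t q.1 q.2
    by_cases hq : ‖q.2‖ ≤ N
    · rw [indicator_of_mem (by simp only [mem_prod, mem_univ, Metric.mem_closedBall, dist_zero_right, hq, and_self]), Real.norm_eq_abs,
        abs_of_nonneg (mul_nonneg h1.1 h3)]
      calc _ ≤ 1 * B := mul_le_mul h1.2 h2.1 h3 zero_le_one
        _ = B := one_mul B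
    · rw [h2.2 (not_le.1 hq), mul_zero, norm_zero]
      exact indicator_nonneg (fun _ _ => hB) q
  have i1 := hI _ mw' fun p => hw t ht p.1 p.2
  have i2 := hI _ mPhi fun p => ⟨(hPhi p.1 p.2).1, (hPhi p.1 p.2).2.trans (hw t ht p.1 p.2).2⟩
  have hNN : 0 ≤ NN P n te h t :=
    integral_nonneg fun p => mul_nonneg (hw t ht p.1 p.2).1 (hs.nonnegh t p.1 p.2)
  set A : Set (T3 × V) := {p : T3 × V | √(SS P 1 p.1 p.2) < m0 ∨ √(SS P (-1) p.1 p.2) < m0} with hA
  have e2 : NN P n te h t - MP P n te m0 h t =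
      ∫ p : T3 × V, (wt P n te t p.1 p.2 * h t p.1 p.2 - Phi P n te m0 t p.1 p.2 * h t p.1 p.2) :=
    (integral_sub i1 i2).symm
  have hnn : ∀ p : T3 × V,
      0 ≤ wt P n te t p.1 p.2 * h t p.1 p.2 - Phi P n te m0 t p.1 p.2 * h t p.1 p.2 := by
    intro p
    have := mul_le_mul_of_nonneg_right (hPhi p.1 p.2).2 (hs.nonnegh t p.1 p.2)
    linarith only [this]
  have e3 : ENNReal.ofReal (NN P n te h t - MP P n te m0 h t) ≤
      ENNReal.ofReal (NN P n te h t / 2) := by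
    have i3 : Integrable fun p : T3 × V =>
        wt P n te t p.1 p.2 * h t p.1 p.2 - Phi P n te m0 t p.1 p.2 * h t p.1 p.2 := i1.sub i2
    rw [e2, ofReal_integral_eq_lintegral_ofReal i3 (Eventually.of_forall hnn)]
    calc ∫⁻ p : T3 × V, ENNReal.ofReal
          (wt P n te t p.1 p.2 * h t p.1 p.2 - Phi P n te m0 t p.1 p.2 * h t p.1 p.2)
        ≤ ∫⁻ p : T3 × V, ENNReal.ofReal (Ca * NN P n te h t / P.TT n t ^ 2) *
            A.indicator (fun p => Pi P n (1 / 8) t p.1 p.2) p := by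
          refine lintegral_mono fun p => ?_
          by_cases hp : p ∈ A
          · rw [indicator_of_mem hp]
            refine le_trans (ENNReal.ofReal_le_ofReal ?_) (hb p.1 p.2)
            have h1 := hw t ht p.1 p.2
            have h2 := hs.nonnegh t p.1 p.2
            have h3 := (hPhi p.1 p.2).1
            have h4 := mul_le_mul_of_nonneg_right h1.2 h2
            have h5 := mul_nonneg h3 h2
            linarith only [h4, h5]
          · have h1 : Phi P n te m0 t p.1 p.2 = wt P n te t p.1 p.2 := by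
              rw [hA] at hp
              simp only [mem_ofPred_eq, not_or, not_lt] at hp
              unfold Phi
              rw [if_pos hp]
            rw [h1, sub_self, ENNReal.ofReal_zero]
            exact zero_le
      _ = ENNReal.ofReal (Ca * NN P n te h t / P.TT n t ^ 2) *
            ∫⁻ p : T3 × V, A.indicator (fun p => Pi P n (1 / 8) t p.1 p.2) p :=
          lintegral_const_mul' _ _ ENNReal.ofReal_ne_top
      _ ≤ ENNReal.ofReal (Ca * NN P n te h t / P.TT n t ^ 2) *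
            ENNReal.ofReal (P.TT n t ^ 2 / (2 * Ca)) :=
          mul_le_mul' le_rfl ((bt_Pi_small hc hT h0 hm).trans (hm0 _ hT))
      _ = ENNReal.ofReal (NN P n te h t / 2) := by
          rw [← ENNReal.ofReal_mul (by (clear * - hCa hNN hT; positivity))]
          congr 1
          (clear * - hCa hT; field_simp)
  have e4 := (ENNReal.ofReal_le_ofReal_iff (by (clear * - hNN; positivity))).1 e3
  linarith only [e4]

end

end Vale.Agent.P140.NU
end
end

section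

/-!
P140, non-uniqueness, module B: continuation argument (B2).
-/

open MeasureTheory Set Filter
open scoped ENNReal Topology Interval

noncomputable section

namespace Vale.Agent.P140.NU

section

variable {P : Par}

theorem bt_Pi_anti (n : ℕ) {γ γ' : ℝ} (h : γ ≤ γ') (t : ℝ) (x : T3) (v : V) :
    Pi P n γ' t x v ≤ Pi P n γ t x v := by
  unfold Pi
  refine mul_le_mul' (ENNReal.ofReal_le_ofReal (Real.exp_le_exp.2 ?_)) le_rfl
  have := mul_le_mul_of_nonneg_right h (sq_nonneg ‖v‖)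
  linarith only [this]

theorem bt_rr_le (x : T3) : rr x ≤ 1 := by
  have h : ∀ i, ‖x i‖ ≤ 1 / 2 := fun i => by
    have := AddCircle.norm_le_half_period (1 : ℝ) (x := x i) one_ne_zero
    rwa [abs_one] at this
  unfold rr
  rw [Real.sqrt_le_one]
  nlinarith only [h 0, h 1, norm_nonneg (x 0), norm_nonneg (x 1)]

theorem bt_Pi_ge (hc : 1 ≤ P.c) (hl : 0 < P.lam) (n : ℕ) {γ : ℝ} (hγ : γ ≤ 1 / 6) {t : ℝ}
    (ht : 0 ≤ t) (x : T3) (v : V) {R : ℝ} (hv : ‖v‖ ≤ R) :
    ENNReal.ofReal (Real.exp (-(2 / P.ss n) - R ^ 2 / 6)) ≤ Pi P n γ t x v := by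
  have hss := bt_ss_pos hc hl n
  have hT := bt_TT_pos hc hl n ht
  have h1 : yy P n t x v ≤ 1 / P.ss n := by
    unfold yy
    have h2 : max (rr x - ‖v‖ * P.TT n t) 0 ≤ 1 := by
      refine max_le ?_ zero_le_one
      have := bt_rr_le x
      have := mul_nonneg (norm_nonneg v) hT.le
      (clear γ hγ R hv hss; linarith)
    have h3 : P.ss n ≤ P.TT n t := by unfold Par.TT; linarith only [ht]
    exact div_le_div₀ zero_le_one h2 hss h3
  have hW : 1 ≤ WW P t x v := by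
    unfold WW
    exact le_self_add
  unfold Pi
  calc ENNReal.ofReal (Real.exp (-(2 / P.ss n) - R ^ 2 / 6))
      = ENNReal.ofReal (Real.exp (-(2 / P.ss n) - R ^ 2 / 6)) * 1 := (mul_one _).symm
    _ ≤ _ := by
      refine mul_le_mul' (ENNReal.ofReal_le_ofReal (Real.exp_le_exp.2 ?_)) hW
      have h4 : 2 / P.ss n = 2 * (1 / P.ss n) := by ring
      have h5 : ‖v‖ ^ 2 ≤ R ^ 2 := pow_le_pow_left₀ (norm_nonneg _) hv 2
      have h6 := mul_le_mul_of_nonneg_right hγ (sq_nonneg ‖v‖)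
      rw [h4]
      linarith only [h1, h5, h6]

end

section

variable {P : Par} {CB t0 : ℝ} {n N : ℕ} {κ : ℝ} {F G h : ℝ → T3 → V → ℝ}

/-- one step along flights -/
theorem bt_step (hc : 1 ≤ P.c) (hl : 0 < P.lam) {te : ℝ} (hte : t0 ≤ te) {B : ℝ}
    (hbd : ∀ t ∈ Icc 0 t0, ∀ x v, h t x v ≤ B ∧ ((N : ℝ) < ‖v‖ → h t x v = 0))
    (hlip : ∀ s ∈ Icc 0 t0, ∀ t ∈ Icc s t0, ∀ x v,
      |h t (mv x v t) v - h s (mv x v s) v| ≤ B * (t - s))
    (hPi : ∀ γ, ∀ t ∈ Icc 0 te, ∀ t' ∈ Icc t te, ∀ x v,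
      Pi P n γ t x v ≤ Pi P n γ t' (mv x v (t' - t)) v)
    {s t : ℝ} (hs : s ∈ Icc 0 t0) (ht : t ∈ Icc s t0) {γ γ' Hs Ht : ℝ} (hγ : γ' ≤ γ)
    (hγ' : γ' ≤ 1 / 6)
    (hb : ∀ x v, ENNReal.ofReal (h s x v) ≤ ENNReal.ofReal (3 / 4 * Hs) * Pi P n γ s x v)
    (hHt : 0 ≤ Ht) (h1 : 6 / 7 * Hs ≤ Ht)
    (h2 : B * (t - s) ≤ 1 / 8 * Ht * Real.exp (-(2 / P.ss n) - (N : ℝ) ^ 2 / 6)) (x : T3) (v : V) :
    ENNReal.ofReal (h t x v) ≤ ENNReal.ofReal Ht * Pi P n γ' t x v := by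
  have ht0 : 0 ≤ t := hs.1.trans ht.1
  by_cases hv : ‖v‖ ≤ N
  · set x0 := mv x v (-t) with hx0
    set y := mv x0 v s with hy
    have e1 : mv x0 v t = x := by rw [hx0, mv_mv, neg_add_cancel, mv_zero]
    have e2 : mv y v (t - s) = x := by
      rw [hy, mv_mv, add_sub_cancel, e1]
    have h3 := hlip s hs t ht x0 v
    rw [e1, ← hy] at h3
    have h4 : h t x v ≤ h s y v + B * (t - s) := by
      have := (abs_le.1 h3).2
      linarith only [this]
    have h5 := hPi γ s ⟨hs.1, (ht.1.trans ht.2).trans hte⟩ t ⟨ht.1, ht.2.trans hte⟩ y v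
    rw [e2] at h5
    have h6 := bt_Pi_anti (P := P) n hγ t x v
    have h7 := bt_Pi_ge hc hl n hγ' ht0 x v hv
    calc ENNReal.ofReal (h t x v) ≤ ENNReal.ofReal (h s y v + B * (t - s)) :=
          ENNReal.ofReal_le_ofReal h4
      _ ≤ ENNReal.ofReal (h s y v) + ENNReal.ofReal (B * (t - s)) := ENNReal.ofReal_add_le
      _ ≤ ENNReal.ofReal (3 / 4 * Hs) * Pi P n γ' t x v +
          ENNReal.ofReal (1 / 8 * Ht) * Pi P n γ' t x v := by
          refine add_le_add ?_ ?_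
          · exact (hb y v).trans (mul_le_mul' le_rfl (h5.trans h6))
          · refine (ENNReal.ofReal_le_ofReal h2).trans ?_
            rw [ENNReal.ofReal_mul (by (clear * - hHt; positivity))]
            exact mul_le_mul' le_rfl h7
      _ ≤ ENNReal.ofReal (7 / 8 * Ht) * Pi P n γ' t x v +
          ENNReal.ofReal (1 / 8 * Ht) * Pi P n γ' t x v := by
          refine add_le_add (mul_le_mul' (ENNReal.ofReal_le_ofReal ?_) le_rfl) le_rfl
          linarith only [h1]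
      _ = ENNReal.ofReal Ht * Pi P n γ' t x v := by
          rw [← add_mul, ← ENNReal.ofReal_add (by (clear * - hHt; positivity)) (by positivity)]
          congr 2
          ring
  · rw [(hbd t ⟨ht0, ht.2⟩ x v).2 (not_le.1 hv), ENNReal.ofReal_zero]
    exact zero_le

theorem bt_core (hc : 1 ≤ P.c) (hl : 0 < P.lam) (hLam : 3 ≤ P.Lam) (ht0 : 0 < t0) (hN : 3 ≤ N)
    (hs : Split P CB t0 n N κ F G h) {Ca C2 ε1 ε2 η ε' m0 : ℝ} (hCa : 0 < Ca) (hC2 : 0 < C2)
    (hη : 0 < η)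
    (mw : Measurable fun p : ℝ × T3 × V => wt P n (2 * t0) p.1 p.2.1 p.2.2)
    (hw : ∀ t ∈ Icc 0 (2 * t0), ∀ x v, 0 ≤ wt P n (2 * t0) t x v ∧ wt P n (2 * t0) t x v ≤ 1)
    (hPi : ∀ γ, ∀ t ∈ Icc 0 (2 * t0), ∀ t' ∈ Icc t (2 * t0), ∀ x v,
      Pi P n γ t x v ≤ Pi P n γ t' (mv x v (t' - t)) v)
    (hinit : ∀ x v, ENNReal.ofReal (h 0 x v) ≤
      ENNReal.ofReal (3 / 4 * Hh P n (2 * t0) Ca h 0) * Pi P n (1 / 6) 0 x v)
    (himp : ∀ t1 ∈ Icc 0 t0,
      (∀ τ ∈ Icc 0 t1, ∀ x v, ENNReal.ofReal (h τ x v) ≤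
        ENNReal.ofReal (Hh P n (2 * t0) Ca h τ) * Pi P n (gam P n (2 * t0) Ca C2 h τ) τ x v) →
      (∀ τ ∈ Icc 0 t1, 0 < NN P n (2 * t0) h τ ∧
        4 * NE P n (2 * t0) h τ ≤ NN P n (2 * t0) h τ) →
      Grows P n (2 * t0) h t1 →
      (∫ τ in (0 : ℝ)..t1, (1 + Hh P n (2 * t0) Ca h τ) ≤ ε1) →
      ∀ x v, ENNReal.ofReal (h t1 x v) ≤ ENNReal.ofReal (3 / 4 * Hh P n (2 * t0) Ca h t1) *
        Pi P n (gam P n (2 * t0) Ca C2 h t1) t1 x v)
    (hgro : ∀ t1 ∈ Icc 0 t0,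
      (∀ τ ∈ Icc 0 t1, ∀ x v, ENNReal.ofReal (h τ x v) ≤
        ENNReal.ofReal (Ca * NN P n (2 * t0) h τ / P.TT n τ ^ 2) * Pi P n (1 / 8) τ x v) →
      (∀ τ ∈ Icc 0 t1, NN P n (2 * t0) h τ ≤ ε2 * P.TT n τ) →
      (∫ τ in (0 : ℝ)..t1, NN P n (2 * t0) h τ / P.TT n τ ^ 2 ≤ ε2) →
      (∀ τ ∈ Icc 0 t1, 0 < NN P n (2 * t0) h τ ∧
        4 * NE P n (2 * t0) h τ ≤ NN P n (2 * t0) h τ) ∧
      (∀ τ ∈ Icc 0 t1, ∀ τ' ∈ Icc τ t1,
        NN P n (2 * t0) h τ * (P.TT n τ' / P.TT n τ) ^ (P.Lam - 1) ≤ NN P n (2 * t0) h τ'))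
    (hMP : ∀ τ ∈ Icc 0 t0, (∀ x v, ENNReal.ofReal (h τ x v) ≤
        ENNReal.ofReal (Ca * NN P n (2 * t0) h τ / P.TT n τ ^ 2) * Pi P n (1 / 8) τ x v) →
      NN P n (2 * t0) h τ ≤ 2 * MP P n (2 * t0) m0 h τ)
    (hm : ∀ τ ∈ Icc 0 t0, MP P n (2 * t0) m0 h τ ≤ ε' * P.TT n τ)
    (k1 : 2 * ε' ≤ ε2) (k2 : 4 * ε' ≤ η) (k3 : η ≤ ε2) (k4 : C2 * (t0 + Ca * η) ≤ 1 / 24)
    (k5 : t0 + Ca * η ≤ ε1) :
    Grows P n (2 * t0) h t0 ∧ ∀ τ ∈ Icc 0 t0, 0 < NN P n (2 * t0) h τ ∧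
      NN P n (2 * t0) h τ ≤ 2 * MP P n (2 * t0) m0 h τ := by
  have hT : ∀ t, 0 ≤ t → 0 < P.TT n t := fun t ht => bt_TT_pos hc hl n ht
  have hNc := bt_NN_cont hc hl hN hs (te := 2 * t0) (T := t0) (by linarith only [ht0]) (by linarith only [ht0]) mw hw
  set Nf : ℝ → ℝ := fun t => NN P n (2 * t0) h t with hNf
  have hNN : ∀ t, NN P n (2 * t0) h t = Nf t := fun t => rfl
  have hN0 : ∀ t ∈ Icc 0 t0, 0 ≤ Nf t := fun t ht =>
    integral_nonneg fun p => mul_nonneg (hw t ⟨ht.1, by linarith only [ht0, ht.2]⟩ p.1 p.2).1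
      (hs.nonnegh t p.1 p.2)
  set r : ℝ → ℝ := fun t => Nf t / P.TT n t ^ 2 with hr
  have hTc : Continuous fun t => P.TT n t := by unfold Par.TT; fun_prop
  have hrc : ContinuousOn r (Icc 0 t0) := hNc.div (hTc.pow 2).continuousOn
    fun t ht => (pow_pos (hT t ht.1) 2).ne'
  have hr0 : ∀ t ∈ Icc 0 t0, 0 ≤ r t := fun t ht => div_nonneg (hN0 t ht) (sq_nonneg _)
  have hri : ∀ a ∈ Icc 0 t0, ∀ b ∈ Icc 0 t0, IntervalIntegrable r volume a b := fun a ha b hb =>
    (hrc.mono (uIcc_subset_Icc ha hb)).intervalIntegrable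
  have h00 : (0 : ℝ) ∈ Icc 0 t0 := ⟨le_rfl, ht0.le⟩
  set H : ℝ → ℝ := fun t => Hh P n (2 * t0) Ca h t with hH
  have hHr : ∀ t, H t = Ca * r t := fun t => by
    rw [hH, hr]; simp only [Hh]; rw [hNN, mul_div_assoc]
  have hHc : ContinuousOn H (Icc 0 t0) := (continuousOn_const.mul hrc).congr fun t _ => hHr t
  have hH0 : ∀ t ∈ Icc 0 t0, 0 ≤ H t := fun t ht => by
    rw [hHr]; exact mul_nonneg hCa.le (hr0 t ht)
  set J : ℝ → ℝ := fun t => ∫ s in (0 : ℝ)..t, r s with hJ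
  have hJm : ∀ a ∈ Icc 0 t0, ∀ b ∈ Icc a t0, J a ≤ J b := by
    intro a ha b hb
    have hb' : b ∈ Icc 0 t0 := ⟨ha.1.trans hb.1, hb.2⟩
    have e1 : J b - J a = ∫ s in a..b, r s :=
      intervalIntegral.integral_interval_sub_left (hri 0 h00 b hb') (hri 0 h00 a ha)
    have e2 : 0 ≤ ∫ s in a..b, r s := intervalIntegral.integral_nonneg hb.1 fun u hu =>
      hr0 u ⟨ha.1.trans hu.1, hu.2.trans hb.2⟩
    linarith only [e1, e2]
  have hJc : ContinuousOn J (Icc 0 t0) := by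
    have h0 := hri 0 h00 t0 ⟨ht0.le, le_rfl⟩
    rw [intervalIntegrable_iff'] at h0
    have := intervalIntegral.continuousOn_primitive_interval h0
    rwa [uIcc_of_le ht0.le] at this
  have hJ0 : J 0 = 0 := intervalIntegral.integral_same
  have hI : ∀ t ∈ Icc 0 t0, ∫ s in (0 : ℝ)..t, (1 + Hh P n (2 * t0) Ca h s) = t + Ca * J t := by
    intro t ht
    have e1 : ∫ s in (0 : ℝ)..t, (1 + Hh P n (2 * t0) Ca h s) = ∫ s in (0 : ℝ)..t, (1 + Ca * r s) := by
      refine intervalIntegral.integral_congr fun s _ => ?_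
      have := hHr s
      simp only [hH] at this
      simp only [this]
    rw [e1, intervalIntegral.integral_add (by simp) ((hri 0 h00 t ht).const_mul Ca),
      intervalIntegral.integral_const_mul]
    simp [hJ]
  set g : ℝ → ℝ := fun t => gam P n (2 * t0) Ca C2 h t with hg
  have hgJ : ∀ t ∈ Icc 0 t0, g t = 1 / 6 - C2 * (t + Ca * J t) := by
    intro t ht
    rw [hg]
    simp only [gam]
    rw [hI t ht]
  have hgm : ∀ a ∈ Icc 0 t0, ∀ b ∈ Icc a t0, g b ≤ g a := by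
    intro a ha b hb
    have hb' : b ∈ Icc 0 t0 := ⟨ha.1.trans hb.1, hb.2⟩
    rw [hgJ a ha, hgJ b hb']
    have h1 := hJm a ha b hb
    have h2 : C2 * (a + Ca * J a) ≤ C2 * (b + Ca * J b) := by
      have := hb.1
      (clear * - this h1 hCa hC2; gcongr)
    linarith only [h2]
  have hg0 : g 0 = 1 / 6 := by
    rw [hgJ 0 h00, hJ0]; ring
  have hg6 : ∀ t ∈ Icc 0 t0, g t ≤ 1 / 6 := fun t ht => by
    rw [← hg0]; exact hgm 0 h00 t ht
  have himp : ∀ t1 ∈ Icc 0 t0,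
      (∀ τ ∈ Icc 0 t1, ∀ x v, ENNReal.ofReal (h τ x v) ≤
        ENNReal.ofReal (H τ) * Pi P n (g τ) τ x v) →
      (∀ τ ∈ Icc 0 t1, 0 < Nf τ ∧ 4 * NE P n (2 * t0) h τ ≤ Nf τ) →
      (∀ τ ∈ Icc 0 t1, ∀ τ' ∈ Icc τ t1,
        Nf τ * (P.TT n τ' / P.TT n τ) ^ (P.Lam - 1) ≤ Nf τ') →
      (∫ τ in (0 : ℝ)..t1, (1 + Hh P n (2 * t0) Ca h τ) ≤ ε1) →
      ∀ x v, ENNReal.ofReal (h t1 x v) ≤ ENNReal.ofReal (3 / 4 * H t1) *
        Pi P n (g t1) t1 x v := himp
  have hinit : ∀ x v, ENNReal.ofReal (h 0 x v) ≤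
      ENNReal.ofReal (3 / 4 * H 0) * Pi P n (g 0) 0 x v := by
    rw [hg0]; exact hinit
  -- the improvement
  have improve : ∀ t ∈ Icc 0 t0,
      (∀ τ ∈ Icc 0 t, ∀ x v, ENNReal.ofReal (h τ x v) ≤
        ENNReal.ofReal (H τ) * Pi P n (g τ) τ x v) → J t ≤ η →
      (∀ τ ∈ Icc 0 t, 0 < Nf τ ∧ Nf τ ≤ 2 * MP P n (2 * t0) m0 h τ) ∧
      (∀ τ ∈ Icc 0 t, ∀ τ' ∈ Icc τ t,
        Nf τ * (P.TT n τ' / P.TT n τ) ^ (P.Lam - 1) ≤ Nf τ') ∧
      J t ≤ 2 * ε' ∧
      (∀ τ ∈ Icc 0 t, ∀ x v, ENNReal.ofReal (h τ x v) ≤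
        ENNReal.ofReal (3 / 4 * H τ) * Pi P n (g τ) τ x v) := by
    intro t ht hA hB
    have hsub : ∀ τ ∈ Icc 0 t, τ ∈ Icc 0 t0 := fun τ hτ => ⟨hτ.1, hτ.2.trans ht.2⟩
    have hJle : ∀ τ ∈ Icc 0 t, J τ ≤ η := fun τ hτ =>
      (hJm τ (hsub τ hτ) t ⟨hτ.2, ht.2⟩).trans hB
    have hg8 : ∀ τ ∈ Icc 0 t, 1 / 8 ≤ g τ := by
      intro τ hτ
      rw [hgJ τ (hsub τ hτ)]
      have h1 := hJle τ hτ
      have h2 : C2 * (τ + Ca * J τ) ≤ C2 * (t0 + Ca * η) := by
        have := (hsub τ hτ).2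
        (clear * - this h1 hCa hC2; gcongr)
      linarith only [k4, h2]
    have h18 : ∀ τ ∈ Icc 0 t, ∀ x v, ENNReal.ofReal (h τ x v) ≤
        ENNReal.ofReal (Ca * NN P n (2 * t0) h τ / P.TT n τ ^ 2) * Pi P n (1 / 8) τ x v := by
      intro τ hτ x v
      refine (hA τ hτ x v).trans ?_
      have e : Ca * NN P n (2 * t0) h τ / P.TT n τ ^ 2 = H τ := rfl
      rw [e]
      exact mul_le_mul' le_rfl (bt_Pi_anti n (hg8 τ hτ) τ x v)
    have h2 : ∀ τ ∈ Icc 0 t, Nf τ ≤ 2 * MP P n (2 * t0) m0 h τ := fun τ hτ =>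
      hMP τ (hsub τ hτ) (h18 τ hτ)
    have h3 : ∀ τ ∈ Icc 0 t, Nf τ ≤ 2 * ε' * P.TT n τ := fun τ hτ => by
      have := hm τ (hsub τ hτ)
      have := h2 τ hτ
      (clear hLam hN ε2 hη mw hPi k1 k2 k3 k5 hNf hgro hHc hH0 hJc hJ0 hgm hg0 hg6 himp hinit; linarith)
    have h4 := hgro t ht h18 (fun τ hτ => by
      refine (h3 τ hτ).trans ?_
      exact mul_le_mul_of_nonneg_right k1 (hT τ hτ.1).le) (hB.trans k3)
    obtain ⟨h5, h6⟩ := h4
    have h7 : ∀ τ ∈ Icc 0 t, r τ ≤ Nf t / P.TT n t ^ 2 := by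
      intro τ hτ
      have h8 := h6 τ hτ t ⟨hτ.2, le_rfl⟩
      have p1 := hT τ hτ.1
      have p2 := hT t ht.1
      have h9 : 1 ≤ P.TT n t / P.TT n τ := by
        rw [one_le_div p1]
        unfold Par.TT
        linarith only [hτ.2]
      have h10 : (P.TT n t / P.TT n τ) ^ (2 : ℝ) ≤ (P.TT n t / P.TT n τ) ^ (P.Lam - 1) :=
        Real.rpow_le_rpow_of_exponent_le h9 (by linarith only [hLam])
      rw [Real.rpow_two] at h10
      have h11 : Nf τ * (P.TT n t / P.TT n τ) ^ 2 ≤ Nf t :=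
        (mul_le_mul_of_nonneg_left h10 (hN0 τ (hsub τ hτ))).trans h8
      rw [le_div_iff₀ (by (clear * - p2; positivity))]
      refine le_trans (le_of_eq ?_) h11
      simp only [hr]
      (clear * - p2 p1; field_simp)
    have h8 : J t ≤ 2 * ε' := by
      have p2 := hT t ht.1
      have h9 : J t ≤ ∫ _ in (0 : ℝ)..t, Nf t / P.TT n t ^ 2 :=
        intervalIntegral.integral_mono_on ht.1 (hri 0 h00 t ht) (by simp) h7
      rw [intervalIntegral.integral_const, smul_eq_mul, sub_zero] at h9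
      refine h9.trans ?_
      have h10 := h3 t ⟨ht.1, le_rfl⟩
      have h11 : t ≤ P.TT n t := by
        have := bt_ss_pos hc hl n
        unfold Par.TT; linarith only [this]
      have h12 := hN0 t ht
      calc t * (Nf t / P.TT n t ^ 2) ≤ P.TT n t * (Nf t / P.TT n t ^ 2) := by (clear * - h11 h12 p2; gcongr)
        _ = Nf t / P.TT n t := by (clear * - p2; field_simp)
        _ ≤ 2 * ε' := by rw [div_le_iff₀ p2]; exact h10
    refine ⟨fun τ hτ => ⟨(h5 τ hτ).1, h2 τ hτ⟩, h6, h8, fun τ hτ => ?_⟩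
    refine himp τ (hsub τ hτ) (fun σ hσ => hA σ ⟨hσ.1, hσ.2.trans hτ.2⟩)
      (fun σ hσ => h5 σ ⟨hσ.1, hσ.2.trans hτ.2⟩)
      (fun σ hσ σ' hσ' => h6 σ ⟨hσ.1, hσ.2.trans hτ.2⟩ σ' ⟨hσ'.1, hσ'.2.trans hτ.2⟩) ?_
    rw [hI τ (hsub τ hτ)]
    refine le_trans ?_ k5
    have := hJle τ hτ
    have := (hsub τ hτ).2
    (clear hLam hN ε2 ε' m0 hC2 hη mw hPi hMP hm k1 k2 k3 k4 k5 hNf hNN hgro hr H hH hHr hHc hH0 hJ hJc hJ0 hI g hg hgJ hgm hg0 hg6 himp hinit hA hg8 h18 h2 h3 h5 h6 h7 h8; gcongr)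
  -- the step
  obtain ⟨B, hB, hbd, hlip⟩ := bt_lip hN hs t0
  have step : ∀ s ∈ Icc 0 t0, ∀ t ∈ Icc s t0,
      (∀ x v, ENNReal.ofReal (h s x v) ≤ ENNReal.ofReal (3 / 4 * H s) * Pi P n (g s) s x v) →
      6 / 7 * H s ≤ H t →
      B * (t - s) ≤ 1 / 8 * H t * Real.exp (-(2 / P.ss n) - (N : ℝ) ^ 2 / 6) →
      ∀ x v, ENNReal.ofReal (h t x v) ≤ ENNReal.ofReal (H t) * Pi P n (g t) t x v := by
    intro s hs' t ht hb h1 h2
    have ht' : t ∈ Icc 0 t0 := ⟨hs'.1.trans ht.1, ht.2⟩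
    exact bt_step hc hl (te := 2 * t0) (by linarith only [ht0]) hbd hlip hPi hs' ht
      (hgm s hs' t ht) (hg6 t ht') hb (hH0 t ht') h1 h2
  -- the set
  set S : Set ℝ := {t | t ∈ Icc 0 t0 ∧ (∀ τ ∈ Icc 0 t, ∀ x v, ENNReal.ofReal (h τ x v) ≤
        ENNReal.ofReal (H τ) * Pi P n (g τ) τ x v) ∧ J t ≤ η} with hS
  have hdown : ∀ t ∈ S, ∀ s ∈ Icc 0 t, s ∈ S := by
    intro t ht s hs'
    refine ⟨⟨hs'.1, hs'.2.trans ht.1.2⟩, fun τ hτ => ht.2.1 τ ⟨hτ.1, hτ.2.trans hs'.2⟩, ?_⟩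
    exact (hJm s ⟨hs'.1, hs'.2.trans ht.1.2⟩ t ⟨hs'.2, ht.1.2⟩).trans ht.2.2
  have h0S : (0 : ℝ) ∈ S := by
    refine ⟨h00, fun τ hτ x v => ?_, by rw [hJ0]; exact hη.le⟩
    have : τ = 0 := le_antisymm hτ.2 hτ.1
    subst this
    refine (hinit x v).trans (mul_le_mul' (ENNReal.ofReal_le_ofReal ?_) le_rfl)
    linarith only [hH0 0 h00]
  have hbdd : BddAbove S := ⟨t0, fun t ht => ht.1.2⟩
  set c := sSup S with hcdef
  have hc0 : 0 ≤ c := le_csSup hbdd h0S
  have hct : c ≤ t0 := csSup_le ⟨0, h0S⟩ fun t ht => ht.1.2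
  have hlt : ∀ s ∈ Ico 0 c, s ∈ S := by
    intro s hs'
    obtain ⟨t, ht, hst⟩ := exists_lt_of_lt_csSup ⟨0, h0S⟩ hs'.2
    exact hdown t ht s ⟨hs'.1, hst.le⟩
  have himpS : ∀ t ∈ S, _ := fun t ht => improve t ht.1 ht.2.1 ht.2.2
  have hNpos0 : 0 < Nf 0 := ((himpS 0 h0S).1 0 ⟨le_rfl, le_rfl⟩).1
  have hE : 0 < Real.exp (-(2 / P.ss n) - (N : ℝ) ^ 2 / 6) := Real.exp_pos _
  have hHpos : ∀ t, 0 ≤ t → 0 < Nf t → 0 < H t := by
    intro t ht hn
    rw [hHr]
    exact mul_pos hCa (div_pos hn (pow_pos (hT t ht) 2))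
  have hcS : c ∈ S := by
    rcases hc0.eq_or_lt with h | hcpos
    · rw [← h]; exact h0S
    have hcI : c ∈ Icc 0 t0 := ⟨hc0, hct⟩
    have hfil : 𝓝[Ico 0 c] c ≤ 𝓝[Icc 0 t0] c :=
      nhdsWithin_mono c fun t ht => ⟨ht.1, ht.2.le.trans hct⟩
    have hne : (𝓝[Ico 0 c] c).NeBot := by
      rw [← mem_closure_iff_nhdsWithin_neBot, closure_Ico hcpos.ne]
      exact ⟨hc0, le_rfl⟩
    have hJt : Tendsto J (𝓝[Ico 0 c] c) (𝓝 (J c)) := (hJc c hcI).mono_left hfil
    have hNt : Tendsto Nf (𝓝[Ico 0 c] c) (𝓝 (Nf c)) := (hNc c hcI).mono_left hfil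
    have hHt : Tendsto H (𝓝[Ico 0 c] c) (𝓝 (H c)) := (hHc c hcI).mono_left hfil
    have hJη : J c ≤ η := le_of_tendsto hJt
      (eventually_mem_nhdsWithin.mono fun t ht => (hlt t ht).2.2)
    have hNcpos : Nf 0 ≤ Nf c := by
      refine ge_of_tendsto hNt (eventually_mem_nhdsWithin.mono fun t ht => ?_)
      have h1 := (himpS t (hlt t ht)).2.1 0 ⟨le_rfl, ht.1⟩ t ⟨ht.1, le_rfl⟩
      refine le_trans ?_ h1
      have h2 : 1 ≤ (P.TT n t / P.TT n 0) ^ (P.Lam - 1) := by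
        refine Real.one_le_rpow ?_ (by linarith only [hLam])
        rw [one_le_div (hT 0 le_rfl)]
        unfold Par.TT
        linarith only [ht.1]
      exact le_mul_of_one_le_right hNpos0.le h2
    have hHcpos : 0 < H c := hHpos c hc0 (hNpos0.trans_le hNcpos)
    have hev1 : ∀ᶠ s in 𝓝[Ico 0 c] c, H s < 7 / 6 * H c :=
      hHt.eventually_lt_const (by linarith only [hHcpos])
    have hev2 : ∀ᶠ s in 𝓝[Ico 0 c] c,
        B * (c - s) < 1 / 8 * H c * Real.exp (-(2 / P.ss n) - (N : ℝ) ^ 2 / 6) := by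
      have hcont : Continuous fun s : ℝ => B * (c - s) := by fun_prop
      have ht : Tendsto (fun s : ℝ => B * (c - s)) (𝓝[Ico 0 c] c) (𝓝 (B * (c - c))) :=
        (hcont.tendsto c).mono_left nhdsWithin_le_nhds
      refine ht.eventually_lt_const ?_
      rw [sub_self, mul_zero]
      (clear * - hHcpos; positivity)
    obtain ⟨s, ⟨hs1, hs2⟩, hs3⟩ := ((hev1.and hev2).and eventually_mem_nhdsWithin).exists
    refine ⟨hcI, fun τ hτ => ?_, hJη⟩
    rcases hτ.2.eq_or_lt with h | h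
    · rw [h]
      have hsI : s ∈ Icc 0 t0 := ⟨hs3.1, hs3.2.le.trans hct⟩
      exact step s hsI c ⟨hs3.2.le, hct⟩ ((himpS s (hlt s hs3)).2.2.2 s ⟨hs3.1, le_rfl⟩)
        (by linarith only [hs1]) hs2.le
    · exact (hlt τ ⟨hτ.1, h⟩).2.1 τ ⟨hτ.1, le_rfl⟩
  have hceq : c = t0 := by
    by_contra hne
    have hclt : c < t0 := lt_of_le_of_ne hct hne
    have hcI : c ∈ Icc 0 t0 := ⟨hc0, hct⟩
    obtain ⟨i1, i2, i3, i4⟩ := himpS c hcS
    have hNcpos : 0 < Nf c := (i1 c ⟨hc0, le_rfl⟩).1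
    have hHcpos : 0 < H c := hHpos c hc0 hNcpos
    have hmem : Icc 0 t0 ∈ 𝓝[>] c := mem_of_superset (Ioc_mem_nhdsGT hclt) fun t ht =>
      ⟨hc0.trans ht.1.le, ht.2⟩
    have hfil : 𝓝[>] c ≤ 𝓝[Icc 0 t0] c := by
      rw [nhdsWithin, nhdsWithin, le_inf_iff]
      exact ⟨inf_le_left, le_principal_iff.2 hmem⟩
    have hJt : Tendsto J (𝓝[>] c) (𝓝 (J c)) := (hJc c hcI).mono_left hfil
    have hHt : Tendsto H (𝓝[>] c) (𝓝 (H c)) := (hHc c hcI).mono_left hfil
    have hev1 : ∀ᶠ t in 𝓝[>] c, 6 / 7 * H c < H t := hHt.eventually_const_lt (by linarith only [hHcpos])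
    have hε' : 2 * ε' < η := by linarith only [hη, k2]
    have hev2 : ∀ᶠ t in 𝓝[>] c, J t < η := hJt.eventually_lt_const (i3.trans_lt hε')
    have hev3 : ∀ᶠ t in 𝓝[>] c,
        B * (t - c) < 1 / 8 * (6 / 7 * H c) * Real.exp (-(2 / P.ss n) - (N : ℝ) ^ 2 / 6) := by
      have hcont : Continuous fun t : ℝ => B * (t - c) := by fun_prop
      have ht : Tendsto (fun t : ℝ => B * (t - c)) (𝓝[>] c) (𝓝 (B * (c - c))) :=
        (hcont.tendsto c).mono_left nhdsWithin_le_nhds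
      refine ht.eventually_lt_const ?_
      rw [sub_self, mul_zero]
      (clear * - hHcpos; positivity)
    have hev := (hev1.and (hev2.and hev3)).and (Ioc_mem_nhdsGT hclt)
    obtain ⟨u, hu, hsub⟩ := mem_nhdsGT_iff_exists_Ioc_subset.1 hev
    have huc : c < u := hu
    have huS : u ∈ S := by
      have hu' := hsub ⟨huc, le_rfl⟩
      refine ⟨⟨hc0.trans huc.le, hu'.2.2⟩, fun τ hτ => ?_, hu'.1.2.1.le⟩
      rcases le_or_gt τ c with h | h
      · exact hcS.2.1 τ ⟨hτ.1, h⟩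
      · have hτ' := hsub ⟨h, hτ.2⟩
        refine step c hcI τ ⟨h.le, hτ'.2.2⟩ (i4 c ⟨hc0, le_rfl⟩) hτ'.1.1.le ?_
        refine hτ'.1.2.2.le.trans ?_
        have := hτ'.1.1.le
        (clear * - this; gcongr)
    exact absurd (le_csSup hbdd huS) (not_le.2 huc)
  rw [hceq] at hcS
  obtain ⟨i1, i2, -, -⟩ := himpS t0 hcS
  exact ⟨i2, i1⟩

end

/-- B2: continuation argument -/
theorem boot' : EvP fun P => ∀ CB : ℝ, 0 < CB → ∃ m0 ε : ℝ, 0 < m0 ∧ m0 ≤ 1 / 2 ∧ 0 < ε ∧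
    ∀ ε' ∈ Ioc 0 ε, ∀ᶠ t0 in 𝓝[>] (0 : ℝ), ∀ᶠ n in atTop, ∀ᶠ N in atTop,
    ∀ κ ∈ Ioc (0 : ℝ) 1, ∀ F G h, Split P CB t0 n N κ F G h →
    (∀ τ ∈ Icc 0 t0, MP P n (2 * t0) m0 h τ ≤ ε' * P.TT n τ) →
    Grows P n (2 * t0) h t0 ∧
    (∀ τ ∈ Icc 0 t0, 0 < NN P n (2 * t0) h τ ∧
      NN P n (2 * t0) h τ ≤ 2 * MP P n (2 * t0) m0 h τ) := by
  have hLam : EvP fun P => 3 ≤ P.Lam := by
    have : Tendsto (fun c : ℝ => c / (100 * (400 * √c))) atTop atTop := by
      have h1 : Tendsto (fun c : ℝ => √c / 40000) atTop atTop :=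
        (Real.tendsto_sqrt_atTop).atTop_div_const (by norm_num)
      refine h1.congr' ?_
      filter_upwards [eventually_gt_atTop 0] with c hc
      have h2 : √c ≠ 0 := (Real.sqrt_pos.mpr hc).ne'
      field_simp
      rw [Real.sq_sqrt hc.le]
      ring
    have h3 := EvP.of_c (this.eventually_ge_atTop 3)
    exact h3
  refine (EvP.basic.and (sup_improve.and (growth.and (Pi_mono.and (wt_facts.and
    (wt_meas.and hLam)))))).mono ?_
  rintro P ⟨⟨hc, hl2, hl1, -, -, -, -⟩, hsup, hgrowth, hPi, hwt, hwm, hLam⟩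
  have hl0 : 0 < P.lam := by linarith only [hl2]
  intro CB hCB
  obtain ⟨Ca, C2, ε1, hCa, hC2, hε1, hsup⟩ := hsup CB hCB
  obtain ⟨ε2, hε2, hgrowth⟩ := hgrowth CB Ca hCB hCa
  obtain ⟨m0, hm0, hm01, hm0'⟩ := bt_m0 hCa
  set η : ℝ := min ε2 (min (ε1 / (2 * Ca)) (1 / (48 * C2 * Ca))) with hη
  have hηpos : 0 < η := lt_min hε2 (lt_min (by (clear * - hε1 hCa; positivity)) (by positivity))
  refine ⟨m0, min (ε2 / 2) (η / 4), hm0, hm01, by (clear * - hε2 hε1 hCa hC2; positivity), fun ε' hε' => ?_⟩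
  have e1 : η ≤ ε2 := min_le_left _ _
  have e2 : Ca * η ≤ ε1 / 2 := by
    have : η ≤ ε1 / (2 * Ca) := (min_le_right _ _).trans (min_le_left _ _)
    rw [le_div_iff₀ (by positivity)] at this
    linarith only [this]
  have e3 : C2 * (Ca * η) ≤ 1 / 48 := by
    have : η ≤ 1 / (48 * C2 * Ca) := (min_le_right _ _).trans (min_le_right _ _)
    rw [le_div_iff₀ (by (clear * - hC2 hCa; positivity))] at this
    linarith only [this]
  have e4 : ε' ≤ ε2 / 2 := hε'.2.trans (min_le_left _ _)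
  have e5 : ε' ≤ η / 4 := hε'.2.trans (min_le_right _ _)
  have hsm : ∀ᶠ t0 in 𝓝[>] (0 : ℝ), 0 < t0 ∧ t0 ≤ min (ε1 / 2) (1 / (48 * C2)) :=
    Ioc_mem_nhdsGT (lt_min (by (clear * - hε1; positivity)) (by positivity))
  filter_upwards [hsup, hgrowth, hPi, hwt, hsm] with t0 hsup hgrowth hPi hwt ht0
  obtain ⟨ht0, ht0'⟩ := ht0
  have f1 : t0 ≤ ε1 / 2 := ht0'.trans (min_le_left _ _)
  have f2 : C2 * t0 ≤ 1 / 48 := by
    have := ht0'.trans (min_le_right _ _)
    rw [le_div_iff₀ (by positivity)] at this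
    linarith only [this]
  have hss : ∀ᶠ n in atTop, P.ss n ≤ t0 := by
    have h1 : Tendsto (fun n : ℕ => P.lam ^ (n + 1)) atTop (𝓝 0) :=
      (tendsto_pow_atTop_nhds_zero_of_lt_one hl0.le hl1).comp (tendsto_add_atTop_nat 1)
    have h2 := h1.div_const P.w
    rw [zero_div] at h2
    exact h2.eventually (eventually_le_nhds ht0)
  filter_upwards [hsup, hgrowth, eventually_ge_atTop P.j0, hss] with n hsup hgrowth hj hss
  filter_upwards [hgrowth, eventually_ge_atTop 3] with N hgrowth hN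
  intro κ hκ F G h hs hm
  obtain ⟨hinit, himp⟩ := hsup N hN κ hκ F G h hs
  have hw : ∀ t ∈ Icc 0 (2 * t0), ∀ x v,
      0 ≤ wt P n (2 * t0) t x v ∧ wt P n (2 * t0) t x v ≤ 1 := fun t ht x v =>
    ⟨(hwt n hj hss t ht x v).1, (hwt n hj hss t ht x v).2.1⟩
  refine bt_core (η := η) (ε1 := ε1) (ε2 := ε2) (Ca := Ca) (C2 := C2) (ε' := ε') (m0 := m0)
    hc hl0 hLam ht0 hN hs hCa hC2 hηpos (hwm n (2 * t0)) hw (hPi n) hinit himp
    (hgrowth κ hκ F G h hs) ?_ hm (by linarith only [hε2, e1, e5]) (by linarith only [e5]) e1 (by linarith only [f2, e3]) (by linarith only [e2, f1])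
  intro τ hτ hb
  exact bt_NN_le hc hl0 hN hs hCa hm0 hm01 hm0' (hwm n (2 * t0)) hw
    ⟨hτ.1, by linarith only [ht0, hτ.2]⟩ hb

end Vale.Agent.P140.NU
end
end

section

/-!
P140, non-uniqueness, module B: statement Boot (proof in `NU/B/Boot.lean`).
-/

open MeasureTheory Set Filter
open scoped ENNReal Topology

noncomputable section

namespace Vale.Agent.P140.NU

/-- B2: continuation argument -/
theorem boot : EvP fun P => ∀ CB : ℝ, 0 < CB → ∃ m0 ε : ℝ, 0 < m0 ∧ m0 ≤ 1 / 2 ∧ 0 < ε ∧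
    ∀ ε' ∈ Ioc 0 ε, ∀ᶠ t0 in 𝓝[>] (0 : ℝ), ∀ᶠ n in atTop, ∀ᶠ N in atTop,
    ∀ κ ∈ Ioc (0 : ℝ) 1, ∀ F G h, Split P CB t0 n N κ F G h →
    (∀ τ ∈ Icc 0 t0, MP P n (2 * t0) m0 h τ ≤ ε' * P.TT n τ) →
    Grows P n (2 * t0) h t0 ∧
    (∀ τ ∈ Icc 0 t0, 0 < NN P n (2 * t0) h τ ∧
      NN P n (2 * t0) h τ ≤ 2 * MP P n (2 * t0) m0 h τ) := boot'

end Vale.Agent.P140.NU
end
end

section

/-!
P140, non-uniqueness, module B5: initial value of the cut-off functional for the full seed.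
-/

open MeasureTheory Set Filter
open scoped ENNReal Topology

noncomputable section

namespace Vale.Agent.P140.NU

theorem seed_w_le {P : Par} (hc : 1 ≤ P.c) : 0 < P.w ∧ P.w ≤ 1 / 2 := by
  have h0 : 0 < P.c := by linarith only [hc]
  constructor
  · unfold Par.w
    positivity
  · unfold Par.w
    rw [div_le_div_iff₀ (by positivity) (by norm_num)]
    (by_contra nlg; linarith [mul_nonneg (sub_nonneg.2 hc) (sub_nonneg.2 hc), mul_nonneg (le_of_lt (sub_pos.2 (not_le.1 nlg))) (sub_nonneg.2 hc), mul_pos (sub_pos.2 (not_le.1 nlg)) (sub_pos.2 (not_le.1 nlg)), mul_nonneg (sq_nonneg (P.c : ℝ)) (sub_nonneg.2 hc), mul_nonneg (sq_nonneg (P.c : ℝ)) (le_of_lt (sub_pos.2 (not_le.1 nlg)))])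

theorem seed_amp_nonneg {P : Par} (hc : 1 ≤ P.c) (hl : 0 < P.lam) (hk : 0 < P.kdel) (j : ℕ) :
    0 ≤ P.amp j := by
  have h0 : 0 < P.c := by linarith only [hc]
  have hw := (seed_w_le hc).1
  have hd : 0 < P.del j := by
    unfold Par.del
    positivity
  have hi : 0 < P.imp j := by
    unfold Par.imp
    positivity
  unfold Par.amp
  positivity

theorem seed_coldn_nonneg {P : Par} (hc : 1 ≤ P.c) (hl : 0 < P.lam) (hk : 0 < P.kdel) (n : ℕ)
    (x : T3) (v : V) : 0 ≤ coldn P n x v := by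
  unfold coldn
  refine Finset.sum_nonneg fun j _ => ?_
  unfold coldj
  split_ifs
  · exact seed_amp_nonneg hc hl hk j
  · exact le_rfl

theorem seed_dotE {P : Par} {n : ℕ} {x : T3} {v : V} (h : seed P n x v ≠ 0) :
    1 ≤ dotE x v := by
  unfold seed at h
  split_ifs at h with h1
  · exact h1.2.2.1
  · exact absurd rfl h

theorem seed_Phi {P : Par} (hc : 1 ≤ P.c) {n : ℕ} {te m0 t : ℝ} (hm : m0 ≤ 1 / 2) {x : T3} {v : V}
    (h : seed P n x v ≠ 0) : Phi P n te m0 t x v = wt P n te t x v := by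
  have hd : 1 ≤ dotE x v := seed_dotE h
  have hw := seed_w_le hc
  have hS : ∀ s, m0 ≤ √(SS P s x v) := by
    intro s
    have h1 := abs_dotE_sub_le_sqrt_SS (P := P) s x v
    have h2 := le_abs_self (dotE x v - P.w)
    linarith [hw.2]
  unfold Phi
  rw [if_pos ⟨hS 1, hS (-1)⟩]

theorem seed_F0 {N : ℕ} {F0 : T3 → V → ℝ} {F : ℝ → T3 → V → ℝ} (hF : DL.IsBM N F0 F) (x : T3)
    (v : V) : F 0 x v = F0 x v := by
  have h := hF.mild (x, v) 0 le_rfl
  have h1 : along F (0, (x, v)) = F 0 x v := by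
    unfold along
    simp only [zero_smul]
    have : toTorus (0 : V) = 0 := by
      funext i
      simp only [toTorus, PiLp.zero_apply, QuotientAddGroup.mk_zero, Pi.zero_apply]
    rw [this, add_zero]
  rw [h1] at h
  simpa using h

theorem seed_meas_section {f : ℝ → T3 → V → ℝ}
    (hf : Measurable fun p : ℝ × T3 × V => f p.1 p.2.1 p.2.2) (t : ℝ) :
    Measurable fun p : T3 × V => f t p.1 p.2 :=
  hf.comp (measurable_prodMk_left (x := t))

theorem seed_meas_Phi {P : Par} (n : ℕ) (te m0 t : ℝ)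
    (hw : Measurable fun p : ℝ × T3 × V => wt P n te p.1 p.2.1 p.2.2) :
    Measurable fun p : T3 × V => Phi P n te m0 t p.1 p.2 := by
  have hw' : Measurable fun p : T3 × V => wt P n te t p.1 p.2 :=
    seed_meas_section (f := wt P n te) hw t
  unfold Phi
  apply Measurable.ite
  · apply MeasurableSet.inter
    · exact measurableSet_le measurable_const (measurable_SS (P := P) 1).sqrt
    · exact measurableSet_le measurable_const (measurable_SS (P := P) (-1)).sqrt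
  · exact hw'
  · exact measurable_const

/-- B5: initial value for the full seed -/
theorem MP_seed' : EvP fun P => ∃ c1 : ℝ, 0 < c1 ∧ ∀ m0 ≤ (1 / 2 : ℝ), ∀ᶠ t0 in 𝓝[>] (0 : ℝ),
    ∀ n, P.j0 ≤ n → P.ss n ≤ t0 → ∀ N : ℕ, 3 ≤ N → ∀ F, DL.IsBM N (dat P n 1) F →
    c1 * P.TT n 0 ≤ MP P n (2 * t0) m0 F 0 := by
  obtain ⟨c0, hc0, hsm⟩ := seed_mass
  refine ((((EvP.basic.and hsm).and (wt_seed.and wt_facts)).and (wt_meas.and dat_bdd))).mono ?_
  rintro P ⟨⟨⟨hb, hsm⟩, hws, hwf⟩, hwm, hdb⟩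
  obtain ⟨hc, hl, hl1, hK, hk, hk1, hj⟩ := hb
  have hl0 : 0 < P.lam := by linarith only [hl]
  refine ⟨c0 / 2, by positivity, fun m0 hm0 => ?_⟩
  have h18 : Ioc (0 : ℝ) (1 / 8) ∈ 𝓝[>] (0 : ℝ) := Ioc_mem_nhdsGT (by norm_num)
  filter_upwards [hws, hwf, h18] with t0 hws hwf ht0 n hj0 hss N hN F hF
  have hs0 : 0 < P.ss n := by
    have := (seed_w_le hc).1
    unfold Par.ss
    (clear * - hl this; positivity)
  have hwf0 := hwf n hj0 hss 0 ⟨le_rfl, by linarith only [hss, hs0]⟩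
  obtain ⟨C, hC⟩ := hdb n
  have hC1 : ∀ x v, 0 ≤ dat P n 1 x v ∧ dat P n 1 x v ≤ C ∧ (3 < ‖v‖ → dat P n 1 x v = 0) :=
    fun x v => hC 1 ⟨zero_le_one, le_rfl⟩ x v
  have hPhi : ∀ x v, 0 ≤ Phi P n (2 * t0) m0 0 x v ∧ Phi P n (2 * t0) m0 0 x v ≤ 1 := by
    intro x v
    unfold Phi
    split_ifs
    · exact ⟨(hwf0 x v).1, (hwf0 x v).2.1⟩
    · exact ⟨le_rfl, zero_le_one⟩
  have hMP : MP P n (2 * t0) m0 F 0 =
      ∫ p : T3 × V, Phi P n (2 * t0) m0 0 p.1 p.2 * dat P n 1 p.1 p.2 := by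
    unfold MP
    congr 1
    funext p
    rw [seed_F0 hF]
  have hnn : ∀ p : T3 × V, 0 ≤ Phi P n (2 * t0) m0 0 p.1 p.2 * dat P n 1 p.1 p.2 :=
    fun p => mul_nonneg (hPhi p.1 p.2).1 (hC1 p.1 p.2).1
  have hmeas : Measurable fun p : T3 × V =>
      Phi P n (2 * t0) m0 0 p.1 p.2 * dat P n 1 p.1 p.2 :=
    (seed_meas_Phi n (2 * t0) m0 0 (hwm n (2 * t0))).mul (dat_meas P n 1)
  have hint : Integrable (fun p : T3 × V =>
      Phi P n (2 * t0) m0 0 p.1 p.2 * dat P n 1 p.1 p.2) := by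
    have hS : MeasurableSet ((univ : Set T3) ×ˢ Metric.closedBall (0 : V) 3) :=
      MeasurableSet.univ.prod measurableSet_closedBall
    have hfin : (volume : Measure (T3 × V)) ((univ : Set T3) ×ˢ Metric.closedBall (0 : V) 3) < ⊤ := by
      rw [Measure.volume_eq_prod, Measure.prod_prod]
      exact ENNReal.mul_lt_top (measure_lt_top _ _) measure_closedBall_lt_top
    have hi : Integrable (((univ : Set T3) ×ˢ Metric.closedBall (0 : V) 3).indicator
        (fun _ : T3 × V => C)) := by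
      rw [integrable_indicator_iff hS]
      exact integrableOn_const hfin.ne
    refine hi.mono' hmeas.aestronglyMeasurable (Eventually.of_forall fun p => ?_)
    rw [Real.norm_eq_abs, abs_of_nonneg (hnn p)]
    by_cases hp : ‖p.2‖ ≤ 3
    · rw [indicator_of_mem (by
        refine ⟨mem_univ _, ?_⟩
        rw [mem_closedBall_zero_iff]
        exact hp)]
      have h1 := hPhi p.1 p.2
      have h2 := hC1 p.1 p.2
      calc Phi P n (2 * t0) m0 0 p.1 p.2 * dat P n 1 p.1 p.2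
          ≤ 1 * dat P n 1 p.1 p.2 := mul_le_mul_of_nonneg_right h1.2 h2.1
        _ ≤ C := by rw [one_mul]; exact h2.2.1
    · push Not at hp
      rw [(hC1 p.1 p.2).2.2 hp, mul_zero]
      apply indicator_nonneg
      intro q _
      exact (hC1 p.1 p.2).1.trans (hC1 p.1 p.2).2.1
  have hlow : ∀ p : T3 × V, 1 / 2 * seed P n p.1 p.2 ≤
      Phi P n (2 * t0) m0 0 p.1 p.2 * dat P n 1 p.1 p.2 := by
    intro p
    by_cases hp : seed P n p.1 p.2 = 0
    · rw [hp, mul_zero]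
      exact hnn p
    · rw [seed_Phi hc hm0 hp]
      have h1 := hws n hj0 hss p.1 p.2 hp
      have h2 : 0 ≤ seed P n p.1 p.2 := by
        unfold seed
        split_ifs
        · (clear * - hs0; positivity)
        · exact le_rfl
      have h3 : seed P n p.1 p.2 ≤ dat P n 1 p.1 p.2 := by
        unfold dat
        rw [one_mul]
        linarith only [seed_coldn_nonneg hc hl0 hk n p.1 p.2]
      exact mul_le_mul h1 h3 h2 (by linarith only [h1])
  rw [hMP]
  have hTT : P.TT n 0 = P.ss n := by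
    unfold Par.TT
    rw [zero_add]
  rw [hTT]
  rw [← ENNReal.ofReal_le_ofReal_iff (integral_nonneg hnn),
    ofReal_integral_eq_lintegral_ofReal hint (Eventually.of_forall hnn)]
  calc ENNReal.ofReal (c0 / 2 * P.ss n)
      = ENNReal.ofReal (1 / 2) * ENNReal.ofReal (c0 * P.ss n) := by
        rw [← ENNReal.ofReal_mul (by norm_num)]
        congr 1
        ring
    _ ≤ ENNReal.ofReal (1 / 2) * ∫⁻ p : T3 × V, ENNReal.ofReal (seed P n p.1 p.2) := by
        gcongr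
        exact hsm n (hss.trans ht0.2)
    _ = ∫⁻ p : T3 × V, ENNReal.ofReal (1 / 2) * ENNReal.ofReal (seed P n p.1 p.2) := by
        rw [lintegral_const_mul' _ _ ENNReal.ofReal_ne_top]
    _ ≤ ∫⁻ p : T3 × V, ENNReal.ofReal
          (Phi P n (2 * t0) m0 0 p.1 p.2 * dat P n 1 p.1 p.2) := by
        apply lintegral_mono
        intro p
        simp only
        rw [← ENNReal.ofReal_mul (by norm_num)]
        exact ENNReal.ofReal_le_ofReal (hlow p)

end Vale.Agent.P140.NU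
end
end

section

/-!
P140, non-uniqueness, module B: statement Seed (proof in `NU/B/Seed.lean`).
-/

open MeasureTheory Set Filter
open scoped ENNReal Topology

noncomputable section

namespace Vale.Agent.P140.NU

/-- B5: initial value for the full seed -/
theorem MP_seed : EvP fun P => ∃ c1 : ℝ, 0 < c1 ∧ ∀ m0 ≤ (1 / 2 : ℝ), ∀ᶠ t0 in 𝓝[>] (0 : ℝ),
    ∀ n, P.j0 ≤ n → P.ss n ≤ t0 → ∀ N : ℕ, 3 ≤ N → ∀ F, DL.IsBM N (dat P n 1) F →
    c1 * P.TT n 0 ≤ MP P n (2 * t0) m0 F 0 := MP_seed'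

end Vale.Agent.P140.NU
end
end

section

/-!
P140, non-uniqueness, module B: statement Theta (proof in `NU/B/Theta.lean`).
-/

open MeasureTheory Set Filter
open scoped ENNReal Topology

noncomputable section

namespace Vale.Agent.P140.NU

/-- B6 -/
theorem measurable_Theta (P : Par) (t0 m0 : ℝ) : Measurable (Theta P t0 m0) := measurable_Theta' P t0 m0

/-- B6 -/
theorem dat_datum : EvP fun P => ∀ n, ∀ κ ∈ Icc (0 : ℝ) 1, IsDatum (dat P n κ) := dat_datum'

/-- B6 -/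
theorem MP_le_Theta : EvP fun P => ∀ m0 : ℝ, ∀ᶠ t0 in 𝓝[>] (0 : ℝ), ∀ n, P.j0 ≤ n →
    P.ss n ≤ t0 → ∀ CB κ : ℝ, ∀ N : ℕ, 3 ≤ N → ∀ F G h, Split P CB t0 n N κ F G h →
    (∀ t ∈ Icc 0 t0, MP P n (2 * t0) m0 h t ≤ MP P n (2 * t0) m0 F t) ∧
    (∀ t ∈ Icc 0 t0, MP P n (2 * t0) m0 F t =
      MP P n (2 * t0) m0 h t + MP P n (2 * t0) m0 G t) ∧
    (∀ t ∈ Icc 0 t0, MP P n (2 * t0) m0 h t ≤ NN P n (2 * t0) h t) ∧
    MP P n (2 * t0) m0 h t0 ≤ ∫ p : T3 × V, F t0 p.1 p.2 * Theta P t0 m0 p := MP_le_Theta'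

end Vale.Agent.P140.NU
end
end

section

open MeasureTheory Set Filter
open scoped ENNReal Topology NNReal

noncomputable section

namespace Vale.Agent.P140.DL

variable {N : ℕ → ℕ} {F0n : ℕ → T3 → V → ℝ} {F : ℕ → ℝ → T3 → V → ℝ} {C : ℝ≥0}
  {L : ℝ → T3 → V → ℝ} {F0 : T3 → V → ℝ}

open L4

namespace L4

theorem rho_fin (h : Lim1 N F0n F C L) : ∀ᵐ q ∂PP, rhoE (L q.1 q.2.1) < ⊤ := by
  have h1 : ∫⁻ q, ENNReal.ofReal (den L q) ∂PP < ⊤ := by
    have h2 := h.int.2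
    rw [hasFiniteIntegral_iff_norm] at h2
    refine lt_of_le_of_lt (lintegral_mono fun q => ENNReal.ofReal_le_ofReal ?_) h2
    exact le_abs_self _
  rw [lintegral_PP_assoc (meas_den h.meas).ennreal_ofReal] at h1
  have h3 : ∀ z : ℝ × T3, ∫⁻ v : V, ENNReal.ofReal (Maxw v) * ENNReal.ofReal (den L (z.1, z.2, v))
      = rhoE (L z.1 z.2) := by
    intro z
    unfold rhoE
    apply lintegral_congr
    intro v
    rw [← ENNReal.ofReal_mul (Maxw_pos v).le]
    congr 1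
    unfold den
    exact mul_div_cancel₀ _ (Maxw_pos v).ne'
  simp only [h3] at h1
  have mr : Measurable fun z : ℝ × T3 => rhoE (L z.1 z.2) :=
    measurable_rhoE (α := ℝ × T3) (f := fun a => L a.1 a.2) (meas_assoc h.meas)
  exact mp_PP_zet.quasiMeasurePreserving.ae (ae_lt_top mr h1.ne)

theorem fin_of_ui {g : ℕ → ℝ × T3 × V → ℝ≥0∞} (hg : UI PP g) (n : ℕ) :
    ∫⁻ q, g n q ∂PP < ⊤ := by
  obtain ⟨K, hK⟩ := hg.lintegral_le
  exact (hK n).trans_lt ENNReal.coe_lt_top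

theorem alg_toReal (x d : ℝ≥0∞) (v : V) :
    x.toReal / Maxw v * d.toReal = (d * x / ENNReal.ofReal (Maxw v)).toReal := by
  rw [ENNReal.toReal_div, ENNReal.toReal_mul, ENNReal.toReal_ofReal (Maxw_pos _).le]
  ring

theorem meas_aF (n : ℕ) {G : ℝ → T3 → V → ℝ} (hG : Measurable fun q : ℝ × T3 × V => G q.1 q.2.1 q.2.2) :
    Measurable fun q : ℝ × T3 × V => (rateP n (G q.1 (flow q.1 q.2).1) q.2.2).toReal :=
  meas_flow (f := fun a v => (rateP n (G a.1 a.2) v).toReal) (meas_rateP_st n hG).ennreal_toReal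

theorem meas_bF (n : ℕ) {G : ℝ → T3 → V → ℝ} (hG : Measurable fun q : ℝ × T3 × V => G q.1 q.2.1 q.2.2) :
    Measurable fun q : ℝ × T3 × V => (gainP n (G q.1 (flow q.1 q.2).1) q.2.2).toReal / Maxw q.2.2 :=
  meas_flow (f := fun a v => (gainP n (G a.1 a.2) v).toReal / Maxw v)
    ((meas_gainP_st n hG).ennreal_toReal.div meas_M)

theorem meas_aL (mL : Measurable fun q : ℝ × T3 × V => L q.1 q.2.1 q.2.2) :
    Measurable fun q : ℝ × T3 × V => (rate (L q.1 (flow q.1 q.2).1) q.2.2).toReal :=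
  meas_flow (f := fun a v => (rate (L a.1 a.2) v).toReal) (meas_rate_st mL).ennreal_toReal

theorem meas_bL (mL : Measurable fun q : ℝ × T3 × V => L q.1 q.2.1 q.2.2) :
    Measurable fun q : ℝ × T3 × V => (gain (L q.1 (flow q.1 q.2).1) q.2.2).toReal / Maxw q.2.2 :=
  meas_flow (f := fun a v => (gain (L a.1 a.2) v).toReal / Maxw v)
    ((measurable_gain_st mL).ennreal_toReal.div meas_M)

theorem meas_dF (k : ℕ) {G : ℝ → T3 → V → ℝ} (hG : Measurable fun q : ℝ × T3 × V => G q.1 q.2.1 q.2.2) :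
    Measurable fun q : ℝ × T3 × V => (dk k (G q.1 (flow q.1 q.2).1)).toReal :=
  meas_flow (f := fun a _ => (dk k (G a.1 a.2)).toReal) (meas_dk_st k hG).ennreal_toReal

theorem meas_Me : Measurable fun q : ℝ × T3 × V => ENNReal.ofReal (Maxw q.2.2) :=
  meas_M.ennreal_ofReal

theorem uib (h : Lim1 N F0n F C L) (k : ℕ) : UI PP fun n q => ENNReal.ofReal
      ((gainP (N n) (F n q.1 (flow q.1 q.2).1) q.2.2).toReal
      / Maxw q.2.2 * (dk k (F n q.1 (flow q.1 q.2).1)).toReal) := by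
  have h1 := ui_flow (g := fun n a v => dk k (F n a.1 a.2) * gainP (N n) (F n a.1 a.2) v
    / ENNReal.ofReal (Maxw v)) (h.gain_ui k)
    fun n => ((meas_dk_st k (h.apx n).meas).mul (meas_gainP_st (N n) (h.apx n).meas)).div meas_Me
  refine h1.mono fun n => Eventually.of_forall fun q => ?_
  rw [alg_toReal]
  exact ENNReal.ofReal_toReal_le

theorem uig (h : Lim1 N F0n F C L) : UI PP fun n q => ENNReal.ofReal (cden (F n) q) :=
  ui_flow (g := fun n a v => ENNReal.ofReal (F n a.1 a.2 v / Maxw v)) h.ui_den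
    fun n => (meas_den (h.apx n).meas).ennreal_ofReal

theorem uiB' (h : Lim1 N F0n F C L) (j : ℕ) : UI PP fun n q => ENNReal.ofReal
    ((gainP (N n) (F n q.1 (flow q.1 q.2).1) q.2.2).toReal / Maxw q.2.2
      / (1 + cden (F n) q / ((j : ℝ) + 1)) ^ 2) := by
  have md : ∀ n, Measurable fun q : ℝ × T3 × V => ENNReal.ofReal
      (1 + den (F n) q / ((j : ℝ) + 1)) := fun n =>
    (measurable_const.add ((meas_den (h.apx n).meas).div_const _)).ennreal_ofReal
  have h1 := ui_flow (g := fun n a v => gainP (N n) (F n a.1 a.2) v / ENNReal.ofReal (Maxw v)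
    / ENNReal.ofReal (1 + F n a.1 a.2 v / Maxw v / ((j : ℝ) + 1))) (h.ui_gain j)
    fun n => ((meas_gainP_st (N n) (h.apx n).meas).div meas_Me).div (md n)
  refine h1.mono fun n => Eventually.of_forall fun q => ?_
  have hy : (1 : ℝ) ≤ 1 + cden (F n) q / ((j : ℝ) + 1) := by
    have : 0 ≤ cden (F n) q := div_nonneg ((h.apx n).nonneg _ _ _) (Maxw_pos _).le
    have : 0 ≤ cden (F n) q / ((j : ℝ) + 1) := by positivity
    linarith
  have hM := Maxw_pos q.2.2
  have h3 : ∀ (g : ℝ≥0∞) (m y : ℝ), 0 < m → 1 ≤ y → ENNReal.ofReal (g.toReal / m / y ^ 2)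
      ≤ g / ENNReal.ofReal m / ENNReal.ofReal y := by
    intro g m y hm hy
    calc ENNReal.ofReal (g.toReal / m / y ^ 2)
        ≤ ENNReal.ofReal (g.toReal / m / y) := by
          apply ENNReal.ofReal_le_ofReal
          apply div_le_div_of_nonneg_left
          · exact div_nonneg ENNReal.toReal_nonneg hm.le
          · linarith only [hy]
          · nlinarith only [hy]
      _ = ENNReal.ofReal g.toReal / ENNReal.ofReal m / ENNReal.ofReal y := by
          rw [ENNReal.ofReal_div_of_pos (by linarith), ENNReal.ofReal_div_of_pos hm]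
      _ ≤ _ := by
          gcongr
          exact ENNReal.ofReal_toReal_le
  exact h3 _ _ _ hM hy

theorem charSeq (h : Lim1 N F0n F C L) :
    CharSeq (fun n => cden (F n))
      (fun n q => (rateP (N n) (F n q.1 (flow q.1 q.2).1) q.2.2).toReal)
      (fun n q => (gainP (N n) (F n q.1 (flow q.1 q.2).1) q.2.2).toReal / Maxw q.2.2)
      (fun n => den0 (F0n n)) where
  mg n := meas_cden (h.apx n).meas
  ma n := meas_aF (N n) (h.apx n).meas
  mb n := meas_bF (N n) (h.apx n).meas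
  mg0 n := meas_den0 (h.apx n).meas0
  g_nonneg n q := div_nonneg ((h.apx n).nonneg _ _ _) (Maxw_pos _).le
  a_nonneg n q := ENNReal.toReal_nonneg
  b_nonneg n q := div_nonneg ENNReal.toReal_nonneg (Maxw_pos _).le
  g0_nonneg n p := div_nonneg ((h.apx n).nonneg0 _ _) (Maxw_pos _).le
  bdd := by
    intro n p T
    obtain ⟨B1, hB1⟩ := (h.apx n).QN_bdd T
    obtain ⟨B2, hB2⟩ := (h.apx n).bdd T
    have hM := Maxw_pos p.2
    refine ⟨max (B1 / Maxw p.2) (max B1 (max (B2 / Maxw p.2) (F0n n p.1 p.2 / Maxw p.2))),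
      fun t ht => ⟨?_, ?_, ?_⟩⟩
    · by_cases hp : ‖p.2‖ ≤ (N n : ℝ)
      · refine le_trans ?_ (le_max_right _ _)
        refine le_trans ?_ (le_max_right _ _)
        refine le_trans ?_ (le_max_left _ _)
        exact div_le_div_of_nonneg_right (hB2 t ht _ _ hp) hM.le
      · refine le_trans ?_ (le_max_right _ _)
        refine le_trans ?_ (le_max_right _ _)
        refine le_trans ?_ (le_max_right _ _)
        have h1 := (h.apx n).eq_of_lt (not_le.mp hp) ht.1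
        unfold cden
        rw [h1]
    · refine le_trans ?_ (le_max_right _ _)
      refine le_trans ?_ (le_max_left _ _)
      exact (hB1 t ht _ _).2.1
    · refine le_trans ?_ (le_max_left _ _)
      exact div_le_div_of_nonneg_right (hB1 t ht _ _).1 hM.le
  eq := by
    intro n p t ht
    have h1 := (h.apx n).mild p t ht
    have h2 : cden (F n) (t, p) = along (F n) (t, p) / Maxw p.2 := rfl
    rw [h2, h1, add_div, ← integral_div]
    unfold den0
    congr 1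
    apply integral_congr_ae
    refine Eventually.of_forall fun s => ?_
    change QN (N n) (F n) s (flow s p).1 p.2 / Maxw p.2
      = (gainP (N n) (F n s (flow s p).1) p.2).toReal / Maxw p.2
        - (rateP (N n) (F n s (flow s p).1) p.2).toReal * (F n s (flow s p).1 p.2 / Maxw p.2)
    unfold QN
    ring

theorem convB' (h : Lim1 N F0n F C L) : ∃ r : ℕ → ℕ → ℝ × T3 × V → ℝ, ∃ R : ℕ → ℝ × T3 × V → ℝ,
    (∀ k n, Measurable (r k n)) ∧ (∀ k, Measurable (R k)) ∧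
    (∀ k n q, 0 ≤ r k n q ∧ r k n q ≤ 1) ∧ (∀ k q, 0 ≤ R k q ∧ R k q ≤ 1) ∧
    (∀ q, Monotone fun k => R k q) ∧
    (∀ᵐ q ∂PP, Tendsto (fun k => R k q) atTop (𝓝 1)) ∧
    (∀ k, SConv PP (r k) (R k)) ∧
    (∀ k n, Integrable (fun q =>
      (gainP (N n) (F n q.1 (flow q.1 q.2).1) q.2.2).toReal / Maxw q.2.2 * r k n q) PP) ∧
    (∀ k, Integrable (fun q =>
      (gain (L q.1 (flow q.1 q.2).1) q.2.2).toReal / Maxw q.2.2 * R k q) PP) ∧
    (∀ k, UI PP fun n q => ENNReal.ofReal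
      ((gainP (N n) (F n q.1 (flow q.1 q.2).1) q.2.2).toReal / Maxw q.2.2 * r k n q)) ∧
    ∀ k, WConv PP (fun n q =>
      (gainP (N n) (F n q.1 (flow q.1 q.2).1) q.2.2).toReal / Maxw q.2.2 * r k n q) fun q =>
      (gain (L q.1 (flow q.1 q.2).1) q.2.2).toReal / Maxw q.2.2 * R k q := by
  refine ⟨fun k n q => (dk k (F n q.1 (flow q.1 q.2).1)).toReal,
    fun k q => (dk k (L q.1 (flow q.1 q.2).1)).toReal, fun k n => meas_dF k (h.apx n).meas,
    fun k => meas_dF k h.meas, ?_, ?_, ?_, ?_, ?_, ?_, ?_, uib h, ?_⟩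
  · refine fun k n q => ⟨ENNReal.toReal_nonneg, ?_⟩
    exact ENNReal.toReal_le_of_le_ofReal zero_le_one (by simpa only [ENNReal.ofReal_one] using dk_le_one k _)
  · refine fun k q => ⟨ENNReal.toReal_nonneg, ?_⟩
    exact ENNReal.toReal_le_of_le_ofReal zero_le_one (by simpa only [ENNReal.ofReal_one] using dk_le_one k _)
  · intro q k l hkl
    exact ENNReal.toReal_mono (dk_ne_top _ _) (dk_mono _ hkl)
  · have h1 := ae_PP_flow (rho_fin h)
    filter_upwards [h1] with q hq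
    have h2 := (ENNReal.tendsto_toReal ENNReal.one_ne_top).comp (dk_tendsto hq.ne)
    rw [ENNReal.toReal_one] at h2
    exact h2
  · intro k
    have h1 := SConv.comp_mp (α := ℝ × T3) (β := ℝ × T3 × V) (μ := zet) (ν := PP)
      (g := fun n z => (dk k (F n z.1 z.2)).toReal) (G := fun z => (dk k (L z.1 z.2)).toReal)
      (h.dk_conv k) (fun n => (meas_dk_z k (h.apx n).meas).ennreal_toReal)
      (meas_dk_z k h.meas).ennreal_toReal (T := fun q => (q.1, q.2.1)) mp_PP_zet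
    exact sconv_flow (g := fun n a _ => (dk k (F n a.1 a.2)).toReal)
      (G := fun a _ => (dk k (L a.1 a.2)).toReal) h1
      (fun n => (meas_dk_st k (h.apx n).meas).ennreal_toReal)
      (meas_dk_st k h.meas).ennreal_toReal
  · intro k n
    apply integrable_of_lintegral
    · exact (meas_bF (N n) (h.apx n).meas).mul (meas_dF k (h.apx n).meas)
    · exact fun q => mul_nonneg (div_nonneg ENNReal.toReal_nonneg (Maxw_pos _).le)
        ENNReal.toReal_nonneg
    · exact fin_of_ui (uib h k) n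
  · intro k
    have h1 : Integrable (fun q : ℝ × T3 × V => (dk k (L q.1 q.2.1) * gain (L q.1 q.2.1) q.2.2
        / ENNReal.ofReal (Maxw q.2.2)).toReal) PP :=
      integrable_toReal_of_lintegral_ne_top
        (((meas_dk_st k h.meas).mul (measurable_gain_st h.meas)).div meas_Me).aemeasurable
        (h.gain_fin k).ne
    have h2 := integrable_flow (f := fun a v => (dk k (L a.1 a.2) * gain (L a.1 a.2) v
        / ENNReal.ofReal (Maxw v)).toReal) h1
    refine h2.congr (Eventually.of_forall fun q => ?_)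
    exact (alg_toReal _ _ _).symm
  · intro k
    have h1 := wconv_flow (g := fun n a v => (dk k (F n a.1 a.2) * gainP (N n) (F n a.1 a.2) v
        / ENNReal.ofReal (Maxw v)).toReal) (G := fun a v => (dk k (L a.1 a.2) * gain (L a.1 a.2) v
        / ENNReal.ofReal (Maxw v)).toReal) (h.gain_conv k)
    exact h1.congr (fun n => Eventually.of_forall fun q => (alg_toReal _ _ _).symm)
      (Eventually.of_forall fun q => (alg_toReal _ _ _).symm)

end L4

/-- application of the abstract limit theorem -/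
theorem Lim1.charLim (h : Lim1 N F0n F C L) (m0 : Measurable fun p : T3 × V => F0 p.1 p.2)
    (n0 : ∀ x v, 0 ≤ F0 x v) (i0 : Integrable (den0 F0) muM)
    (c0 : SConv muM (fun n => den0 (F0n n)) (den0 F0)) :
    CharLim muM (fun n => cden (F n))
      (fun n q => (rateP (N n) (F n q.1 (flow q.1 q.2).1) q.2.2).toReal)
      (fun n q => (gainP (N n) (F n q.1 (flow q.1 q.2).1) q.2.2).toReal / Maxw q.2.2)
      (fun n => den0 (F0n n)) (cden L)
      (fun q => (rate (L q.1 (flow q.1 q.2).1) q.2.2).toReal)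
      (fun q => (gain (L q.1 (flow q.1 q.2).1) q.2.2).toReal / Maxw q.2.2) (den0 F0) where
  toCharSeq := charSeq h
  mG := meas_cden h.meas
  mA := meas_aL h.meas
  mB := meas_bL h.meas
  mG0 := meas_den0 m0
  G_nonneg q := div_nonneg (h.nonneg _ _ _) (Maxw_pos _).le
  A_nonneg q := ENNReal.toReal_nonneg
  B_nonneg q := div_nonneg ENNReal.toReal_nonneg (Maxw_pos _).le
  G0_nonneg p := div_nonneg (n0 _ _) (Maxw_pos _).le
  iG := integrable_flow (f := fun a v => L a.1 a.2 v / Maxw v) h.int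
  iA := integrable_flow (f := fun a v => (rate (L a.1 a.2) v).toReal)
    (integrable_toReal_of_lintegral_ne_top (meas_rate_st h.meas).aemeasurable h.rate_fin.ne)
  iG0 := i0
  ig0 := by
    intro n
    rw [integrable_den0 (h.apx n).meas0]
    apply integrable_of_lintegral (h.apx n).meas0 fun p => (h.apx n).nonneg0 _ _
    exact lintegral_F0_lt_top (h.apx n).datum
  ia := by
    intro n
    have h2 : Integrable (fun q : ℝ × T3 × V =>
        (rateP (N n) (F n q.1 q.2.1) q.2.2).toReal) PP :=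
      integrable_toReal_of_lintegral_ne_top (meas_rateP_st (N n) (h.apx n).meas).aemeasurable
        (fin_of_ui h.ui_rate n).ne
    exact integrable_flow (f := fun a v => (rateP (N n) (F n a.1 a.2) v).toReal) h2
  ig := by
    intro n
    exact integrable_of_lintegral (meas_cden (h.apx n).meas)
      (fun q => div_nonneg ((h.apx n).nonneg _ _ _) (Maxw_pos _).le) (fin_of_ui (uig h) n)
  conv0 := c0
  convA := sconv_flow (g := fun n a v => (rateP (N n) (F n a.1 a.2) v).toReal)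
    (G := fun a v => (rate (L a.1 a.2) v).toReal) h.rate_conv
    (fun n => (meas_rateP_st (N n) (h.apx n).meas).ennreal_toReal)
    (meas_rate_st h.meas).ennreal_toReal
  convG := wconv_flow (g := fun n a v => F n a.1 a.2 v / Maxw v)
    (G := fun a v => L a.1 a.2 v / Maxw v) h.wden
  uiG := uig h
  uiB := uiB' h
  convB := convB' h

namespace L4

/-- the right-hand side of the limit equation -/
def rs (L : ℝ → T3 → V → ℝ) (q : ℝ × T3 × V) : ℝ :=
  (gain (L q.1 (flow q.1 q.2).1) q.2.2).toReal / Maxw q.2.2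
    - (rate (L q.1 (flow q.1 q.2).1) q.2.2).toReal * cden L q

/-- the candidate for the mild representative, divided by the Maxwellian -/
def WW (L : ℝ → T3 → V → ℝ) (F0 : T3 → V → ℝ) (q : ℝ × T3 × V) : ℝ :=
  den0 F0 q.2 + ∫ s in Ioc 0 q.1, rs L (s, q.2)

/-- the candidate for the mild solution -/
def LL (L : ℝ → T3 → V → ℝ) (F0 : T3 → V → ℝ) (t : ℝ) (x : T3) (v : V) : ℝ :=
  Maxw v * max 0 (WW L F0 (t, flow (-t) (x, v)))

theorem meas_rs (mL : Measurable fun q : ℝ × T3 × V => L q.1 q.2.1 q.2.2) :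
    Measurable (rs L) := by
  exact (meas_bL mL).sub ((meas_aL mL).mul (meas_cden mL))

theorem meas_WW (mL : Measurable fun q : ℝ × T3 × V => L q.1 q.2.1 q.2.2)
    (m0 : Measurable fun p : T3 × V => F0 p.1 p.2) : Measurable (WW L F0) :=
  ((meas_den0 m0).comp measurable_snd).add (measurable_primitive (meas_rs mL))

theorem meas_LL (mL : Measurable fun q : ℝ × T3 × V => L q.1 q.2.1 q.2.2)
    (m0 : Measurable fun p : T3 × V => F0 p.1 p.2) :
    Measurable fun q : ℝ × T3 × V => LL L F0 q.1 q.2.1 q.2.2 := by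
  have h1 := (meas_WW mL m0).comp stFlowEquiv.symm.measurable
  exact meas_M.mul (measurable_const.max h1)

theorem along_LL (L : ℝ → T3 → V → ℝ) (F0 : T3 → V → ℝ) (q : ℝ × T3 × V) :
    along (LL L F0) q = Maxw q.2.2 * max 0 (WW L F0 q) := by
  change Maxw q.2.2 * max 0 (WW L F0 (q.1, flow (-q.1) (flow q.1 q.2))) = _
  rw [flow_neg_flow]

theorem cden_LL (L : ℝ → T3 → V → ℝ) (F0 : T3 → V → ℝ) (q : ℝ × T3 × V) :
    cden (LL L F0) q = max 0 (WW L F0 q) := by
  unfold cden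
  rw [along_LL]
  exact mul_div_cancel_left₀ _ (Maxw_pos _).ne'

/-- a continuous primitive which is nonnegative almost everywhere is nonnegative -/
theorem nonneg_of_ae {r : ℝ → ℝ} {c : ℝ} (hc : 0 ≤ c) (hr : ∀ T : ℝ, IntegrableOn r (Ioc 0 T))
    (h : ∀ᵐ t ∂(volume.restrict (Ioi (0 : ℝ))), 0 ≤ c + ∫ s in Ioc 0 t, r s) {t : ℝ}
    (ht : 0 ≤ t) : 0 ≤ c + ∫ s in Ioc 0 t, r s := by
  rcases ht.eq_or_lt with h0 | h0
  · rw [← h0]
    simpa only [lt_self_iff_false, not_false_eq_true, Ioc_eq_empty, Measure.restrict_empty, integral_zero_measure,     add_zero] using hc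
  by_contra hneg
  push Not at hneg
  have hI : IntegrableOn r (Icc 0 (t + 1)) := by
    rw [integrableOn_Icc_iff_integrableOn_Ioc]
    exact hr (t + 1)
  have hcont : ContinuousOn (fun t => c + ∫ s in Ioc 0 t, r s) (Icc 0 (t + 1)) :=
    continuousOn_const.add (intervalIntegral.continuousOn_primitive hI)
  have hca : ContinuousAt (fun t => c + ∫ s in Ioc 0 t, r s) t :=
    hcont.continuousAt (Icc_mem_nhds h0 (by linarith))
  have hev : ∀ᶠ s in 𝓝 t, c + ∫ u in Ioc 0 s, r u < 0 := hca.eventually_lt_const hneg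
  rw [ae_restrict_iff' measurableSet_Ioi] at h
  have hd := Measure.dense_of_ae h
  have hf := mem_closure_iff_frequently.mp (hd t)
  obtain ⟨s, hs1, hs2, hs3⟩ := (hf.and_eventually (hev.and (lt_mem_nhds h0))).exists
  exact absurd (hs1 hs3) (not_le.mpr hs2)

theorem meas_sec {β : Type*} [MeasurableSpace β] {f : ℝ × T3 × V → β} (h : Measurable f)
    (p : T3 × V) : Measurable fun t : ℝ => f (t, p) :=
  h.comp (by fun_prop : Measurable fun t : ℝ => (t, p))

theorem ae_q_of_sX {P : ℝ × T3 × V → Prop} (hP : MeasurableSet {q | P q})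
    (h : ∀ᵐ z ∂((volume.restrict (Ioi (0 : ℝ))).prod (volume : Measure T3)), ∀ᵐ y : V,
      P (z.1, z.2, y)) : ∀ᵐ q ∂PP, P q := by
  have hm : MeasurableSet {w : (ℝ × T3) × V | P (w.1.1, w.1.2, w.2)} := by
    have : Measurable fun w : (ℝ × T3) × V => (w.1.1, w.1.2, w.2) := by fun_prop
    exact this hP
  have h1 : ∀ᵐ w ∂(((volume.restrict (Ioi (0 : ℝ))).prod (volume : Measure T3)).prod
      (volume : Measure V)), P (w.1.1, w.1.2, w.2) := by
    rw [Measure.ae_prod_iff_ae_ae (p := fun w : (ℝ × T3) × V => P (w.1.1, w.1.2, w.2)) hm]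
    exact h
  exact ae_PP_restrict.mpr ((assoc_symm (μ := volume.restrict (Ioi (0 : ℝ)))).quasiMeasurePreserving.ae h1)

/-- collision terms of the modification -/
theorem coll_congr {L' : ℝ → T3 → V → ℝ} (mL : Measurable fun q : ℝ × T3 × V => L q.1 q.2.1 q.2.2)
    (mL' : Measurable fun q : ℝ × T3 × V => L' q.1 q.2.1 q.2.2)
    (h : ∀ᵐ q ∂PP, den L' q = den L q) :
    ∀ᵐ q ∂PP, gain (L' q.1 q.2.1) q.2.2 = gain (L q.1 q.2.1) q.2.2 ∧
      rate (L' q.1 q.2.1) q.2.2 = rate (L q.1 q.2.1) q.2.2 := by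
  have h0 : ∀ᵐ q ∂PP, L' q.1 q.2.1 q.2.2 = L q.1 q.2.1 q.2.2 := by
    filter_upwards [h] with q hq
    exact (div_left_inj' (Maxw_pos q.2.2).ne').mp hq
  have h1 := ae_sX (ae_PP_restrict.mp h0)
  apply ae_q_of_sX
  · exact (measurableSet_eq_fun (measurable_gain_st mL') (measurable_gain_st mL)).inter
      (measurableSet_eq_fun (meas_rate_st mL') (meas_rate_st mL))
  · filter_upwards [h1] with z hz
    filter_upwards [gain_congr_ae hz] with y hy
    exact ⟨hy, rate_congr_ae hz y⟩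

theorem fin_ae (h : Lim1 N F0n F C L) :
    ∀ᵐ q ∂PP, gain (L q.1 q.2.1) q.2.2 < ⊤ ∧ rate (L q.1 q.2.1) q.2.2 < ⊤ := by
  have mg := measurable_gain_st h.meas
  have h1 : ∀ᵐ q ∂PP, dk 0 (L q.1 q.2.1) * gain (L q.1 q.2.1) q.2.2
      / ENNReal.ofReal (Maxw q.2.2) < ⊤ :=
    ae_lt_top (((meas_dk_st 0 h.meas).mul mg).div meas_Me) (h.gain_fin 0).ne
  have h2 := ae_lt_top (meas_rate_st h.meas) h.rate_fin.ne
  filter_upwards [h1, h2, rho_fin h] with q q1 q2 q3
  refine ⟨?_, q2⟩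
  rw [lt_top_iff_ne_top]
  intro q4
  rw [q4, ENNReal.mul_top (dk_ne_zero 0 q3.ne), ENNReal.top_div_of_ne_top ENNReal.ofReal_ne_top]
    at q1
  exact lt_irrefl _ q1

end L4

/-- the weak limit coincides almost everywhere with a mild solution for all times -/
theorem Lim1.exists_mildC (h : Lim1 N F0n F C L) (m0 : Measurable fun p : T3 × V => F0 p.1 p.2)
    (n0 : ∀ x v, 0 ≤ F0 x v) (i0 : Integrable (den0 F0) muM)
    (c0 : SConv muM (fun n => den0 (F0n n)) (den0 F0)) :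
    ∃ L' : ℝ → T3 → V → ℝ, IsMildC F0 L' ∧ ∀ᵐ q ∂PP, den L' q = den L q := by
  obtain ⟨hA, hB, hAG, heq⟩ := (h.charLim m0 n0 i0 c0).limit_eq
  rw [ae_muM] at hA hB hAG heq
  have mL := h.meas
  have mL' := meas_LL (L := L) (F0 := F0) mL m0
  have cn : ∀ q, 0 ≤ cden L q := fun q => div_nonneg (h.nonneg _ _ _) (Maxw_pos _).le
  have hW : ∀ᵐ p : T3 × V, ∀ᵐ t ∂(volume.restrict (Ioi (0 : ℝ))),
      cden L (t, p) = WW L F0 (t, p) := heq
  have hden : ∀ᵐ q ∂PP, den (LL L F0) q = den L q := by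
    apply ae_PP_of_flow
    apply ae_PP_of_p_t (P := fun q => den (LL L F0) (stFlow q) = den L (stFlow q))
    · exact measurableSet_eq_fun (meas_cden mL') (meas_cden mL)
    · filter_upwards [hW] with p hp
      filter_upwards [hp] with t ht
      have h1 := cden_LL L F0 (t, p)
      rw [← ht, max_eq_right (cn _)] at h1
      exact h1
  have hcoll := ae_p_t_flow (coll_congr mL mL' hden)
  have hfin := ae_p_t_flow (fin_ae h)
  -- the collision terms along characteristics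
  have key : ∀ᵐ p : T3 × V, ∀ᵐ t ∂(volume.restrict (Ioi (0 : ℝ))),
      gainA (LL L F0) (t, p) = ENNReal.ofReal (Maxw p.2) * ENNReal.ofReal
        ((gain (L t (flow t p).1) p.2).toReal / Maxw p.2) ∧
      lossA (LL L F0) (t, p) = ENNReal.ofReal (Maxw p.2) * ENNReal.ofReal
        ((rate (L t (flow t p).1) p.2).toReal * cden L (t, p)) := by
    filter_upwards [hW, hcoll, hfin] with p h1 h2 h3
    filter_upwards [h1, h2, h3] with t t1 t2 t3
    have hM := Maxw_pos p.2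
    constructor
    · have e1 : gainA (LL L F0) (t, p) = gain (L t (flow t p).1) p.2 := t2.1
      rw [e1, ← ENNReal.ofReal_mul hM.le, mul_div_cancel₀ _ hM.ne']
      exact (ENNReal.ofReal_toReal t3.1.ne).symm
    · have e1 : lossA (LL L F0) (t, p) = loss (LL L F0 t (flow t p).1) p.2 := rfl
      have e2 : rate (LL L F0 t (flow t p).1) p.2 = rate (L t (flow t p).1) p.2 := t2.2
      have e3 : LL L F0 t (flow t p).1 p.2 = Maxw p.2 * cden L (t, p) := by
        have e4 := along_LL L F0 (t, p)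
        rw [← t1, max_eq_right (cn _)] at e4
        exact e4
      have e5 : rate (L t (flow t p).1) p.2
          = ENNReal.ofReal (rate (L t (flow t p).1) p.2).toReal :=
        (ENNReal.ofReal_toReal t3.2.ne).symm
      have nLL : ∀ v, 0 ≤ LL L F0 t (flow t p).1 v := fun v =>
        mul_nonneg (Maxw_pos v).le (le_max_left _ _)
      rw [e1, loss_eq_rate nLL, e2, e3, ← ENNReal.ofReal_mul hM.le]
      conv_lhs => rw [e5]
      rw [← ENNReal.ofReal_mul (mul_nonneg hM.le (cn _))]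
      congr 1
      ring
  have sub : ∀ T : ℝ, Ioc 0 T ⊆ Ioi (0 : ℝ) := fun T => Ioc_subset_Ioi_self
  refine ⟨LL L F0, ⟨m0, n0, mL', fun t x v => mul_nonneg (Maxw_pos v).le (le_max_left _ _),
    ?_, ?_, ?_⟩, hden⟩
  · filter_upwards [key, hB] with p hk hb T
    have e : ∫⁻ s in Ioc 0 T, gainA (LL L F0) (s, p)
        = ENNReal.ofReal (Maxw p.2) * ∫⁻ s in Ioc 0 T, ENNReal.ofReal
          ((gain (L s (flow s p).1) p.2).toReal / Maxw p.2) := by
      rw [← lintegral_const_mul' _ _ ENNReal.ofReal_ne_top]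
      apply lintegral_congr_ae
      filter_upwards [ae_restrict_of_ae_restrict_of_subset (sub T) hk] with s hs
      exact hs.1
    rw [e]
    exact ENNReal.mul_lt_top ENNReal.ofReal_lt_top (hb T)
  · filter_upwards [key, hAG] with p hk hb T
    have e : ∫⁻ s in Ioc 0 T, lossA (LL L F0) (s, p)
        = ENNReal.ofReal (Maxw p.2) * ∫⁻ s in Ioc 0 T, ENNReal.ofReal
          ((rate (L s (flow s p).1) p.2).toReal * cden L (s, p)) := by
      rw [← lintegral_const_mul' _ _ ENNReal.ofReal_ne_top]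
      apply lintegral_congr_ae
      filter_upwards [ae_restrict_of_ae_restrict_of_subset (sub T) hk] with s hs
      exact hs.2
    rw [e]
    exact ENNReal.mul_lt_top ENNReal.ofReal_lt_top (hb T)
  · have mB := meas_bL mL
    have mAG := (meas_aL mL).mul (meas_cden mL)
    filter_upwards [key, hAG, hB, hW] with p hk hag hb hw t ht
    have hM := Maxw_pos p.2
    have m1 : Measurable fun s : ℝ => (gain (L s (flow s p).1) p.2).toReal / Maxw p.2 :=
      meas_sec (f := fun q => (gain (L q.1 (flow q.1 q.2).1) q.2.2).toReal / Maxw q.2.2) mB p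
    have m2 : Measurable fun s : ℝ => (rate (L s (flow s p).1) p.2).toReal * cden L (s, p) :=
      meas_sec (f := fun q => (rate (L q.1 (flow q.1 q.2).1) q.2.2).toReal * cden L q) mAG p
    have I1 : ∀ T : ℝ, IntegrableOn (fun s => (gain (L s (flow s p).1) p.2).toReal / Maxw p.2)
        (Ioc 0 T) := fun T => integrable_of_lintegral m1
      (fun s => div_nonneg ENNReal.toReal_nonneg hM.le) (hb T)
    have I2 : ∀ T : ℝ, IntegrableOn (fun s => (rate (L s (flow s p).1) p.2).toReal *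
        cden L (s, p)) (Ioc 0 T) := fun T => integrable_of_lintegral m2
      (fun s => mul_nonneg ENNReal.toReal_nonneg (cn _)) (hag T)
    have hWn : 0 ≤ WW L F0 (t, p) := by
      refine nonneg_of_ae (r := fun s => rs L (s, p)) (c := den0 F0 p)
        (div_nonneg (n0 _ _) hM.le) (fun T => (I1 T).sub (I2 T)) ?_ ht
      filter_upwards [hw] with s hs
      have h1 := cn (s, p)
      rw [hs] at h1
      exact h1
    rw [along_LL, max_eq_right hWn]
    unfold WW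
    rw [mul_add, ← integral_const_mul]
    congr 1
    · unfold den0
      exact mul_div_cancel₀ _ hM.ne'
    · apply integral_congr_ae
      filter_upwards [ae_restrict_of_ae_restrict_of_subset (sub t) hk] with s hs
      rw [hs.1, hs.2, ENNReal.toReal_mul, ENNReal.toReal_mul,
        ENNReal.toReal_ofReal hM.le, ENNReal.toReal_ofReal, ENNReal.toReal_ofReal]
      · unfold rs
        ring
      · exact mul_nonneg ENNReal.toReal_nonneg (cn _)
      · exact div_nonneg ENNReal.toReal_nonneg hM.le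

end Vale.Agent.P140.DL
end
end

section

open MeasureTheory Set Filter
open scoped ENNReal Topology NNReal

noncomputable section

namespace Vale.Agent.P140.DL

theorem IsBM.isApprox {n : ℕ} {F0 : T3 → V → ℝ} {F : ℝ → T3 → V → ℝ} (h : IsBM n F0 F)
    (hd : IsDatum F0) : IsApprox n F0 F where
  toIsBM := h
  datum := hd
  mass := fun _ ht => h.mass ht
  momentum := fun _ ht => h.momentum (wInt2_datum hd) ht
  energy := fun _ ht => h.energy ht
  massloc := fun _ hφ => h.massloc (wInt2_datum hd) hφ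
  entropy := fun _ ht => h.entropy ht

end Vale.Agent.P140.DL
end
end

section

open MeasureTheory Set Filter
open scoped ENNReal Topology NNReal

noncomputable section

namespace Vale.Agent.P140.DL

variable {N : ℕ → ℕ} {F0n : ℕ → T3 → V → ℝ} {F : ℕ → ℝ → T3 → V → ℝ} {C : ℝ≥0}
  {L : ℝ → T3 → V → ℝ} {F0 : T3 → V → ℝ}

theorem s5_integrable_of_lint {α : Type*} [MeasurableSpace α] {μ : Measure α} {f : α → ℝ}
    (hf : Measurable f) (h0 : ∀ a, 0 ≤ f a) (h : ∫⁻ a, ENNReal.ofReal (f a) ∂μ < ⊤) :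
    Integrable f μ :=
  ⟨hf.aestronglyMeasurable, (hasFiniteIntegral_iff_ofReal (ae_of_all _ h0)).mpr h⟩

/-- the relative entropy of a datum is finite -/
theorem relEntropy_datum (h : IsDatum F0) : relEntropy F0 < ⊤ := by
  rw [relEntropy_eq h.measurable]
  have hlog : ∀ v : V, |Real.log (Maxw v)| ≤ 3 * (1 + ‖v‖ ^ 2) := by
    intro v
    rw [log_Maxw]
    have h1 : 0 ≤ Real.log (2 * Real.pi) := Real.log_nonneg (by linarith only [Real.pi_gt_three])
    have h2 : Real.log (2 * Real.pi) ≤ 2 := by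
      have h3 : Real.log (2 * Real.pi) ≤ Real.log (Real.exp 2) := by
        apply Real.log_le_log (by positivity)
        have h4 : (2.7182818283 : ℝ) < Real.exp 1 := Real.exp_one_gt_d9
        have h5 : Real.exp 2 = Real.exp 1 * Real.exp 1 := by
          rw [← Real.exp_add]; norm_num
        rw [h5]
        nlinarith only [h4, Real.pi_lt_d2]
      rwa [Real.log_exp] at h3
    rw [abs_le]
    constructor
    · nlinarith only [h2]
    · nlinarith only [h1]
  have hpt : ∀ (x : T3) (v : V), entD (F0 x v) (Maxw v)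
      ≤ 4 * (F0 x v * (1 + ‖v‖ ^ 2 + |Real.log (F0 x v)|)) + Maxw v := by
    intro x v
    have h0 := h.nonneg x v
    unfold entD
    rcases h0.eq_or_lt with h1 | h1
    · rw [← h1]
      have := (Maxw_pos v).le
      simp only [zero_div, Real.log_zero, mul_zero, sub_self, zero_add, abs_zero, add_zero, zero_mul, Std.le_refl]
    · rw [Real.log_div h1.ne' (Maxw_pos v).ne']
      have h2 := abs_le.mp (hlog v)
      have h3 := le_abs_self (Real.log (F0 x v))
      have h4 : F0 x v * (Real.log (F0 x v) - Real.log (Maxw v))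
          ≤ F0 x v * (|Real.log (F0 x v)| + 3 * (1 + ‖v‖ ^ 2)) := by
        apply mul_le_mul_of_nonneg_left _ h0
        linarith only [h2, h3]
      have h5 : 0 ≤ F0 x v * |Real.log (F0 x v)| := by (clear * - h1; positivity)
      have h6 : 0 ≤ F0 x v * ‖v‖ ^ 2 := by positivity
      linarith
  have hm1 : Measurable fun p : T3 × V => ENNReal.ofReal
      (F0 p.1 p.2 * (1 + ‖p.2‖ ^ 2 + |Real.log (F0 p.1 p.2)|)) := by
    have := h.measurable
    have h2 : Measurable fun p : T3 × V => Real.log (F0 p.1 p.2) := Real.measurable_log.comp this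
    exact (this.mul (((measurable_const.add (measurable_snd.norm.pow_const 2))).add
      (measurable_norm.comp h2))).ennreal_ofReal
  calc ∫⁻ p : T3 × V, ENNReal.ofReal (entD (F0 p.1 p.2) (Maxw p.2))
      ≤ ∫⁻ p : T3 × V, (4 * ENNReal.ofReal
          (F0 p.1 p.2 * (1 + ‖p.2‖ ^ 2 + |Real.log (F0 p.1 p.2)|)) + ENNReal.ofReal (Maxw p.2)) := by
        apply lintegral_mono
        intro p
        have h1 : 0 ≤ F0 p.1 p.2 * (1 + ‖p.2‖ ^ 2 + |Real.log (F0 p.1 p.2)|) := by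
          have := h.nonneg p.1 p.2
          (clear * - this; positivity)
        calc ENNReal.ofReal (entD (F0 p.1 p.2) (Maxw p.2))
            ≤ ENNReal.ofReal (4 * (F0 p.1 p.2 * (1 + ‖p.2‖ ^ 2 + |Real.log (F0 p.1 p.2)|))
              + Maxw p.2) := ENNReal.ofReal_le_ofReal (hpt p.1 p.2)
          _ = 4 * ENNReal.ofReal (F0 p.1 p.2 * (1 + ‖p.2‖ ^ 2 + |Real.log (F0 p.1 p.2)|))
              + ENNReal.ofReal (Maxw p.2) := by
              rw [ENNReal.ofReal_add (by positivity) (Maxw_pos _).le,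
                ENNReal.ofReal_mul (by norm_num)]
              (clear * -; norm_num)
    _ = 4 * (∫⁻ p : T3 × V, ENNReal.ofReal
          (F0 p.1 p.2 * (1 + ‖p.2‖ ^ 2 + |Real.log (F0 p.1 p.2)|)))
          + ∫⁻ p : T3 × V, ENNReal.ofReal (Maxw p.2) := by
        rw [lintegral_add_left (hm1.const_mul 4), lintegral_const_mul 4 hm1]
    _ < ⊤ := by
        apply ENNReal.add_lt_top.mpr
        exact ⟨ENNReal.mul_lt_top (by norm_num) h.finite, lt_top_iff_ne_top.mpr lintegral_Maxw_ne_top⟩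

theorem Lim2.relEntropy_L (h : Lim2 N F0n F C F0 L) {t : ℝ} (ht : 0 ≤ t) :
    relEntropy (L t) ≤ relEntropy F0 := le_trans le_self_add (h.entropy ht)

theorem Lim2.isSol (h : Lim2 N F0n F C F0 L) : IsRenormEntropySol F0 L := by
  obtain ⟨E, hE⟩ : ∃ E : ℝ≥0, relEntropy F0 = E :=
    ⟨(relEntropy F0).toNNReal, (ENNReal.coe_toNNReal (relEntropy_datum h.datum).ne).symm⟩
  have h2 : ∀ T : ℝ, ∀ t ∈ Icc 0 T, wInt psi2 (L t) ≤ C := fun T t ht => h.wInt_le ht.1
  have hd : ∀ T : ℝ, ∫⁻ s in Ioc 0 T, dissipation (L s) < ⊤ := by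
    intro T
    rcases le_or_gt 0 T with hT | hT
    · exact lt_of_le_of_lt (le_trans le_add_self (h.entropy hT)) (relEntropy_datum h.datum)
    · rw [Ioc_eq_empty (by linarith only [hT])]
      simp only [Measure.restrict_empty, lintegral_zero_measure, ENNReal.zero_lt_top]
  have hl : ∀ T : ℝ, ∫⁻ p : ℝ × T3 × V in Icc 0 T ×ˢ univ,
      loss (L p.1 p.2.1) p.2.2 / ENNReal.ofReal (1 + L p.1 p.2.1 p.2.2 / Maxw p.2.2) < ⊤ :=
    fun T => loss_int_of h.mildc.measurable h.mildc.nonneg (h2 T)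
  have hg : ∀ T : ℝ, ∫⁻ p : ℝ × T3 × V in Icc 0 T ×ˢ univ,
      gain (L p.1 p.2.1) p.2.2 / ENNReal.ofReal (1 + L p.1 p.2.1 p.2.2 / Maxw p.2.2) < ⊤ :=
    fun T => gain_int_of h.mildc.measurable h.mildc.nonneg (h2 T) (hd T)
  have i0 : Integrable fun p : T3 × V => F0 p.1 p.2 :=
    s5_integrable_of_lint h.datum.measurable (fun p => h.datum.nonneg p.1 p.2)
      (lintegral_F0_lt_top h.datum)
  have iF : ∀ T, Integrable (fun q : ℝ × T3 × V => L q.1 q.2.1 q.2.2)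
      ((volume.restrict (Ioc 0 T)).prod volume) := by
    intro T
    refine s5_integrable_of_lint h.mildc.measurable
      (fun p => h.mildc.nonneg p.1 p.2.1 p.2.2) ?_
    rw [lintegral_prod _ h.mildc.measurable.ennreal_ofReal.aemeasurable]
    calc ∫⁻ t in Ioc 0 T, ∫⁻ p : T3 × V, ENNReal.ofReal (L t p.1 p.2)
        ≤ ∫⁻ _ in Ioc 0 T, (C : ℝ≥0∞) := by
          apply setLIntegral_mono measurable_const
          intro t ht
          refine le_trans ?_ (h.wInt_le ht.1.le)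
          unfold wInt
          apply lintegral_mono
          intro p
          have h1 : (1 : ℝ≥0∞) ≤ psi2 p.2 := psi0_le_psi2 p.2
          calc ENNReal.ofReal (L t p.1 p.2) = 1 * ENNReal.ofReal (L t p.1 p.2) := (one_mul _).symm
            _ ≤ _ := mul_le_mul' h1 le_rfl
      _ < ⊤ := by
          rw [setLIntegral_const]
          exact ENNReal.mul_lt_top ENNReal.coe_lt_top (by simp only [Real.volume_Ioc, sub_zero, ENNReal.ofReal_lt_top])
  refine ⟨h.datum, h.mildc.measurable, h.mildc.nonneg, fun t ht => h.integrable ht,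
    fun θ mθ bθ => h.weak_cont θ mθ bθ, ?_, ?_, hg, hl, ?_, fun φ hφ => h.massloc hφ,
    fun t ht => h.momentum ht, fun t ht => h.energy ht, fun t ht => h.entropy ht⟩
  · filter_upwards [h.mildc.mild] with p hp
    have := hp 0 le_rfl
    simpa [along, toTorus_zero] using this
  · intro T
    obtain ⟨C', hC'⟩ := bounded_of_relEntropy (E + C)
    refine ⟨C', ENNReal.coe_lt_top, fun t ht => hC' (L t) ?_ (h.mildc.nonneg t) ?_ ?_⟩
    · exact measurable_slice2 h.mildc.measurable t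
    · refine (h.relEntropy_L ht.1).trans ?_
      rw [hE]
      exact_mod_cast le_self_add
    · refine (h.wInt_le ht.1).trans ?_
      exact_mod_cast le_add_self
  · intro β hβ β0 bβ
    exact h.mildc.renorm i0 iF hg hl hβ β0 bβ

theorem s5_ren_nonneg (j : ℕ) {z : ℝ} (hz : 0 ≤ z) : 0 ≤ ren j z := by
  unfold ren
  positivity

theorem s5_ren_le (j : ℕ) {z : ℝ} (hz : 0 ≤ z) : ren j z ≤ z := by
  unfold ren
  apply div_le_self hz
  have : 0 ≤ z / ((j : ℝ) + 1) := by (clear * - hz; positivity)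
  linarith

theorem s5_measurable_ren (j : ℕ) : Measurable (ren j) := by
  unfold ren
  fun_prop

theorem s5_measurable_den' {F : ℝ → T3 → V → ℝ}
    (hF : Measurable fun p : ℝ × T3 × V => F p.1 p.2.1 p.2.2) : Measurable (den F) :=
  hF.div (measurable_Maxw.comp measurable_snd.snd)

theorem s5_den_nonneg' {F : ℝ → T3 → V → ℝ} (hF : ∀ t x v, 0 ≤ F t x v) (q : ℝ × T3 × V) :
    0 ≤ den F q := div_nonneg (hF _ _ _) (Maxw_pos _).le

theorem ASeq.comp (h : ASeq N F0n F C) {φ : ℕ → ℕ} (hφ : Tendsto φ atTop atTop) :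
    ASeq (fun n => N (φ n)) (fun n => F0n (φ n)) (fun n => F (φ n)) C :=
  ⟨h.tend.comp hφ, fun n => h.apx (φ n), fun n => h.ent (φ n), fun n => h.mom (φ n)⟩

/-- extraction of a weakly convergent subsequence -/
theorem ASeq.exists_lim1 (h : ASeq N F0n F C) :
    ∃ φ : ℕ → ℕ, StrictMono φ ∧ ∃ L : ℝ → T3 → V → ℝ,
      Lim1 (fun n => N (φ n)) (fun n => F0n (φ n)) (fun n => F (φ n)) C L := by
  let g : ℕ → ℕ → ℝ × T3 × V → ℝ := fun j n q =>
    if j = 0 then den (F n) q else ren (j - 1) (den (F n) q)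
  have md : ∀ n, Measurable (den (F n)) := fun n => s5_measurable_den' (h.apx n).meas
  have nd : ∀ n q, 0 ≤ den (F n) q := fun n q => s5_den_nonneg' (h.apx n).nonneg q
  have hg : ∀ j n q, 0 ≤ g j n q ∧ g j n q ≤ den (F n) q := by
    intro j n q
    simp only [g]
    split_ifs
    · exact ⟨nd n q, le_rfl⟩
    · exact ⟨s5_ren_nonneg _ (nd n q), s5_ren_le _ (nd n q)⟩
  obtain ⟨φ, hφ, G, mG, G0, iG, hw⟩ := exists_weak_limit PP g (by
      intro j n
      simp only [g]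
      split_ifs
      · exact md n
      · exact (s5_measurable_ren _).comp (md n)) (fun j n q => (hg j n q).1) (by
      intro j
      exact h.ui_den.mono fun n => ae_of_all _ fun q => ENNReal.ofReal_le_ofReal (hg j n q).2)
  refine ⟨φ, hφ, fun t x v => Maxw v * G 0 (t, x, v), ?_⟩
  have hL : den (fun t x v => Maxw v * G 0 (t, x, v)) = G 0 := by
    funext q
    unfold den
    rw [mul_div_cancel_left₀ _ (Maxw_pos _).ne']
  refine ⟨h.comp hφ.tendsto_atTop, ?_, ?_, ?_, ?_, ?_⟩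
  · exact (measurable_Maxw.comp measurable_snd.snd).mul (mG 0)
  · intro t x v
    exact mul_nonneg (Maxw_pos v).le (G0 0 _)
  · rw [hL]
    exact iG 0
  · rw [hL]
    have := hw 0
    simpa [g] using this
  · intro j
    refine ⟨G (j + 1), mG _, iG _, ?_⟩
    have := hw (j + 1)
    simpa [g] using this

theorem Lim1.congr (h : Lim1 N F0n F C L) {L' : ℝ → T3 → V → ℝ}
    (m : Measurable fun p : ℝ × T3 × V => L' p.1 p.2.1 p.2.2) (n : ∀ t x v, 0 ≤ L' t x v)
    (he : ∀ᵐ q ∂PP, den L' q = den L q) : Lim1 N F0n F C L' := by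
  have he' : ∀ᵐ q ∂PP, den L q = den L' q := he.mono fun q hq => hq.symm
  exact ⟨h.toASeq, m, n, h.int.congr he', h.wden.congr (fun n => ae_of_all _ fun q => rfl) he',
    h.wren⟩

theorem s5_wInt_le {f g : T3 → V → ℝ}
    (mg : Measurable fun p : T3 × V => g p.1 p.2) :
    wInt psi2 f ≤ wInt psi2 g + wDist psi2 f g := by
  unfold wInt wDist
  have mm : Measurable fun p : T3 × V => psi2 p.2 * ENNReal.ofReal (g p.1 p.2) :=
    (measurable_psi2.comp measurable_snd).mul mg.ennreal_ofReal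
  rw [← lintegral_add_left mm]
  apply lintegral_mono
  intro p
  simp only
  rw [← mul_add]
  gcongr
  rcases le_or_gt 0 (g p.1 p.2) with h0 | h0
  · rw [← ENNReal.ofReal_add h0 (abs_nonneg _)]
    apply ENNReal.ofReal_le_ofReal
    have := le_abs_self (f p.1 p.2 - g p.1 p.2)
    linarith
  · refine le_trans (ENNReal.ofReal_le_ofReal ?_) le_add_self
    have := le_abs_self (f p.1 p.2 - g p.1 p.2)
    linarith only [h0, this]

theorem s5_wDist_le (f g : T3 → V → ℝ) : wDist psi0 f g ≤ wDist psi2 f g := by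
  unfold wDist
  apply lintegral_mono
  intro p
  simp only
  gcongr
  unfold psi0 psi2
  rw [← ENNReal.ofReal_one]
  apply ENNReal.ofReal_le_ofReal
  have : 0 ≤ ‖p.2‖ ^ 2 := by positivity
  linarith

/-- MAIN THEOREM: stability and existence of renormalized entropy solutions -/
theorem stability {N : ℕ → ℕ} (hN : Tendsto N atTop atTop) {F0 : T3 → V → ℝ} (hF0 : IsDatum F0)
    {F0n : ℕ → T3 → V → ℝ} {F : ℕ → ℝ → T3 → V → ℝ} (hF : ∀ n, IsApprox (N n) (F0n n) (F n))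
    (conv0 : Tendsto (fun n => wDist psi2 (F0n n) F0) atTop (𝓝 0))
    (ent0 : ∀ ε : ℝ≥0∞, 0 < ε → ∀ᶠ n in atTop, relEntropy (F0n n) ≤ relEntropy F0 + ε) :
    ∃ φ : ℕ → ℕ, StrictMono φ ∧ ∃ L : ℝ → T3 → V → ℝ, IsRenormEntropySol F0 L ∧
      ∀ t, 0 ≤ t → ∀ θ : T3 × V → ℝ, Measurable θ → (∃ B, ∀ p, |θ p| ≤ B) →
        Tendsto (fun n => ∫ p : T3 × V, F (φ n) t p.1 p.2 * θ p) atTop
          (𝓝 (∫ p : T3 × V, L t p.1 p.2 * θ p)) := by
  have hE0 := relEntropy_datum hF0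
  have hW0 := wInt2_datum hF0
  obtain ⟨C, hC1, hC2⟩ : ∃ C : ℝ≥0, relEntropy F0 + 1 ≤ C ∧ wInt psi2 F0 + 1 ≤ C := by
    refine ⟨(relEntropy F0 + 1).toNNReal ⊔ (wInt psi2 F0 + 1).toNNReal, ?_, ?_⟩
    · rw [ENNReal.coe_max, ENNReal.coe_toNNReal (ENNReal.add_lt_top.2 ⟨hE0, by simp⟩).ne]
      exact le_max_left _ _
    · rw [ENNReal.coe_max, ENNReal.coe_toNNReal
        (a := wInt psi2 F0 + 1) (ENNReal.add_lt_top.2 ⟨hW0, by simp⟩).ne]
      exact le_max_right _ _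
  have e1 : ∀ᶠ n in atTop, relEntropy (F0n n) ≤ C :=
    (ent0 1 one_pos).mono fun n hn => hn.trans hC1
  have e2 : ∀ᶠ n in atTop, wInt psi2 (F0n n) ≤ C := by
    have h1 : ∀ᶠ n in atTop, wDist psi2 (F0n n) F0 ≤ 1 :=
      conv0.eventually (eventually_le_nhds one_pos)
    filter_upwards [h1] with n hn
    calc wInt psi2 (F0n n) ≤ wInt psi2 F0 + wDist psi2 (F0n n) F0 :=
          s5_wInt_le hF0.measurable
      _ ≤ wInt psi2 F0 + 1 := by (clear * - hn; gcongr)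
      _ ≤ C := hC2
  obtain ⟨n0, hn0⟩ := eventually_atTop.1 (e1.and e2)
  have hA : ASeq (fun n => N (n + n0)) (fun n => F0n (n + n0)) (fun n => F (n + n0)) C :=
    ⟨hN.comp (tendsto_add_atTop_nat n0), fun n => hF _, fun n => (hn0 _ (by omega)).1,
      fun n => (hn0 _ (by omega)).2⟩
  obtain ⟨φ, hφ, L, hL⟩ := hA.exists_lim1
  have hsub : Tendsto (fun n => φ n + n0) atTop atTop :=
    (tendsto_add_atTop_nat n0).comp hφ.tendsto_atTop
  have c0 : SConv muM (fun n => den0 (F0n (φ n + n0))) (den0 F0) := by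
    unfold SConv
    have h1 : ∀ n, ∫⁻ a, ENNReal.ofReal |den0 (F0n (φ n + n0)) a - den0 F0 a| ∂muM
        = wDist psi0 (F0n (φ n + n0)) F0 := fun n =>
      lintegral_den0_sub (hF _).datum.measurable hF0.measurable
    simp only [h1]
    exact tendsto_of_tendsto_of_tendsto_of_le_of_le tendsto_const_nhds (conv0.comp hsub)
      (fun _ => zero_le) (fun n => s5_wDist_le _ _)
  have i0 : Integrable fun p : T3 × V => F0 p.1 p.2 :=
    s5_integrable_of_lint hF0.measurable (fun p => hF0.nonneg _ _) (lintegral_F0_lt_top hF0)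
  obtain ⟨L', hmild, hae⟩ := hL.exists_mildC hF0.measurable hF0.nonneg
    ((integrable_den0 hF0.measurable).2 i0) c0
  have hL1 : Lim1 (fun n => N (φ n + n0)) (fun n => F0n (φ n + n0)) (fun n => F (φ n + n0)) C
      L' := hL.congr hmild.measurable hmild.nonneg hae
  have hL2 : Lim2 (fun n => N (φ n + n0)) (fun n => F0n (φ n + n0)) (fun n => F (φ n + n0)) C
      F0 L' :=
    { toLim1 := hL1
      mildc := hmild
      datum := hF0
      conv0 := conv0.comp hsub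
      ent0 := fun ε hε => hsub.eventually (ent0 ε hε) }
  refine ⟨fun n => φ n + n0, fun a b hab => Nat.add_lt_add_right (hφ hab) n0, L', hL2.isSol, ?_⟩
  intro t ht θ mθ ⟨B, hB⟩
  have h1 := (hL2.wtime ht).test mθ hB
  simp only [integral_den0] at h1
  exact h1

end Vale.Agent.P140.DL
end
end

section

/-!
P140, non-uniqueness: the ignition theorem.
-/

open MeasureTheory Set Filter
open scoped ENNReal Topology

noncomputable section

namespace Vale.Agent.P140.NU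

theorem Par.w_pos {P : Par} (h : 1 ≤ P.c) : 0 < P.w := by
  unfold Par.w
  positivity

theorem Par.ss_pos {P : Par} (h : 1 ≤ P.c) (hl : 0 < P.lam) (n : ℕ) : 0 < P.ss n := by
  unfold Par.ss
  have := Par.w_pos h
  positivity

theorem Par.TT_pos {P : Par} (h : 1 ≤ P.c) (hl : 0 < P.lam) (n : ℕ) {t : ℝ} (ht : 0 ≤ t) :
    0 < P.TT n t := by
  have := Par.ss_pos h hl n
  unfold Par.TT
  linarith

theorem Par.ss_tendsto {P : Par} (h : 1 ≤ P.c) (hl : 0 < P.lam) (hl1 : P.lam < 1) :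
    Tendsto P.ss atTop (𝓝 0) := by
  have h1 : Tendsto (fun n : ℕ => P.lam ^ (n + 1)) atTop (𝓝 0) :=
    (tendsto_pow_atTop_nhds_zero_of_lt_one hl.le hl1).comp (tendsto_add_atTop_nat 1)
  have h2 := h1.div_const P.w
  rw [zero_div] at h2
  exact h2

/-- intermediate value theorem for a supremum -/
theorem exists_sup_eq {t0 : ℝ} (ht0 : 0 ≤ t0) {m : ℝ → ℝ → ℝ} {C : ℝ} (hC : 0 ≤ C)
    (hb : ∀ κ ∈ Icc (0 : ℝ) 1, ∀ t ∈ Icc 0 t0, |m κ t| ≤ C)
    (hl : ∀ κ ∈ Icc (0 : ℝ) 1, ∀ κ' ∈ Icc (0 : ℝ) 1, ∀ t ∈ Icc 0 t0,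
      |m κ t - m κ' t| ≤ C * |κ - κ'|) {ε : ℝ} (h0 : ∀ t ∈ Icc 0 t0, m 0 t ≤ ε)
    (h1 : ∃ t ∈ Icc 0 t0, ε ≤ m 1 t) :
    ∃ κ ∈ Icc (0 : ℝ) 1, (∀ t ∈ Icc 0 t0, m κ t ≤ ε) ∧
      ∀ δ < ε, ∃ t ∈ Icc 0 t0, δ < m κ t := by
  have : Nonempty (Icc 0 t0) := ⟨⟨0, by simp only [mem_Icc, Std.le_refl, ht0, and_self]⟩⟩
  let M : ℝ → ℝ := fun κ => ⨆ t : Icc 0 t0, m κ t
  have hbdd : ∀ κ ∈ Icc (0 : ℝ) 1, BddAbove (range fun t : Icc 0 t0 => m κ t) := by
    intro κ hκ
    refine ⟨C, ?_⟩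
    rintro _ ⟨t, rfl⟩
    exact (le_abs_self _).trans (hb κ hκ t t.2)
  have hle : ∀ κ ∈ Icc (0 : ℝ) 1, ∀ κ' ∈ Icc (0 : ℝ) 1, M κ ≤ M κ' + C * |κ - κ'| := by
    intro κ hκ κ' hκ'
    apply ciSup_le
    intro t
    have h2 := (abs_le.mp (hl κ hκ κ' hκ' t t.2)).2
    have h3 := le_ciSup (hbdd κ' hκ') t
    simp only [M]
    linarith
  have hcont : ContinuousOn M (Icc 0 1) := by
    rw [Metric.continuousOn_iff]
    intro κ hκ δ hδ
    refine ⟨δ / (C + 1), by (clear * - hδ hC; positivity), fun κ' hκ' hd => ?_⟩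
    rw [Real.dist_eq] at hd ⊢
    have h2 := hle κ' hκ' κ hκ
    have h3 := hle κ hκ κ' hκ'
    rw [abs_sub_comm κ κ'] at h3
    have h4 : C * |κ' - κ| < δ := by
      have h5 : |κ' - κ| * (C + 1) < δ := (lt_div_iff₀ (by positivity)).mp hd
      linarith only [abs_nonneg (κ' - κ), h5]
    rw [abs_lt]
    constructor <;> linarith only [h2, h4, h3]
  have hM0 : M 0 ≤ ε := ciSup_le fun t => h0 t t.2
  have hM1 : ε ≤ M 1 := by
    obtain ⟨t, ht, hle⟩ := h1
    exact hle.trans (le_ciSup (hbdd 1 (by simp only [mem_Icc, zero_le_one, Std.le_refl, and_self])) ⟨t, ht⟩)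
  obtain ⟨κ, hκ, hκε⟩ := intermediate_value_Icc (zero_le_one) hcont ⟨hM0, hM1⟩
  refine ⟨κ, hκ, fun t ht => ?_, fun δ hδ => ?_⟩
  · rw [← hκε]
    exact le_ciSup (hbdd κ hκ) ⟨t, ht⟩
  · rw [← hκε] at hδ
    obtain ⟨t, ht⟩ := exists_lt_of_lt_ciSup hδ
    exact ⟨t, t.2, ht⟩

theorem ignition : EvP fun P => ∃ m0 ε : ℝ, 0 < m0 ∧ 0 < ε ∧ ∀ᶠ t0 in 𝓝[>] (0 : ℝ),
    ∀ᶠ n in atTop, ∀ᶠ N in atTop,
    (∃ κ ∈ Icc (0 : ℝ) 1, ∀ F, DL.IsBM N (dat P n κ) F →
      ε * t0 ≤ ∫ p : T3 × V, F t0 p.1 p.2 * Theta P t0 m0 p) ∧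
    (∀ F, DL.IsBM N (dat P n 0) F →
      ∫ p : T3 × V, F t0 p.1 p.2 * Theta P t0 m0 p ≤ ε / 2 * t0) := by
  have hLam : EvP fun P => 2 ≤ P.Lam := by
    have : Tendsto (fun c : ℝ => c / (100 * (400 * √c))) atTop atTop := by
      have h1 : Tendsto (fun c : ℝ => √c / 40000) atTop atTop :=
        (Real.tendsto_sqrt_atTop).atTop_div_const (by norm_num)
      refine h1.congr' ?_
      filter_upwards [eventually_gt_atTop 0] with c hc
      have h2 : √c ≠ 0 := (Real.sqrt_pos.mpr hc).ne'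
      field_simp
      rw [Real.sq_sqrt hc.le]
      ring
    have h3 := EvP.of_c (this.eventually_ge_atTop 2)
    exact h3
  refine (EvP.basic.and (exists_split.and (boot.and (noise_small.and (MP_lip.and
    (MP_seed.and (MP_le_Theta.and (dat_bdd.and hLam)))))))).mono ?_
  rintro P ⟨⟨hc, hl2, hl1, -, -, -, -⟩, hsplit, hboot, hnoise, hlip, hseed, hTheta, hdb, hLam⟩
  have hl0 : 0 < P.lam := by linarith only [hl2]
  obtain ⟨CB, hCB, hsplit⟩ := hsplit
  obtain ⟨m0, ε0, hm0, hm01, hε0, hboot⟩ := hboot CB hCB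
  obtain ⟨c1, hc1, hseed⟩ := hseed
  set ε : ℝ := min ε0 c1 with hε
  have hεpos : 0 < ε := lt_min hε0 hc1
  refine ⟨m0, ε / 4, hm0, by (clear * - hε0 hc1; positivity), ?_⟩
  filter_upwards [hsplit, hboot ε ⟨hεpos, min_le_left _ _⟩,
    hnoise CB m0 (ε / 8) hCB hm0 (by positivity), hlip m0, hseed m0 hm01, hTheta m0,
    self_mem_nhdsWithin] with t0 hsplit hboot hnoise hlip hseed hTheta ht0
  have ht0 : 0 < t0 := ht0
  filter_upwards [hboot, eventually_ge_atTop P.j0,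
    (Par.ss_tendsto hc hl0 hl1).eventually (eventually_le_nhds ht0)] with n hboot hj hss
  filter_upwards [hboot, eventually_ge_atTop 3] with N hboot hN
  have hT : ∀ t ∈ Icc 0 t0, 0 < P.TT n t := fun t ht => Par.TT_pos hc hl0 n ht.1
  have hTle : ∀ t ∈ Icc 0 t0, P.ss n ≤ P.TT n t := fun t ht => by
    unfold Par.TT; linarith only [ht.1]
  have hsspos := Par.ss_pos hc hl0 n
  -- solutions
  have hex : ∀ κ : Icc (0 : ℝ) 1, ∃ F, DL.IsBM N (dat P n κ) F := by
    intro κ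
    obtain ⟨C, hC⟩ := hdb n
    exact DL.exists_isBM N (dat_meas P n κ) (fun x v => (hC _ κ.2 x v).1)
      (fun x v _ => (hC _ κ.2 x v).2.1)
  choose F hF using hex
  -- the part without seed
  have hzero : ∀ F, DL.IsBM N (dat P n 0) F →
      (∀ t ∈ Icc 0 t0, MP P n (2 * t0) m0 F t ≤ ε / 8 * P.TT n t) ∧
      ∫ p : T3 × V, F t0 p.1 p.2 * Theta P t0 m0 p ≤ ε / 8 * t0 := by
    intro F hF
    obtain ⟨G, h, hs⟩ := hsplit n hj N hN 0 (by simp only [mem_Icc, Std.le_refl, zero_le_one, and_self]) F hF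
    have h0 := hs.hot_eq_zero
    have hFG : ∀ t, 0 ≤ t → ∀ x v, F t x v = G t x v := by
      intro t ht x v
      rw [hs.eq, h0 t ht, add_zero]
    obtain ⟨h1, h2⟩ := hnoise n hj hss G hs.measG hs.nonnegG hs.up
    constructor
    · intro t ht
      refine le_trans (le_of_eq ?_) (h1 t ht)
      unfold MP
      congr 1
      funext p
      rw [hFG t ht.1]
    · refine le_trans (le_of_eq ?_) h2
      congr 1
      funext p
      rw [hFG t0 ht0.le]
  refine ⟨?_, fun F hF => (hzero F hF).2.trans (by linarith only [])⟩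
  -- choice of the amplitude
  obtain ⟨C, hC, hlipC⟩ := hlip n hj hss N
  let m : ℝ → ℝ → ℝ := fun κ t =>
    if hκ : κ ∈ Icc (0 : ℝ) 1 then MP P n (2 * t0) m0 (F ⟨κ, hκ⟩) t / P.TT n t else 0
  have hm : ∀ κ (hκ : κ ∈ Icc (0 : ℝ) 1) t, m κ t = MP P n (2 * t0) m0 (F ⟨κ, hκ⟩) t / P.TT n t :=
    fun κ hκ t => by simp only [m, dif_pos hκ]
  obtain ⟨κ, hκ, hκ1, hκ2⟩ : ∃ κ ∈ Icc (0 : ℝ) 1, (∀ t ∈ Icc 0 t0, m κ t ≤ ε) ∧
      ∀ δ < ε, ∃ t ∈ Icc 0 t0, δ < m κ t := by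
    refine exists_sup_eq ht0.le (C := C / P.ss n) (by (clear * - hC hsspos; positivity)) ?_ ?_ ?_ ?_
    · intro κ hκ t ht
      rw [hm κ hκ, abs_div, abs_of_pos (hT t ht)]
      exact div_le_div₀ hC (hlipC κ hκ κ hκ _ _ (hF ⟨κ, hκ⟩) (hF ⟨κ, hκ⟩) t ht).1 hsspos (hTle t ht)
    · intro κ hκ κ' hκ' t ht
      rw [hm κ hκ, hm κ' hκ', ← sub_div, abs_div, abs_of_pos (hT t ht), div_mul_eq_mul_div]
      exact div_le_div₀ (by (clear * - hC; positivity))
        (hlipC κ hκ κ' hκ' _ _ (hF ⟨κ, hκ⟩) (hF ⟨κ', hκ'⟩) t ht).2 hsspos (hTle t ht)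
    · intro t ht
      rw [hm 0 (by simp only [mem_Icc, Std.le_refl, zero_le_one, and_self]), div_le_iff₀ (hT t ht)]
      refine ((hzero _ (hF ⟨0, by simp only [mem_Icc, Std.le_refl, zero_le_one, and_self]⟩)).1 t ht).trans ?_
      nlinarith only [hεpos, hT t ht]
    · refine ⟨0, by simp only [mem_Icc, Std.le_refl, ht0.le, and_self], ?_⟩
      rw [hm 1 (by simp only [mem_Icc, zero_le_one, Std.le_refl, and_self]), le_div_iff₀ (hT 0 (by simp only [mem_Icc, Std.le_refl, ht0.le, and_self]))]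
      refine le_trans ?_ (hseed n hj hss N hN _ (hF ⟨1, by simp only [mem_Icc, zero_le_one, Std.le_refl, and_self]⟩))
      have : ε ≤ c1 := min_le_right _ _
      linarith only [mul_nonneg (sub_nonneg.2 this) (le_of_lt (sub_pos.2 (hT 0 (by simp [ht0.le]))))]
  refine ⟨κ, hκ, fun F' hF' => ?_⟩
  have hFF' : ∀ t, 0 ≤ t → ∀ x v, F' t x v = F ⟨κ, hκ⟩ t x v := fun t ht x v =>
    hF'.unique (hF ⟨κ, hκ⟩) ht x v
  have hint : ∫ p : T3 × V, F' t0 p.1 p.2 * Theta P t0 m0 p =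
      ∫ p : T3 × V, F ⟨κ, hκ⟩ t0 p.1 p.2 * Theta P t0 m0 p := by
    congr 1
    funext p
    rw [hFF' t0 ht0.le]
  rw [hint]
  clear hint hFF' hF' F'
  have hκ0 : 0 < κ := by
    rcases hκ.1.eq_or_lt with h | h
    · exfalso
      subst h
      obtain ⟨t, ht, hlt⟩ := hκ2 (ε / 4) (by linarith only [hεpos])
      rw [hm 0 hκ, lt_div_iff₀ (hT t ht)] at hlt
      have := (hzero _ (hF ⟨0, hκ⟩)).1 t ht
      nlinarith only [this, hlt, hεpos, hT, ht, hT t ht]
    · exact h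
  obtain ⟨G, h, hs⟩ := hsplit n hj N hN κ hκ (F ⟨κ, hκ⟩) (hF ⟨κ, hκ⟩)
  obtain ⟨hT1, hT2, hT3, hT4⟩ := hTheta n hj hss CB κ N hN _ G h hs
  have hMPle : ∀ τ ∈ Icc 0 t0, MP P n (2 * t0) m0 h τ ≤ ε * P.TT n τ := by
    intro τ hτ
    refine (hT1 τ hτ).trans ?_
    have := hκ1 τ hτ
    rwa [hm κ hκ, div_le_iff₀ (hT τ hτ)] at this
  obtain ⟨hgrow, hNN⟩ := hboot κ ⟨hκ0, hκ.2⟩ _ G h hs hMPle
  obtain ⟨t', ht', hlt⟩ := hκ2 (3 / 4 * ε) (by linarith only [hεpos])
  rw [hm κ hκ, lt_div_iff₀ (hT t' ht')] at hlt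
  have hMPG := (hnoise n hj hss G hs.measG hs.nonnegG hs.up).1 t' ht'
  have hMPh : ε / 2 * P.TT n t' ≤ MP P n (2 * t0) m0 h t' := by
    have := hT2 t' ht'
    linarith only [mul_pos (sub_pos.2 hεpos) (sub_pos.2 (hT t' ht')), hlt, this, hMPG]
  have hNNt' : ε / 2 * P.TT n t' ≤ NN P n (2 * t0) h t' := hMPh.trans (hT3 t' ht')
  have hg := hgrow t' ht' t0 ⟨ht'.2, le_rfl⟩
  have hratio : 1 ≤ P.TT n t0 / P.TT n t' := by
    rw [one_le_div (hT t' ht')]
    unfold Par.TT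
    linarith only [ht'.2]
  have hpow : P.TT n t0 / P.TT n t' ≤ (P.TT n t0 / P.TT n t') ^ (P.Lam - 1) := by
    conv_lhs => rw [← Real.rpow_one (P.TT n t0 / P.TT n t')]
    exact Real.rpow_le_rpow_of_exponent_le hratio (by linarith only [hLam])
  have hNN0 : ε / 2 * P.TT n t0 ≤ NN P n (2 * t0) h t0 := by
    refine le_trans ?_ hg
    calc ε / 2 * P.TT n t0 = (ε / 2 * P.TT n t') * (P.TT n t0 / P.TT n t') := by
          (clear * - hT ht' hεpos; field_simp [(hT t' ht').ne'])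
      _ ≤ NN P n (2 * t0) h t' * (P.TT n t0 / P.TT n t') ^ (P.Lam - 1) := by
          apply mul_le_mul hNNt' hpow (by (clear * - hratio; positivity))
          exact (hNN t' ht').1.le
  have h5 := (hNN t0 ⟨ht0.le, le_rfl⟩).2
  have h6 : t0 ≤ P.TT n t0 := by unfold Par.TT; linarith only [hsspos]
  refine le_trans ?_ hT4
  linarith only [mul_nonneg (le_of_lt (sub_pos.2 hεpos)) (sub_nonneg.2 h6), h5, hNN0]

end Vale.Agent.P140.NU
end
end

section

/-!
P140, non-uniqueness: final assembly.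
-/

open MeasureTheory Set Filter
open scoped ENNReal Topology

noncomputable section

namespace Vale.Agent.P140.NU

/-- sequential smallness implies uniform smallness -/
theorem unif_of_seq {I : ℕ → ℝ → ℝ≥0∞} {l : ℝ≥0∞}
    (h : ∀ κ : ℕ → ℝ, (∀ n, κ n ∈ Icc (0 : ℝ) 1) → Tendsto (fun n => I n (κ n)) atTop (𝓝 l))
    {b : ℝ≥0∞} (hb : l < b) : ∀ᶠ n in atTop, ∀ κ ∈ Icc (0 : ℝ) 1, I n κ < b := by
  classical
  by_contra hc
  let κ : ℕ → ℝ := fun n => if hn : ∃ κ ∈ Icc (0 : ℝ) 1, b ≤ I n κ then hn.choose else 0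
  have hκ : ∀ n, κ n ∈ Icc (0 : ℝ) 1 := by
    intro n
    simp only [κ]
    split_ifs with hn
    · exact hn.choose_spec.1
    · simp only [mem_Icc, Std.le_refl, zero_le_one, and_self]
  have h1 := (h κ hκ).eventually (eventually_lt_nhds hb)
  apply hc
  filter_upwards [h1] with n hn κ' hκ'
  by_contra hlt
  have hex : ∃ κ ∈ Icc (0 : ℝ) 1, b ≤ I n κ := ⟨κ', hκ', not_lt.mp hlt⟩
  have h2 : κ n = hex.choose := by
    simp only [κ]
    rw [dif_pos hex]
  rw [h2] at hn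
  exact absurd hn (not_lt.mpr hex.choose_spec.2)

/-- two sequences of indices -/
theorem exists_seq {p : ℕ → ℕ → Prop} (h : ∀ᶠ n in atTop, ∀ᶠ N in atTop, p n N) :
    ∃ a b : ℕ → ℕ, Tendsto a atTop atTop ∧ Tendsto b atTop atTop ∧ ∀ k, p (a k) (b k) := by
  have h1 : ∀ k : ℕ, ∃ n, k ≤ n ∧ ∀ᶠ N in atTop, p n N := fun k =>
    ((eventually_ge_atTop k).and h).exists
  choose a ha ha' using h1
  have h2 : ∀ k : ℕ, ∃ N, k ≤ N ∧ p (a k) N := fun k =>
    ((eventually_ge_atTop k).and (ha' k)).exists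
  choose b hb hb' using h2
  exact ⟨a, b, tendsto_atTop_mono ha tendsto_id, tendsto_atTop_mono hb tendsto_id, hb'⟩

/-- THE RESULT: two different renormalized entropy solutions with the same datum -/
theorem nonunique : ∃ (F0 : T3 → V → ℝ) (F G : ℝ → T3 → V → ℝ), IsRenormEntropySol F0 F ∧
    IsRenormEntropySol F0 G ∧ ∃ t : ℝ, 0 ≤ t ∧ ¬ ∀ᵐ p : T3 × V, F t p.1 p.2 = G t p.1 p.2 := by
  obtain ⟨P, hig, hd, ht, he, hb, hdn⟩ :=
    (ignition.and (coldInf_datum.and (dat_tendsto.and (dat_entropy.and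
      (dat_bdd.and dat_datum))))).exists
  obtain ⟨m0, ε, hm0, hε, hig⟩ := hig
  obtain ⟨t0, hig, ht0⟩ := (hig.and self_mem_nhdsWithin).exists
  have ht0 : 0 < t0 := ht0
  obtain ⟨a, b, ha, hb', hab⟩ := exists_seq hig
  -- the two families of data
  have hκ : ∀ k, ∃ κ ∈ Icc (0 : ℝ) 1, ∀ F, DL.IsBM (b k) (dat P (a k) κ) F →
      ε * t0 ≤ ∫ p : T3 × V, F t0 p.1 p.2 * Theta P t0 m0 p := fun k => (hab k).1
  choose κ hκ1 hκ2 using hκ
  have key : ∀ κ : ℕ → ℝ, (∀ k, κ k ∈ Icc (0 : ℝ) 1) → ∃ (F : ℕ → ℝ → T3 → V → ℝ),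
      (∀ k, DL.IsBM (b k) (dat P (a k) (κ k)) (F k)) ∧
      ∃ φ : ℕ → ℕ, StrictMono φ ∧ ∃ L : ℝ → T3 → V → ℝ, IsRenormEntropySol (coldInf P) L ∧
      Tendsto (fun k => ∫ p : T3 × V, F (φ k) t0 p.1 p.2 * Theta P t0 m0 p) atTop
          (𝓝 (∫ p : T3 × V, L t0 p.1 p.2 * Theta P t0 m0 p)) := by
    intro κ hκ
    have hex : ∀ k, ∃ F, DL.IsBM (b k) (dat P (a k) (κ k)) F := by
      intro k
      obtain ⟨C, hC⟩ := hb (a k)
      exact DL.exists_isBM (b k) (dat_meas P (a k) (κ k)) (fun x v => (hC _ (hκ k) x v).1)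
        (fun x v _ => (hC _ (hκ k) x v).2.1)
    choose F hF using hex
    refine ⟨F, hF, ?_⟩
    -- extend the sequence of amplitudes to all `n`
    have hconv : Tendsto (fun k => wDist psi2 (dat P (a k) (κ k)) (coldInf P)) atTop (𝓝 0) := by
      rw [ENNReal.tendsto_nhds_zero]
      intro δ hδ
      have h1 := ha.eventually (unif_of_seq (I := fun n κ => ∫⁻ p : T3 × V, ENNReal.ofReal
        ((1 + ‖p.2‖ ^ 2) * |dat P n κ p.1 p.2 - coldInf P p.1 p.2|)) ht hδ)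
      filter_upwards [h1] with k hk
      refine le_trans (le_of_eq ?_) (hk (κ k) (hκ k)).le
      unfold wDist psi2
      congr 1
      funext p
      rw [← ENNReal.ofReal_mul (by (clear * -; positivity))]
    have hent : ∀ δ : ℝ≥0∞, 0 < δ → ∀ᶠ k in atTop,
        relEntropy (dat P (a k) (κ k)) ≤ relEntropy (coldInf P) + δ := by
      intro δ hδ
      have hfin : relEntropy (coldInf P) ≠ ⊤ := (DL.relEntropy_datum hd).ne
      have h1 := ha.eventually (unif_of_seq (I := fun n κ => relEntropy (dat P n κ)) he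
        (ENNReal.lt_add_right hfin hδ.ne'))
      filter_upwards [h1] with k hk
      exact (hk (κ k) (hκ k)).le
    obtain ⟨φ, hφ, L, hL, hlim⟩ := DL.stability hb' hd
      (fun k => (hF k).isApprox (hdn (a k) (κ k) (hκ k))) hconv hent
    refine ⟨φ, hφ, L, hL, hlim t0 ht0.le _ (measurable_Theta P t0 m0) ⟨1, fun p => ?_⟩⟩
    unfold Theta
    split_ifs <;> simp
  obtain ⟨F1, hF1, φ1, hφ1, L1, hL1, hlim1⟩ := key κ hκ1
  obtain ⟨F2, hF2, φ2, hφ2, L2, hL2, hlim2⟩ := key (fun _ => 0) (fun _ => by simp only [mem_Icc, Std.le_refl, zero_le_one, and_self])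
  refine ⟨coldInf P, L1, L2, hL1, hL2, t0, ht0.le, fun hae => ?_⟩
  have h1 : ε * t0 ≤ ∫ p : T3 × V, L1 t0 p.1 p.2 * Theta P t0 m0 p :=
    ge_of_tendsto' hlim1 fun k => hκ2 (φ1 k) _ (hF1 (φ1 k))
  have h2 : ∫ p : T3 × V, L2 t0 p.1 p.2 * Theta P t0 m0 p ≤ ε / 2 * t0 :=
    le_of_tendsto' hlim2 fun k => (hab (φ2 k)).2 _ (hF2 (φ2 k))
  have h3 : ∫ p : T3 × V, L1 t0 p.1 p.2 * Theta P t0 m0 p =
      ∫ p : T3 × V, L2 t0 p.1 p.2 * Theta P t0 m0 p := by
    apply integral_congr_ae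
    filter_upwards [hae] with p hp
    rw [hp]
  linarith only [mul_pos (sub_pos.2 hε) (sub_pos.2 ht0), h3, h2, h1]

end Vale.Agent.P140.NU
end
end

section

open MeasureTheory Set Filter
open scoped ENNReal Topology

noncomputable section

namespace Vale.Agent.P140.NU

/-- solutions which agree almost everywhere in time and phase space agree at every time -/
theorem eq_of_ae_st {F0 : T3 → V → ℝ} {F G : ℝ → T3 → V → ℝ} (hF : IsRenormEntropySol F0 F)
    (hG : IsRenormEntropySol F0 G)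
    (h : ∀ᵐ q : ℝ × T3 × V, 0 ≤ q.1 → F q.1 q.2.1 q.2.2 = G q.1 q.2.1 q.2.2) {t : ℝ}
    (ht : 0 ≤ t) : ∀ᵐ p : T3 × V, F t p.1 p.2 = G t p.1 p.2 := by
  have h1 : ∀ᵐ s : ℝ, ∀ᵐ p : T3 × V, 0 ≤ s → F s p.1 p.2 = G s p.1 p.2 :=
    (Measure.ae_ae_of_ae_prod h :)
  refine eq_of_ae_eq hF hG (T := t + 1) ?_ ht (by linarith)
  rw [ae_restrict_iff' measurableSet_Ioc]
  filter_upwards [h1] with s hs hst
  unfold wDist
  have h2 : ∀ᵐ p : T3 × V, psi2 p.2 * ENNReal.ofReal |F s p.1 p.2 - G s p.1 p.2| = 0 := by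
    filter_upwards [hs] with p hp
    rw [hp hst.1.le]
    simp only [sub_self, abs_zero, ENNReal.ofReal_zero, mul_zero]
  rw [lintegral_congr_ae h2]
  simp only [lintegral_const, zero_mul]

/-- some datum has two different renormalized entropy solutions -/
theorem disproof {π : V → T3} (hπ : ∀ x i, π x i = (x i : UnitAddCircle)) :
    ∃ (F0 : T3 × V → ℝ) (F G : ℝ → T3 × V → ℝ), Stt.IsSol π F0 F ∧ Stt.IsSol π F0 G ∧
      (∃ t : ℝ, 0 ≤ t ∧ ¬ F t =ᵐ[volume] G t) ∧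
      ¬ ∀ᵐ q : ℝ × T3 × V, 0 ≤ q.1 → F q.1 q.2 = G q.1 q.2 := by
  obtain ⟨F0, F, G, hF, hG, t, ht, hne⟩ := nonunique
  refine ⟨fun p => F0 p.1 p.2, fun t p => F t p.1 p.2, fun t p => G t p.1 p.2,
    stt_of_sol hπ hF, stt_of_sol hπ hG, ⟨t, ht, fun h => hne h⟩, fun h => hne ?_⟩
  exact eq_of_ae_st hF hG h ht

end Vale.Agent.P140.NU
end
end
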